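import Crest.Agent.R069.Loeb

/-!
# Internal functions on the ultrapower: standard part, measurability, integral (row 69)
-/

set_option autoImplicit false

open MeasureTheory Filter Set
open scoped ENNReal Topology

namespace Crest.Agent.R069

section st

variable {α : Type*} {E : Type*}

/-- Standard part (limit along the ultrafilter) of an internal function. -/
noncomputable def st [TopologicalSpace E] [Nonempty E] (f : ℕ → α → E) : Lb α → E :=
  fun x => ulim (fun k => f k (x k))

/-- The internal function has a standard part everywhere. -/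
def StOK [TopologicalSpace E] [Nonempty E] (f : ℕ → α → E) : Prop :=
  ∀ x : Lb α, Tendsto (fun k => f k (x k)) (UU : Filter ℕ) (𝓝 (st f x))


theorem stOK_of_exists [TopologicalSpace E] [T2Space E] [Nonempty E] {f : ℕ → α → E}
    (h : ∀ x : Lb α, ∃ e, Tendsto (fun k => f k (x k)) (UU : Filter ℕ) (𝓝 e)) : StOK f := by
  intro x
  obtain ⟨e, he⟩ := h x
  have : st f x = e := ulim_eq he
  rw [this]; exact he

theorem exists_tendsto_of_bdd [NormedAddCommGroup E] [ProperSpace E] {u : ℕ → E} {C : ℝ}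
    (h : ∀ k, ‖u k‖ ≤ C) : ∃ e, Tendsto u (UU : Filter ℕ) (𝓝 e) := by
  have hc : IsCompact (Metric.closedBall (0 : E) C) := isCompact_closedBall 0 C
  have hle : ((UU.map u : Ultrafilter E) : Filter E) ≤ 𝓟 (Metric.closedBall (0 : E) C) := by
    rw [le_principal_iff]
    show ∀ᶠ k in (UU : Filter ℕ), u k ∈ Metric.closedBall (0 : E) C
    exact Eventually.of_forall (fun k => by simpa using h k)
  obtain ⟨e, _, he⟩ := hc.ultrafilter_le_nhds (UU.map u) hle
  exact ⟨e, he⟩

theorem stOK_of_bdd [NormedAddCommGroup E] [ProperSpace E] {f : ℕ → α → E} {C : ℝ}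
    (h : ∀ k x, ‖f k x‖ ≤ C) : StOK f :=
  stOK_of_exists (fun x => exists_tendsto_of_bdd (fun k => h k (x k)))

theorem st_eq [TopologicalSpace E] [T2Space E] [Nonempty E] {f : ℕ → α → E} {x : Lb α} {e : E}
    (h : Tendsto (fun k => f k (x k)) (UU : Filter ℕ) (𝓝 e)) : st f x = e := ulim_eq h

theorem norm_st_le [NormedAddCommGroup E] [ProperSpace E] {f : ℕ → α → E} {C : ℝ}
    (h : ∀ k x, ‖f k x‖ ≤ C) (x : Lb α) : ‖st f x‖ ≤ C :=
  le_of_tendsto (stOK_of_bdd h x).norm (Eventually.of_forall (fun k => h k (x k)))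

theorem st_comp [TopologicalSpace E] [Nonempty E] {F : Type*} [TopologicalSpace F] [T2Space F]
    [Nonempty F] {f : ℕ → α → E} (hf : StOK f) {φ : E → F} (hφ : Continuous φ) :
    st (fun k x => φ (f k x)) = fun x => φ (st f x) := by
  funext x
  exact st_eq ((hφ.tendsto _).comp (hf x))


theorem st_sub [NormedAddCommGroup E] {f g : ℕ → α → E} (hf : StOK f) (hg : StOK g) :
    st (fun k x => f k x - g k x) = fun x => st f x - st g x := by
  funext x
  exact st_eq ((hf x).sub (hg x))



theorem st_mul {𝕜 : Type*} [NormedRing 𝕜] {f g : ℕ → α → 𝕜} (hf : StOK f) (hg : StOK g) :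
    st (fun k x => f k x * g k x) = fun x => st f x * st g x := by
  funext x
  exact st_eq ((hf x).mul (hg x))

theorem st_const [TopologicalSpace E] [T2Space E] [Nonempty E] (e : E) :
    st (fun (_ : ℕ) (_ : α) => e) = fun _ => e := by
  funext x
  exact st_eq tendsto_const_nhds

theorem st_prod {ι : Type*} {𝕜 : Type*} [NormedCommRing 𝕜] (s : Finset ι)
    {f : ι → ℕ → α → 𝕜} (hf : ∀ i ∈ s, StOK (f i)) :
    st (fun k x => ∏ i ∈ s, f i k x) = fun x => ∏ i ∈ s, st (f i) x := by
  funext x
  exact st_eq (tendsto_finsetProd _ (fun i hi => hf i hi x))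


theorem st_indicator [NormedAddCommGroup E] (A : ℕ → Set α) {f : ℕ → α → E} (hf : StOK f) :
    st (fun k => (A k).indicator (f k)) = (intl A).indicator (st f) := by
  classical
  funext x
  by_cases hx : x ∈ intl A
  · rw [indicator_of_mem hx]
    apply st_eq
    refine (hf x).congr' ?_
    filter_upwards [hx] with k hk
    rw [indicator_of_mem hk]
  · rw [indicator_of_notMem hx]
    apply st_eq
    have hx' : x ∈ intl (fun k => (A k)ᶜ) := by rw [intl_compl]; exact hx
    refine (tendsto_const_nhds (x := (0 : E))).congr' ?_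
    filter_upwards [hx'] with k hk
    rw [indicator_of_notMem hk]


theorem norm_st_sub_le [NormedAddCommGroup E] {f g : ℕ → α → E} (hf : StOK f) (hg : StOK g)
    {ε : ℝ} {x : Lb α} (h : ∀ᶠ k in (UU : Filter ℕ), ‖f k (x k) - g k (x k)‖ ≤ ε) :
    ‖st f x - st g x‖ ≤ ε :=
  le_of_tendsto (((hf x).sub (hg x)).norm) h

/-- Internal functions with `m`-measurable entries have `LL m`-measurable standard part. -/
theorem measurable_st {m : MeasurableSpace α} [PseudoMetricSpace E] [T2Space E] [Nonempty E]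
    [MeasurableSpace E] [BorelSpace E] {f : ℕ → α → E} (hf : StOK f)
    (hm : ∀ k, Measurable[m] (f k)) : Measurable[LL m] (st f) := by
  apply measurable_of_isClosed
  intro F hF
  rcases F.eq_empty_or_nonempty with rfl | hne
  · simp
  have key : st f ⁻¹' F
      = ⋂ n : ℕ, intl (fun k => {y | f k y ∈ Metric.thickening (1 / ((n : ℝ) + 1)) F}) := by
    ext x
    simp only [mem_preimage, mem_iInter, mem_intl, mem_ofPred_eq]
    constructor
    · intro hx n
      have hopen : IsOpen (Metric.thickening (1 / ((n : ℝ) + 1)) F) := Metric.isOpen_thickening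
      have hmem : st f x ∈ Metric.thickening (1 / ((n : ℝ) + 1)) F :=
        Metric.self_subset_thickening (by positivity) F hx
      exact (hf x).eventually (hopen.mem_nhds hmem)
    · intro hx
      have h1 : ∀ n : ℕ, Metric.infDist (st f x) F ≤ 1 / ((n : ℝ) + 1) := by
        intro n
        have ht : Tendsto (fun k => Metric.infDist (f k (x k)) F) (UU : Filter ℕ)
            (𝓝 (Metric.infDist (st f x) F)) :=
          ((Metric.continuous_infDist_pt F).tendsto _).comp (hf x)
        refine le_of_tendsto ht ?_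
        filter_upwards [hx n] with k hk
        exact ((Metric.mem_thickening_iff_infDist_lt hne).1 hk).le
      have h2 : Metric.infDist (st f x) F ≤ 0 := by
        refine ge_of_tendsto' (tendsto_one_div_add_atTop_nhds_zero_nat (𝕜 := ℝ)) h1
      have h3 : Metric.infDist (st f x) F = 0 := le_antisymm h2 Metric.infDist_nonneg
      exact (hF.mem_iff_infDist_zero hne).2 h3
  rw [key]
  apply MeasurableSet.iInter
  intro n
  exact measurableSet_intl (fun k => (hm k) Metric.isOpen_thickening.measurableSet)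

end st

section integral

variable {α : Type*} {m : MeasurableSpace α} [mα : MeasurableSpace α] {μ : Measure α}
  [IsProbabilityMeasure μ]

/-- Convergence of the integrals of an internal function. -/
def IntOK (μ : Measure α) (f : ℕ → α → ℝ) : Prop :=
  Tendsto (fun k => ∫ x, f k x ∂μ) (UU : Filter ℕ) (𝓝 (∫ x, st f x ∂(lb μ)))

theorem intOK_indicator {A : ℕ → Set α} (hA : ∀ k, MeasurableSet (A k)) :
    IntOK μ (fun k => (A k).indicator (fun _ => (1 : ℝ))) := by
  unfold IntOK
  have h1 : st (fun k => (A k).indicator (fun _ => (1 : ℝ)))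
      = (intl A).indicator (fun _ => (1 : ℝ)) := by
    rw [st_indicator A (f := fun _ _ => (1 : ℝ)) (stOK_of_bdd (C := 1) (by simp)), st_const]
  rw [h1]
  have h2 : ∫ x, (intl A).indicator (fun _ => (1 : ℝ)) x ∂(lb μ) = (lb μ (intl A)).toReal := by
    rw [integral_indicator (measurableSet_intl hA)]
    simp [Measure.real]
  rw [h2]
  have h3 : ∀ k, ∫ x, (A k).indicator (fun _ => (1 : ℝ)) x ∂μ = (μ (A k)).toReal := by
    intro k
    rw [integral_indicator (hA k)]
    simp [Measure.real]
  simp_rw [h3]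
  exact (ENNReal.tendsto_toReal (measure_ne_top _ _)).comp (tendsto_lb_intl μ hA)

/-- bounded internal functions with measurable entries -/
structure BM (m : MeasurableSpace α) (f : ℕ → α → ℝ) (C : ℝ) : Prop where
  meas : ∀ k, Measurable[m] (f k)
  bdd : ∀ k x, |f k x| ≤ C

omit mα in
theorem BM.ok {f : ℕ → α → ℝ} {C : ℝ} (h : BM m f C) : StOK f :=
  stOK_of_bdd (C := C) (fun k x => by simpa using h.bdd k x)

omit mα in
theorem BM.meas_st {f : ℕ → α → ℝ} {C : ℝ} (h : BM m f C) :
    Measurable[LL m] (st f) := measurable_st h.ok h.meas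

omit mα in
theorem BM.st_le {f : ℕ → α → ℝ} {C : ℝ} (h : BM m f C) (x : Lb α) :
    |st f x| ≤ C := by
  have h1 : ∀ k x, ‖f k x‖ ≤ C := fun k x => by
    rw [Real.norm_eq_abs]; exact h.bdd k x
  have h2 := norm_st_le h1 x
  rwa [Real.norm_eq_abs] at h2

omit mα in
theorem BM.mono {m' : MeasurableSpace α} {f : ℕ → α → ℝ} {C : ℝ} (h : BM m f C) (hm : m ≤ m') :
    BM m' f C := ⟨fun k => (h.meas k).mono hm le_rfl, h.bdd⟩

theorem integrable_of_bdd {β : Type*} [MeasurableSpace β] {ν : Measure β} [IsFiniteMeasure ν]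
    {f : β → ℝ} (hf : Measurable f) {C : ℝ} (hb : ∀ x, |f x| ≤ C) : Integrable f ν :=
  Integrable.of_bound hf.aestronglyMeasurable C (Eventually.of_forall (fun x => by simpa using hb x))

theorem BM.integrable (hm : m ≤ mα) {f : ℕ → α → ℝ}
    {C : ℝ} (h : BM m f C) (k : ℕ) : Integrable (f k) μ :=
  integrable_of_bdd ((h.meas k).mono hm le_rfl) (h.bdd k)

theorem BM.integrable_st (hm : m ≤ mα) {f : ℕ → α → ℝ}
    {C : ℝ} (h : BM m f C) : Integrable (st f) (lb μ) :=
  integrable_of_bdd (h.meas_st.mono (LL_mono hm) le_rfl) h.st_le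

theorem intOK_of_approx {f : ℕ → α → ℝ} {C : ℝ} (hf : BM mα f C)
    (h : ∀ ε > 0, ∃ g : ℕ → α → ℝ, (∃ C', BM mα g C') ∧ IntOK μ g ∧
      ∀ k x, |f k x - g k x| ≤ ε) : IntOK μ f := by
  unfold IntOK
  rw [Metric.tendsto_nhds]
  intro ε hε
  obtain ⟨g, ⟨C', hg⟩, hgI, hfg⟩ := h (ε / 4) (by positivity)
  have h1 := (Metric.tendsto_nhds.1 hgI) (ε / 4) (by positivity)
  filter_upwards [h1] with k hk
  rw [Real.dist_eq] at hk ⊢
  have h2 : |∫ x, f k x ∂μ - ∫ x, g k x ∂μ| ≤ ε / 4 := by
    rw [← integral_sub (hf.integrable le_rfl k) (hg.integrable le_rfl k)]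
    have := norm_integral_le_of_norm_le_const (μ := μ) (f := fun x => f k x - g k x) (C := ε / 4)
      (Eventually.of_forall (fun x => by simpa using hfg k x))
    simpa using this
  have h3 : |∫ x, st f x ∂(lb μ) - ∫ x, st g x ∂(lb μ)| ≤ ε / 4 := by
    rw [← integral_sub (hf.integrable_st le_rfl) (hg.integrable_st le_rfl)]
    have := norm_integral_le_of_norm_le_const (μ := lb μ) (f := fun x => st f x - st g x)
      (C := ε / 4)
      (Eventually.of_forall (fun x =>
        norm_st_sub_le hf.ok hg.ok (Eventually.of_forall (fun k => by simpa using hfg k (x k)))))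
    simpa using this
  calc |∫ x, f k x ∂μ - ∫ x, st f x ∂(lb μ)|
      = |(∫ x, f k x ∂μ - ∫ x, g k x ∂μ) + (∫ x, g k x ∂μ - ∫ x, st g x ∂(lb μ))
          - (∫ x, st f x ∂(lb μ) - ∫ x, st g x ∂(lb μ))| := by ring_nf
    _ ≤ |∫ x, f k x ∂μ - ∫ x, g k x ∂μ| + |∫ x, g k x ∂μ - ∫ x, st g x ∂(lb μ)|
          + |∫ x, st f x ∂(lb μ) - ∫ x, st g x ∂(lb μ)| := by
        refine (abs_sub _ _).trans ?_
        gcongr
        exact abs_add_le _ _
    _ < ε := by linarith

theorem IntOK.sum {ι : Type*} (s : Finset ι) (c : ι → ℝ) {f : ι → ℕ → α → ℝ}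
    (hb : ∀ i ∈ s, ∃ C, BM mα (f i) C) (h : ∀ i ∈ s, IntOK μ (f i)) :
    IntOK μ (fun k x => ∑ i ∈ s, c i * f i k x) := by
  unfold IntOK
  have hok : ∀ i ∈ s, StOK (f i) := fun i hi => by
    obtain ⟨C, hC⟩ := hb i hi; exact hC.ok
  have h1 : st (fun k x => ∑ i ∈ s, c i * f i k x) = fun x => ∑ i ∈ s, c i * st (f i) x := by
    funext x
    exact st_eq (tendsto_finsetSum _ (fun i hi => (hok i hi x).const_mul (c i)))
  rw [h1]
  have h2 : ∫ x, ∑ i ∈ s, c i * st (f i) x ∂(lb μ) = ∑ i ∈ s, c i * ∫ x, st (f i) x ∂(lb μ) := by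
    rw [integral_finsetSum]
    · simp_rw [integral_const_mul]
    · intro i hi
      obtain ⟨C, hC⟩ := hb i hi
      exact (hC.integrable_st le_rfl).const_mul _
  have h3 : ∀ k, ∫ x, ∑ i ∈ s, c i * f i k x ∂μ = ∑ i ∈ s, c i * ∫ x, f i k x ∂μ := by
    intro k
    rw [integral_finsetSum]
    · simp_rw [integral_const_mul]
    · intro i hi
      obtain ⟨C, hC⟩ := hb i hi
      exact (hC.integrable le_rfl k).const_mul _
  rw [h2]
  simp_rw [h3]
  exact tendsto_finsetSum _ (fun i hi => (h i hi).const_mul (c i))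

/-- **Integral of the standard part.** -/
theorem tendsto_integral_st {f : ℕ → α → ℝ} {C : ℝ} (hf : BM mα f C) :
    Tendsto (fun k => ∫ x, f k x ∂μ) (UU : Filter ℕ) (𝓝 (∫ x, st f x ∂(lb μ))) := by
  refine intOK_of_approx hf ?_
  intro ε hε
  obtain ⟨N, hN⟩ := exists_nat_one_div_lt hε
  set n : ℝ := (N : ℝ) + 1 with hn
  have hnpos : 0 < n := by positivity
  obtain ⟨M, hM⟩ := exists_nat_gt (n * C + 1)
  set s : Finset ℤ := Finset.Icc (-(M : ℤ)) (M : ℤ) with hs
  set A : ℤ → ℕ → Set α := fun j k => {x | ⌊n * f k x⌋ = j} with hA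
  have hAm : ∀ j k, MeasurableSet (A j k) := by
    intro j k
    have h1 : Measurable (fun x => ⌊n * f k x⌋) :=
      Int.measurable_floor.comp ((hf.meas k).const_mul n)
    exact h1 (measurableSet_singleton j)
  have hfl : ∀ k x, ⌊n * f k x⌋ ∈ s := by
    intro k x
    have h1 := hf.bdd k x
    have h2 : |n * f k x| ≤ n * C := by
      rw [abs_mul, abs_of_pos hnpos]
      gcongr
    rw [abs_le] at h2
    rw [hs, Finset.mem_Icc]
    constructor
    · have : (-(M : ℤ)) ≤ ⌊n * f k x⌋ := by
        rw [Int.le_floor]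
        push_cast
        linarith [h2.1]
      exact this
    · have : (⌊n * f k x⌋ : ℝ) ≤ M := by
        have := Int.floor_le (n * f k x)
        linarith [h2.2]
      exact_mod_cast this
  refine ⟨fun k x => ∑ j ∈ s, ((j : ℝ) / n) * (A j k).indicator (fun _ => (1 : ℝ)) x, ?_, ?_, ?_⟩
  · refine ⟨∑ j ∈ s, |(j : ℝ) / n|, ?_, ?_⟩
    · intro k
      exact Finset.measurable_sum _ (fun j _ =>
        (measurable_const.indicator (hAm j k)).const_mul _)
    · intro k x
      refine (Finset.abs_sum_le_sum_abs _ _).trans (Finset.sum_le_sum (fun j _ => ?_))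
      rw [abs_mul]
      have : |(A j k).indicator (fun _ => (1 : ℝ)) x| ≤ 1 := by
        by_cases hx : x ∈ A j k
        · rw [indicator_of_mem hx]; simp
        · rw [indicator_of_notMem hx]; simp
      nlinarith [abs_nonneg ((j : ℝ) / n)]
  · apply IntOK.sum
    · intro j _
      refine ⟨1, fun k => measurable_const.indicator (hAm j k), fun k x => ?_⟩
      by_cases hx : x ∈ A j k
      · rw [indicator_of_mem hx]; simp
      · rw [indicator_of_notMem hx]; simp
    · intro j _
      exact intOK_indicator (fun k => hAm j k)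
  · intro k x
    have h1 : ∑ j ∈ s, ((j : ℝ) / n) * (A j k).indicator (fun _ => (1 : ℝ)) x
        = (⌊n * f k x⌋ : ℝ) / n := by
      rw [Finset.sum_eq_single_of_mem _ (hfl k x)]
      · have : x ∈ A ⌊n * f k x⌋ k := rfl
        rw [indicator_of_mem this, mul_one]
      · intro j _ hj
        have : x ∉ A j k := fun hx => hj (by rw [← hx])
        rw [indicator_of_notMem this, mul_zero]
    show |f k x - ∑ j ∈ s, ((j : ℝ) / n) * (A j k).indicator (fun _ => (1 : ℝ)) x| ≤ ε
    rw [h1]
    have h2 := Int.floor_le (n * f k x)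
    have h3 := Int.lt_floor_add_one (n * f k x)
    have h4 : f k x - (⌊n * f k x⌋ : ℝ) / n = (n * f k x - ⌊n * f k x⌋) / n := by
      field_simp
    rw [h4, abs_of_nonneg (div_nonneg (by linarith) hnpos.le)]
    have h5 : (n * f k x - ⌊n * f k x⌋) / n ≤ 1 / n := by
      gcongr
      linarith
    have h6 : 1 / n < ε := hN
    linarith

/-- Integral over an internal set. -/
theorem tendsto_setIntegral_st {f : ℕ → α → ℝ} {C : ℝ} (hf : BM mα f C)
    {A : ℕ → Set α} (hA : ∀ k, MeasurableSet (A k)) :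
    Tendsto (fun k => ∫ x in A k, f k x ∂μ) (UU : Filter ℕ) (𝓝 (∫ x in intl A, st f x ∂(lb μ))) := by
  have hbm : BM mα (fun k => (A k).indicator (f k)) C := by
    refine ⟨fun k => (hf.meas k).indicator (hA k), fun k x => ?_⟩
    by_cases hx : x ∈ A k
    · rw [indicator_of_mem hx]; exact hf.bdd k x
    · rw [indicator_of_notMem hx, abs_zero]
      exact (abs_nonneg _).trans (hf.bdd k x)
  have h := tendsto_integral_st (μ := μ) hbm
  rw [st_indicator A hf.ok, integral_indicator (measurableSet_intl hA)] at h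
  simpa only [integral_indicator (hA _)] using h

end integral

end Crest.Agent.R069
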