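import Crest.Agent.R069.EndDefs
import Mathlib
import Crest.Agent.R069.SatDefs
import Crest.Agent.R69.Red
import Crest.Agent.R069.Iface

-- ▼ part R069/End1
section

/-! Row 69, END part 1: basic facts and (9a). -/

set_option linter.unusedSectionVars false
set_option linter.unusedVariables false

open MeasureTheory Filter Topology

namespace Crest.Agent.R069.End

variable {X Ω : Type*} [MeasurableSpace X] [MeasurableSpace Ω]

theorem BM.integrable {μ : Measure X} [IsFiniteMeasure μ] {h : X → ℂ} (hh : BM h) :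
    Integrable h μ := by
  obtain ⟨C, hC⟩ := hh.2
  exact Integrable.of_bound hh.1.aestronglyMeasurable C (Eventually.of_forall hC)

theorem BM.comp {Y : Type*} [MeasurableSpace Y] {h : X → ℂ} (hh : BM h) {g : Y → X}
    (hg : Measurable g) : BM (fun y => h (g y)) :=
  ⟨hh.1.comp hg, hh.2.imp fun _ hC y => hC _⟩

theorem BM.mul {f g : X → ℂ} (hf : BM f) (hg : BM g) : BM (fun x => f x * g x) := by
  obtain ⟨A, hA⟩ := hf.2
  obtain ⟨B, hB⟩ := hg.2
  refine ⟨hf.1.mul hg.1, A * B, fun x => ?_⟩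
  rw [norm_mul]
  exact mul_le_mul (hA x) (hB x) (norm_nonneg _) ((norm_nonneg _).trans (hA x))

theorem BM.conj {f : X → ℂ} (hf : BM f) : BM (fun x => (starRingEnd ℂ) (f x)) := by
  obtain ⟨A, hA⟩ := hf.2
  refine ⟨?_, A, fun x => ?_⟩
  · exact Complex.continuous_conj.measurable.comp hf.1
  · rw [RCLike.norm_conj]; exact hA x

theorem BM.const (c : ℂ) : BM (fun _ : X => c) := ⟨measurable_const, ‖c‖, fun _ => le_rfl⟩

theorem BM.sub {f g : X → ℂ} (hf : BM f) (hg : BM g) : BM (fun x => f x - g x) := by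
  obtain ⟨A, hA⟩ := hf.2
  obtain ⟨B, hB⟩ := hg.2
  refine ⟨hf.1.sub hg.1, A + B, fun x => ?_⟩
  exact (norm_sub_le _ _).trans (add_le_add (hA x) (hB x))

/-- Cauchy-Schwarz on a probability space -/
theorem norm_int_sq_le {P : Measure Ω} [IsProbabilityMeasure P] {F : Ω → ℂ}
    (hF : AEStronglyMeasurable F P) {C : ℝ} (hC : ∀ᵐ w ∂P, ‖F w‖ ≤ C) :
    ‖∫ w, F w ∂P‖ ^ 2 ≤ ∫ w, ‖F w‖ ^ 2 ∂P := by
  have hi : Integrable F P := Integrable.of_bound hF C hC
  have hn : Integrable (fun w => ‖F w‖) P := hi.norm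
  have hsq : Integrable (fun w => ‖F w‖ ^ 2) P := by
    refine Integrable.of_bound (hF.norm.pow 2) (C ^ 2) ?_
    filter_upwards [hC] with w hw
    rw [Real.norm_eq_abs, abs_of_nonneg (by positivity)]
    exact pow_le_pow_left₀ (norm_nonneg _) hw 2
  have h1 : ‖∫ w, F w ∂P‖ ≤ ∫ w, ‖F w‖ ∂P := norm_integral_le_integral_norm _
  set a := ∫ w, ‖F w‖ ∂P with ha
  have ha0 : 0 ≤ a := integral_nonneg fun _ => norm_nonneg _
  have h2 : 0 ≤ ∫ w, (‖F w‖ - a) ^ 2 ∂P := integral_nonneg fun _ => sq_nonneg _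
  have h3 : ∫ w, (‖F w‖ - a) ^ 2 ∂P = ∫ w, ‖F w‖ ^ 2 ∂P - a ^ 2 := by
    have e : (fun w => (‖F w‖ - a) ^ 2) = fun w => ‖F w‖ ^ 2 - 2 * a * ‖F w‖ + a ^ 2 := by
      funext w; ring
    have hi1 : Integrable (fun w => 2 * a * ‖F w‖) P := hn.const_mul _
    have hi2 : Integrable (fun w => ‖F w‖ ^ 2 - 2 * a * ‖F w‖) P := hsq.sub hi1
    rw [e, integral_add hi2 (integrable_const _), integral_sub hsq hi1, integral_const_mul,
      integral_const]
    simp only [probReal_univ, smul_eq_mul, one_mul]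
    rw [← ha]; ring
  have h4 : a ^ 2 ≤ ∫ w, ‖F w‖ ^ 2 ∂P := by linarith
  exact (pow_le_pow_left₀ (norm_nonneg _) h1 2).trans h4

variable {μ : Measure X} {S : ℤ → X → X} {P : Measure Ω} {N : Type*} [CommGroup N]

namespace Data

variable (D : Data μ S P N)

include D in
theorem isProb [IsProbabilityMeasure μ] : IsProbabilityMeasure P := by
  constructor
  have := D.mp.measure_preimage (s := Set.univ) MeasurableSet.univ.nullMeasurableSet
  simpa using this

theorem ev_one : ∀ᵐ w ∂P, D.ev 1 w = 1 := by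
  filter_upwards [D.ev_mul 1 1, D.ev_norm 1] with w h1 h2
  rw [mul_one] at h1
  have hne : D.ev 1 w ≠ 0 := by
    intro h0; rw [h0] at h2; simp at h2
  exact mul_left_cancel₀ hne (by rw [mul_one]; exact h1.symm)

theorem ev_inv (χ : N) : ∀ᵐ w ∂P, D.ev χ⁻¹ w = (starRingEnd ℂ) (D.ev χ w) := by
  filter_upwards [D.ev_mul χ χ⁻¹, D.ev_norm χ, D.ev_one] with w h1 h2 h3
  rw [mul_inv_cancel, h3] at h1
  have h4 : D.ev χ w * (starRingEnd ℂ) (D.ev χ w) = 1 := by
    rw [Complex.mul_conj, Complex.normSq_eq_norm_sq, h2]; simp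
  have hne : D.ev χ w ≠ 0 := by
    intro h0; rw [h0] at h2; simp at h2
  exact mul_left_cancel₀ hne (by rw [h4]; exact h1.symm)

theorem ev_mul_inv (χ ψ : N) :
    ∀ᵐ w ∂P, D.ev (χ * ψ⁻¹) w = D.ev χ w * (starRingEnd ℂ) (D.ev ψ w) := by
  filter_upwards [D.ev_mul χ ψ⁻¹, D.ev_inv ψ] with w h1 h2
  rw [h1, h2]

/-- the constant characters -/
def scal [IsProbabilityMeasure μ] : Subgroup N where
  carrier := {χ | ∃ z : ℂ, ∀ᵐ w ∂P, D.ev χ w = z}
  one_mem' := ⟨1, D.ev_one⟩
  mul_mem' := by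
    rintro χ ψ ⟨z, hz⟩ ⟨y, hy⟩
    refine ⟨z * y, ?_⟩
    filter_upwards [D.ev_mul χ ψ, hz, hy] with w h1 h2 h3
    rw [h1, h2, h3]
  inv_mem' := by
    rintro χ ⟨z, hz⟩
    refine ⟨(starRingEnd ℂ) z, ?_⟩
    filter_upwards [D.ev_inv χ, hz] with w h1 h2
    rw [h1, h2]


theorem al_mem_scal [IsProbabilityMeasure μ] {χ : N} : D.al χ ∈ D.scal ↔ χ ∈ D.scal :=
  ⟨fun ⟨z, hz⟩ => ⟨z, (D.al_const χ z).2 hz⟩, fun ⟨z, hz⟩ => ⟨z, (D.al_const χ z).1 hz⟩⟩

theorem int_al [IsProbabilityMeasure μ] (χ : N) :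
    ∫ w, D.ev (D.al χ) w ∂P = ∫ w, D.ev χ w ∂P := by
  have := D.isProb
  by_cases h : ∫ w, D.ev χ w ∂P = 0
  · by_contra hne
    rw [h] at hne
    obtain ⟨z, hz⟩ := D.ev_mean _ hne
    have h1 := (D.al_const χ z).2 hz
    have e1 : ∫ w, D.ev χ w ∂P = z := by
      rw [integral_congr_ae (g := fun _ => z) h1]; simp
    have e2 : ∫ w, D.ev (D.al χ) w ∂P = z := by
      rw [integral_congr_ae (g := fun _ => z) hz]; simp
    rw [e2, ← e1, h] at hne
    exact hne rfl
  · obtain ⟨z, hz⟩ := D.ev_mean _ h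
    have h1 := (D.al_const χ z).1 hz
    rw [integral_congr_ae (g := fun _ => z) h1, integral_congr_ae (g := fun _ => z) hz]

theorem int_al_nat [IsProbabilityMeasure μ] (n : ℕ) (χ : N) :
    ∫ w, D.ev ((D.al ^ n) χ) w ∂P = ∫ w, D.ev χ w ∂P := by
  induction n with
  | zero => simp
  | succ n ih =>
    rw [pow_succ', MulAut.mul_apply, D.int_al, ih]

theorem int_al_zpow [IsProbabilityMeasure μ] (n : ℤ) (χ : N) :
    ∫ w, D.ev ((D.al ^ n) χ) w ∂P = ∫ w, D.ev χ w ∂P := by
  obtain ⟨m, rfl | rfl⟩ := n.eq_nat_or_neg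
  · rw [zpow_natCast]; exact D.int_al_nat m χ
  · have h := D.int_al_nat m ((D.al ^ (-(m : ℤ))) χ)
    rw [← h]
    congr 1
    funext w
    rw [← MulAut.mul_apply, ← zpow_natCast, ← zpow_add]
    simp

variable [IsProbabilityMeasure μ] (hS : Act μ S)
include hS

theorem pair_nat (n : ℕ) {h : X → ℂ} (hh : BM h) (χ : N) :
    ∫ w, h (S n (D.pr w)) * (starRingEnd ℂ) (D.ev ((D.al ^ n) χ) w) ∂P =
      ∫ w, h (D.pr w) * (starRingEnd ℂ) (D.ev χ w) ∂P := by
  induction n with
  | zero => simp [hS.zero]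
  | succ n ih =>
    rw [← ih]
    have h1 := D.al_pair (fun x => h (S n x)) (hh.comp (hS.mp n).measurable) ((D.al ^ n) χ)
    rw [pow_succ', MulAut.mul_apply, ← h1]
    congr 1
    funext w
    rw [Nat.cast_succ, hS.add]

theorem pair_zpow (n : ℤ) {h : X → ℂ} (hh : BM h) (χ : N) :
    ∫ w, h (S n (D.pr w)) * (starRingEnd ℂ) (D.ev ((D.al ^ n) χ) w) ∂P =
      ∫ w, h (D.pr w) * (starRingEnd ℂ) (D.ev χ w) ∂P := by
  obtain ⟨m, rfl | rfl⟩ := n.eq_nat_or_neg
  · rw [zpow_natCast]; exact D.pair_nat hS m hh χ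
  · have h1 := D.pair_nat hS m (h := fun x => h (S (-(m : ℤ)) x))
      (hh.comp (hS.mp _).measurable) ((D.al ^ (-(m : ℤ))) χ)
    rw [← h1]
    congr 1
    funext w
    rw [← MulAut.mul_apply, ← zpow_natCast, ← zpow_add, ← hS.add]
    simp [hS.zero]

omit hS

/-- `δ r χ = al^r χ / χ` -/
noncomputable def dl (r : ℕ) : N →* N :=
  ((D.al ^ r : MulAut N) : N ≃* N).toMonoidHom / MonoidHom.id N

theorem dl_apply (r : ℕ) (χ : N) : D.dl r χ = (D.al ^ r) χ / χ := rfl

theorem al_dl (r n : ℕ) (χ : N) : (D.al ^ n) (D.dl r χ) = D.dl r ((D.al ^ n) χ) := by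
  rw [dl_apply, dl_apply, map_div, ← MulAut.mul_apply, ← MulAut.mul_apply, ← pow_add, ← pow_add,
    add_comm]


/-- level of a list of exponents -/
noncomputable def lev : List ℕ → Subgroup N
  | [] => D.scal
  | r :: l => (lev l).comap (D.dl r)

theorem mem_lev_cons {r : ℕ} {l : List ℕ} {χ : N} :
    χ ∈ D.lev (r :: l) ↔ D.dl r χ ∈ D.lev l := Iff.rfl

theorem al_mem_lev (n : ℕ) (l : List ℕ) {χ : N} (h : χ ∈ D.lev l) : (D.al ^ n) χ ∈ D.lev l := by
  induction l generalizing χ with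
  | nil =>
    induction n with
    | zero => simpa using h
    | succ n ih => rw [pow_succ', MulAut.mul_apply]; exact D.al_mem_scal.2 ih
  | cons r l ih =>
    rw [mem_lev_cons] at h ⊢
    rw [← D.al_dl]
    exact ih h

theorem exists_psi (r : ℕ) (l : List ℕ) {χ : N} (h : χ ∈ D.lev (r :: l)) (n : ℕ) :
    ∃ ψ ∈ D.lev l, (D.al ^ (n * r)) χ = χ * ψ := by
  induction n with
  | zero => exact ⟨1, one_mem _, by simp⟩
  | succ n ih =>
    obtain ⟨ψ, hψ, e⟩ := ih
    refine ⟨ψ * (D.al ^ (n * r)) (D.dl r χ), mul_mem hψ (D.al_mem_lev _ _ h), ?_⟩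
    have e1 : (D.al ^ r) χ = D.dl r χ * χ := by rw [dl_apply]; simp
    rw [Nat.succ_mul, pow_add, MulAut.mul_apply, e1, map_mul, e]
    rw [mul_comm, mul_assoc]

/-- pairing of the vectors `v_n` -/
theorem nine_a (hS : Act μ S) (hmix : Mix μ S) (l : List ℕ) (hl : ∀ r ∈ l, 0 < r) :
    ∀ χ ∈ D.lev l, ∀ h : X → ℂ, BM h → ∫ x, h x ∂μ = 0 →
      ∫ w, h (D.pr w) * (starRingEnd ℂ) (D.ev χ w) ∂P = 0 := by
  have hP := D.isProb
  induction l with
  | nil =>
    rintro χ ⟨z, hz⟩ h hh h0
    have e : ∫ w, h (D.pr w) * (starRingEnd ℂ) (D.ev χ w) ∂P =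
        ∫ w, h (D.pr w) * (starRingEnd ℂ) z ∂P := by
      refine integral_congr_ae ?_
      filter_upwards [hz] with w hw
      rw [hw]
    rw [e, integral_mul_const]
    have e2 : ∫ w, h (D.pr w) ∂P = ∫ x, h x ∂μ := by
      have h5 := integral_map (μ := P) D.mp.aemeasurable (f := h) hh.1.aestronglyMeasurable
      rw [D.mp.map_eq] at h5
      exact h5.symm
    rw [e2, h0, zero_mul]
  | cons r l ih =>
    intro χ hχ h hh h0
    have hr : 0 < r := hl r (by simp)
    have ihl := ih (fun s hs => hl s (by simp [hs]))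
    obtain ⟨C, hC⟩ := hh.2
    have hC0 : 0 ≤ C := by
      obtain ⟨x⟩ := nonempty_of_isProbabilityMeasure μ
      exact (norm_nonneg _).trans (hC x)
    choose ψ hψ1 hψ2 using fun n => D.exists_psi r l hχ n
    set δ := ∫ w, h (D.pr w) * (starRingEnd ℂ) (D.ev χ w) ∂P with hδ
    -- the vectors
    set v : ℕ → Ω → ℂ := fun n w => h (S ((n * r : ℕ) : ℤ) (D.pr w)) *
      (starRingEnd ℂ) (D.ev (ψ n) w) with hv
    have hvm : ∀ n, AEStronglyMeasurable (v n) P := fun n =>
      ((hh.1.comp ((hS.mp _).measurable.comp D.mp.measurable)).aestronglyMeasurable).mul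
        (Complex.continuous_conj.comp_aestronglyMeasurable (D.ev_meas _))
    have hvb : ∀ n, ∀ᵐ w ∂P, ‖v n w‖ ≤ C := by
      intro n
      filter_upwards [D.ev_norm (ψ n)] with w hw
      rw [hv]
      simp only [norm_mul, RCLike.norm_conj, hw, mul_one]
      exact hC _
    have hpair : ∀ n, ∫ w, v n w * (starRingEnd ℂ) (D.ev χ w) ∂P = δ := by
      intro n
      rw [hδ, ← D.pair_nat hS (n * r) hh χ, hψ2 n]
      refine integral_congr_ae ?_
      filter_upwards [D.ev_mul χ (ψ n)] with w hw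
      rw [hv, hw, map_mul]
      ring
    -- inner products
    have hin : ∀ n m : ℕ, m ≤ n → ‖∫ w, v n w * (starRingEnd ℂ) (v m w) ∂P‖ ≤
        ‖∫ x, (starRingEnd ℂ) (h x) * h (S (((n - m) * r : ℕ) : ℤ) x) ∂μ‖ := by
      intro n m hmn
      set g : X → ℂ := fun x => h (S ((n * r : ℕ) : ℤ) x) *
        (starRingEnd ℂ) (h (S ((m * r : ℕ) : ℤ) x)) with hg
      have hgB : BM g := (hh.comp (hS.mp _).measurable).mul (hh.comp (hS.mp _).measurable).conj
      have hη : ψ n * (ψ m)⁻¹ ∈ D.lev l := mul_mem (hψ1 n) (inv_mem (hψ1 m))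
      have e0 : ∫ w, v n w * (starRingEnd ℂ) (v m w) ∂P =
          ∫ w, g (D.pr w) * (starRingEnd ℂ) (D.ev (ψ n * (ψ m)⁻¹) w) ∂P := by
        refine integral_congr_ae ?_
        filter_upwards [D.ev_mul_inv (ψ n) (ψ m)] with w hw
        rw [hv, hg, hw]
        simp only [map_mul, Complex.conj_conj]
        ring
      have e1 := ihl _ hη (fun x => g x - ∫ x, g x ∂μ) (hgB.sub (BM.const _)) (by
        rw [integral_sub hgB.integrable (integrable_const _)]; simp)
      have i1 : Integrable (fun w => g (D.pr w) *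
          (starRingEnd ℂ) (D.ev (ψ n * (ψ m)⁻¹) w)) P := by
        obtain ⟨G, hG⟩ := hgB.2
        refine Integrable.of_bound ((hgB.1.comp D.mp.measurable).aestronglyMeasurable.mul
          (Complex.continuous_conj.comp_aestronglyMeasurable (D.ev_meas _))) G ?_
        filter_upwards [D.ev_norm (ψ n * (ψ m)⁻¹)] with w hw
        rw [norm_mul, RCLike.norm_conj, hw, mul_one]
        exact hG _
      have i2 : Integrable (fun w => (∫ x, g x ∂μ) *
          (starRingEnd ℂ) (D.ev (ψ n * (ψ m)⁻¹) w)) P := by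
        refine Integrable.of_bound (aestronglyMeasurable_const.mul
          (Complex.continuous_conj.comp_aestronglyMeasurable (D.ev_meas _))) ‖∫ x, g x ∂μ‖ ?_
        filter_upwards [D.ev_norm (ψ n * (ψ m)⁻¹)] with w hw
        rw [norm_mul, RCLike.norm_conj, hw, mul_one]
      have e2 : ∫ w, g (D.pr w) * (starRingEnd ℂ) (D.ev (ψ n * (ψ m)⁻¹) w) ∂P =
          (∫ x, g x ∂μ) * ∫ w, (starRingEnd ℂ) (D.ev (ψ n * (ψ m)⁻¹) w) ∂P := by
        rw [← integral_const_mul, ← sub_eq_zero, ← integral_sub i1 i2, ← e1]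
        refine integral_congr_ae (Eventually.of_forall fun w => ?_)
        simp only
        ring
      have e3 : ‖∫ w, (starRingEnd ℂ) (D.ev (ψ n * (ψ m)⁻¹) w) ∂P‖ ≤ 1 := by
        have := norm_integral_le_of_norm_le_const (μ := P) (C := 1)
          (f := fun w => (starRingEnd ℂ) (D.ev (ψ n * (ψ m)⁻¹) w)) (by
            filter_upwards [D.ev_norm (ψ n * (ψ m)⁻¹)] with w hw
            rw [RCLike.norm_conj, hw])
        simpa using this
      have e4 : ∫ x, g x ∂μ =
          ∫ x, (starRingEnd ℂ) (h x) * h (S (((n - m) * r : ℕ) : ℤ) x) ∂μ := by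
        have hB : BM (fun x => (starRingEnd ℂ) (h x) * h (S (((n - m) * r : ℕ) : ℤ) x)) :=
          hh.conj.mul (hh.comp (hS.mp _).measurable)
        have h5 := integral_map (hS.mp ((m * r : ℕ) : ℤ)).aemeasurable
          (f := fun x => (starRingEnd ℂ) (h x) * h (S (((n - m) * r : ℕ) : ℤ) x))
          hB.1.aestronglyMeasurable
        rw [(hS.mp _).map_eq] at h5
        rw [h5]
        refine integral_congr_ae (Eventually.of_forall fun x => ?_)
        simp only [hg]
        rw [← hS.add, ← Nat.cast_add, ← Nat.add_mul, Nat.sub_add_cancel hmn, mul_comm]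
      rw [e0, e2, norm_mul, ← e4]
      calc _ ≤ ‖∫ x, g x ∂μ‖ * 1 := mul_le_mul_of_nonneg_left e3 (norm_nonneg _)
        _ = _ := mul_one _
    -- mixing
    have hlim : Tendsto (fun n : ℕ => ‖∫ x, (starRingEnd ℂ) (h x) * h (S (n : ℤ) x) ∂μ‖)
        atTop (𝓝 0) := by
      have := (hmix _ _ hh.conj hh).norm
      rw [h0, mul_zero, norm_zero] at this
      exact this
    by_contra hne
    have hδpos : 0 < ‖δ‖ ^ 2 := by positivity
    obtain ⟨R, hR⟩ := (hlim.eventually (gt_mem_nhds (half_pos hδpos))).exists_forall_of_atTop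
    obtain ⟨M, hM⟩ := exists_nat_gt (C ^ 2 / (‖δ‖ ^ 2 / 2))
    have hM0 : 0 < (M : ℝ) := lt_of_le_of_lt (by positivity) hM
    set t : ℕ → ℕ := fun i => i * (R + 1) with ht
    set F : Ω → ℂ := fun w => ∑ i ∈ Finset.range M, v (t i) w with hF
    have hFm : AEStronglyMeasurable F P := by
      simp only [hF]
      exact Finset.aestronglyMeasurable_fun_sum _ fun i _ => hvm _
    have hvball : ∀ᵐ w ∂P, ∀ n, ‖v n w‖ ≤ C := ae_all_iff.2 hvb
    have hFb : ∀ᵐ w ∂P, ‖F w‖ ≤ M * C := by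
      filter_upwards [hvball] with w hw
      refine (norm_sum_le _ _).trans ?_
      refine (Finset.sum_le_sum fun i _ => hw (t i)).trans ?_
      simp
    have ivc : ∀ n, Integrable (fun w => v n w * (starRingEnd ℂ) (D.ev χ w)) P := by
      intro n
      refine Integrable.of_bound ((hvm n).mul
        (Complex.continuous_conj.comp_aestronglyMeasurable (D.ev_meas _))) C ?_
      filter_upwards [hvb n, D.ev_norm χ] with w h1 h2
      rw [norm_mul, RCLike.norm_conj, h2, mul_one]
      exact h1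
    have hsum1 : ∫ w, F w * (starRingEnd ℂ) (D.ev χ w) ∂P = M * δ := by
      have : (fun w => F w * (starRingEnd ℂ) (D.ev χ w)) =
          fun w => ∑ i ∈ Finset.range M, v (t i) w * (starRingEnd ℂ) (D.ev χ w) := by
        funext w; simp only [hF, Finset.sum_mul]
      rw [this, integral_finsetSum _ fun i _ => ivc _]
      simp [hpair]
    have ivv : ∀ n m, Integrable (fun w => v n w * (starRingEnd ℂ) (v m w)) P := by
      intro n m
      refine Integrable.of_bound ((hvm n).mul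
        (Complex.continuous_conj.comp_aestronglyMeasurable (hvm m))) (C * C) ?_
      filter_upwards [hvb n, hvb m] with w h1 h2
      rw [norm_mul, RCLike.norm_conj]
      exact mul_le_mul h1 h2 (norm_nonneg _) hC0
    have hsum2 : ((∫ w, ‖F w‖ ^ 2 ∂P : ℝ) : ℂ) =
        ∑ i ∈ Finset.range M, ∑ j ∈ Finset.range M,
          ∫ w, v (t i) w * (starRingEnd ℂ) (v (t j) w) ∂P := by
      have h9 : ((∫ w, ‖F w‖ ^ 2 ∂P : ℝ) : ℂ) = ∫ w, ((‖F w‖ ^ 2 : ℝ) : ℂ) ∂P :=
        integral_ofReal.symm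
      rw [h9]
      have : (fun w => ((‖F w‖ ^ 2 : ℝ) : ℂ)) = fun w => ∑ i ∈ Finset.range M,
          ∑ j ∈ Finset.range M, v (t i) w * (starRingEnd ℂ) (v (t j) w) := by
        funext w
        rw [← Complex.normSq_eq_norm_sq, ← Complex.mul_conj]
        simp only [hF, map_sum, Finset.sum_mul, Finset.mul_sum]
        exact Finset.sum_comm
      rw [this, integral_finsetSum _ fun i _ => integrable_finsetSum _ fun j _ => ivv _ _]
      refine Finset.sum_congr rfl fun i _ => ?_
      rw [integral_finsetSum _ fun j _ => ivv _ _]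
    have hdiag : ∀ n, ‖∫ w, v n w * (starRingEnd ℂ) (v n w) ∂P‖ ≤ C ^ 2 := by
      intro n
      have := norm_integral_le_of_norm_le_const (μ := P) (C := C ^ 2)
        (f := fun w => v n w * (starRingEnd ℂ) (v n w)) (by
          filter_upwards [hvb n] with w hw
          rw [norm_mul, RCLike.norm_conj, sq]
          exact mul_le_mul hw hw (norm_nonneg _) hC0)
      simpa using this
    have hoff : ∀ i j, i ≠ j → ‖∫ w, v (t i) w * (starRingEnd ℂ) (v (t j) w) ∂P‖ ≤
        ‖δ‖ ^ 2 / 2 := by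
      have key : ∀ i j, j < i → ‖∫ w, v (t i) w * (starRingEnd ℂ) (v (t j) w) ∂P‖ ≤
          ‖δ‖ ^ 2 / 2 := by
        intro i j hij
        have hle : t j ≤ t i := Nat.mul_le_mul_right _ hij.le
        refine (hin _ _ hle).trans (le_of_lt (hR _ ?_))
        have h1 : 1 ≤ i - j := by omega
        have h2 : R + 1 ≤ t i - t j := by
          rw [ht]
          simp only
          rw [← Nat.sub_mul]
          exact Nat.le_mul_of_pos_left _ h1
        calc R ≤ (t i - t j) * 1 := by omega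
          _ ≤ (t i - t j) * r := Nat.mul_le_mul_left _ hr
      intro i j hij
      rcases lt_or_gt_of_ne hij with h1 | h1
      · have h2 := key j i h1
        have h3 : ∫ w, v (t i) w * (starRingEnd ℂ) (v (t j) w) ∂P =
            (starRingEnd ℂ) (∫ w, v (t j) w * (starRingEnd ℂ) (v (t i) w) ∂P) := by
          rw [← integral_conj]
          refine integral_congr_ae (Eventually.of_forall fun w => ?_)
          simp only [map_mul, Complex.conj_conj]
          ring
        rw [h3, RCLike.norm_conj]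
        exact h2
      · exact key i j h1
    have hub : ∫ w, ‖F w‖ ^ 2 ∂P ≤ M * C ^ 2 + M ^ 2 * (‖δ‖ ^ 2 / 2) := by
      have h1 : ∫ w, ‖F w‖ ^ 2 ∂P = ‖((∫ w, ‖F w‖ ^ 2 ∂P : ℝ) : ℂ)‖ := by
        rw [Complex.norm_real, Real.norm_of_nonneg (integral_nonneg fun _ => by positivity)]
      rw [h1, hsum2]
      refine (norm_sum_le _ _).trans ?_
      have h2 : ∀ i ∈ Finset.range M, ‖∑ j ∈ Finset.range M,
          ∫ w, v (t i) w * (starRingEnd ℂ) (v (t j) w) ∂P‖ ≤ C ^ 2 + M * (‖δ‖ ^ 2 / 2) := by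
        intro i hi
        refine (norm_sum_le _ _).trans ?_
        calc ∑ j ∈ Finset.range M, ‖∫ w, v (t i) w * (starRingEnd ℂ) (v (t j) w) ∂P‖
            ≤ ∑ j ∈ Finset.range M, ((if i = j then C ^ 2 else 0) + ‖δ‖ ^ 2 / 2) := by
              refine Finset.sum_le_sum fun j _ => ?_
              split_ifs with hij
              · subst hij
                have := hdiag (t i)
                have : 0 ≤ ‖δ‖ ^ 2 / 2 := by positivity
                linarith [hdiag (t i)]
              · rw [zero_add]; exact hoff i j hij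
          _ = C ^ 2 + M * (‖δ‖ ^ 2 / 2) := by
              rw [Finset.sum_add_distrib, Finset.sum_ite_eq, if_pos hi]
              simp
      refine (Finset.sum_le_sum h2).trans ?_
      simp only [Finset.sum_const, Finset.card_range, nsmul_eq_mul]
      nlinarith
    have hlb : ‖(M : ℂ) * δ‖ ^ 2 ≤ ∫ w, ‖F w‖ ^ 2 ∂P := by
      rw [← hsum1]
      refine (norm_int_sq_le (F := fun w => F w * (starRingEnd ℂ) (D.ev χ w)) (hFm.mul
        (Complex.continuous_conj.comp_aestronglyMeasurable (D.ev_meas χ))) (C := M * C) ?_).trans ?_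
      · filter_upwards [hFb, D.ev_norm χ] with w h1 h2
        rw [norm_mul, RCLike.norm_conj, h2, mul_one]
        exact h1
      · refine le_of_eq (integral_congr_ae ?_)
        filter_upwards [D.ev_norm χ] with w h2
        simp only [norm_mul, RCLike.norm_conj, h2, mul_one]
    rw [norm_mul, Complex.norm_natCast, mul_pow] at hlb
    have hfin : (M : ℝ) ^ 2 * ‖δ‖ ^ 2 ≤ M * C ^ 2 + M ^ 2 * (‖δ‖ ^ 2 / 2) := hlb.trans hub
    rw [div_lt_iff₀ (half_pos hδpos)] at hM
    nlinarith

end Data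

end Crest.Agent.R069.End
end

-- ▼ part R069/End2
section

/-! Row 69, END part 2: trigonometric approximation. -/

set_option linter.unusedSectionVars false
set_option linter.unusedVariables false

open MeasureTheory Filter Topology

namespace Crest.Agent.R069.End

variable {X Ω : Type*} [MeasurableSpace X] [MeasurableSpace Ω]

/-- bounded a.e. measurable functions -/
def AB (P : Measure Ω) (F : Ω → ℂ) : Prop :=
  AEStronglyMeasurable F P ∧ ∃ C : ℝ, ∀ᵐ w ∂P, ‖F w‖ ≤ C

section AB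
variable {P : Measure Ω}

theorem AB.int [IsFiniteMeasure P] {F : Ω → ℂ} (h : AB P F) : Integrable F P := by
  obtain ⟨C, hC⟩ := h.2
  exact Integrable.of_bound h.1 C hC

theorem AB.mul {F G : Ω → ℂ} (hF : AB P F) (hG : AB P G) : AB P (fun w => F w * G w) := by
  obtain ⟨A, hA⟩ := hF.2
  obtain ⟨B, hB⟩ := hG.2
  refine ⟨hF.1.mul hG.1, A * B, ?_⟩
  filter_upwards [hA, hB] with w h1 h2
  rw [norm_mul]
  exact mul_le_mul h1 h2 (norm_nonneg _) ((norm_nonneg _).trans h1)

theorem AB.conj {F : Ω → ℂ} (hF : AB P F) : AB P (fun w => (starRingEnd ℂ) (F w)) := by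
  obtain ⟨A, hA⟩ := hF.2
  refine ⟨Complex.continuous_conj.comp_aestronglyMeasurable hF.1, A, ?_⟩
  filter_upwards [hA] with w h1
  rw [RCLike.norm_conj]; exact h1

theorem AB.sub {F G : Ω → ℂ} (hF : AB P F) (hG : AB P G) : AB P (fun w => F w - G w) := by
  obtain ⟨A, hA⟩ := hF.2
  obtain ⟨B, hB⟩ := hG.2
  refine ⟨hF.1.sub hG.1, A + B, ?_⟩
  filter_upwards [hA, hB] with w h1 h2
  exact (norm_sub_le _ _).trans (add_le_add h1 h2)

theorem AB.const (c : ℂ) : AB P (fun _ => c) :=
  ⟨aestronglyMeasurable_const, ‖c‖, Eventually.of_forall fun _ => le_rfl⟩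

theorem AB.sum {ι : Type*} (s : Finset ι) {F : ι → Ω → ℂ} (hF : ∀ i ∈ s, AB P (F i)) :
    AB P (fun w => ∑ i ∈ s, F i w) := by
  classical
  induction s using Finset.induction_on with
  | empty => simpa using AB.const (P := P) 0
  | insert a s ha ih =>
    have h1 := hF a (by simp)
    have h2 := ih fun i hi => hF i (by simp [hi])
    obtain ⟨A, hA⟩ := h1.2
    obtain ⟨B, hB⟩ := h2.2
    refine ⟨?_, A + B, ?_⟩
    · simp only [Finset.sum_insert ha]; exact h1.1.add h2.1
    · filter_upwards [hA, hB] with w h3 h4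
      rw [Finset.sum_insert ha]
      exact (norm_add_le _ _).trans (add_le_add h3 h4)

theorem AB.prod {ι : Type*} (s : Finset ι) {F : ι → Ω → ℂ} (hF : ∀ i ∈ s, AB P (F i)) :
    AB P (fun w => ∏ i ∈ s, F i w) := by
  classical
  induction s using Finset.induction_on with
  | empty => simpa using AB.const (P := P) 1
  | insert a s ha ih =>
    have h := (hF a (by simp)).mul (ih fun i hi => hF i (by simp [hi]))
    simpa only [Finset.prod_insert ha] using h

/-- `∫ |A - B|²` expanded -/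
theorem l2_sub [IsFiniteMeasure P] {A B : Ω → ℂ} (hA : AB P A) (hB : AB P B) :
    ((∫ w, ‖A w - B w‖ ^ 2 ∂P : ℝ) : ℂ) =
      ∫ w, A w * (starRingEnd ℂ) (A w) ∂P - ∫ w, A w * (starRingEnd ℂ) (B w) ∂P
        - (starRingEnd ℂ) (∫ w, A w * (starRingEnd ℂ) (B w) ∂P)
        + ∫ w, B w * (starRingEnd ℂ) (B w) ∂P := by
  have h9 : ((∫ w, ‖A w - B w‖ ^ 2 ∂P : ℝ) : ℂ) = ∫ w, ((‖A w - B w‖ ^ 2 : ℝ) : ℂ) ∂P :=
    integral_ofReal.symm
  rw [h9, ← integral_conj]
  have i1 : Integrable (fun w => A w * (starRingEnd ℂ) (A w)) P := (hA.mul hA.conj).int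
  have i2 : Integrable (fun w => A w * (starRingEnd ℂ) (B w)) P := (hA.mul hB.conj).int
  have i3 : Integrable (fun w => (starRingEnd ℂ) (A w * (starRingEnd ℂ) (B w))) P :=
    (hA.mul hB.conj).conj.int
  have i4 : Integrable (fun w => B w * (starRingEnd ℂ) (B w)) P := (hB.mul hB.conj).int
  have i12 : Integrable (fun w => A w * (starRingEnd ℂ) (A w) -
      A w * (starRingEnd ℂ) (B w)) P := i1.sub i2
  have i123 : Integrable (fun w => A w * (starRingEnd ℂ) (A w) -
      A w * (starRingEnd ℂ) (B w) - (starRingEnd ℂ) (A w * (starRingEnd ℂ) (B w))) P := i12.sub i3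
  rw [← integral_sub i1 i2, ← integral_sub i12 i3, ← integral_add i123 i4]
  refine integral_congr_ae (Eventually.of_forall fun w => ?_)
  simp only
  rw [← Complex.normSq_eq_norm_sq, ← Complex.mul_conj]
  simp only [map_sub, map_mul, Complex.conj_conj]
  ring

end AB

variable {μ : Measure X} {S : ℤ → X → X} {P : Measure Ω} {N : Type*} [CommGroup N]

namespace Data

variable (D : Data μ S P N)

theorem ev_AB (χ : N) : AB P (D.ev χ) :=
  ⟨D.ev_meas χ, 1, (D.ev_norm χ).mono fun _ h => h.le⟩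

theorem pr_AB {h : X → ℂ} (hh : BM h) : AB P (fun w => h (D.pr w)) :=
  ⟨(hh.1.comp D.mp.measurable).aestronglyMeasurable,
    hh.2.imp fun _ hC => Eventually.of_forall fun _ => hC _⟩

theorem sum_AB (F : Finset N) (c : N → ℂ) (g : N → N) :
    AB P (fun w => ∑ χ ∈ F, c χ * D.ev (g χ) w) :=
  AB.sum F fun χ _ => (AB.const (c χ)).mul (D.ev_AB _)

theorem int_pr {h : X → ℂ} (hh : BM h) : ∫ w, h (D.pr w) ∂P = ∫ x, h x ∂μ := by
  have h5 := integral_map (μ := P) D.mp.aemeasurable (f := h)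
    (by rw [D.mp.map_eq]; exact hh.1.aestronglyMeasurable)
  rw [D.mp.map_eq] at h5
  exact h5.symm

variable [IsProbabilityMeasure μ]

theorem int_ev_conj (χ ψ : N) : ∫ w, D.ev χ w * (starRingEnd ℂ) (D.ev ψ w) ∂P =
    ∫ w, D.ev (χ * ψ⁻¹) w ∂P :=
  (integral_congr_ae (D.ev_mul_inv χ ψ)).symm

theorem span' {h : X → ℂ} (hh : BM h) {ε : ℝ} (hε : 0 < ε) :
    ∃ (F : Finset N) (c : N → ℂ),
      (∀ χ ∈ F, ∫ w, h (D.pr w) * (starRingEnd ℂ) (D.ev χ w) ∂P ≠ 0) ∧
      ∫ w, ‖h (D.pr w) - ∑ χ ∈ F, c χ * D.ev χ w‖ ^ 2 ∂P < ε := by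
  classical
  have hP := D.isProb
  obtain ⟨F, c, hF⟩ := D.span h hh ε hε
  set co : N → ℂ := fun χ => ∫ w, h (D.pr w) * (starRingEnd ℂ) (D.ev χ w) ∂P with hco
  set F1 := F.filter fun χ => co χ ≠ 0 with hF1
  set F2 := F.filter fun χ => ¬ co χ ≠ 0 with hF2
  refine ⟨F1, c, fun χ hχ => (Finset.mem_filter.1 hχ).2, ?_⟩
  set A : Ω → ℂ := fun w => h (D.pr w) - ∑ χ ∈ F1, c χ * D.ev χ w with hA
  set B : Ω → ℂ := fun w => ∑ χ ∈ F2, c χ * D.ev χ w with hB
  have hAB1 : AB P A := (D.pr_AB hh).sub (D.sum_AB F1 c id)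
  have hAB2 : AB P B := D.sum_AB F2 c id
  have hsplit : ∀ w, h (D.pr w) - ∑ χ ∈ F, c χ * D.ev χ w = A w - B w := by
    intro w
    have := Finset.sum_filter_add_sum_filter_not F (fun χ => co χ ≠ 0)
      (fun χ => c χ * D.ev χ w)
    rw [hA, hB]
    simp only
    rw [sub_sub, this]
  -- orthogonality
  have horth : ∀ ψ ∈ F2, ∫ w, A w * (starRingEnd ℂ) (D.ev ψ w) ∂P = 0 := by
    intro ψ hψ
    have hψ0 : co ψ = 0 := by simpa using (Finset.mem_filter.1 hψ).2
    have e1 : ∀ w, A w * (starRingEnd ℂ) (D.ev ψ w) =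
        h (D.pr w) * (starRingEnd ℂ) (D.ev ψ w) -
          ∑ χ ∈ F1, c χ * (D.ev χ w * (starRingEnd ℂ) (D.ev ψ w)) := by
      intro w
      simp only [hA]
      rw [sub_mul, Finset.sum_mul]
      congr 1
      exact Finset.sum_congr rfl fun _ _ => by ring
    simp_rw [e1]
    have i1 : Integrable (fun w => h (D.pr w) * (starRingEnd ℂ) (D.ev ψ w)) P :=
      ((D.pr_AB hh).mul (D.ev_AB ψ).conj).int
    have i2 : ∀ χ ∈ F1, Integrable (fun w => c χ * (D.ev χ w * (starRingEnd ℂ) (D.ev ψ w))) P :=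
      fun χ _ => ((AB.const (c χ)).mul ((D.ev_AB χ).mul (D.ev_AB ψ).conj)).int
    rw [integral_sub i1 (integrable_finsetSum _ i2), integral_finsetSum _ i2]
    have e2 : ∫ w, h (D.pr w) * (starRingEnd ℂ) (D.ev ψ w) ∂P = 0 := hψ0
    rw [e2, zero_sub, neg_eq_zero]
    refine Finset.sum_eq_zero fun χ hχ => ?_
    rw [integral_const_mul]
    have hχ0 : co χ ≠ 0 := (Finset.mem_filter.1 hχ).2
    have e3 : ∫ w, D.ev χ w * (starRingEnd ℂ) (D.ev ψ w) ∂P = 0 := by
      by_contra hne
      rw [D.int_ev_conj] at hne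
      obtain ⟨z, hz⟩ := D.ev_mean _ hne
      apply hχ0
      have e4 : co χ = (starRingEnd ℂ) z * co ψ := by
        simp only [hco]
        rw [← integral_const_mul]
        refine integral_congr_ae ?_
        filter_upwards [hz, D.ev_mul_inv χ ψ, D.ev_norm ψ] with w h1 h2 h3
        have h4 : D.ev χ w = z * D.ev ψ w := by
          rw [← h1, h2, mul_assoc, mul_comm ((starRingEnd ℂ) (D.ev ψ w)), Complex.mul_conj,
            Complex.normSq_eq_norm_sq, h3]
          simp
        rw [h4, map_mul]; ring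
      rw [e4, hψ0, mul_zero]
    rw [e3, mul_zero]
  have hAB0 : ∫ w, A w * (starRingEnd ℂ) (B w) ∂P = 0 := by
    have e1 : ∀ w, A w * (starRingEnd ℂ) (B w) =
        ∑ ψ ∈ F2, (starRingEnd ℂ) (c ψ) * (A w * (starRingEnd ℂ) (D.ev ψ w)) := by
      intro w
      simp only [hB, map_sum, map_mul, Finset.mul_sum]
      exact Finset.sum_congr rfl fun _ _ => by ring
    simp_rw [e1]
    rw [integral_finsetSum _ fun ψ _ =>
      ((AB.const ((starRingEnd ℂ) (c ψ))).mul (hAB1.mul (D.ev_AB ψ).conj)).int]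
    refine Finset.sum_eq_zero fun ψ hψ => ?_
    rw [integral_const_mul, horth ψ hψ, mul_zero]
  have key := l2_sub hAB1 hAB2
  rw [hAB0] at key
  have keyA := l2_sub hAB1 (AB.const (P := P) 0)
  simp only [map_zero, mul_zero, integral_zero, sub_zero, add_zero] at keyA key
  have keyB := l2_sub hAB2 (AB.const (P := P) 0)
  simp only [map_zero, mul_zero, integral_zero, sub_zero, add_zero] at keyB
  rw [← keyA, ← keyB, ← Complex.ofReal_add, Complex.ofReal_inj] at key
  have hB0 : 0 ≤ ∫ w, ‖B w‖ ^ 2 ∂P := integral_nonneg fun _ => by positivity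
  have : ∫ w, ‖h (D.pr w) - ∑ χ ∈ F, c χ * D.ev χ w‖ ^ 2 ∂P = ∫ w, ‖A w - B w‖ ^ 2 ∂P := by
    simp_rw [hsplit]
  rw [this, key] at hF
  linarith

/-- the L² error is invariant under the dynamics -/
theorem norm_shift (hS : Act μ S) {h : X → ℂ} (hh : BM h) (F : Finset N) (c : N → ℂ) (n : ℤ) :
    ∫ w, ‖h (S n (D.pr w)) - ∑ χ ∈ F, c χ * D.ev ((D.al ^ n) χ) w‖ ^ 2 ∂P =
      ∫ w, ‖h (D.pr w) - ∑ χ ∈ F, c χ * D.ev χ w‖ ^ 2 ∂P := by
  have hP := D.isProb
  have hhn : BM (fun x => h (S n x)) := hh.comp (hS.mp n).measurable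
  have a1 : AB P (fun w => h (S n (D.pr w))) := D.pr_AB hhn
  have a2 := D.sum_AB F c (fun χ => (D.al ^ n) χ)
  have b1 := D.pr_AB hh
  have b2 : AB P (fun w => ∑ χ ∈ F, c χ * D.ev χ w) := D.sum_AB F c id
  have k1 := l2_sub a1 a2
  have k2 := l2_sub b1 b2
  rw [← Complex.ofReal_inj, k1, k2]
  have e1 : ∫ w, h (S n (D.pr w)) * (starRingEnd ℂ) (h (S n (D.pr w))) ∂P =
      ∫ w, h (D.pr w) * (starRingEnd ℂ) (h (D.pr w)) ∂P := by
    have hq : BM (fun x => h x * (starRingEnd ℂ) (h x)) := hh.mul hh.conj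
    have q1 := D.int_pr (h := fun x => h (S n x) * (starRingEnd ℂ) (h (S n x)))
      (hhn.mul hhn.conj)
    have q2 := D.int_pr hq
    rw [q1, q2]
    have h5 := integral_map (μ := μ) (hS.mp n).aemeasurable
      (f := fun x => h x * (starRingEnd ℂ) (h x))
      (by rw [(hS.mp n).map_eq]; exact hq.1.aestronglyMeasurable)
    rw [(hS.mp n).map_eq] at h5
    exact h5.symm
  have e2 : ∫ w, h (S n (D.pr w)) *
      (starRingEnd ℂ) (∑ χ ∈ F, c χ * D.ev ((D.al ^ n) χ) w) ∂P =
      ∫ w, h (D.pr w) * (starRingEnd ℂ) (∑ χ ∈ F, c χ * D.ev χ w) ∂P := by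
    have f1 : ∀ w, h (S n (D.pr w)) *
      (starRingEnd ℂ) (∑ χ ∈ F, c χ * D.ev ((D.al ^ n) χ) w) = ∑ χ ∈ F,
        (starRingEnd ℂ) (c χ) * (h (S n (D.pr w)) * (starRingEnd ℂ) (D.ev ((D.al ^ n) χ) w)) := by
      intro w
      simp only [map_sum, map_mul, Finset.mul_sum]
      exact Finset.sum_congr rfl fun _ _ => by ring
    have f2 : ∀ w, h (D.pr w) *
      (starRingEnd ℂ) (∑ χ ∈ F, c χ * D.ev χ w) = ∑ χ ∈ F,
        (starRingEnd ℂ) (c χ) * (h (D.pr w) * (starRingEnd ℂ) (D.ev χ w)) := by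
      intro w
      simp only [map_sum, map_mul, Finset.mul_sum]
      exact Finset.sum_congr rfl fun _ _ => by ring
    simp_rw [f1, f2]
    rw [integral_finsetSum _ fun χ _ =>
      ((AB.const ((starRingEnd ℂ) (c χ))).mul (a1.mul (D.ev_AB _).conj)).int,
      integral_finsetSum _ fun χ _ =>
      ((AB.const ((starRingEnd ℂ) (c χ))).mul (b1.mul (D.ev_AB _).conj)).int]
    refine Finset.sum_congr rfl fun χ _ => ?_
    rw [integral_const_mul, integral_const_mul, D.pair_zpow hS n hh χ]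
  have e3 : ∫ w, (∑ χ ∈ F, c χ * D.ev ((D.al ^ n) χ) w) *
      (starRingEnd ℂ) (∑ χ ∈ F, c χ * D.ev ((D.al ^ n) χ) w) ∂P =
      ∫ w, (∑ χ ∈ F, c χ * D.ev χ w) *
        (starRingEnd ℂ) (∑ χ ∈ F, c χ * D.ev χ w) ∂P := by
    have f1 : ∀ g : N → N, ∀ w, (∑ χ ∈ F, c χ * D.ev (g χ) w) *
      (starRingEnd ℂ) (∑ χ ∈ F, c χ * D.ev (g χ) w) = ∑ χ ∈ F, ∑ ψ ∈ F,
        (c χ * (starRingEnd ℂ) (c ψ)) * (D.ev (g χ) w * (starRingEnd ℂ) (D.ev (g ψ) w)) := by
      intro g w
      simp only [map_sum, map_mul, Finset.mul_sum, Finset.sum_mul]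
      rw [Finset.sum_comm]
      exact Finset.sum_congr rfl fun _ _ => Finset.sum_congr rfl fun _ _ => by ring
    have f3 : ∀ g : N → N, ∫ w, (∑ χ ∈ F, c χ * D.ev (g χ) w) *
      (starRingEnd ℂ) (∑ χ ∈ F, c χ * D.ev (g χ) w) ∂P = ∑ χ ∈ F, ∑ ψ ∈ F,
        (c χ * (starRingEnd ℂ) (c ψ)) * ∫ w, D.ev (g χ * (g ψ)⁻¹) w ∂P := by
      intro g
      simp_rw [f1 g]
      rw [integral_finsetSum _ fun χ _ => (AB.sum F fun ψ _ =>
        (AB.const (c χ * (starRingEnd ℂ) (c ψ))).mul ((D.ev_AB _).mul (D.ev_AB _).conj)).int]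
      refine Finset.sum_congr rfl fun χ _ => ?_
      rw [integral_finsetSum _ fun ψ _ =>
        ((AB.const (c χ * (starRingEnd ℂ) (c ψ))).mul ((D.ev_AB _).mul (D.ev_AB _).conj)).int]
      refine Finset.sum_congr rfl fun ψ _ => ?_
      rw [integral_const_mul, D.int_ev_conj]
    have g1 := f3 (fun χ => (D.al ^ n) χ)
    have g2 : ∫ w, (∑ χ ∈ F, c χ * D.ev χ w) *
        (starRingEnd ℂ) (∑ χ ∈ F, c χ * D.ev χ w) ∂P = ∑ χ ∈ F, ∑ ψ ∈ F,
        (c χ * (starRingEnd ℂ) (c ψ)) * ∫ w, D.ev (χ * ψ⁻¹) w ∂P := f3 id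
    rw [g1, g2]
    refine Finset.sum_congr rfl fun χ _ => Finset.sum_congr rfl fun ψ _ => ?_
    rw [← map_inv, ← map_mul, D.int_al_zpow]
  rw [e1, e2, e3]

end Data

end Crest.Agent.R069.End
end

-- ▼ part R69/Alg1
section

/-!
Row 69 (S0092), node (9b), part 1: the dominant term lemma.

`K` a field, `t ≠ 0` not a root of unity, finitely many coefficients `c i` and exponents `n k i`
whose pairwise differences tend to infinity along an ultrafilter: if `∑ i, t ^ n k i * c i = 0`
along the ultrafilter, then all `c i = 0`.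
-/

set_option autoImplicit false

open Filter Polynomial

namespace Crest.Agent.R69.Alg

/-- dominant term, `1 < v t` -/
theorem dominant_of_one_lt {F : Type*} [Field F] (v : AbsoluteValue F ℝ) (t : F) (ht : 1 < v t)
    {J : Type*} [Fintype J] (c : J → F) {ι : Type*} (U : Ultrafilter ι) (n : ι → J → ℤ)
    (hgap : ∀ i i', i ≠ i' → Tendsto (fun k => |n k i - n k i'|) U atTop)
    (hrel : ∀ᶠ k in (U : Filter ι), ∑ i, t ^ (n k i) * c i = 0) : ∀ i, c i = 0 := by
  classical
  have ht0 : t ≠ 0 := by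
    rintro rfl
    simp at ht
    linarith
  by_contra hne
  push Not at hne
  obtain ⟨i₁, hi₁⟩ := hne
  set S : Finset J := Finset.univ.filter (fun i => c i ≠ 0) with hS
  have hSne : S.Nonempty := ⟨i₁, by simp [hS, hi₁]⟩
  -- the index of the maximal exponent is constant along U
  have hmax : ∀ k, ∃ i ∈ S, ∀ i' ∈ S, n k i' ≤ n k i := fun k =>
    Finset.exists_max_image S (fun i => n k i) hSne
  have hev : ∀ᶠ k in (U : Filter ι), ∃ i ∈ S, ∀ i' ∈ S, n k i' ≤ n k i :=
    Eventually.of_forall hmax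
  have : ∃ i ∈ S, ∀ᶠ k in (U : Filter ι), ∀ i' ∈ S, n k i' ≤ n k i := by
    have h2 : ∀ᶠ k in (U : Filter ι), k ∈ ⋃ i ∈ (S : Set J), {k | ∀ i' ∈ S, n k i' ≤ n k i} := by
      filter_upwards [hev] with k hk
      simpa using hk
    have h3 := (Ultrafilter.finite_biUnion_mem_iff (f := U) (S.finite_toSet)
      (s := fun i => {k | ∀ i' ∈ S, n k i' ≤ n k i})).1 h2
    obtain ⟨i, hi, h⟩ := h3
    exact ⟨i, by simpa using hi, h⟩
  obtain ⟨i₀, hi₀, hmx⟩ := this
  have hc₀ : c i₀ ≠ 0 := by simpa [hS] using hi₀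
  -- bound
  have hbd : ∀ᶠ k in (U : Filter ι), v (c i₀) ≤ ∑ i ∈ S.erase i₀,
      (v t) ^ (-|n k i₀ - n k i|) * v (c i) := by
    filter_upwards [hrel, hmx] with k hk hm
    have e1 : ∑ i ∈ S, t ^ (n k i) * c i = 0 := by
      rw [← hk]
      refine Finset.sum_subset (Finset.subset_univ S) ?_
      intro i _ hi
      have : c i = 0 := by
        by_contra h
        exact hi (by simp [hS, h])
      simp [this]
    rw [← Finset.add_sum_erase S _ hi₀] at e1
    have e2 : t ^ (n k i₀) * c i₀ = -∑ i ∈ S.erase i₀, t ^ (n k i) * c i := by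
      linear_combination e1
    have e3 : c i₀ = -∑ i ∈ S.erase i₀, t ^ (n k i - n k i₀) * c i := by
      have hz : t ^ (n k i₀) ≠ 0 := zpow_ne_zero _ ht0
      apply mul_left_cancel₀ hz
      rw [e2, mul_neg, Finset.mul_sum]
      congr 1
      refine Finset.sum_congr rfl fun i _ => ?_
      rw [← mul_assoc, ← zpow_add₀ ht0]
      congr 2
      ring
    rw [e3, AbsoluteValue.map_neg]
    refine (v.sum_le _ _).trans ?_
    refine Finset.sum_le_sum fun i hi => ?_
    have hi' : i ∈ S := Finset.mem_of_mem_erase hi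
    have hle := hm i hi'
    rw [map_mul, map_zpow₀, abs_of_nonneg (by linarith)]
    rw [neg_sub]
  have hlim : Tendsto (fun k => ∑ i ∈ S.erase i₀, (v t) ^ (-|n k i₀ - n k i|) * v (c i))
      (U : Filter ι) (nhds 0) := by
    have : (0 : ℝ) = ∑ i ∈ S.erase i₀, 0 * v (c i) := by simp
    rw [this]
    refine tendsto_finsetSum _ fun i hi => ?_
    refine Tendsto.mul_const _ ?_
    have hne : i₀ ≠ i := (Finset.ne_of_mem_erase hi).symm
    have h1 := hgap i₀ i hne
    have h2 : Tendsto (fun m : ℤ => (v t) ^ (-m)) atTop (nhds 0) := by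
      have h3 : Tendsto (fun m : ℕ => ((v t)⁻¹) ^ m) atTop (nhds 0) :=
        tendsto_pow_atTop_nhds_zero_of_lt_one (by positivity) (inv_lt_one_of_one_lt₀ ht)
      rw [← Nat.map_cast_int_atTop, tendsto_map'_iff]
      refine h3.congr fun m => ?_
      simp [Function.comp]
    exact h2.comp h1
  have hle0 : v (c i₀) ≤ 0 := ge_of_tendsto hlim hbd
  have : 0 < v (c i₀) := v.pos hc₀
  linarith

/-- dominant term, `v t ≠ 1` -/
theorem dominant_of_ne_one {F : Type*} [Field F] (v : AbsoluteValue F ℝ) (t : F) (ht0 : t ≠ 0)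
    (ht : v t ≠ 1)
    {J : Type*} [Fintype J] (c : J → F) {ι : Type*} (U : Ultrafilter ι) (n : ι → J → ℤ)
    (hgap : ∀ i i', i ≠ i' → Tendsto (fun k => |n k i - n k i'|) U atTop)
    (hrel : ∀ᶠ k in (U : Filter ι), ∑ i, t ^ (n k i) * c i = 0) : ∀ i, c i = 0 := by
  rcases lt_or_gt_of_ne ht with h | h
  · refine dominant_of_one_lt v t⁻¹ ?_ c U (fun k i => - n k i) ?_ ?_
    · rw [map_inv₀]
      exact (one_lt_inv₀ (v.pos ht0)).2 h
    · intro i i' hii
      refine (hgap i i' hii).congr fun k => ?_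
      rw [← abs_neg]
      congr 1
      ring
    · filter_upwards [hrel] with k hk
      simpa using hk
  · exact dominant_of_one_lt v t h c U n hgap hrel

/-- an element of a number field which is not a root of unity has an absolute value `≠ 1`. -/
theorem exists_absoluteValue {F : Type*} [Field F] [NumberField F] (t : F)
    (ht : ∀ r : ℕ, 0 < r → t ^ r ≠ 1) : ∃ v : AbsoluteValue F ℝ, v t ≠ 1 := by
  by_cases hint : IsIntegral ℤ t
  · by_contra hcon
    push Not at hcon
    obtain ⟨r, hr, h⟩ := NumberField.Embeddings.pow_eq_one_of_norm_eq_one F ℂ hint (fun φ => by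
      simpa using hcon (NumberField.place φ))
    exact ht r hr h
  · by_contra hcon
    push Not at hcon
    apply hint
    have := IsDedekindDomain.HeightOneSpectrum.mem_integers_of_valuation_le_one
      (R := NumberField.RingOfIntegers F) F t (fun v => by
        have h1 := hcon (NumberField.HeightOneSpectrum.adicAbv F v)
        by_contra h2
        push Not at h2
        have h3 : 1 < NumberField.HeightOneSpectrum.adicAbv F v t := by
          rw [NumberField.HeightOneSpectrum.adicAbv_def]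
          have := (WithZeroMulInt.toNNReal_strictMono
            (NumberField.HeightOneSpectrum.one_lt_absNorm_nnreal v)) h2
          simpa using this
        linarith)
    obtain ⟨y, hy⟩ := this
    rw [← hy]
    exact NumberField.RingOfIntegers.isIntegral_coe y

end Crest.Agent.R69.Alg
end

-- ▼ part R69/Alg2
section

/-!
Row 69 (S0092), node (9b), part 2: the dominant term lemma in an arbitrary field.
-/

set_option autoImplicit false

open Filter Polynomial IntermediateField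

namespace Crest.Agent.R69.Alg

/-- polynomials shifted far apart are independent -/
theorem poly_shift_indep {k : Type*} [Field k] {J : Type*} [Fintype J] (P : J → k[X])
    (m : J → ℕ) (D : ℕ) (hD : ∀ i, (P i).natDegree ≤ D)
    (hgap : ∀ i i', i ≠ i' → (D : ℤ) < |(m i : ℤ) - m i'|)
    (hsum : ∑ i, X ^ (m i) * P i = 0) : ∀ i, P i = 0 := by
  classical
  intro i
  ext d
  rw [coeff_zero]
  by_cases hd : D < d
  · exact coeff_eq_zero_of_natDegree_lt (lt_of_le_of_lt (hD i) hd)
  push Not at hd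
  have h := congrArg (fun q => coeff q (m i + d)) hsum
  simp only [finsetSum_coeff, coeff_zero, coeff_X_pow_mul'] at h
  rw [Finset.sum_eq_single i] at h
  · simpa using h
  · intro i' _ hi'
    split_ifs with hle
    · apply coeff_eq_zero_of_natDegree_lt
      refine lt_of_le_of_lt (hD i') ?_
      have hg := hgap i i' hi'.symm
      rcases abs_cases ((m i : ℤ) - m i') with ⟨h1, h2⟩ | ⟨h1, h2⟩ <;> omega
    · rfl
  · intro hi
    exact absurd (Finset.mem_univ i) hi

/-- transcendental case, coefficients in `k⟮t⟯` -/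
theorem dominant_transcendental_aux {k K : Type*} [Field k] [Field K] [Algebra k K] (t : K)
    (ht : Transcendental k t)
    {J : Type*} [Fintype J] (c : J → K) (hc : ∀ i, c i ∈ k⟮t⟯)
    {ι : Type*} (U : Ultrafilter ι) (n : ι → J → ℤ)
    (hgap : ∀ i i', i ≠ i' → Tendsto (fun k => |n k i - n k i'|) U atTop)
    (hrel : ∀ᶠ k in (U : Filter ι), ∑ i, t ^ (n k i) * c i = 0) : ∀ i, c i = 0 := by
  classical
  have ht0 : t ≠ 0 := by
    rintro rfl
    exact ht (isAlgebraic_zero)
  have hrep : ∀ i, ∃ r s : k[X], aeval t s ≠ 0 ∧ c i = aeval t r / aeval t s := by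
    intro i
    obtain ⟨r, s, h⟩ := (IntermediateField.mem_adjoin_simple_iff k (c i)).1 (hc i)
    by_cases hs : aeval t s = 0
    · refine ⟨0, 1, by simp, ?_⟩
      rw [h, hs]
      simp
    · exact ⟨r, s, hs, h⟩
  choose r s hs hrs using hrep
  set Q : k[X] := ∏ i, s i with hQ
  have hQ0 : aeval t Q ≠ 0 := by
    rw [hQ, map_prod]
    exact Finset.prod_ne_zero_iff.2 fun i _ => hs i
  set P : J → k[X] := fun i => r i * ∏ i' ∈ Finset.univ.erase i, s i' with hP
  have hPc : ∀ i, aeval t (P i) = c i * aeval t Q := by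
    intro i
    have e : Q = s i * ∏ i' ∈ Finset.univ.erase i, s i' := by
      rw [hQ, Finset.mul_prod_erase _ _ (Finset.mem_univ i)]
    rw [e, hP, map_mul, map_mul, hrs i]
    field_simp [hs i]
  set D : ℕ := Finset.univ.sup (fun i => (P i).natDegree) with hDdef
  have hD : ∀ i, (P i).natDegree ≤ D := fun i =>
    Finset.le_sup (f := fun i => (P i).natDegree) (Finset.mem_univ i)
  have hgapD : ∀ᶠ k in (U : Filter ι), ∀ i i', i ≠ i' → (D : ℤ) < |n k i - n k i'| := by
    rw [eventually_all]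
    intro i
    rw [eventually_all]
    intro i'
    by_cases h : i = i'
    · exact Eventually.of_forall fun k hne => absurd h hne
    · filter_upwards [(hgap i i' h).eventually_gt_atTop (D : ℤ)] with k hk _
      exact hk
  obtain ⟨k₀, hk1, hk2⟩ := (hrel.and hgapD).exists
  -- normalise exponents
  set N : ℕ := ∑ i, (n k₀ i).natAbs with hN
  have hNi : ∀ i, 0 ≤ n k₀ i + N := by
    intro i
    have h1 : (n k₀ i).natAbs ≤ N :=
      Finset.single_le_sum (f := fun i => (n k₀ i).natAbs) (fun _ _ => Nat.zero_le _)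
        (Finset.mem_univ i)
    omega
  set m : J → ℕ := fun i => (n k₀ i + N).toNat with hm
  have hmi : ∀ i, (m i : ℤ) = n k₀ i + N := fun i => Int.toNat_of_nonneg (hNi i)
  have hsum : aeval t (∑ i, X ^ (m i) * P i) = 0 := by
    rw [map_sum]
    have : ∀ i, aeval t (X ^ (m i) * P i) = (t ^ (N : ℤ) * aeval t Q) * (t ^ (n k₀ i) * c i) := by
      intro i
      rw [map_mul, map_pow, aeval_X, hPc i]
      have : (t ^ (m i) : K) = t ^ (n k₀ i) * t ^ (N : ℤ) := by
        rw [← zpow_add₀ ht0, ← hmi i, zpow_natCast]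
      rw [this]
      ring
    simp_rw [this]
    rw [← Finset.mul_sum, hk1, mul_zero]
  have hz : ∑ i, X ^ (m i) * P i = 0 := by
    have hinj := (transcendental_iff_injective (R := k) (x := t)).1 ht
    exact hinj (by rw [hsum, map_zero])
  have hP0 := poly_shift_indep P m D hD (by
    intro i i' hne
    rw [hmi, hmi]
    have := hk2 i i' hne
    have e : n k₀ i + N - (n k₀ i' + N) = n k₀ i - n k₀ i' := by ring
    rw [e]
    exact this) hz
  intro i
  have := hPc i
  rw [hP0 i, map_zero] at this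
  rcases mul_eq_zero.1 this.symm with h | h
  · exact h
  · exact absurd h hQ0

/-- reduction to coefficients in a subfield containing `t` -/
theorem dominant_reduce {k K : Type*} [Field k] [Field K] [Algebra k K] (t : K)
    {J : Type*} [Fintype J] {ι : Type*} (U : Ultrafilter ι) (n : ι → J → ℤ)
    (H : ∀ c : J → k⟮t⟯, (∀ᶠ k' in (U : Filter ι), ∑ i, (AdjoinSimple.gen k t) ^ (n k' i) * c i = 0) →
      ∀ i, c i = 0)
    (c : J → K)
    (hrel : ∀ᶠ k in (U : Filter ι), ∑ i, t ^ (n k i) * c i = 0) : ∀ i, c i = 0 := by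
  intro i
  rw [← Module.forall_dual_apply_eq_zero_iff k⟮t⟯]
  intro φ
  refine H (fun i => φ (c i)) ?_ i
  filter_upwards [hrel] with k' hk'
  have h1 := congrArg φ hk'
  rw [map_sum, map_zero] at h1
  rw [← h1]
  refine Finset.sum_congr rfl fun i _ => ?_
  have h2 : t ^ (n k' i) * c i = ((AdjoinSimple.gen k t) ^ (n k' i)) • c i := by
    rw [Algebra.smul_def, map_zpow₀, AdjoinSimple.algebraMap_gen]
  rw [h2, map_smul, smul_eq_mul]

/-- **Dominant term lemma** in an arbitrary field. -/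
theorem dominant {K : Type*} [Field K] (t : K) (ht0 : t ≠ 0) (ht : ∀ r : ℕ, 0 < r → t ^ r ≠ 1)
    {J : Type*} [Fintype J] (c : J → K) {ι : Type*} (U : Ultrafilter ι) (n : ι → J → ℤ)
    (hgap : ∀ i i', i ≠ i' → Tendsto (fun k => |n k i - n k i'|) U atTop)
    (hrel : ∀ᶠ k in (U : Filter ι), ∑ i, t ^ (n k i) * c i = 0) : ∀ i, c i = 0 := by
  have htr : ∀ (k : Type) [Field k] [Algebra k K], Transcendental k t → ∀ i, c i = 0 := by
    intro k _ _ htk
    refine dominant_reduce (k := k) t U n ?_ c hrel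
    intro c' hc' i
    have h1 := dominant_transcendental_aux (k := k) t htk (fun i => (c' i : K))
      (fun i => (c' i).2) U n hgap (by
        filter_upwards [hc'] with k' hk'
        have := congrArg (algebraMap k⟮t⟯ K) hk'
        rw [map_sum, map_zero] at this
        rw [← this]
        refine Finset.sum_congr rfl fun i _ => ?_
        rw [map_mul, map_zpow₀, AdjoinSimple.algebraMap_gen]
        rfl) i
    exact Subtype.ext h1
  obtain ⟨p, hp⟩ := CharP.exists K
  rcases CharP.char_is_prime_or_zero K p with hprime | hzero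
  · -- characteristic `p`
    have : Fact p.Prime := ⟨hprime⟩
    let _ : Algebra (ZMod p) K := ZMod.algebra K p
    by_cases halg : IsAlgebraic (ZMod p) t
    · exfalso
      have : FiniteDimensional (ZMod p) (ZMod p)⟮t⟯ :=
        IntermediateField.adjoin.finiteDimensional halg.isIntegral
      have : Finite (ZMod p)⟮t⟯ := Module.finite_of_finite (ZMod p)
      set g : (ZMod p)⟮t⟯ := AdjoinSimple.gen (ZMod p) t with hg
      have hgt : (g : K) = t := AdjoinSimple.coe_gen (ZMod p) t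
      have hg0 : g ≠ 0 := by
        intro h
        apply ht0
        rw [← hgt, h]
        rfl
      obtain ⟨r, hr, h⟩ := isOfFinOrder_iff_pow_eq_one.1 (isOfFinOrder_of_finite (Units.mk0 g hg0))
      apply ht r hr
      have h2 := congrArg (fun u : ((ZMod p)⟮t⟯)ˣ => ((u : (ZMod p)⟮t⟯) : K)) h
      simpa [hgt] using h2
    · exact htr (ZMod p) halg
  · subst hzero
    have : CharZero K := CharP.charP_to_charZero K
    by_cases halg : IsAlgebraic ℚ t
    · refine dominant_reduce (k := ℚ) t U n ?_ c hrel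
      intro c' hc' i
      have : FiniteDimensional ℚ ℚ⟮t⟯ :=
        IntermediateField.adjoin.finiteDimensional halg.isIntegral
      have : NumberField ℚ⟮t⟯ := ⟨⟩
      set g : ℚ⟮t⟯ := AdjoinSimple.gen ℚ t with hg
      have hgt : (g : K) = t := AdjoinSimple.coe_gen ℚ t
      have hg0 : g ≠ 0 := by
        intro h
        apply ht0
        rw [← hgt, h]
        rfl
      obtain ⟨v, hv⟩ := exists_absoluteValue g (by
        intro r hr h
        apply ht r hr
        have h2 := congrArg (fun u : ℚ⟮t⟯ => (u : K)) h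
        simpa [hgt] using h2)
      exact dominant_of_ne_one v g hg0 hv c' U n hgap hc' i
    · exact htr ℚ halg

end Crest.Agent.R69.Alg
end

-- ▼ part R69/Alg3
section

/-!
Row 69 (S0092), node (9b), part 3: modules over `ℤ[T;T⁻¹]`, and abelian groups with an automorphism.
-/

set_option autoImplicit false

open Filter Polynomial LaurentPolynomial

namespace Crest.Agent.R69.Alg

/-- the multiplicative set generated by the `T ^ r - 1`, `r ≥ 1`. -/
noncomputable def S : Submonoid ℤ[T;T⁻¹] :=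
  Submonoid.closure {x | ∃ r : ℕ, 0 < r ∧ x = T (r : ℤ) - 1}

theorem T_sub_one_mem (r : ℕ) (hr : 0 < r) : (T (r : ℤ) - 1 : ℤ[T;T⁻¹]) ∈ S :=
  Submonoid.subset_closure ⟨r, hr, rfl⟩

theorem map_T {K : Type*} [Field K] (φ : ℤ[T;T⁻¹] →+* K) (n : ℤ) :
    φ (T n) = (φ (T 1)) ^ n := by
  have h1 : ∀ m : ℕ, φ (T (m : ℤ)) = (φ (T 1)) ^ m := by
    intro m
    rw [← map_pow, T_pow]
    simp
  rcases Int.eq_nat_or_neg n with ⟨m, rfl | rfl⟩
  · rw [h1, zpow_natCast]
  · have h2 : φ (T (-(m : ℤ))) * φ (T (m : ℤ)) = 1 := by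
      rw [← map_mul, ← T_add]
      simp
    rw [zpow_neg, zpow_natCast, ← h1]
    exact eq_inv_of_mul_eq_one_left h2

/-- a nonzero finite module has a nonzero map to a residue field -/
theorem exists_residue {A L : Type*} [CommRing A] [AddCommGroup L] [Module A L] [Module.Finite A L]
    [Nontrivial L] : ∃ (I : Ideal A) (_ : I.IsMaximal) (f : L →ₗ[A] A ⧸ I), f ≠ 0 := by
  obtain ⟨P, hP, -⟩ := (IsCoatomic.eq_top_or_exists_le_coatom (⊥ : Submodule A L)).resolve_left
    bot_ne_top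
  have hs : IsSimpleModule A (L ⧸ P) := isSimpleModule_iff_isCoatom.2 hP
  obtain ⟨I, hI, ⟨e⟩⟩ := isSimpleModule_iff_quot_maximal.mp hs
  refine ⟨I, hI, e.toLinearMap.comp P.mkQ, ?_⟩
  intro h
  apply hP.1
  rw [eq_top_iff]
  rintro x -
  have h1 : e (P.mkQ x) = 0 := by
    have := congrArg (fun q : L →ₗ[A] A ⧸ I => q x) h
    simpa using this
  rw [LinearEquiv.map_eq_zero_iff] at h1
  simpa using h1

theorem module_dominant {M : Type*} [AddCommGroup M] [Module ℤ[T;T⁻¹] M]
    {J : Type*} [Fintype J] (χ : J → M) {ι : Type*} (U : Ultrafilter ι) (n : ι → J → ℤ)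
    (hgap : ∀ i i', i ≠ i' → Tendsto (fun k => |n k i - n k i'|) U atTop)
    (hrel : ∀ᶠ k in (U : Filter ι), ∑ i, (T (n k i) : ℤ[T;T⁻¹]) • χ i = 0) :
    ∀ i, ∃ s ∈ S, s • χ i = 0 := by
  classical
  let N : Submodule ℤ[T;T⁻¹] M := Submodule.span _ (Set.range χ)
  have hχN : ∀ i, χ i ∈ N := fun i => Submodule.subset_span ⟨i, rfl⟩
  let χ' : J → N := fun i => ⟨χ i, hχN i⟩
  have hfin : Module.Finite ℤ[T;T⁻¹] N := Module.Finite.span_of_finite _ (Set.finite_range χ)
  let g : N →ₗ[ℤ[T;T⁻¹]] LocalizedModule S N := LocalizedModule.mkLinearMap S N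
  have hfin2 : Module.Finite (Localization S) (LocalizedModule S N) :=
    Module.Finite.of_isLocalizedModule S g
  have htriv : Subsingleton (LocalizedModule S N) := by
    by_contra hns
    rw [not_subsingleton_iff_nontrivial] at hns
    obtain ⟨I, hI, F, hF⟩ := exists_residue (A := Localization S) (L := LocalizedModule S N)
    let _ : Field (Localization S ⧸ I) := Ideal.Quotient.field I
    let φ : ℤ[T;T⁻¹] →+* Localization S ⧸ I :=
      (Ideal.Quotient.mk I).comp (algebraMap ℤ[T;T⁻¹] (Localization S))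
    let f : N → Localization S ⧸ I := fun x => F (g x)
    have hfadd : ∀ x y, f (x + y) = f x + f y := by
      intro x y
      simp [f]
    have hfsmul : ∀ (r : ℤ[T;T⁻¹]) (x : N), f (r • x) = φ r * f x := by
      intro r x
      have e1 : g (r • x) = (algebraMap ℤ[T;T⁻¹] (Localization S) r) • g x := by
        rw [map_smul, algebraMap_smul]
      simp only [f]
      rw [e1, map_smul]
      rfl
    have hf0 : f 0 = 0 := by simp [f]
    have hfsum : ∀ (s : Finset J) (x : J → N), f (∑ i ∈ s, x i) = ∑ i ∈ s, f (x i) := by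
      intro s x
      induction s using Finset.induction_on with
      | empty => simpa using hf0
      | insert a s ha ih => rw [Finset.sum_insert ha, Finset.sum_insert ha, hfadd, ih]
    have ht0 : φ (T 1) ≠ 0 := by
      have hu : IsUnit (φ (T 1)) := (isUnit_T 1).map φ
      exact hu.ne_zero
    have htr : ∀ r : ℕ, 0 < r → (φ (T 1)) ^ r ≠ 1 := by
      intro r hr h
      have hu : IsUnit (φ (T (r : ℤ) - 1)) := by
        have h1 : IsUnit (algebraMap ℤ[T;T⁻¹] (Localization S) (T (r : ℤ) - 1)) :=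
          IsLocalization.map_units (Localization S) (⟨_, T_sub_one_mem r hr⟩ : S)
        exact h1.map (Ideal.Quotient.mk I)
      apply hu.ne_zero
      rw [map_sub, map_one, map_T, zpow_natCast, h, sub_self]
    have hz : ∀ i, f (χ' i) = 0 := by
      refine dominant (φ (T 1)) ht0 htr (fun i => f (χ' i)) U n hgap ?_
      filter_upwards [hrel] with k hk
      have h1 : ∑ i, (T (n k i) : ℤ[T;T⁻¹]) • χ' i = 0 := by
        apply Subtype.ext
        simpa [χ'] using hk
      have h2 := congrArg f h1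
      rw [hfsum, hf0] at h2
      rw [← h2]
      refine Finset.sum_congr rfl fun i _ => ?_
      rw [hfsmul, map_T φ (n k i)]
    -- `f` vanishes on `N`
    have hfN : ∀ x : N, f x = 0 := by
      rintro ⟨x, hx⟩
      induction hx using Submodule.span_induction with
      | mem x hx =>
        obtain ⟨i, rfl⟩ := hx
        exact hz i
      | zero => exact hf0
      | add x y hx hy h1 h2 =>
        have := hfadd ⟨x, hx⟩ ⟨y, hy⟩
        rw [h1, h2, add_zero] at this
        exact this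
      | smul a x hx h1 =>
        have := hfsmul a ⟨x, hx⟩
        rw [h1, mul_zero] at this
        exact this
    apply hF
    ext y
    obtain ⟨⟨x, s⟩, rfl⟩ := IsLocalizedModule.mk'_surjective S g y
    have hsu : IsUnit (algebraMap ℤ[T;T⁻¹] (Localization S) s) :=
      IsLocalization.map_units (Localization S) s
    have h1 : (algebraMap ℤ[T;T⁻¹] (Localization S) s) • (IsLocalizedModule.mk' g x s) = g x := by
      rw [algebraMap_smul]
      exact IsLocalizedModule.mk'_cancel' g x s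
    have h2 : (algebraMap ℤ[T;T⁻¹] (Localization S) s) • F (IsLocalizedModule.mk' g x s) = 0 := by
      rw [← map_smul, h1]
      exact hfN x
    have h3 : F (IsLocalizedModule.mk' g x s) = 0 := by
      exact (IsUnit.smul_eq_zero hsu).1 h2
    exact h3
  intro i
  have h1 : g (χ' i) = 0 := Subsingleton.elim _ _
  obtain ⟨s, hs⟩ := (IsLocalizedModule.eq_zero_iff S g).1 h1
  refine ⟨s, s.2, ?_⟩
  exact congrArg (fun x : N => (x : M)) hs

end Crest.Agent.R69.Alg
end

-- ▼ part R69/Alg4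
section

/-!
Row 69 (S0092), node (9b), part 4: commutative groups with an automorphism.
-/

set_option autoImplicit false

open Filter Polynomial LaurentPolynomial

namespace Crest.Agent.R69.Alg

/-- `Tors θ χ`: `χ` is killed by a product of elements `θ ^ r - 1`, `r ≥ 1`. -/
inductive Tors {Λ : Type*} [CommGroup Λ] (θ : MulAut Λ) : Λ → Prop
  | one : Tors θ 1
  | step (χ : Λ) (r : ℕ) (hr : 0 < r) (h : Tors θ ((θ ^ r) χ * χ⁻¹)) : Tors θ χ

variable {Λ : Type*} [CommGroup Λ]

/-- the powers of `θ` as endomorphisms of `Additive Λ` -/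
noncomputable def powEnd (θ : MulAut Λ) : Multiplicative ℤ →* AddMonoid.End (Additive Λ) where
  toFun n := MonoidHom.toAdditive ((θ ^ (Multiplicative.toAdd n) : MulAut Λ).toMonoidHom)
  map_one' := by
    ext x
    simp only [toAdd_one, zpow_zero]
    rfl
  map_mul' a b := by
    ext x
    simp only [toAdd_mul, zpow_add]
    rfl

/-- the ring morphism `ℤ[T;T⁻¹] → End Λ` -/
noncomputable def ringEnd (θ : MulAut Λ) : ℤ[T;T⁻¹] →+* AddMonoid.End (Additive Λ) :=
  (AddMonoidAlgebra.lift ℤ (AddMonoid.End (Additive Λ)) ℤ (powEnd θ)).toRingHom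

theorem ringEnd_T (θ : MulAut Λ) (n : ℤ) (x : Λ) :
    ringEnd θ (T n) (Additive.ofMul x) = Additive.ofMul ((θ ^ n) x) := by
  have : ringEnd θ (T n) = powEnd θ (Multiplicative.ofAdd n) := by
    have h := AddMonoidAlgebra.lift_single (powEnd θ) n (1 : ℤ)
    rw [one_smul] at h
    exact h
  rw [this]
  rfl

/-- **(9b), group form.** -/
theorem group_dominant (θ : MulAut Λ) {J : Type*} [Fintype J] (χ : J → Λ) {ι : Type*}
    (U : Ultrafilter ι) (n : ι → J → ℤ)
    (hgap : ∀ i i', i ≠ i' → Tendsto (fun k => |n k i - n k i'|) U atTop)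
    (hrel : ∀ᶠ k in (U : Filter ι), ∏ i, (θ ^ (n k i)) (χ i) = 1) :
    ∀ i, Tors θ (χ i) := by
  let _ : Module ℤ[T;T⁻¹] (Additive Λ) := Module.compHom (Additive Λ) (ringEnd θ)
  have hT : ∀ (n : ℤ) (x : Λ), (T n : ℤ[T;T⁻¹]) • (Additive.ofMul x) =
      Additive.ofMul ((θ ^ n) x) := fun n x => ringEnd_T θ n x
  have key := module_dominant (M := Additive Λ) (fun i => Additive.ofMul (χ i)) U n hgap (by
    filter_upwards [hrel] with k hk
    simp_rw [hT]
    rw [← ofMul_prod, hk]
    rfl)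
  have hS : ∀ s ∈ S, ∀ x : Λ, Tors θ (Additive.toMul (s • (Additive.ofMul x))) → Tors θ x := by
    intro s hs
    induction hs using Submonoid.closure_induction with
    | mem s hs =>
      obtain ⟨r, hr, rfl⟩ := hs
      intro x hx
      refine Tors.step x r hr ?_
      have e : ((T (r : ℤ) - 1 : ℤ[T;T⁻¹])) • (Additive.ofMul x) =
          Additive.ofMul ((θ ^ r) x * x⁻¹) := by
        rw [sub_smul, one_smul, hT, zpow_natCast, ← ofMul_div, div_eq_mul_inv]
      rw [e] at hx
      exact hx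
    | one =>
      intro x hx
      rw [one_smul] at hx
      exact hx
    | mul a b _ _ ha hb =>
      intro x hx
      rw [mul_smul] at hx
      exact hb x (ha (Additive.toMul (b • (Additive.ofMul x))) hx)
  intro i
  obtain ⟨s, hs, h⟩ := key i
  refine hS s hs (χ i) ?_
  rw [h]
  exact Tors.one

end Crest.Agent.R69.Alg
end

-- ▼ part R069/End3
section

/-! Row 69, END part 3: relations between characters, mixing of all orders. -/

set_option linter.unusedSectionVars false
set_option linter.unusedVariables false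

open MeasureTheory Filter Topology

namespace Crest.Agent.R069.End

variable {X Ω : Type*} [MeasurableSpace X] [MeasurableSpace Ω]
variable {μ : Measure X} {S : ℤ → X → X} {P : Measure Ω} {N : Type*} [CommGroup N]

namespace Data

variable (D : Data μ S P N)

/-- the factors during the replacement process -/
noncomputable def G {I : Type*} [DecidableEq I] (f : I → X → ℂ) (F : I → Finset N)
    (c : I → N → ℂ) (J : Finset I) (n : I → ℤ) (i : I) (w : Ω) : ℂ :=
  if i ∈ J then ∑ χ ∈ F i, c i χ * D.ev ((D.al ^ (n i)) χ) w else f i (S (n i) (D.pr w))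

variable [IsProbabilityMeasure μ]

theorem G_AB (hS : Act μ S) {I : Type*} [DecidableEq I] (f : I → X → ℂ) (hf : ∀ i, BM (f i))
    (F : I → Finset N) (c : I → N → ℂ) (J : Finset I) (n : I → ℤ) (i : I) :
    AB P (D.G f F c J n i) := by
  unfold G
  split_ifs with h
  · exact D.sum_AB (F i) (c i) _
  · exact D.pr_AB ((hf i).comp (hS.mp _).measurable)

theorem approx (hS : Act μ S) {I : Type*} [Fintype I] [DecidableEq I] (f : I → X → ℂ)
    (hf : ∀ i, BM (f i)) (J : Finset I) : ∀ ε : ℝ, 0 < ε →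
    ∃ (F : I → Finset N) (c : I → N → ℂ),
      (∀ i ∈ J, ∀ χ ∈ F i, ∫ w, f i (D.pr w) * (starRingEnd ℂ) (D.ev χ w) ∂P ≠ 0) ∧
      ∀ n : I → ℤ, ‖∫ w, ∏ i, f i (S (n i) (D.pr w)) ∂P - ∫ w, ∏ i, D.G f F c J n i w ∂P‖ ≤ ε := by
  have hP := D.isProb
  choose C hC using fun i => (hf i).2
  induction J using Finset.induction_on with
  | empty =>
    intro ε hε
    refine ⟨fun _ => ∅, fun _ _ => 0, by simp, fun n => ?_⟩
    simp only [G, Finset.notMem_empty, if_false, sub_self, norm_zero]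
    exact hε.le
  | insert j J hj ih =>
    intro ε hε
    obtain ⟨F, c, h1, h2⟩ := ih (ε / 2) (half_pos hε)
    set B : I → ℝ := fun i => (∑ χ ∈ F i, ‖c i χ‖) + |C i| with hB
    have hB0 : ∀ i, 0 ≤ B i := fun i => by positivity
    set K : ℝ := ∏ i ∈ Finset.univ.erase j, B i with hK
    have hK0 : 0 ≤ K := Finset.prod_nonneg fun i _ => hB0 i
    have hη : 0 < (ε / 2 / (K + 1)) ^ 2 := by positivity
    obtain ⟨Fj, cj, h3, h4⟩ := D.span' (hf j) hη
    set F' := Function.update F j Fj with hF'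
    set c' := Function.update c j cj with hc'
    refine ⟨F', c', ?_, ?_⟩
    · intro i hi χ hχ
      rcases Finset.mem_insert.1 hi with rfl | hi
      · rw [hF', Function.update_self] at hχ
        exact h3 χ hχ
      · have hij : i ≠ j := fun h => hj (h ▸ hi)
        rw [hF', Function.update_of_ne hij] at hχ
        exact h1 i hi χ hχ
    · intro n
      have hGe : ∀ i, i ≠ j → ∀ w, D.G f F' c' (insert j J) n i w = D.G f F c J n i w := by
        intro i hij w
        unfold G
        rw [hF', hc', Function.update_of_ne hij, Function.update_of_ne hij]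
        simp only [Finset.mem_insert, hij, false_or]
      have hGj : ∀ w, D.G f F' c' (insert j J) n j w =
          ∑ χ ∈ Fj, cj χ * D.ev ((D.al ^ (n j)) χ) w := by
        intro w
        unfold G
        rw [if_pos (Finset.mem_insert_self _ _), hF', hc', Function.update_self,
          Function.update_self]
      have hGj' : ∀ w, D.G f F c J n j w = f j (S (n j) (D.pr w)) := by
        intro w
        unfold G
        rw [if_neg hj]
      have hbd : ∀ᵐ w ∂P, ∀ i, ‖D.G f F c J n i w‖ ≤ B i := by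
        rw [ae_all_iff]
        intro i
        have hall : ∀ᵐ w ∂P, ∀ χ ∈ F i, ‖D.ev ((D.al ^ (n i)) χ) w‖ = 1 :=
          (ae_ball_iff (F i).countable_toSet).2 fun χ _ => D.ev_norm _
        filter_upwards [hall] with w hw
        unfold G
        split_ifs with h
        · refine (norm_sum_le _ _).trans ?_
          have : ∑ χ ∈ F i, ‖c i χ * D.ev ((D.al ^ (n i)) χ) w‖ = ∑ χ ∈ F i, ‖c i χ‖ :=
            Finset.sum_congr rfl fun χ hχ => by rw [norm_mul, hw χ hχ, mul_one]
          rw [this, hB]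
          have := abs_nonneg (C i)
          simp only; linarith
        · refine ((hC i _).trans (le_abs_self _)).trans ?_
          rw [hB]
          have : 0 ≤ ∑ χ ∈ F i, ‖c i χ‖ := by positivity
          simp only; linarith
      set A : Ω → ℂ := fun w => ∏ i ∈ Finset.univ.erase j, D.G f F c J n i w with hA
      have hAAB : AB P A := AB.prod _ fun i _ => D.G_AB hS f hf F c J n i
      set E : Ω → ℂ := fun w => f j (S (n j) (D.pr w)) -
        ∑ χ ∈ Fj, cj χ * D.ev ((D.al ^ (n j)) χ) w with hE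
      have hEAB : AB P E := (D.pr_AB ((hf j).comp (hS.mp _).measurable)).sub (D.sum_AB Fj cj _)
      have hAb : ∀ᵐ w ∂P, ‖A w‖ ≤ K := by
        filter_upwards [hbd] with w hw
        rw [hA, hK]
        simp only
        rw [norm_prod]
        exact Finset.prod_le_prod (fun i _ => norm_nonneg _) fun i _ => hw i
      have e1 : ∫ w, ∏ i, D.G f F c J n i w ∂P - ∫ w, ∏ i, D.G f F' c' (insert j J) n i w ∂P =
          ∫ w, A w * E w ∂P := by
        rw [← integral_sub (AB.prod _ fun i _ => D.G_AB hS f hf F c J n i).int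
          (AB.prod _ fun i _ => D.G_AB hS f hf F' c' (insert j J) n i).int]
        refine integral_congr_ae (Eventually.of_forall fun w => ?_)
        simp only
        rw [← Finset.mul_prod_erase Finset.univ (fun i => D.G f F c J n i w) (Finset.mem_univ j),
          ← Finset.mul_prod_erase Finset.univ (fun i => D.G f F' c' (insert j J) n i w)
            (Finset.mem_univ j), hGj, hGj']
        have : ∏ i ∈ Finset.univ.erase j, D.G f F' c' (insert j J) n i w = A w :=
          Finset.prod_congr rfl fun i hi => hGe i (Finset.ne_of_mem_erase hi) w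
        rw [this, hE]
        simp only [hA]
        ring
      have e2 : ∫ w, ‖E w‖ ^ 2 ∂P < (ε / 2 / (K + 1)) ^ 2 := by
        rw [hE]
        simp only
        rw [D.norm_shift hS (hf j) Fj cj (n j)]
        exact h4
      have e3 : ‖∫ w, A w * E w ∂P‖ ≤ ε / 2 := by
        have q1 : ‖∫ w, A w * E w ∂P‖ ≤ ∫ w, K * ‖E w‖ ∂P := by
          refine norm_integral_le_of_norm_le (hEAB.int.norm.const_mul K) ?_
          filter_upwards [hAb] with w hw
          rw [norm_mul]
          exact mul_le_mul_of_nonneg_right hw (norm_nonneg _)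
        rw [integral_const_mul] at q1
        obtain ⟨CE, hCE⟩ := hEAB.2
        have q2 : (∫ w, ‖E w‖ ∂P) ^ 2 ≤ ∫ w, ‖E w‖ ^ 2 ∂P := by
          have := norm_int_sq_le (P := P) (F := fun w => ((‖E w‖ : ℝ) : ℂ)) (C := CE)
            (Complex.continuous_ofReal.comp_aestronglyMeasurable hEAB.1.norm) (by
              filter_upwards [hCE] with w hw
              rw [Complex.norm_real, norm_norm]; exact hw)
          have hc9 : ∫ w, ((‖E w‖ : ℝ) : ℂ) ∂P = ((∫ w, ‖E w‖ ∂P : ℝ) : ℂ) := integral_ofReal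
          rw [hc9, Complex.norm_real, Real.norm_eq_abs, sq_abs] at this
          simpa only [Complex.norm_real, norm_norm] using this
        have q3 : ∫ w, ‖E w‖ ∂P ≤ ε / 2 / (K + 1) :=
          le_of_lt (lt_of_pow_lt_pow_left₀ 2 (by positivity) (q2.trans_lt e2))
        calc ‖∫ w, A w * E w ∂P‖ ≤ K * ∫ w, ‖E w‖ ∂P := q1
          _ ≤ (K + 1) * (ε / 2 / (K + 1)) :=
            mul_le_mul (by linarith) q3 (integral_nonneg fun _ => norm_nonneg _) (by linarith)
          _ = ε / 2 := by field_simp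
      have := h2 n
      calc _ = ‖(∫ w, ∏ i, f i (S (n i) (D.pr w)) ∂P - ∫ w, ∏ i, D.G f F c J n i w ∂P) +
            (∫ w, ∏ i, D.G f F c J n i w ∂P -
              ∫ w, ∏ i, D.G f F' c' (insert j J) n i w ∂P)‖ := by
            congr 1; ring
        _ ≤ ε / 2 + ε / 2 := (norm_add_le _ _).trans (add_le_add this (by rw [e1]; exact e3))
        _ = ε := add_halves ε

theorem ev_prod {I : Type*} (s : Finset I) (g : I → N) :
    ∀ᵐ w ∂P, D.ev (∏ i ∈ s, g i) w = ∏ i ∈ s, D.ev (g i) w := by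
  classical
  induction s using Finset.induction_on with
  | empty => simpa using D.ev_one
  | insert a s ha ih =>
    filter_upwards [ih, D.ev_mul (g a) (∏ i ∈ s, g i)] with w h1 h2
    rw [Finset.prod_insert ha, Finset.prod_insert ha, h2, h1]

theorem scal_map : D.scal.map (D.al : N →* N) = D.scal := by
  ext χ
  constructor
  · rintro ⟨ψ, hψ, rfl⟩
    exact D.al_mem_scal.2 hψ
  · intro h
    refine ⟨D.al⁻¹ χ, ?_, ?_⟩
    · have : D.al (D.al⁻¹ χ) ∈ D.scal := by
        rw [← MulAut.mul_apply, mul_inv_cancel]; exact h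
      exact D.al_mem_scal.1 this
    · change D.al (D.al⁻¹ χ) = χ
      rw [← MulAut.mul_apply, mul_inv_cancel]; rfl

/-- the induced automorphism of `N / scal` -/
noncomputable def th : MulAut (N ⧸ D.scal) :=
  QuotientGroup.congr D.scal D.scal D.al D.scal_map

theorem th_mk (χ : N) : D.th (QuotientGroup.mk χ) = QuotientGroup.mk (D.al χ) := rfl

theorem th_pow_mk (n : ℕ) (χ : N) :
    (D.th ^ n) (QuotientGroup.mk χ) = QuotientGroup.mk ((D.al ^ n) χ) := by
  induction n with
  | zero => simp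
  | succ n ih => rw [pow_succ', MulAut.mul_apply, ih, th_mk, pow_succ', MulAut.mul_apply]

theorem th_zpow_mk (n : ℤ) (χ : N) :
    (D.th ^ n) (QuotientGroup.mk χ) = QuotientGroup.mk ((D.al ^ n) χ) := by
  obtain ⟨m, rfl | rfl⟩ := n.eq_nat_or_neg
  · rw [zpow_natCast, zpow_natCast]; exact D.th_pow_mk m χ
  · apply (D.th ^ m).injective
    rw [← MulAut.mul_apply, ← zpow_natCast, ← zpow_add, zpow_natCast, D.th_pow_mk,
      ← MulAut.mul_apply, ← zpow_natCast, ← zpow_add]
    simp

theorem exists_lev {q : N ⧸ D.scal} (h : Crest.Agent.R69.Alg.Tors D.th q) :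
    ∀ χ : N, QuotientGroup.mk χ = q → ∃ l : List ℕ, (∀ r ∈ l, 0 < r) ∧ χ ∈ D.lev l := by
  induction h with
  | one =>
    intro χ hχ
    exact ⟨[], by simp, (QuotientGroup.eq_one_iff χ).1 hχ⟩
  | step q r hr h ih =>
    intro χ hχ
    obtain ⟨l, h1, h2⟩ := ih (D.dl r χ) (by
      rw [← hχ, D.th_pow_mk, D.dl_apply, div_eq_mul_inv]
      rfl)
    exact ⟨r :: l, by simpa using ⟨hr, h1⟩, h2⟩

include D in
/-- **END, mean zero form.** -/
theorem tendsto_zero (hS : Act μ S) (hmix : Mix μ S) (I : Type) [Fintype I] [Nonempty I]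
    (s : I → ℕ → ℤ) (hs : ∀ i j, i ≠ j → Tendsto (fun k => |s i k - s j k|) atTop atTop)
    (f : I → X → ℂ) (hf : ∀ i, BM (f i)) (hf0 : ∀ i, ∫ x, f i x ∂μ = 0) :
    Tendsto (fun k => ∫ x, ∏ i, f i (S (s i k) x) ∂μ) atTop (𝓝 0) := by
  classical
  have hP := D.isProb
  have hpr : ∀ n : I → ℤ, ∫ x, ∏ i, f i (S (n i) x) ∂μ =
      ∫ w, ∏ i, f i (S (n i) (D.pr w)) ∂P := by
    intro n
    refine (D.int_pr (h := fun x => ∏ i, f i (S (n i) x)) ?_).symm
    choose C hC using fun i => (hf i).2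
    refine ⟨Finset.measurable_fun_prod _ fun i _ => (hf i).1.comp (hS.mp _).measurable,
      ∏ i, C i, fun x => ?_⟩
    rw [norm_prod]
    exact Finset.prod_le_prod (fun i _ => norm_nonneg _) fun i _ => hC i _
  by_contra hnot
  rw [Metric.tendsto_atTop] at hnot
  push Not at hnot
  obtain ⟨δ, hδ, hfr⟩ := hnot
  have hfr' : ∃ᶠ k in atTop, δ ≤ ‖∫ w, ∏ i, f i (S (s i k) (D.pr w)) ∂P‖ := by
    rw [frequently_atTop]
    intro a
    obtain ⟨b, hb, h⟩ := hfr a
    refine ⟨b, hb, ?_⟩
    rw [← hpr (fun i => s i b)]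
    simpa using h
  obtain ⟨F, c, h1, h2⟩ := D.approx hS f hf Finset.univ (δ / 2) (half_pos hδ)
  -- the trigonometric product
  have hexp : ∀ n : I → ℤ, ∫ w, ∏ i, D.G f F c Finset.univ n i w ∂P =
      ∑ φ ∈ Fintype.piFinset F, (∏ i, c i (φ i)) *
        ∫ w, D.ev (∏ i, (D.al ^ (n i)) (φ i)) w ∂P := by
    intro n
    have e1 : ∀ w, ∏ i, D.G f F c Finset.univ n i w = ∑ φ ∈ Fintype.piFinset F,
        (∏ i, c i (φ i)) * ∏ i, D.ev ((D.al ^ (n i)) (φ i)) w := by
      intro w
      simp only [G, Finset.mem_univ, if_true]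
      rw [Finset.prod_univ_sum]
      exact Finset.sum_congr rfl fun φ _ => Finset.prod_mul_distrib
    simp_rw [e1]
    rw [integral_finsetSum _ fun φ _ => ((AB.const (∏ i, c i (φ i))).mul
      (AB.prod _ fun i _ => D.ev_AB _)).int]
    refine Finset.sum_congr rfl fun φ _ => ?_
    rw [integral_const_mul]
    congr 1
    refine integral_congr_ae ?_
    filter_upwards [D.ev_prod Finset.univ (fun i => (D.al ^ (n i)) (φ i))] with w hw
    exact hw.symm
  have hfr2 : ∃ φ ∈ Fintype.piFinset F, ∃ᶠ k in atTop,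
      ∫ w, D.ev (∏ i, (D.al ^ (s i k)) (φ i)) w ∂P ≠ 0 := by
    by_contra hno
    push Not at hno
    have hev : ∀ᶠ k in (atTop : Filter ℕ), ∀ φ ∈ Fintype.piFinset F,
        ∫ w, D.ev (∏ i, (D.al ^ (s i k)) (φ i)) w ∂P = 0 := by
      rw [eventually_all_finset]
      exact hno
    obtain ⟨k, hk1, hk2⟩ := (hfr'.and_eventually hev).exists
    have h3 := h2 (fun i => s i k)
    rw [hexp, Finset.sum_eq_zero fun φ hφ => by rw [hk2 φ hφ, mul_zero], sub_zero] at h3
    linarith
  obtain ⟨φ, hφ, hfr3⟩ := hfr2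
  have hfr4 : ∃ᶠ k in atTop,
      ∏ i, (D.th ^ (s i k)) (QuotientGroup.mk (φ i) : N ⧸ D.scal) = 1 := by
    refine hfr3.mono fun k hk => ?_
    obtain ⟨z, hz⟩ := D.ev_mean _ hk
    simp_rw [D.th_zpow_mk]
    have hm : ∏ i, (D.al ^ (s i k)) (φ i) ∈ D.scal := ⟨z, hz⟩
    have h5 := (QuotientGroup.eq_one_iff _).2 hm
    rw [← h5]
    exact (map_prod (QuotientGroup.mk' D.scal) _ _).symm
  have hne : (atTop ⊓ 𝓟 {k : ℕ | ∏ i, (D.th ^ (s i k)) (QuotientGroup.mk (φ i) : N ⧸ D.scal) = 1}
      : Filter ℕ).NeBot := frequently_mem_iff_neBot.1 hfr4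
  set U : Ultrafilter ℕ := @Ultrafilter.of _ _ hne with hU
  have hU1 : (U : Filter ℕ) ≤ atTop ⊓ 𝓟 _ := @Ultrafilter.of_le _ _ hne
  have htor := Crest.Agent.R69.Alg.group_dominant D.th (fun i => QuotientGroup.mk (φ i)) U
    (fun k i => s i k) (fun i j hij => (hs i j hij).mono_left (hU1.trans inf_le_left))
    ((hU1.trans inf_le_right) (mem_principal_self _))
  obtain ⟨i⟩ := (inferInstance : Nonempty I)
  obtain ⟨l, hl1, hl2⟩ := D.exists_lev (htor i) (φ i) rfl
  exact h1 i (Finset.mem_univ i) (φ i) (Fintype.mem_piFinset.1 hφ i)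
    (D.nine_a hS hmix l hl1 (φ i) hl2 (f i) (hf i) (hf0 i))

include D in
/-- **END.** -/
theorem mixAll (hS : Act μ S) (hmix : Mix μ S) : MixAll μ S := by
  classical
  intro I _ s hs f hf
  have hP := D.isProb
  set m : I → ℂ := fun i => ∫ x, f i x ∂μ with hm
  set g : I → X → ℂ := fun i x => f i x - m i with hg
  have hgB : ∀ i, BM (g i) := fun i => (hf i).sub (BM.const _)
  have hg0 : ∀ i, ∫ x, g i x ∂μ = 0 := fun i => by
    simp only [hg]
    rw [integral_sub (hf i).integrable (integrable_const _)]; simp [hm]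
  have e1 : ∀ k x, ∏ i, f i (S (s i k) x) = ∑ t ∈ Finset.univ.powerset,
      (∏ i ∈ t, g i (S (s i k) x)) * ∏ i ∈ Finset.univ \ t, m i := by
    intro k x
    rw [← Finset.prod_add]
    exact Finset.prod_congr rfl fun i _ => by simp [hg]
  have hint : ∀ k, ∀ t ∈ (Finset.univ : Finset I).powerset, Integrable (fun x =>
      (∏ i ∈ t, g i (S (s i k) x)) * ∏ i ∈ Finset.univ \ t, m i) μ := by
    intro k t _
    refine Integrable.mul_const ?_ _
    have : BM (fun x => ∏ i ∈ t, g i (S (s i k) x)) := by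
      choose C hC using fun i => (hgB i).2
      refine ⟨Finset.measurable_fun_prod _ fun i _ => (hgB i).1.comp (hS.mp _).measurable,
        ∏ i ∈ t, C i, fun x => ?_⟩
      rw [norm_prod]
      exact Finset.prod_le_prod (fun i _ => norm_nonneg _) fun i _ => hC i _
    exact this.integrable
  simp_rw [e1]
  have e2 : ∀ k, ∫ x, ∑ t ∈ Finset.univ.powerset,
      (∏ i ∈ t, g i (S (s i k) x)) * ∏ i ∈ Finset.univ \ t, m i ∂μ =
      ∑ t ∈ Finset.univ.powerset, (∫ x, ∏ i ∈ t, g i (S (s i k) x) ∂μ) *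
        ∏ i ∈ Finset.univ \ t, m i := by
    intro k
    rw [integral_finsetSum _ (hint k)]
    exact Finset.sum_congr rfl fun t _ => integral_mul_const _ _
  simp_rw [e2]
  have e3 : ∏ i, m i = ∑ t ∈ (Finset.univ : Finset I).powerset,
      (if t = ∅ then 1 else 0) * ∏ i ∈ Finset.univ \ t, m i := by
    rw [Finset.sum_eq_single ∅]
    · simp
    · intro t _ ht; simp [ht]
    · intro h; simp at h
  rw [e3]
  refine tendsto_finsetSum _ fun t _ => Tendsto.mul_const _ ?_
  split_ifs with ht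
  · subst ht
    simp
  · have hne : Nonempty t := (Finset.nonempty_of_ne_empty ht).to_subtype
    have := D.tendsto_zero hS hmix t (fun i k => s i k)
      (fun i j hij => hs i j (fun h => hij (Subtype.ext h))) (fun i => g i) (fun i => hgB i)
      (fun i => hg0 i)
    refine this.congr fun k => ?_
    refine integral_congr_ae (Eventually.of_forall fun x => ?_)
    exact Finset.prod_coe_sort t (fun i => g i (S (s i k) x))

end Data

end Crest.Agent.R069.End
end

-- ▼ part R069/AsmEnd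
section

/-!
# Row 69 (S0092): the very end of the assembly (helper126)

`Top.STEP` is the structural step (for `r ≥ 3`, a standard Borel mixing system with a failing
`r`-tuple, all standard Borel mixing systems being `(r-1)`-mixing, has a bad factor carrying
`End.Data`); `Top.S0092_of_step` is the theorem.
-/

set_option autoImplicit false

open MeasureTheory Filter Set
open scoped ENNReal Topology

noncomputable section

namespace Crest.Agent.R069.Top

/-- bounded measurable real functions -/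
def BR {α : Type*} [MeasurableSpace α] (f : α → ℝ) : Prop :=
  Measurable f ∧ ∃ C : ℝ, ∀ x, |f x| ≤ C

/-- a tuple of integer sequences whose mutual distances tend to infinity along `UU` -/
def Far {ι : Type} (s : ι → ℕ → ℤ) : Prop :=
  ∀ i j, i ≠ j → Tendsto (fun k => |s i k - s j k|) (UU : Filter ℕ) atTop

/-- `X` is mixing along the tuple `s` -/
def MixAt (X : Sys) {ι : Type} [Fintype ι] (s : ι → ℕ → ℤ) : Prop :=
  ∀ f : ι → X.Ω → ℝ, (∀ i, BR (f i)) →
    Tendsto (fun k => ∫ x, ∏ i, f i (X.S (s i k) x) ∂X.μ) (UU : Filter ℕ)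
      (𝓝 (∏ i, ∫ x, f i x ∂X.μ))

/-- standard Borel mixing systems -/
structure SM (X : Sys) : Prop where
  std : StandardBorelSpace X.Ω
  mix : ∀ A B : Set X.Ω, MeasurableSet A → MeasurableSet B →
    Tendsto (fun n : ℕ => X.μ (A ∩ X.S n ⁻¹' B)) atTop (𝓝 (X.μ A * X.μ B))

/-- the structural step -/
def STEP : Prop :=
  ∀ r : ℕ, 3 ≤ r → ∀ s : Fin r → ℕ → ℤ, Far s →
    (∀ Z : Sys, SM Z → ∀ s' : Fin (r - 1) → ℕ → ℤ, Far s' → MixAt Z s') →
    ∀ X : Sys, SM X → ¬ MixAt X s →
      ∃ Y : Sys, SM Y ∧ ¬ MixAt Y s ∧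
        ∃ (Ω : Type) (_ : MeasurableSpace Ω) (P : Measure Ω) (N : Type) (_ : CommGroup N),
          Nonempty (End.Data Y.μ Y.S P N)

/-! ### bounded functions -/


theorem BR.memLp {α : Type*} [MeasurableSpace α] {μ : Measure α} [IsFiniteMeasure μ]
    {f : α → ℝ} (h : BR f) : MemLp f 2 μ := by
  obtain ⟨C, hC⟩ := h.2
  exact MemLp.of_bound h.1.aestronglyMeasurable C
    (Eventually.of_forall fun x => by rw [Real.norm_eq_abs]; exact hC x)

theorem BR.one {α : Type*} [MeasurableSpace α] : BR (fun _ : α => (1 : ℝ)) :=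
  ⟨measurable_const, 1, fun _ => by simp⟩

theorem BR.ofReal {α : Type*} [MeasurableSpace α] {f : α → ℝ} (h : BR f) :
    End.BM (fun x => (f x : ℂ)) := by
  obtain ⟨C, hC⟩ := h.2
  exact ⟨Complex.measurable_ofReal.comp h.1, C, fun x => by
    rw [Complex.norm_real, Real.norm_eq_abs]; exact hC x⟩

theorem BR.re {α : Type*} [MeasurableSpace α] {f : α → ℂ} (h : End.BM f) :
    BR (fun x => (f x).re) := by
  obtain ⟨C, hC⟩ := h.2
  exact ⟨Complex.measurable_re.comp h.1, C, fun x => (Complex.abs_re_le_norm _).trans (hC x)⟩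

theorem BR.im {α : Type*} [MeasurableSpace α] {f : α → ℂ} (h : End.BM f) :
    BR (fun x => (f x).im) := by
  obtain ⟨C, hC⟩ := h.2
  exact ⟨Complex.measurable_im.comp h.1, C, fun x => (Complex.abs_im_le_norm _).trans (hC x)⟩

/-! ### systems and measurable equivalences -/

/-- the `Act` structure of a system -/
theorem _root_.Crest.Agent.R069.Sys.act (X : Sys) : End.Act X.μ X.S where
  mp := X.S_mp
  add := X.S_add
  zero := X.S_zero

/-- the time one map -/
def _root_.Crest.Agent.R069.Sys.T (X : Sys) : X.Ω ≃ᵐ X.Ω where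
  toFun := X.S 1
  invFun := X.S (-1)
  left_inv x := by rw [← X.S_add]; simpa using X.S_zero x
  right_inv x := by rw [← X.S_add]; simpa using X.S_zero x
  measurable_toFun := (X.S_mp 1).measurable
  measurable_invFun := (X.S_mp (-1)).measurable

theorem T_apply (X : Sys) (x : X.Ω) : X.T x = X.S 1 x := rfl


theorem T_pow (X : Sys) (n : ℕ) (x : X.Ω) : (X.T ^ n : X.Ω ≃ᵐ X.Ω) x = X.S n x := by
  induction n generalizing x with
  | zero => rw [pow_zero, R69.me_one_apply, Nat.cast_zero, X.S_zero]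
  | succ n ih =>
    rw [pow_succ, R69.me_mul_apply, ih, T_apply, ← X.S_add]
    push_cast
    rfl

theorem T_zpow (X : Sys) (n : ℤ) (x : X.Ω) : (X.T ^ n : X.Ω ≃ᵐ X.Ω) x = X.S n x := by
  cases n with
  | ofNat n => rw [Int.ofNat_eq_natCast, zpow_natCast, T_pow]
  | negSucc n =>
    rw [zpow_negSucc]
    have h1 : (X.T ^ (n + 1) : X.Ω ≃ᵐ X.Ω) (X.S (Int.negSucc n) x) = x := by
      rw [T_pow, ← X.S_add]
      have : ((n + 1 : ℕ) : ℤ) + Int.negSucc n = 0 := by
        rw [Int.negSucc_eq]; push_cast; ring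
      rw [this, X.S_zero]
    have h2 := R69.me_inv_apply_self (X.T ^ (n + 1)) (X.S (Int.negSucc n) x)
    rw [h1] at h2
    exact h2

theorem SM.mixR {X : Sys} (h : SM X) : R69.Mix X.μ X.T := by
  intro A B hA hB
  refine (h.mix A B hA hB).congr fun n => ?_
  rw [← R69.me_pow_coe]
  congr 2
  ext x
  rw [mem_preimage, mem_preimage, T_pow]

/-- the system of a measurable equivalence -/
def sysOf {Γ : Type} [MeasurableSpace Γ] (ν : Measure Γ) [IsProbabilityMeasure ν] (T : Γ ≃ᵐ Γ)
    (hT : MeasurePreserving T ν ν) : Sys where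
  Ω := Γ
  μ := ν
  S n x := (T ^ n : Γ ≃ᵐ Γ) x
  S_zero x := by rw [zpow_zero]; rfl
  S_add a b x := R69.me_zpow_add T a b x
  S_mp n := R69.mp_zpow hT n

theorem sysOf_SM {Γ : Type} [MeasurableSpace Γ] [h : StandardBorelSpace Γ] (ν : Measure Γ)
    [IsProbabilityMeasure ν] (T : Γ ≃ᵐ Γ) (hT : MeasurePreserving T ν ν) (hm : R69.Mix ν T) :
    SM (sysOf ν T hT) where
  std := h
  mix A B hA hB := by
    refine (hm A B hA hB).congr fun n => ?_
    rw [← R69.me_pow_coe, ← zpow_natCast]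
    rfl

/-! ### two sites -/

/-- mixing of real functions at integer times -/
theorem SM.tendsto_real {X : Sys} (h : SM X) {f g : X.Ω → ℝ} (hf : BR f) (hg : BR g) :
    Tendsto (fun n : ℤ => ∫ x, f x * g (X.S n x) ∂X.μ) cofinite
      (𝓝 ((∫ x, f x ∂X.μ) * ∫ x, g x ∂X.μ)) := by
  have h1 := h.mixR.tendsto_L2 (X.S_mp 1) hf.memLp hg.memLp
  refine h1.congr fun n => ?_
  simp_rw [T_zpow]

theorem abs_atTop_iff {κ : Type*} {l : Filter κ} {u : κ → ℤ} :
    Tendsto (fun k => |u k|) l atTop ↔ Tendsto u l cofinite := by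
  rw [Int.cofinite_eq, ← Filter.comap_abs_atTop, tendsto_comap_iff]
  rfl

/-- mixing of complex functions -/
theorem SM.endMix {X : Sys} (h : SM X) : End.Mix X.μ X.S := by
  intro f g hf hg
  have hint : ∀ {F : X.Ω → ℂ}, End.BM F → Integrable F X.μ := fun {F} hF => by
    obtain ⟨C, hC⟩ := hF.2
    exact Integrable.of_bound hF.1.aestronglyMeasurable C (Eventually.of_forall hC)
  have hcast : Tendsto (fun n : ℕ => (n : ℤ)) atTop cofinite := by
    rw [Int.cofinite_eq]
    exact tendsto_natCast_atTop_atTop.mono_right le_sup_right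
  have key : ∀ {u v : X.Ω → ℝ}, BR u → BR v →
      Tendsto (fun n : ℕ => ∫ x, u x * v (X.S n x) ∂X.μ) atTop
        (𝓝 ((∫ x, u x ∂X.μ) * ∫ x, v x ∂X.μ)) := fun hu hv => (h.tendsto_real hu hv).comp hcast
  have hrr := key (BR.re hf) (BR.re hg)
  have hri := key (BR.re hf) (BR.im hg)
  have hir := key (BR.im hf) (BR.re hg)
  have hii := key (BR.im hf) (BR.im hg)
  have hiu : ∀ {u v : X.Ω → ℝ}, BR u → BR v → ∀ n : ℤ,
      Integrable (fun x => u x * v (X.S n x)) X.μ := by
    intro u v hu hv n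
    obtain ⟨C, hC⟩ := hu.2
    obtain ⟨D, hD⟩ := hv.2
    refine Integrable.of_bound (hu.1.mul (hv.1.comp (X.S_mp n).measurable)).aestronglyMeasurable
      (C * D) (Eventually.of_forall fun x => ?_)
    rw [Real.norm_eq_abs, abs_mul]
    exact mul_le_mul (hC x) (hD _) (abs_nonneg _) ((abs_nonneg _).trans (hC x))
  have hcomp : ∀ n : ℕ, ∫ x, f x * g (X.S n x) ∂X.μ =
      (((∫ x, (f x).re * (g (X.S n x)).re ∂X.μ) - ∫ x, (f x).im * (g (X.S n x)).im ∂X.μ : ℝ) : ℂ)
      + (((∫ x, (f x).re * (g (X.S n x)).im ∂X.μ) +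
        ∫ x, (f x).im * (g (X.S n x)).re ∂X.μ : ℝ) : ℂ) * Complex.I := by
    intro n
    rw [← integral_sub (hiu (BR.re hf) (BR.re hg) n) (hiu (BR.im hf) (BR.im hg) n),
      ← integral_add (hiu (BR.re hf) (BR.im hg) n) (hiu (BR.im hf) (BR.re hg) n)]
    have hI : Integrable (fun x => f x * g (X.S n x)) X.μ := by
      obtain ⟨C, hC⟩ := hf.2
      obtain ⟨D, hD⟩ := hg.2
      refine Integrable.of_bound (hf.1.mul (hg.1.comp (X.S_mp n).measurable)).aestronglyMeasurable
        (C * D) (Eventually.of_forall fun x => ?_)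
      rw [norm_mul]
      exact mul_le_mul (hC x) (hD _) (norm_nonneg _) ((norm_nonneg _).trans (hC x))
    have e := integral_re_add_im hI
    rw [← e]
    simp only [RCLike.re_to_complex, RCLike.im_to_complex, Complex.mul_re, Complex.mul_im,
      RCLike.I_to_complex]
    rfl
  have hlim : (∫ x, f x ∂X.μ) * ∫ x, g x ∂X.μ =
      ((((∫ x, (f x).re ∂X.μ) * ∫ x, (g x).re ∂X.μ) -
        ((∫ x, (f x).im ∂X.μ) * ∫ x, (g x).im ∂X.μ) : ℝ) : ℂ) +
      ((((∫ x, (f x).re ∂X.μ) * ∫ x, (g x).im ∂X.μ) +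
        ((∫ x, (f x).im ∂X.μ) * ∫ x, (g x).re ∂X.μ) : ℝ) : ℂ) * Complex.I := by
    have e1 := integral_re_add_im (hint hf)
    have e2 := integral_re_add_im (hint hg)
    rw [← e1, ← e2]
    simp only [RCLike.re_to_complex, RCLike.im_to_complex, RCLike.I_to_complex]
    push_cast
    have hI := Complex.I_mul_I
    linear_combination
      (((∫ x, (f x).im ∂X.μ : ℝ) : ℂ) * ((∫ x, (g x).im ∂X.μ : ℝ) : ℂ)) * hI
  simp_rw [hcomp]
  rw [hlim]
  have t1 := (Complex.continuous_ofReal.tendsto _).comp (hrr.sub hii)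
  have t2 := ((Complex.continuous_ofReal.tendsto _).comp (hri.add hir)).mul_const Complex.I
  exact t1.add t2

/-! ### `End.MixAll` along an arbitrary filter -/

theorem _root_.Crest.Agent.R069.End.MixAll.filter {X : Type*} [MeasurableSpace X] {μ : Measure X}
    {S : ℤ → X → X} (h : End.MixAll μ S) {κ : Type*} {l : Filter κ} {I : Type} [Fintype I]
    {s : I → κ → ℤ} (hs : ∀ i j, i ≠ j → Tendsto (fun k => |s i k - s j k|) l atTop)
    {f : I → X → ℂ} (hf : ∀ i, End.BM (f i)) :
    Tendsto (fun k => ∫ x, ∏ i, f i (S (s i k) x) ∂μ) l (𝓝 (∏ i, ∫ x, f i x ∂μ)) := by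
  rw [Metric.tendsto_nhds]
  intro ε hε
  by_contra hne
  rw [Filter.not_eventually] at hne
  have hev : ∀ n : ℕ, ∀ᶠ k in l, ∀ i j, i ≠ j → (n : ℤ) ≤ |s i k - s j k| := by
    intro n
    rw [eventually_all]
    intro i
    rw [eventually_all]
    intro j
    by_cases hij : i = j
    · exact Eventually.of_forall fun k hk => absurd hij hk
    · filter_upwards [(hs i j hij).eventually_ge_atTop (n : ℤ)] with k hk _ using hk
  choose k hk1 hk2 using fun n => (hne.and_eventually (hev n)).exists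
  have h1 := h I (fun i n => s i (k n)) (fun i j hij =>
    tendsto_atTop_mono (fun n => hk2 n i j hij) tendsto_natCast_atTop_atTop) f hf
  obtain ⟨N, hN⟩ := (Metric.tendsto_atTop.1 h1) ε hε
  exact hk1 N (hN N le_rfl)

/-- mixing of all orders gives `MixAt` -/
theorem mixAt_of_mixAll {X : Sys} (h : End.MixAll X.μ X.S) {ι : Type} [Fintype ι]
    {s : ι → ℕ → ℤ} (hs : Far s) : MixAt X s := by
  intro f hf
  have h1 := h.filter hs (f := fun i x => (f i x : ℂ)) (fun i => (hf i).ofReal)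
  have h2 := (Complex.continuous_re.tendsto _).comp h1
  have e1 : ∀ k, (∫ x, ∏ i, ((f i (X.S (s i k) x) : ℝ) : ℂ) ∂X.μ).re =
      ∫ x, ∏ i, f i (X.S (s i k) x) ∂X.μ := fun k => by
    have : ∀ x, ∏ i, ((f i (X.S (s i k) x) : ℝ) : ℂ) = ((∏ i, f i (X.S (s i k) x) : ℝ) : ℂ) :=
      fun x => by rw [Complex.ofReal_prod]
    simp_rw [this]
    have h3 : ∫ x, ((∏ i, f i (X.S (s i k) x) : ℝ) : ℂ) ∂X.μ =
        ((∫ x, ∏ i, f i (X.S (s i k) x) ∂X.μ : ℝ) : ℂ) := integral_ofReal
    rw [h3]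
    exact Complex.ofReal_re _
  have e2 : (∏ i, ∫ x, ((f i x : ℝ) : ℂ) ∂X.μ).re = ∏ i, ∫ x, f i x ∂X.μ := by
    have : ∀ i, ∫ x, ((f i x : ℝ) : ℂ) ∂X.μ = ((∫ x, f i x ∂X.μ : ℝ) : ℂ) := fun i =>
      integral_ofReal
    simp_rw [this]
    rw [← Complex.ofReal_prod]
    exact Complex.ofReal_re _
  rw [e2] at h2
  exact h2.congr e1

/-! ### few sites -/

theorem mixAt_zero (X : Sys) (s : Fin 0 → ℕ → ℤ) : MixAt X s := by
  intro f _
  simp

theorem integral_S (X : Sys) (n : ℤ) {f : X.Ω → ℝ} (hf : Measurable f) :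
    ∫ x, f (X.S n x) ∂X.μ = ∫ x, f x ∂X.μ := by
  have h1 := integral_map (μ := X.μ) (φ := X.S n) (X.S_mp n).measurable.aemeasurable
    (f := f) hf.aestronglyMeasurable
  rw [(X.S_mp n).map_eq] at h1
  exact h1.symm

theorem mixAt_one (X : Sys) (s : Fin 1 → ℕ → ℤ) : MixAt X s := by
  intro f hf
  simp only [Finset.univ_unique, Fin.default_eq_zero, Finset.prod_singleton]
  refine tendsto_const_nhds.congr fun k => ?_
  exact (integral_S X (s 0 k) (hf 0).1).symm

theorem SM.mixAt_two {X : Sys} (h : SM X) {s : Fin 2 → ℕ → ℤ} (hs : Far s) : MixAt X s := by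
  intro f hf
  simp only [Fin.prod_univ_two]
  have h1 := hs 1 0 (by decide)
  rw [abs_atTop_iff] at h1
  refine ((h.tendsto_real (hf 0) (hf 1)).comp h1).congr fun k => ?_
  have h2 := integral_S X (s 0 k) (f := fun x => f 0 x * f 1 (X.S (s 1 k - s 0 k) x))
    ((hf 0).1.mul ((hf 1).1.comp (X.S_mp _).measurable))
  simp only [← X.S_add, sub_add_cancel] at h2
  exact h2.symm

/-! ### padding -/

theorem MixAt.reindex {X : Sys} {ι κ : Type} [Fintype ι] [Fintype κ] (e : κ ≃ ι)
    {s : ι → ℕ → ℤ} (h : MixAt X (fun i => s (e i))) : MixAt X s := by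
  intro f hf
  have h1 := h (fun i => f (e i)) (fun i => hf _)
  have e2 : ∏ i, ∫ x, f (e i) x ∂X.μ = ∏ i, ∫ x, f i x ∂X.μ :=
    Equiv.prod_comp e (fun i => ∫ x, f i x ∂X.μ)
  rw [e2] at h1
  refine h1.congr fun k => ?_
  refine integral_congr_ae (Eventually.of_forall fun x => ?_)
  exact Equiv.prod_comp e (fun i => f i (X.S (s i k) x))

theorem Far.reindex {ι κ : Type} {e : κ → ι} (he : Function.Injective e)
    {s : ι → ℕ → ℤ} (h : Far s) : Far (fun i => s (e i)) :=
  fun i j hij => h (e i) (e j) fun h' => hij (he h')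

/-- a sequence far from finitely many others -/
def pad {ι : Type} [Fintype ι] (s : ι → ℕ → ℤ) (k : ℕ) : ℤ := k + ∑ i, |s i k|

theorem pad_far {ι : Type} [Fintype ι] (s : ι → ℕ → ℤ) (i : ι) (k : ℕ) :
    (k : ℤ) ≤ |pad s k - s i k| := by
  have h1 : |s i k| ≤ ∑ j, |s j k| :=
    Finset.single_le_sum (f := fun j => |s j k|) (fun j _ => abs_nonneg _) (Finset.mem_univ i)
  have h2 := le_abs_self (s i k)
  refine le_trans ?_ (le_abs_self _)
  unfold pad
  linarith

/-- add one far site -/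
def padS {q : ℕ} (s : Fin q → ℕ → ℤ) : Fin (q + 1) → ℕ → ℤ := Fin.cons (pad s) s

theorem padS_far {q : ℕ} {s : Fin q → ℕ → ℤ} (hs : Far s) : Far (padS s) := by
  have hle : Tendsto (fun k : ℕ => (k : ℤ)) (UU : Filter ℕ) atTop := by
    refine tendsto_natCast_atTop_atTop.mono_left ?_
    rw [← Nat.cofinite_eq_atTop]
    exact Filter.hyperfilter_le_cofinite
  intro i j hij
  induction i using Fin.cases with
  | zero =>
    induction j using Fin.cases with
    | zero => exact absurd rfl hij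
    | succ j => exact tendsto_atTop_mono (fun k => pad_far s j k) hle
  | succ i =>
    induction j using Fin.cases with
    | zero =>
      refine tendsto_atTop_mono (fun k => ?_) hle
      rw [abs_sub_comm]
      exact pad_far s i k
    | succ j => exact hs i j fun h => hij (by rw [h])

theorem mixAt_of_succ {X : Sys} {q : ℕ}
    (h : ∀ s' : Fin (q + 1) → ℕ → ℤ, Far s' → MixAt X s') {s : Fin q → ℕ → ℤ} (hs : Far s) :
    MixAt X s := by
  intro f hf
  have h1 := h (padS s) (padS_far hs) (Fin.cons (fun _ => 1) f) (fun i => by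
    induction i using Fin.cases with
    | zero => exact BR.one
    | succ i => exact hf i)
  simp only [Fin.prod_univ_succ, Fin.cons_zero, Fin.cons_succ, padS, one_mul] at h1
  simpa using h1

theorem mixAt_of_le {X : Sys} {q r : ℕ} (hqr : q ≤ r)
    (h : ∀ s' : Fin r → ℕ → ℤ, Far s' → MixAt X s') {s : Fin q → ℕ → ℤ} (hs : Far s) :
    MixAt X s := by
  induction r, hqr using Nat.le_induction with
  | base => exact h s hs
  | succ r _ ih => exact ih fun s' hs' => mixAt_of_succ h hs'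

/-- mixing along all far `r`-tuples gives mixing along all far tuples with at most `r` sites -/
theorem mixAt_of_card_le {X : Sys} {r : ℕ} (h : ∀ s' : Fin r → ℕ → ℤ, Far s' → MixAt X s')
    {ι : Type} [Fintype ι] (hι : Fintype.card ι ≤ r) {s : ι → ℕ → ℤ} (hs : Far s) :
    MixAt X s := by
  classical
  have e := (Fintype.equivFin ι).symm
  exact MixAt.reindex e (mixAt_of_le hι h (hs.reindex e.injective))

/-! ### the induction on the order -/

theorem mixAt_all (hSTEP : STEP) (r : ℕ) (X : Sys) (hX : SM X) (s : Fin r → ℕ → ℤ) (hs : Far s) :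
    MixAt X s := by
  induction r generalizing X with
  | zero => exact mixAt_zero X s
  | succ r ih =>
    by_cases h3 : 3 ≤ r + 1
    · by_contra hne
      obtain ⟨Y, hY, hbad, Ω, ms, P, N, cg, ⟨D⟩⟩ := hSTEP (r + 1) h3 s hs
        (fun Z hZ s' hs' => ih Z hZ s' hs') X hX hne
      exact hbad (mixAt_of_mixAll (D.mixAll Y.act hY.endMix) hs)
    · have hr : r ≤ 1 := by omega
      interval_cases r
      · exact mixAt_one X s
      · exact hX.mixAt_two hs

theorem mixAll_of_step (hSTEP : STEP) (Γ : Type) [MeasurableSpace Γ] [StandardBorelSpace Γ]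
    (ν : Measure Γ) [IsProbabilityMeasure ν] (T : Γ ≃ᵐ Γ) (hT : MeasurePreserving T ν ν)
    (hm : R69.Mix ν T) : R69.MixAll ν T := by
  intro r s hs f hf hfb
  have hall := mixAt_all hSTEP r (sysOf ν T hT) (sysOf_SM ν T hT hm)
  rw [Metric.tendsto_nhds]
  intro ε hε
  by_contra hne
  rw [Filter.not_eventually] at hne
  have hev : ∀ n : ℕ, ∀ᶠ k in (atTop : Filter ℕ), ∀ i j, i ≠ j → (n : ℤ) ≤ |s i k - s j k| := by
    intro n
    rw [eventually_all]
    intro i
    rw [eventually_all]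
    intro j
    by_cases hij : i = j
    · exact Eventually.of_forall fun k hk => absurd hij hk
    · filter_upwards [(abs_atTop_iff.2 (hs i j hij)).eventually_ge_atTop (n : ℤ)] with k hk _
        using hk
  choose k hk1 hk2 using fun n => (hne.and_eventually (hev n)).exists
  have hle : Tendsto (fun k : ℕ => (k : ℤ)) (UU : Filter ℕ) atTop := by
    refine tendsto_natCast_atTop_atTop.mono_left ?_
    rw [← Nat.cofinite_eq_atTop]
    exact Filter.hyperfilter_le_cofinite
  have h1 := hall (fun i n => s i (k n))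
    (fun i j hij => tendsto_atTop_mono (fun n => hk2 n i j hij) hle) f
    (fun i => ⟨hf i, hfb i⟩)
  obtain ⟨n, hn⟩ := ((Metric.tendsto_nhds.1 h1) ε hε).exists
  exact hk1 n hn

/-- **`S0092` from the structural step** -/
theorem S0092_of_step (hSTEP : STEP) {Ω : Type*} [MeasurableSpace Ω] (μ : Measure Ω)
    [IsProbabilityMeasure μ] (T : Ω ≃ᵐ Ω) (hT : MeasurePreserving T μ μ)
    (hmix : ∀ A B : Set Ω, MeasurableSet A → MeasurableSet B →
      Tendsto (fun n : ℕ => μ (A ∩ (T^[n]) ⁻¹' B)) atTop (nhds (μ A * μ B)))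
    (k : ℕ) (A : Fin (k + 1) → Set Ω) (hA : ∀ i, MeasurableSet (A i)) :
    Tendsto (fun n : Fin k → ℕ =>
        μ (⋂ i : Fin (k + 1), (T^[∑ j : Fin k, if (j : ℕ) < (i : ℕ) then n j else 0]) ⁻¹' A i))
      atTop (nhds (∏ i, μ (A i))) :=
  R69.S0092_of (fun Γ _ _ ν _ S hS hm => mixAll_of_step hSTEP Γ ν S hS hm) μ T hT hmix k A hA

/-! ### factors -/

/-- a standard Borel factor of a mixing system is mixing -/
theorem SM.factor {X Y : Sys} (hX : SM X) (hY : StandardBorelSpace Y.Ω) {π : X.Ω → Y.Ω}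
    (hπ : MeasurePreserving π X.μ Y.μ)
    (hS : ∀ n, (fun x => π (X.S n x)) =ᵐ[X.μ] fun x => Y.S n (π x)) : SM Y where
  std := hY
  mix A B hA hB := by
    have h1 := hX.mix _ _ (hπ.measurable hA) (hπ.measurable hB)
    rw [hπ.measure_preimage hA.nullMeasurableSet, hπ.measure_preimage hB.nullMeasurableSet] at h1
    refine h1.congr fun n => ?_
    rw [← hπ.measure_preimage
      (hA.inter ((Y.S_mp n).measurable hB)).nullMeasurableSet]
    refine measure_congr ?_
    filter_upwards [hS n] with x hx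
    refine propext ?_
    show (π x ∈ A ∧ π (X.S n x) ∈ B) ↔ (π x ∈ A ∧ Y.S n (π x) ∈ B)
    rw [hx]

/-- If `Y` is a factor of `X`, the correlations of `f` on `X` and `g` on `Y` have the same limits
and `g i` has the same integral as `f i`, then mixing of `Y` along `s` gives the limit for `f`. -/
theorem MixAt.lift {X Y : Sys} {ι : Type} [Fintype ι] {s : ι → ℕ → ℤ} (hY : MixAt Y s)
    {f : ι → X.Ω → ℝ} {g : ι → Y.Ω → ℝ} (hg : ∀ i, BR (g i))
    (hint : ∀ i, ∫ y, g i y ∂Y.μ = ∫ x, f i x ∂X.μ)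
    (hlim : Tendsto (fun k => (∫ x, ∏ i, f i (X.S (s i k) x) ∂X.μ) -
      ∫ y, ∏ i, g i (Y.S (s i k) y) ∂Y.μ) (UU : Filter ℕ) (𝓝 0)) :
    Tendsto (fun k => ∫ x, ∏ i, f i (X.S (s i k) x) ∂X.μ) (UU : Filter ℕ)
      (𝓝 (∏ i, ∫ x, f i x ∂X.μ)) := by
  have h1 := hlim.add (hY g hg)
  simp_rw [hint, zero_add] at h1
  exact h1.congr fun k => by ring


end Crest.Agent.R069.Top
end
end

-- ▼ part R069/Chain

/-!
# Row 69 (S0092): the final link (helper126)

`Chain.step : N_YE → N_DATA → Top.STEP`, `Chain.n_asm : N_ASM`, and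
`Chain.S0092_of_nodes` (the statement of `S0092` from the two nodes).
-/

set_option autoImplicit false

open MeasureTheory Filter Set
open scoped ENNReal Topology

namespace Crest.Agent.R069.Chain

open Crest.Agent.R069.Top

/-- correlations over the sites in `J` converge to the integral over the Loeb space -/
theorem tendsto_sites (X : Sys) {ι : Type} (s : ι → ℕ → ℤ) (J : Finset ι) {f : ι → X.Ω → ℝ}
    (hf : ∀ i, Bd X.ms (f i)) :
    Tendsto (fun k => ∫ x, ∏ i ∈ J, f i (X.S (s i k) x) ∂X.μ) (UU : Filter ℕ)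
      (𝓝 (∫ x, ∏ i ∈ J, sitef X (s i) (f i) x ∂(lb X.μ))) := by
  choose hm C hC using hf
  have h0 : ∀ i, ∀ k x, ‖(fun (k : ℕ) (x : X.Ω) => f i (X.S (s i k) x)) k x‖ ≤ C i :=
    fun i k x => by rw [Real.norm_eq_abs]; exact hC i _
  have hst : ∀ i ∈ J, StOK (fun (k : ℕ) (x : X.Ω) => f i (X.S (s i k) x)) :=
    fun i _ => stOK_of_bdd (h0 i)
  have hBM : BM X.ms (fun k x => ∏ i ∈ J, f i (X.S (s i k) x)) (∏ i ∈ J, C i) := by
    refine ⟨fun k => Finset.measurable_fun_prod _ fun i _ =>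
      (hm i).comp (X.S_mp (s i k)).measurable, fun k x => ?_⟩
    rw [Finset.abs_prod]
    exact Finset.prod_le_prod (fun i _ => abs_nonneg _) fun i _ => hC i _
  have h1 := tendsto_integral_st (μ := X.μ) hBM
  rw [st_prod J hst] at h1
  exact h1

theorem XInd_of_mixAt {X : Sys} {ι : Type} {s : ι → ℕ → ℤ} (J : Finset ι)
    (h : MixAt X (fun i : J => s i)) : XInd X s J := by
  intro f hf
  have h1 := tendsto_sites X s J hf
  have h2 := h (fun i => f i) (fun i => hf i)
  have e1 : ∀ k, ∫ x, ∏ i : J, f i (X.S (s i k) x) ∂X.μ =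
      ∫ x, ∏ i ∈ J, f i (X.S (s i k) x) ∂X.μ := fun k => by
    congr 1
    funext x
    exact Finset.prod_coe_sort J (fun i => f i (X.S (s i k) x))
  have e2 : ∏ i : J, ∫ x, f i x ∂X.μ = ∏ i ∈ J, ∫ x, f i x ∂X.μ :=
    Finset.prod_coe_sort J (fun i => ∫ x, f i x ∂X.μ)
  simp_rw [e1] at h2
  rw [e2] at h2
  exact tendsto_nhds_unique h1 h2

theorem tau_eq_lim (X : Sys) {ι : Type} [Fintype ι] (s : ι → ℕ → ℤ) {f : ι → X.Ω → ℝ}
    (hf : ∀ i, Bd X.ms (f i)) :
    Tendsto (fun k => ∫ x, ∏ i, f i (X.S (s i k) x) ∂X.μ) (UU : Filter ℕ) (𝓝 (tau X s f)) :=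
  tendsto_sites X s Finset.univ hf

/-- `MixAt` in terms of `tau` -/
theorem mixAt_iff_tau {X : Sys} {ι : Type} [Fintype ι] {s : ι → ℕ → ℤ} :
    MixAt X s ↔ ∀ f : ι → X.Ω → ℝ, (∀ i, Bd X.ms (f i)) → tau X s f = ∏ i, ∫ x, f i x ∂X.μ := by
  constructor
  · intro h f hf
    exact tendsto_nhds_unique (tau_eq_lim X s hf) (h f hf)
  · intro h f hf
    rw [← h f hf]
    exact tau_eq_lim X s hf

/-- `(r-1)`-mixing gives the independence of proper subsets of the sites -/
theorem XIndP_of_lower {X : Sys} {r : ℕ} (hr : 1 ≤ r)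
    (h : ∀ s' : Fin (r - 1) → ℕ → ℤ, Far s' → MixAt X s') {s : Fin r → ℕ → ℤ} (hs : Far s) :
    XIndP X s := by
  intro J hJ
  refine XInd_of_mixAt J (mixAt_of_card_le h ?_ (hs.reindex Subtype.val_injective))
  rw [Fintype.card_coe]
  have h1 : J.card < (Finset.univ : Finset (Fin r)).card :=
    Finset.card_lt_card (Finset.ssubset_univ_iff.2 hJ)
  rw [Finset.card_univ, Fintype.card_fin] at h1
  omega

/-- **the final link** -/
theorem step (hYE : N_YE) (hDATA : N_DATA) : STEP := by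
  intro r hr s hs hlow X hX hbad
  have hstd := hX.std
  rw [mixAt_iff_tau] at hbad
  push Not at hbad
  obtain ⟨f, hf, hne⟩ := hbad
  have hcard : 3 ≤ Fintype.card (Fin r) := by rw [Fintype.card_fin]; exact hr
  obtain ⟨Y, φ, hYstd, hφ, hequi, ⟨g, hg, hgne⟩, F, hFstd, hS1, hcl⟩ :=
    hYE X hstd (Fin r) s hcard (XIndP_of_lower (by omega) (hlow X hX) hs) f hf hne
  have hY : SM Y := hX.factor hYstd hφ fun n => Eventually.of_forall fun x => hequi n x
  have hbadY : ¬ MixAt Y s := by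
    rw [mixAt_iff_tau]
    intro h
    exact hgne (h g hg)
  obtain ⟨Ω, ms, P, N, cg, _, hD⟩ :=
    hDATA Y hYstd F hFstd (Fin r) s hcard (XIndP_of_lower (by omega) (hlow Y hY) hs) hS1 hcl
  exact ⟨Y, hY, hbadY, Ω, ms, P, N, cg, hD⟩


/-- **the statement of `S0092` from the nodes `N_YE` and `N_DATA`** -/
theorem S0092_of_nodes (hYE : N_YE) (hDATA : N_DATA) {Ω : Type*} [MeasurableSpace Ω]
    (μ : Measure Ω) [IsProbabilityMeasure μ] (T : Ω ≃ᵐ Ω) (hT : MeasurePreserving T μ μ)
    (hmix : ∀ A B : Set Ω, MeasurableSet A → MeasurableSet B →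
      Tendsto (fun n : ℕ => μ (A ∩ (T^[n]) ⁻¹' B)) atTop (nhds (μ A * μ B)))
    (k : ℕ) (A : Fin (k + 1) → Set Ω) (hA : ∀ i, MeasurableSet (A i)) :
    Tendsto (fun n : Fin k → ℕ =>
        μ (⋂ i : Fin (k + 1), (T^[∑ j : Fin k, if (j : ℕ) < (i : ℕ) then n j else 0]) ⁻¹' A i))
      atTop (nhds (∏ i, μ (A i))) :=
  S0092_of_step (step hYE hDATA) μ T hT hmix k A hA

end Crest.Agent.R069.Chain
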