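import Crest.Agent.R069.Loeb

/-!
# Internal maps between Loeb spaces, transfer of independence (row 69)

`lbmap f : Lb α → Lb β` for a sequence `f k : α → β`: measurable, measure preserving if every
`f k` is; `Lb` of a measurable equivalence; sub-sigma-algebras; independence.
-/

set_option autoImplicit false

open MeasureTheory Filter Set
open scoped ENNReal Topology

namespace Crest.Agent.R069

section maps

variable {α β γ : Type*}

/-- The internal map given by a sequence of maps. -/
def lbmap (f : ℕ → α → β) : Lb α → Lb β := fun x k => f k (x k)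

@[simp] theorem lbmap_apply (f : ℕ → α → β) (x : Lb α) (k : ℕ) : lbmap f x k = f k (x k) := rfl




theorem lbmap_preimage (f : ℕ → α → β) (B : ℕ → Set β) :
    lbmap f ⁻¹' intl B = intl (fun k => f k ⁻¹' B k) := rfl

theorem measurable_lbmap' {mα : MeasurableSpace α} {mβ : MeasurableSpace β} {f : ℕ → α → β}
    (hf : ∀ k, Measurable[mα, mβ] (f k)) : Measurable[LL mα, LL mβ] (lbmap f) := by
  refine @measurable_generateFrom _ _ (LL mα) _ _ ?_
  rintro _ ⟨B, hB, rfl⟩
  rw [lbmap_preimage]
  exact measurableSet_intl (fun k => hf k (hB k))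

theorem measurable_lbmap [mα : MeasurableSpace α] [mβ : MeasurableSpace β] {f : ℕ → α → β}
    (hf : ∀ k, Measurable (f k)) : Measurable (lbmap f) := measurable_lbmap' hf

/-- The Loeb sigma-algebra of a pulled back sigma-algebra. -/
theorem comap_lbmap_LL {mβ : MeasurableSpace β} (f : α → β) :
    (LL mβ).comap (lbmap (fun _ => f)) = LL (mβ.comap f) := by
  apply le_antisymm
  · rw [LL, MeasurableSpace.comap_generateFrom]
    refine MeasurableSpace.generateFrom_le ?_
    rintro _ ⟨_, ⟨B, hB, rfl⟩, rfl⟩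
    rw [lbmap_preimage]
    exact measurableSet_intl (fun k => ⟨B k, hB k, rfl⟩)
  · refine MeasurableSpace.generateFrom_le ?_
    rintro _ ⟨A, hA, rfl⟩
    choose B hB hBA using hA
    refine ⟨intl B, measurableSet_intl hB, ?_⟩
    rw [lbmap_preimage]
    congr 1
    funext k
    exact hBA k

/-- An internal measurable equivalence. -/
def lbequiv [MeasurableSpace α] [MeasurableSpace β] (e : ℕ → α ≃ᵐ β) : Lb α ≃ᵐ Lb β where
  toFun := lbmap (fun k => e k)
  invFun := lbmap (fun k => (e k).symm)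
  left_inv x := by funext k; exact (e k).symm_apply_apply (x k)
  right_inv x := by funext k; exact (e k).apply_symm_apply (x k)
  measurable_toFun := measurable_lbmap (fun k => (e k).measurable)
  measurable_invFun := measurable_lbmap (fun k => (e k).symm.measurable)

@[simp] theorem coe_lbequiv [MeasurableSpace α] [MeasurableSpace β] (e : ℕ → α ≃ᵐ β) :
    ⇑(lbequiv e) = lbmap (fun k => e k) := rfl

@[simp] theorem coe_lbequiv_symm [MeasurableSpace α] [MeasurableSpace β] (e : ℕ → α ≃ᵐ β) :
    ⇑(lbequiv e).symm = lbmap (fun k => (e k).symm) := rfl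

end maps

section measure

variable {α β : Type*} [MeasurableSpace α] [MeasurableSpace β]

theorem lb_ext {μ : Measure α} [IsProbabilityMeasure μ] {ν : Measure (Lb α)}
    [IsFiniteMeasure ν]
    (h : ∀ A : ℕ → Set α, (∀ k, MeasurableSet (A k)) → ν (intl A) = ulim (fun k => μ (A k))) :
    ν = lb μ := by
  refine ext_of_generate_finite (intlSets _) rfl (isPiSystem_intlSets _) ?_ ?_
  · rintro _ ⟨A, hA, rfl⟩
    rw [lb_intl μ hA, h A hA]
  · have := h (fun _ => univ) (fun _ => MeasurableSet.univ)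
    rw [intl_univ] at this
    rw [this, measure_univ]
    apply ulim_eq
    simp

theorem measurePreserving_lbmap {μ : Measure α} {ν : Measure β} [IsProbabilityMeasure μ]
    [IsProbabilityMeasure ν] {f : ℕ → α → β} (hf : ∀ k, MeasurePreserving (f k) μ ν) :
    MeasurePreserving (lbmap f) (lb μ) (lb ν) := by
  have hm : Measurable (lbmap f) := measurable_lbmap (fun k => (hf k).measurable)
  refine ⟨hm, ?_⟩
  refine lb_ext (fun A hA => ?_)
  rw [Measure.map_apply hm (measurableSet_intl hA), lbmap_preimage,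
    lb_intl μ (fun k => (hf k).measurable (hA k))]
  congr 1
  funext k
  exact (hf k).measure_preimage (hA k).nullMeasurableSet

/-- Monotone restriction to null sets: internal null sets. -/
theorem lb_intl_eq_zero {μ : Measure α} {A : ℕ → Set α} (hA : ∀ k, MeasurableSet (A k))
    (h : ∀ k, μ (A k) = 0) : lb μ (intl A) = 0 := by
  rw [lb_intl μ hA]
  apply ulim_eq
  simp [h]

theorem ae_lb_of_forall_ae {μ : Measure α} {p : ℕ → α → Prop} (h : ∀ k, ∀ᵐ x ∂μ, p k x) :
    ∀ᵐ x ∂(lb μ), ∀ᶠ k in (UU : Filter ℕ), p k (x k) := by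
  have h1 : ∀ k, ∃ A, MeasurableSet A ∧ μ A = 0 ∧ {x | ¬ p k x} ⊆ A := by
    intro k
    obtain ⟨A, hA1, hA2, hA3⟩ := exists_measurable_superset_of_null (h k)
    exact ⟨A, hA2, hA3, hA1⟩
  choose A hA1 hA2 hA3 using h1
  have h2 := lb_intl_eq_zero hA1 hA2
  have h3 : ∀ᵐ x ∂(lb μ), x ∉ intl A := measure_eq_zero_iff_ae_notMem.1 h2
  filter_upwards [h3] with x hx
  have : x ∈ (intl A)ᶜ := hx
  rw [← intl_compl] at this
  filter_upwards [this] with k hk
  by_contra hc
  exact hk (hA3 k hc)

theorem intl_ae_eq {μ : Measure α} {A B : ℕ → Set α} (h : ∀ k, A k =ᵐ[μ] B k) :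
    intl A =ᵐ[lb μ] intl B := by
  have := ae_lb_of_forall_ae (μ := μ) (p := fun k x => (x ∈ A k) = (x ∈ B k)) h
  filter_upwards [this] with x hx
  apply propext
  constructor
  · intro hxA
    have hxA' : ∀ᶠ k in (UU : Filter ℕ), x k ∈ A k := hxA
    show ∀ᶠ k in (UU : Filter ℕ), x k ∈ B k
    filter_upwards [hx, hxA'] with k h1 h2
    rw [← h1]; exact h2
  · intro hxB
    have hxB' : ∀ᶠ k in (UU : Filter ℕ), x k ∈ B k := hxB
    show ∀ᶠ k in (UU : Filter ℕ), x k ∈ A k
    filter_upwards [hx, hxB'] with k h1 h2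
    rw [h1]; exact h2

end measure

section indep

open ProbabilityTheory

/-- Transfer of independence to the Loeb space. -/
theorem indep_LL {α : Type*} {m₁ m₂ : MeasurableSpace α} [mα : MeasurableSpace α]
    {μ : Measure α} [IsProbabilityMeasure μ] (h₁ : m₁ ≤ mα) (h₂ : m₂ ≤ mα)
    (h : Indep m₁ m₂ μ) : Indep (LL m₁) (LL m₂) (lb μ) := by
  refine IndepSets.indep (LL_mono h₁) (LL_mono h₂) (isPiSystem_intlSets m₁)
    (isPiSystem_intlSets m₂) rfl rfl ?_
  rw [IndepSets_iff]
  rintro _ _ ⟨A, hA, rfl⟩ ⟨B, hB, rfl⟩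
  have hA' : ∀ k, MeasurableSet[mα] (A k) := fun k => h₁ _ (hA k)
  have hB' : ∀ k, MeasurableSet[mα] (B k) := fun k => h₂ _ (hB k)
  rw [← intl_inter, lb_intl μ (fun k => (hA' k).inter (hB' k))]
  apply ulim_eq
  have h3 : ∀ k, μ (A k ∩ B k) = μ (A k) * μ (B k) := fun k =>
    (Indep_iff _ _ _).1 h (A k) (B k) (hA k) (hB k)
  simp_rw [h3]
  exact ENNReal.Tendsto.mul (tendsto_lb_intl μ hA') (Or.inr (measure_ne_top _ _))
    (tendsto_lb_intl μ hB') (Or.inr (measure_ne_top _ _))


end indep

end Crest.Agent.R069
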