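import Crest.Agent.R069.SatDefs
import Crest.Agent.R069.LoebInt
import Crest.Agent.R069.LoebMap
import Crest.Agent.R069.EndDefs

/-!
# Row 69 (S0092): FROZEN DEFINITIONS, on top of `SatDefs` (`Sys`, `Pair`, `Ext`, `siteA`, `rest`)
-/

set_option autoImplicit false

open MeasureTheory Filter Set ProbabilityTheory
open scoped ENNReal Topology

namespace Crest.Agent.R069

/-- bounded `m`-measurable real function -/
def Bd {α : Type*} (m : MeasurableSpace α) (f : α → ℝ) : Prop :=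
  Measurable[m] f ∧ ∃ K : ℝ, ∀ x, |f x| ≤ K

/-- the sub-sigma-algebra `m` at the site `s` (so `siteA M s = siteM M s M.ms`) -/
@[implicit_reducible]
def siteM (M : Sys) (s : ℕ → ℤ) (m : MeasurableSpace M.Ω) : MeasurableSpace (Lb M.Ω) :=
  MeasurableSpace.generateFrom
    {B | ∃ A : Set M.Ω, MeasurableSet[m] A ∧ B = intl (fun k => M.S (s k) ⁻¹' A)}


/-- the function `f` at the site `s` -/
noncomputable def sitef (M : Sys) (s : ℕ → ℤ) (f : M.Ω → ℝ) : Lb M.Ω → ℝ :=
  st (fun k x => f (M.S (s k) x))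

/-- the null sigma-algebra of the Loeb space -/
@[implicit_reducible]
noncomputable def nulL (M : Sys) : MeasurableSpace (Lb M.Ω) := nul (lb M.μ)

/-- everything except the site `i`, for a sub-sigma-algebra `m`:
`⋁_{j ≠ i} m_{s_j} ⊔ CC` (complete); `rest s i P = restM s i P.toSys P.ms P.C` -/
@[implicit_reducible]
noncomputable def restM {ι : Type} (s : ι → ℕ → ℤ) (i : ι) (M : Sys)
    (m C : MeasurableSpace M.Ω) : MeasurableSpace (Lb M.Ω) :=
  (⨆ j, ⨆ _ : j ≠ i, siteM M (s j) m) ⊔ LL C ⊔ nulL M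


/-- the Loeb system -/
noncomputable def Sys.loeb (M : Sys) : Sys where
  Ω := Lb M.Ω
  ms := LL M.ms
  μ := lb M.μ
  pr := inferInstance
  S n := Lb.mp (M.S n)
  S_zero x := by funext k; exact M.S_zero _
  S_add a b x := by funext k; exact M.S_add _ _ _
  S_mp n := measurePreserving_lbmap (fun _ => M.S_mp n)

/-- the multilinear form of the sites -/
noncomputable def tau {ι : Type} [Fintype ι] (X : Sys) (s : ι → ℕ → ℤ) (f : ι → X.Ω → ℝ) : ℝ :=
  ∫ x, ∏ i, sitef X (s i) (f i) x ∂(lb X.μ)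

/-- the sites in `J` of `X` are independent -/
def XInd {ι : Type} (X : Sys) (s : ι → ℕ → ℤ) (J : Finset ι) : Prop :=
  ∀ f : ι → X.Ω → ℝ, (∀ i, Bd X.ms (f i)) →
    ∫ x, ∏ i ∈ J, sitef X (s i) (f i) x ∂(lb X.μ) = ∏ i ∈ J, ∫ x, f i x ∂X.μ

/-- any proper subset of the sites of `X` is independent -/
def XIndP {ι : Type} [Fintype ι] (X : Sys) (s : ι → ℕ → ℤ) : Prop :=
  ∀ J : Finset ι, J ≠ Finset.univ → XInd X s J

section sated
variable {X : Sys}

/-- (S1) for one extension -/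
def S1At (P Q : Pair X) (e : Ext P Q) : Prop :=
  ∀ f : P.Ω → ℝ, Bd P.ms f → Q.μ[f ∘ e.f | Q.C] =ᵐ[Q.μ] (P.μ[f | P.C]) ∘ e.f

/-- (S2) for one extension -/
def S2At {ι : Type} (s : ι → ℕ → ℤ) (P Q : Pair X) (e : Ext P Q) : Prop :=
  ∀ (i : ι) (f : P.Ω → ℝ), Bd P.ms f →
    (lb Q.μ)[sitef Q.toSys (s i) (f ∘ e.f) | rest s i Q] =ᵐ[lb Q.μ]
      ((lb P.μ)[sitef P.toSys (s i) f | rest s i P]) ∘ Lb.mp e.f

/-- (S1): against ALL extensions (arbitrary probability spaces in `Type`) -/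
def S1 (P : Pair X) : Prop := ∀ (Q : Pair X) (e : Ext P Q), S1At P Q e

/-- (S2): against ALL extensions -/
def S2 {ι : Type} (s : ι → ℕ → ℤ) (P : Pair X) : Prop :=
  ∀ (Q : Pair X) (e : Ext P Q), S2At s P Q e

/-- the sites in `J` of the pair are conditionally independent given `LL C`, for the `E`-sites of an
extension: (iii) in the extension form (D2) -/
def IndAt {ι : Type} (s : ι → ℕ → ℤ) (J : Finset ι) (P Q : Pair X) (e : Ext P Q) : Prop :=
  ∀ (F : ι → P.Ω → ℝ), (∀ i, Bd P.ms (F i)) →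
    (lb Q.μ)[fun x => ∏ i ∈ J, sitef Q.toSys (s i) (F i ∘ e.f) x | LL Q.C] =ᵐ[lb Q.μ]
      fun x => ∏ i ∈ J, ((lb P.μ)[sitef P.toSys (s i) (F i) | LL P.C]) (Lb.mp e.f x)


end sated

/-! ## visible sets -/

section vis

/-- countable unions commute with sites modulo null sets -/
theorem intl_iUnion_ae {α : Type*} [MeasurableSpace α] {μ : Measure α} [IsProbabilityMeasure μ]
    (S : ℕ → α → α) (hS : ∀ k, MeasurePreserving (S k) μ μ) (A : ℕ → Set α)
    (hA : ∀ n, MeasurableSet (A n)) :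
    intl (fun k => S k ⁻¹' (⋃ n, A n)) =ᵐ[lb μ] ⋃ n, intl (fun k => S k ⁻¹' (A n)) := by
  have hsub : (⋃ n, intl (fun k => S k ⁻¹' (A n))) ⊆ intl (fun k => S k ⁻¹' (⋃ n, A n)) := by
    intro x hx
    obtain ⟨n, hn⟩ := mem_iUnion.1 hx
    filter_upwards [hn] with k hk
    exact mem_iUnion.2 ⟨n, hk⟩
  refine (Filter.EventuallyLE.antisymm ?_ (Eventually.of_forall fun x hx => hsub hx))
  rw [ae_le_set]
  have hU : MeasurableSet (⋃ n, A n) := MeasurableSet.iUnion hA
  have hacc : ∀ N, MeasurableSet (accumulate A N) := fun N =>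
    MeasurableSet.biUnion (to_countable _) fun n _ => hA n
  have hle : ∀ N, lb μ (intl (fun k => S k ⁻¹' (⋃ n, A n)) \ ⋃ n, intl (fun k => S k ⁻¹' (A n)))
      ≤ μ ((⋃ n, A n) \ accumulate A N) := by
    intro N
    have h1 : intl (fun k => S k ⁻¹' (⋃ n, A n)) \ ⋃ n, intl (fun k => S k ⁻¹' (A n)) ⊆
        intl (fun k => S k ⁻¹' ((⋃ n, A n) \ accumulate A N)) := by
      rintro x ⟨hx1, hx2⟩
      have h2 : ∀ᶠ k in (UU : Filter ℕ), ∀ n ∈ Finset.range (N + 1), S k (x k) ∉ A n := by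
        rw [Filter.eventually_all_finset]
        intro n _
        have h3 : x ∉ intl (fun k => S k ⁻¹' (A n)) := fun h => hx2 (mem_iUnion.2 ⟨n, h⟩)
        rw [← mem_compl_iff, ← intl_compl] at h3
        exact h3
      filter_upwards [hx1, h2] with k hk1 hk2
      refine ⟨hk1, ?_⟩
      intro hc
      obtain ⟨n, hn, hn2⟩ := mem_iUnion₂.1 (by simpa only [accumulate] using hc)
      exact hk2 n (Finset.mem_range.2 (Nat.lt_succ_of_le hn)) hn2
    refine (measure_mono h1).trans ?_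
    rw [lb_intl μ (fun k => (hS k).measurable (hU.diff (hacc N)))]
    refine le_of_eq (ulim_eq ?_)
    refine tendsto_const_nhds.congr fun k => ?_
    exact ((hS k).measure_preimage (hU.diff (hacc N)).nullMeasurableSet).symm
  have ht : Tendsto (fun N => μ ((⋃ n, A n) \ accumulate A N)) atTop (𝓝 0) := by
    have h1 := tendsto_measure_iInter_atTop (μ := μ) (s := fun N => (⋃ n, A n) \ accumulate A N)
      (fun N => (hU.diff (hacc N)).nullMeasurableSet)
      (fun N M hNM => sdiff_subset_sdiff_right (monotone_accumulate hNM)) ⟨0, measure_ne_top _ _⟩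
    have h2 : ⋂ N, ((⋃ n, A n) \ accumulate A N) = ∅ := by
      rw [← sdiff_iUnion, iUnion_accumulate, sdiff_self]
    rw [h2, measure_empty] at h1
    exact h1
  exact le_antisymm (ge_of_tendsto' ht hle) (by simp)

theorem measurableSet_of_ae_nul {α : Type*} {m : MeasurableSpace α} [mα : MeasurableSpace α]
    {μ : Measure α} (hm : m ≤ mα) (hn : nul μ ≤ m) {A B : Set α} (hA : MeasurableSet[mα] A)
    (hB : MeasurableSet[m] B) (hAB : A =ᵐ[μ] B) : MeasurableSet[m] A := by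
  have h1 : MeasurableSet[m] (A \ B) := hn _ ⟨hA.diff (hm _ hB), Or.inl (ae_le_set.1 hAB.le)⟩
  have h2 : MeasurableSet[m] (B \ A) :=
    hn _ ⟨(hm _ hB).diff hA, Or.inl (ae_le_set.1 hAB.symm.le)⟩
  have h3 : A = (B \ (B \ A)) ∪ (A \ B) := by
    ext x; simp only [mem_union, Set.mem_sdiff]; tauto
  rw [h3]
  exact MeasurableSet.union (MeasurableSet.diff hB h2) h1

theorem nul_le_ms {α : Type*} [mα : MeasurableSpace α] (μ : Measure α) : nul μ ≤ mα :=
  fun _ h => h.1


theorem Sys.measurableSet_site (M : Sys) (s : ℕ → ℤ) {A : Set M.Ω} (hA : MeasurableSet[M.ms] A) :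
    MeasurableSet[LL M.ms] (intl (fun k => M.S (s k) ⁻¹' A)) :=
  measurableSet_intl fun k => (M.S_mp (s k)).measurable hA

theorem siteM_le (M : Sys) (s : ℕ → ℤ) {m : MeasurableSpace M.Ω} (h : m ≤ M.ms) :
    siteM M s m ≤ LL M.ms := by
  refine MeasurableSpace.generateFrom_le ?_
  rintro B ⟨A, hA, rfl⟩
  exact M.measurableSet_site s (h _ hA)

theorem nulL_le (M : Sys) : nulL M ≤ LL M.ms := nul_le_ms _

theorem restM_le {ι : Type} (s : ι → ℕ → ℤ) (i : ι) (M : Sys) {m C : MeasurableSpace M.Ω}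
    (hm : m ≤ M.ms) (hC : C ≤ M.ms) : restM s i M m C ≤ LL M.ms :=
  sup_le (sup_le (iSup_le fun j => iSup_le fun _ => siteM_le M (s j) hm) (LL_mono hC)) (nulL_le M)

/-- countable unions commute with sites modulo null sets -/
theorem Sys.intl_iUnion_ae (M : Sys) (s : ℕ → ℤ) (A : ℕ → Set M.Ω)
    (hA : ∀ n, MeasurableSet[M.ms] (A n)) :
    intl (fun k => M.S (s k) ⁻¹' (⋃ n, A n)) =ᵐ[lb M.μ] ⋃ n, intl (fun k => M.S (s k) ⁻¹' (A n)) :=
  R069.intl_iUnion_ae _ (fun k => M.S_mp (s k)) A hA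

theorem restM_iUnion {ι : Type} (s : ι → ℕ → ℤ) (i : ι) (M : Sys) {C : MeasurableSpace M.Ω}
    (hC : C ≤ M.ms) (A : ℕ → Set M.Ω) (hA : ∀ n, MeasurableSet[M.ms] (A n))
    (h : ∀ n, MeasurableSet[restM s i M M.ms C] (intl (fun k => M.S (s i k) ⁻¹' (A n)))) :
    MeasurableSet[restM s i M M.ms C] (intl (fun k => M.S (s i k) ⁻¹' (⋃ n, A n))) := by
  have hU : MeasurableSet[M.ms] (⋃ n, A n) := MeasurableSet.iUnion hA
  exact measurableSet_of_ae_nul (mα := LL M.ms) (restM_le s i M le_rfl hC) le_sup_right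
    (M.measurableSet_site (s i) hU) (MeasurableSet.iUnion h)
    (M.intl_iUnion_ae (s i) A hA)

/-- `E¹`: the sigma-algebra of the sets visible in all roles (for `m = P.ms`, `C = P.C`) -/
@[implicit_reducible]
noncomputable def visσ {ι : Type} (s : ι → ℕ → ℤ) (M : Sys) (C : MeasurableSpace M.Ω)
    (hC : C ≤ M.ms) : MeasurableSpace M.Ω where
  MeasurableSet' A := MeasurableSet[M.ms] A ∧
    ∀ i, MeasurableSet[restM s i M M.ms C] (intl (fun k => M.S (s i k) ⁻¹' A))
  measurableSet_empty := ⟨@MeasurableSet.empty _ M.ms, fun i => by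
    have : (fun k => M.S (s i k) ⁻¹' (∅ : Set M.Ω)) = fun _ => ∅ := by
      funext k; simp
    rw [this, intl_empty]
    exact @MeasurableSet.empty _ (restM s i M M.ms C)⟩
  measurableSet_compl := by
    rintro A ⟨hA, hs⟩
    refine ⟨hA.compl, fun i => ?_⟩
    have : (fun k => M.S (s i k) ⁻¹' Aᶜ) = fun k => (M.S (s i k) ⁻¹' A)ᶜ := by
      funext k; rw [preimage_compl]
    rw [this, intl_compl]
    exact MeasurableSet.compl (hs i)
  measurableSet_iUnion := by
    intro A hA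
    exact ⟨@MeasurableSet.iUnion _ _ M.ms _ _ fun n => (hA n).1,
      fun i => restM_iUnion s i M hC A (fun n => (hA n).1) fun n => (hA n).2 i⟩

/-- `E¹` of a pair -/
@[implicit_reducible]
noncomputable def Pair.vis {X : Sys} {ι : Type} (s : ι → ℕ → ℤ) (P : Pair X) :
    MeasurableSpace P.Ω := visσ s P.toSys P.C P.C_le

theorem Pair.vis_le {X : Sys} {ι : Type} (s : ι → ℕ → ℤ) (P : Pair X) : P.vis s ≤ P.ms :=
  fun _ h => h.1

/-- the visible part `mY` of the base `X` -/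
@[implicit_reducible]
noncomputable def Pair.visX {X : Sys} {ι : Type} (s : ι → ℕ → ℤ) (P : Pair X) :
    MeasurableSpace X.Ω where
  MeasurableSet' A := MeasurableSet[X.ms] A ∧ MeasurableSet[P.vis s] (P.π ⁻¹' A)
  measurableSet_empty := ⟨MeasurableSet.empty, @MeasurableSet.empty _ (P.vis s)⟩
  measurableSet_compl := fun A h => ⟨h.1.compl, MeasurableSet.compl h.2⟩
  measurableSet_iUnion := fun A h => ⟨MeasurableSet.iUnion fun n => (h n).1, by
    rw [preimage_iUnion]
    exact MeasurableSet.iUnion fun n => (h n).2⟩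

end vis

end Crest.Agent.R069
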