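import Mathlib
import Crest.Agent.R069.EndDefs

set_option autoImplicit false

open MeasureTheory ProbabilityTheory Filter Topology
open scoped ComplexConjugate ENNReal

namespace Crest.Agent.R069.Desc

/-- unimodular functions modulo a.e. equality. -/
abbrev UF {Ω : Type*} [MeasurableSpace Ω] (P : Measure Ω) := Ω →ₘ[P] Circle

/-- the coercion `Circle → ℂ` (own name, to keep terms type correct at low transparency). -/
noncomputable def toC (z : Circle) : ℂ := Circle.coeHom z

lemma toC_mul (a b : Circle) : toC (a * b) = toC a * toC b := map_mul Circle.coeHom a b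
lemma toC_one : toC 1 = 1 := map_one Circle.coeHom
lemma norm_toC (a : Circle) : ‖toC a‖ = 1 := Circle.norm_coe a
lemma toC_inj {a b : Circle} (h : toC a = toC b) : a = b := Circle.ext h
lemma toC_conj (a : Circle) : conj (toC a) = toC a⁻¹ := (Circle.coe_inv_eq_conj a).symm
lemma isEmbedding_toC : Topology.IsEmbedding toC := Topology.IsEmbedding.subtypeVal
lemma continuous_toC : Continuous toC := isEmbedding_toC.continuous

/-- a unimodular complex number as an element of `Circle`. -/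
noncomputable def mkC (z : ℂ) (hz : ‖z‖ = 1) : Circle :=
  ⟨z, by simpa [Submonoid.unitSphere] using hz⟩

lemma toC_mkC (z : ℂ) (hz : ‖z‖ = 1) : toC (mkC z hz) = z := rfl

section pull

variable {Ω Ω' : Type*} [MeasurableSpace Ω] [MeasurableSpace Ω'] {P : Measure Ω}
  {P' : Measure Ω'}

lemma ae_of_mp {φ : Ω' → Ω} (hφ : MeasurePreserving φ P' P) {p : Ω → Prop}
    (hp : MeasurableSet {x | p x}) (h : ∀ᵐ y ∂P', p (φ y)) : ∀ᵐ x ∂P, p x := by
  have h2 : ∀ᵐ x ∂(P'.map φ), p x := (ae_map_iff hφ.aemeasurable hp).2 h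
  rwa [hφ.map_eq] at h2

/-- pullback of unimodular functions along a measure preserving map -/
noncomputable def pull (φ : Ω' → Ω) (hφ : MeasurePreserving φ P' P) : UF P →* UF P' where
  toFun g := g.compMeasurePreserving φ hφ
  map_one' := by
    apply AEEqFun.ext
    refine (AEEqFun.coeFn_compMeasurePreserving _ hφ).trans ?_
    have h1 : (1 : UF P) =ᵐ[P] fun _ => (1 : Circle) := AEEqFun.coeFn_one
    refine (hφ.quasiMeasurePreserving.ae_eq_comp h1).trans ?_
    exact (AEEqFun.coeFn_one (μ := P') (β := Circle)).symm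
  map_mul' f g := by
    apply AEEqFun.ext
    refine (AEEqFun.coeFn_compMeasurePreserving _ hφ).trans ?_
    refine (hφ.quasiMeasurePreserving.ae_eq_comp (AEEqFun.coeFn_mul f g)).trans ?_
    refine EventuallyEq.trans ?_ (AEEqFun.coeFn_mul _ _).symm
    filter_upwards [AEEqFun.coeFn_compMeasurePreserving f hφ,
      AEEqFun.coeFn_compMeasurePreserving g hφ] with x hx hy
    simp only [Function.comp, Pi.mul_apply] at *
    rw [hx, hy]

lemma coeFn_pull (φ : Ω' → Ω) (hφ : MeasurePreserving φ P' P) (g : UF P) :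
    pull φ hφ g =ᵐ[P'] g ∘ φ := AEEqFun.coeFn_compMeasurePreserving g hφ

lemma pull_injective (φ : Ω' → Ω) (hφ : MeasurePreserving φ P' P) :
    Function.Injective (pull φ hφ : UF P →* UF P') := by
  intro f g hfg
  apply AEEqFun.ext
  have h1 : f ∘ φ =ᵐ[P'] g ∘ φ := by
    refine (coeFn_pull φ hφ f).symm.trans ?_
    rw [hfg]
    exact coeFn_pull φ hφ g
  have hms : MeasurableSet {x | f x = g x} :=
    StronglyMeasurable.measurableSet_eq_fun f.stronglyMeasurable g.stronglyMeasurable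
  exact ae_of_mp hφ hms h1

/-- the constant unimodular function -/
noncomputable def cst (P : Measure Ω) (c : Circle) : UF P := AEEqFun.const Ω c

lemma coeFn_cst (c : Circle) : (cst P c : Ω → Circle) =ᵐ[P] fun _ => c :=
  AEEqFun.coeFn_const _ _

lemma pull_cst (φ : Ω' → Ω) (hφ : MeasurePreserving φ P' P) (c : Circle) :
    pull φ hφ (cst P c) = cst P' c := by
  apply AEEqFun.ext
  refine (coeFn_pull φ hφ _).trans ?_
  refine (hφ.quasiMeasurePreserving.ae_eq_comp (coeFn_cst c)).trans ?_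
  exact (coeFn_cst c).symm

/-- Fourier coefficient `∫ u conj(g)`. -/
noncomputable def coef (P : Measure Ω) (u : Ω → ℂ) (g : UF P) : ℂ :=
  ∫ e, u e * conj (toC (g e)) ∂P

end pull

section Iso

variable {E X : Type*} [MeasurableSpace E] [MeasurableSpace X]

/-- the generators: constants and characters with a nonzero coefficient on `L²(X)`. -/
noncomputable def gens (P : Measure E) (Ch : Set (E → ℂ)) (π : E → X) (μX : Measure X) : Set (UF P) :=
  {g | ∃ c : Circle, g = cst P c} ∪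
  {g | (∃ χ ∈ Ch, (fun e => toC (g e)) =ᵐ[P] χ) ∧
    ∃ h : X → ℂ, MemLp h 2 μX ∧ coef P (h ∘ π) g ≠ 0}

/-- the group generated by them -/
noncomputable def NN (P : Measure E) (Ch : Set (E → ℂ)) (π : E → X) (μX : Measure X) : Subgroup (UF P) :=
  Subgroup.closure (gens P Ch π μX)

/-- the properties of a character set on one fibre -/
structure IsCh (P : Measure E) (Ch : Set (E → ℂ)) : Prop where
  meas : ∀ χ ∈ Ch, Measurable χ
  norm : ∀ χ ∈ Ch, ∀ e, ‖χ e‖ = 1
  const : ∀ c : ℂ, ‖c‖ = 1 → (fun _ => c) ∈ Ch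
  mul : ∀ χ ∈ Ch, ∀ χ' ∈ Ch, (fun e => χ e * χ' e) ∈ Ch
  cj : ∀ χ ∈ Ch, (fun e => conj (χ e)) ∈ Ch
  cz : ∀ χ ∈ Ch, (∃ c : ℂ, χ =ᵐ[P] fun _ => c) ∨ ∫ e, χ e ∂P = 0
  total : ∀ f : E → ℂ, MemLp f 2 P → (∀ χ ∈ Ch, ∫ e, f e * conj (χ e) ∂P = 0) → f =ᵐ[P] 0

lemma IsCh.memLp {P : Measure E} [IsProbabilityMeasure P] {Ch : Set (E → ℂ)} (h : IsCh P Ch)
    {χ : E → ℂ} (hχ : χ ∈ Ch) : MemLp χ 2 P := by
  refine MemLp.of_bound (h.meas χ hχ).aestronglyMeasurable 1 (ae_of_all _ fun e => ?_)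
  exact (h.norm χ hχ e).le

lemma mem_closure_of_total {P : Measure E} [IsProbabilityMeasure P] {Ch : Set (E → ℂ)}
    (hC : IsCh P Ch) (u : Lp ℂ 2 P) :
    u ∈ (Submodule.span ℂ {v : Lp ℂ 2 P | ∃ χ, ∃ hχ : χ ∈ Ch, v = (hC.memLp hχ).toLp χ ∧
      ∫ e, u e * conj (χ e) ∂P ≠ 0}).topologicalClosure := by
  set G : Set (Lp ℂ 2 P) := {v : Lp ℂ 2 P | ∃ χ, ∃ hχ : χ ∈ Ch, v = (hC.memLp hχ).toLp χ ∧
      ∫ e, u e * conj (χ e) ∂P ≠ 0} with hG
  set V := (Submodule.span ℂ G).topologicalClosure with hV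
  have : CompleteSpace V := (Submodule.isClosed_topologicalClosure _).completeSpace_coe
  set r : Lp ℂ 2 P := u - V.starProjection u with hr
  have hrV : r ∈ Vᗮ := V.sub_starProjection_mem_orthogonal u
  have hin : ∀ (χ : E → ℂ) (hχ : χ ∈ Ch) (f : Lp ℂ 2 P),
      inner ℂ ((hC.memLp hχ).toLp χ) f = ∫ e, f e * conj (χ e) ∂P := by
    intro χ hχ f
    rw [L2.inner_def]
    apply integral_congr_ae
    filter_upwards [(hC.memLp hχ).coeFn_toLp] with e he
    rw [he, RCLike.inner_apply]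
  have hr0 : (r : E → ℂ) =ᵐ[P] 0 := by
    apply hC.total _ (Lp.memLp r)
    intro χ hχ
    rw [← hin χ hχ]
    by_cases hne : ∫ e, u e * conj (χ e) ∂P ≠ 0
    · have hmem : (hC.memLp hχ).toLp χ ∈ V :=
        Submodule.le_topologicalClosure _ (Submodule.subset_span ⟨χ, hχ, rfl, hne⟩)
      exact hrV _ hmem
    · push Not at hne
      rw [hr, inner_sub_right, hin χ hχ u, hne, zero_sub, neg_eq_zero]
      -- `χ ⟂ V`
      have hperp : (hC.memLp hχ).toLp χ ∈ Vᗮ := by
        rw [hV, Submodule.orthogonal_closure, Submodule.mem_orthogonal]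
        intro v hv
        induction hv using Submodule.span_induction with
        | mem v hv =>
          obtain ⟨χ', hχ', rfl, hne'⟩ := hv
          rw [hin χ' hχ']
          have h1 : ∫ e, χ e * conj (χ' e) ∂P = 0 := by
            rcases hC.cz _ (hC.mul χ hχ _ (hC.cj χ' hχ')) with ⟨c, hc⟩ | h0
            · exfalso
              apply hne'
              have h2 : ∀ᵐ e ∂P, χ e = c * χ' e := by
                filter_upwards [hc] with e he
                have h3 : χ' e * conj (χ' e) = 1 := by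
                  rw [Complex.mul_conj, Complex.normSq_eq_norm_sq, hC.norm χ' hχ' e]; simp
                rw [← he]
                linear_combination (-(χ e)) * h3
              have hc0 : c ≠ 0 := by
                rintro rfl
                obtain ⟨e, he⟩ := h2.exists
                have := hC.norm χ hχ e
                rw [he] at this
                simp at this
              have h4 : ∫ e, u e * conj (χ e) ∂P = conj c * ∫ e, u e * conj (χ' e) ∂P := by
                rw [← integral_const_mul]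
                apply integral_congr_ae
                filter_upwards [h2] with e he
                rw [he, map_mul]; ring
              rw [hne] at h4
              have hcc : conj c ≠ 0 := by simpa using hc0
              exact (mul_eq_zero.1 h4.symm).resolve_left hcc
            · exact h0
          rw [← h1]
          apply integral_congr_ae
          filter_upwards [(hC.memLp hχ).coeFn_toLp] with e he
          rw [he]
        | zero => simp
        | add x y _ _ hx hy => rw [inner_add_left, hx, hy, add_zero]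
        | smul a x _ hx => rw [inner_smul_left, hx, mul_zero]
      have h5 : V.starProjection u ∈ V := Submodule.starProjection_apply_mem _ _
      rw [← inner_conj_symm, hperp _ h5, map_zero]
  have hrz : r = 0 := Lp.ext (hr0.trans (Lp.coeFn_zero _ _ _).symm)
  have : u = V.starProjection u := by rw [← sub_eq_zero]; exact hrz
  rw [this]
  exact Submodule.starProjection_apply_mem _ _

/-- if `u` correlates with `F` after pull back, some character with a nonzero coefficient does. -/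
lemma exists_corr {Ω : Type*} [MeasurableSpace Ω] {Q : Measure Ω} [IsProbabilityMeasure Q]
    {P : Measure E} [IsProbabilityMeasure P] {Ch : Set (E → ℂ)}
    (hC : IsCh P Ch) {φ : Ω → E} (hφ : MeasurePreserving φ Q P) {u : E → ℂ} (hu : MemLp u 2 P)
    {F : Ω → ℂ} (hF : MemLp F 2 Q) (hne : ∫ z, u (φ z) * conj (F z) ∂Q ≠ 0) :
    ∃ χ ∈ Ch, ∫ e, u e * conj (χ e) ∂P ≠ 0 ∧ ∫ z, χ (φ z) * conj (F z) ∂Q ≠ 0 := by
  by_contra hcon
  push Not at hcon
  apply hne
  set uL : Lp ℂ 2 P := hu.toLp u with huL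
  have hmem := mem_closure_of_total hC uL
  set G : Set (Lp ℂ 2 P) := {v : Lp ℂ 2 P | ∃ χ, ∃ hχ : χ ∈ Ch, v = (hC.memLp hχ).toLp χ ∧
      ∫ e, uL e * conj (χ e) ∂P ≠ 0} with hG
  let T : Lp ℂ 2 P →ₗᵢ[ℂ] Lp ℂ 2 Q := Lp.compMeasurePreservingₗᵢ ℂ φ hφ
  let L : Lp ℂ 2 P →L[ℂ] ℂ := (innerSL ℂ (hF.toLp F)).comp T.toContinuousLinearMap
  have hL : ∀ (v : Lp ℂ 2 P) (w : E → ℂ), v =ᵐ[P] w → L v = ∫ z, w (φ z) * conj (F z) ∂Q := by
    intro v w hvw
    show inner ℂ (hF.toLp F) (T v) = _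
    rw [L2.inner_def]
    apply integral_congr_ae
    have h1 : (T v : Ω → ℂ) =ᵐ[Q] v ∘ φ := Lp.coeFn_compMeasurePreserving v hφ
    filter_upwards [hF.coeFn_toLp, h1, hφ.quasiMeasurePreserving.ae_eq_comp hvw] with z h1 h2 h3
    rw [h1, h2, RCLike.inner_apply, h3]
    rfl
  have hle : (Submodule.span ℂ G).topologicalClosure ≤ LinearMap.ker (L : Lp ℂ 2 P →ₗ[ℂ] ℂ) := by
    apply Submodule.topologicalClosure_minimal
    · rw [Submodule.span_le]
      rintro v ⟨χ, hχ, rfl, h2⟩
      show L _ = 0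
      rw [hL _ χ (hC.memLp hχ).coeFn_toLp]
      apply hcon χ hχ
      intro h3
      apply h2
      rw [← h3]
      apply integral_congr_ae
      filter_upwards [hu.coeFn_toLp] with e he
      rw [huL, he]
    · exact L.isClosed_ker
  have h0 : L uL = 0 := hle hmem
  rw [hL uL u hu.coeFn_toLp] at h0
  exact h0

lemma integral_mp {Ω : Type*} [MeasurableSpace Ω] {Q : Measure Ω} {P : Measure E} {φ : Ω → E}
    (hφ : MeasurePreserving φ Q P) {G : E → ℂ} (hG : AEStronglyMeasurable G P) :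
    ∫ z, G (φ z) ∂Q = ∫ e, G e ∂P := by
  have h2 := hφ.map_eq
  subst h2
  exact (integral_map hφ.aemeasurable hG).symm

lemma aesm_conj {P : Measure E} (g : UF P) :
    AEStronglyMeasurable (fun e => conj (toC (g e))) P :=
  (Complex.continuous_conj.comp continuous_toC).comp_aestronglyMeasurable
      g.aestronglyMeasurable

lemma coef_pull {Ω : Type*} [MeasurableSpace Ω] {Q : Measure Ω} {P : Measure E} {φ : Ω → E}
    (hφ : MeasurePreserving φ Q P) {u : E → ℂ} (hu : AEStronglyMeasurable u P) (g : UF P) :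
    coef Q (u ∘ φ) (pull φ hφ g) = coef P u g := by
  unfold coef
  have h3 : AEStronglyMeasurable (fun e => u e * conj (toC (g e))) P := hu.mul (aesm_conj g)
  rw [← integral_mp hφ h3]
  apply integral_congr_ae
  filter_upwards [coeFn_pull φ hφ g] with z hz
  rw [hz]; rfl

/-- the class of a measurable unimodular function -/
noncomputable def toUF (P : Measure E) (χ : E → ℂ) (hm : Measurable χ) (hn : ∀ e, ‖χ e‖ = 1) :
    UF P :=
  AEEqFun.mk (fun e => mkC (χ e) (hn e))
    (isEmbedding_toC.aestronglyMeasurable_comp_iff.1 hm.aestronglyMeasurable)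

lemma coeFn_toUF {P : Measure E} {χ : E → ℂ} (hm : Measurable χ) (hn : ∀ e, ‖χ e‖ = 1) :
    (fun e => toC (toUF P χ hm hn e)) =ᵐ[P] χ := by
  filter_upwards [AEEqFun.coeFn_mk (μ := P) (fun e => mkC (χ e) (hn e))
    (isEmbedding_toC.aestronglyMeasurable_comp_iff.1 hm.aestronglyMeasurable)] with e he
  unfold toUF
  rw [he, toC_mkC]

lemma UF_ext {P : Measure E} {f g : UF P}
    (h : (fun e => toC (f e)) =ᵐ[P] fun e => toC (g e)) : f = g := by
  apply AEEqFun.ext
  filter_upwards [h] with e he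
  exact toC_inj he

lemma map_pull_le {Ω : Type*} [MeasurableSpace Ω] {Q : Measure Ω} [IsProbabilityMeasure Q]
    {P P' : Measure E} [IsProbabilityMeasure P] [IsProbabilityMeasure P'] {μX : Measure X}
    {C C' : Set (E → ℂ)} (hC : IsCh P C) (hC' : IsCh P' C') {π : E → X}
    (hπ : MeasurePreserving π P μX) (hπ' : MeasurePreserving π P' μX)
    {φ ψ : Ω → E} (hφ : MeasurePreserving φ Q P) (hψ : MeasurePreserving ψ Q P')
    (hag : ∀ᵐ z ∂Q, π (φ z) = π (ψ z))
    (hcross : ∀ χ ∈ C, ∀ χ' ∈ C', (∃ c : ℂ, ∀ᵐ z ∂Q, χ (φ z) * conj (χ' (ψ z)) = c) ∨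
      ∫ z, χ (φ z) * conj (χ' (ψ z)) ∂Q = 0) :
    (NN P C π μX).map (pull φ hφ) ≤ (NN P' C' π μX).map (pull ψ hψ) := by
  rw [Subgroup.map_le_iff_le_comap, NN, Subgroup.closure_le]
  rintro g (⟨c, rfl⟩ | ⟨⟨χ, hχ, hgχ⟩, h, hh, hne⟩)
  · refine ⟨cst P' c, Subgroup.subset_closure (Or.inl ⟨c, rfl⟩), ?_⟩
    rw [pull_cst, pull_cst]
  · have hu : MemLp (h ∘ π) 2 P' := hh.comp_measurePreserving hπ'
    have hF : MemLp (χ ∘ φ) 2 Q := (hC.memLp hχ).comp_measurePreserving hφ
    have hne2 : ∫ z, (h ∘ π) (ψ z) * conj ((χ ∘ φ) z) ∂Q ≠ 0 := by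
      have h1 : coef P (h ∘ π) g = ∫ z, (h ∘ π) (ψ z) * conj ((χ ∘ φ) z) ∂Q := by
        have h2 : coef P (h ∘ π) g = ∫ e, (h ∘ π) e * conj (χ e) ∂P := by
          apply integral_congr_ae
          filter_upwards [hgχ] with e he
          rw [he]
        rw [h2]
        have h3 : AEStronglyMeasurable (fun e => (h ∘ π) e * conj (χ e)) P :=
          (hh.comp_measurePreserving hπ).aestronglyMeasurable.mul
            ((Complex.continuous_conj.measurable.comp (hC.meas χ hχ)).aestronglyMeasurable)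
        rw [← integral_mp hφ h3]
        apply integral_congr_ae
        filter_upwards [hag] with z hz
        simp only [Function.comp, hz]
      rwa [← h1]
    obtain ⟨χ', hχ', hc', hcorr⟩ := exists_corr hC' hψ hu hF hne2
    rcases hcross χ hχ χ' hχ' with ⟨c, hc⟩ | h0
    · -- the good case
      have hn1 : ‖c‖ = 1 := by
        obtain ⟨z, hz⟩ := hc.exists
        rw [← hz, norm_mul, RCLike.norm_conj, hC.norm χ hχ, hC'.norm χ' hχ', one_mul]
      have hmem : (fun e => c * χ' e) ∈ C' := hC'.mul _ (hC'.const c hn1) _ hχ'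
      refine ⟨toUF P' _ (hC'.meas _ hmem) (hC'.norm _ hmem), ?_, ?_⟩
      · apply Subgroup.subset_closure
        refine Or.inr ⟨⟨_, hmem, coeFn_toUF _ _⟩, h, hh, ?_⟩
        have h5 : coef P' (h ∘ π) (toUF P' _ (hC'.meas _ hmem) (hC'.norm _ hmem))
            = conj c * ∫ e, (h ∘ π) e * conj (χ' e) ∂P' := by
          unfold coef
          rw [← integral_const_mul]
          apply integral_congr_ae
          filter_upwards [coeFn_toUF (P := P') (hC'.meas _ hmem) (hC'.norm _ hmem)] with e he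
          rw [he, map_mul]; ring
        rw [h5]
        refine mul_ne_zero ?_ hc'
        intro h6
        rw [map_eq_zero] at h6
        rw [h6] at hn1; simp at hn1
      · apply UF_ext
        filter_upwards [coeFn_pull φ hφ g, coeFn_pull ψ hψ (toUF P' _ (hC'.meas _ hmem)
          (hC'.norm _ hmem)), hψ.quasiMeasurePreserving.ae_eq_comp (coeFn_toUF (P := P')
          (hC'.meas _ hmem) (hC'.norm _ hmem)), hφ.quasiMeasurePreserving.ae_eq_comp hgχ, hc]
          with z h1 h2 h3 h4 h5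
        simp only [Function.comp] at h1 h2 h3 h4
        rw [h1, h2, h3, h4, ← h5]
        have h7 : χ' (ψ z) * conj (χ' (ψ z)) = 1 := by
          rw [Complex.mul_conj, Complex.normSq_eq_norm_sq, hC'.norm χ' hχ']; simp
        linear_combination (χ (φ z)) * h7
    · exfalso
      apply hcorr
      have h8 : ∫ z, χ' (ψ z) * conj ((χ ∘ φ) z) ∂Q
          = conj (∫ z, χ (φ z) * conj (χ' (ψ z)) ∂Q) := by
        rw [← integral_conj]
        apply integral_congr_ae
        filter_upwards with z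
        simp only [Function.comp, map_mul, Complex.conj_conj]; ring
      rw [h8, h0, map_zero]

lemma map_pull_eq {Ω : Type*} [MeasurableSpace Ω] {Q : Measure Ω} [IsProbabilityMeasure Q]
    {P P' : Measure E} [IsProbabilityMeasure P] [IsProbabilityMeasure P'] {μX : Measure X}
    {C C' : Set (E → ℂ)} (hC : IsCh P C) (hC' : IsCh P' C') {π : E → X}
    (hπ : MeasurePreserving π P μX) (hπ' : MeasurePreserving π P' μX)
    {φ ψ : Ω → E} (hφ : MeasurePreserving φ Q P) (hψ : MeasurePreserving ψ Q P')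
    (hag : ∀ᵐ z ∂Q, π (φ z) = π (ψ z))
    (hcross : ∀ χ ∈ C, ∀ χ' ∈ C', (∃ c : ℂ, ∀ᵐ z ∂Q, χ (φ z) * conj (χ' (ψ z)) = c) ∨
      ∫ z, χ (φ z) * conj (χ' (ψ z)) ∂Q = 0) :
    (NN P C π μX).map (pull φ hφ) = (NN P' C' π μX).map (pull ψ hψ) := by
  apply le_antisymm
  · exact map_pull_le hC hC' hπ hπ' hφ hψ hag hcross
  · refine map_pull_le hC' hC hπ' hπ hψ hφ ?_ ?_
    · filter_upwards [hag] with z hz using hz.symm
    · intro χ' hχ' χ hχ
      rcases hcross χ hχ χ' hχ' with ⟨c, hc⟩ | h0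
      · left
        refine ⟨conj c, ?_⟩
        filter_upwards [hc] with z hz
        rw [← hz, map_mul, Complex.conj_conj]; ring
      · right
        have h8 : ∫ z, χ' (ψ z) * conj (χ (φ z)) ∂Q
            = conj (∫ z, χ (φ z) * conj (χ' (ψ z)) ∂Q) := by
          rw [← integral_conj]
          apply integral_congr_ae
          filter_upwards with z
          simp only [map_mul, Complex.conj_conj]; ring
        rw [h8, h0, map_zero]

/-- transport of subgroups through a common overgroup -/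
noncomputable def tr {G G' K : Type*} [Group G] [Group G'] [Group K] (N : Subgroup G)
    (N' : Subgroup G') (i : G →* K) (i' : G' →* K) (hi : Function.Injective i)
    (hi' : Function.Injective i') (h : N.map i = N'.map i') : N ≃* N' :=
  (N.equivMapOfInjective i hi).trans
    ((MulEquiv.subgroupCongr h).trans (N'.equivMapOfInjective i' hi').symm)

lemma tr_spec {G G' K : Type*} [Group G] [Group G'] [Group K] (N : Subgroup G)
    (N' : Subgroup G') (i : G →* K) (i' : G' →* K) (hi : Function.Injective i)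
    (hi' : Function.Injective i') (h : N.map i = N'.map i') (x : N) :
    i' (tr N N' i i' hi hi' h x : G') = i (x : G) := by
  have h1 : ((N'.equivMapOfInjective i' hi') (tr N N' i i' hi hi' h x) : K)
      = i' (tr N N' i i' hi hi' h x : G') := Subgroup.coe_equivMapOfInjective_apply _ _ _ _
  rw [← h1]
  have h2 : (N'.equivMapOfInjective i' hi') (tr N N' i i' hi hi' h x)
      = (MulEquiv.subgroupCongr h) ((N.equivMapOfInjective i hi) x) := by
    simp [tr]
  rw [h2]
  rfl

/-- "`g` is a.e. the constant `z`". -/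
def IsCst {P : Measure E} (g : UF P) (z : ℂ) : Prop := ∀ᵐ e ∂P, toC (g e) = z

lemma isCst_pull {Ω : Type*} [MeasurableSpace Ω] {Q : Measure Ω} {P : Measure E} {φ : Ω → E}
    (hφ : MeasurePreserving φ Q P) (g : UF P) (z : ℂ) : IsCst (pull φ hφ g) z ↔ IsCst g z := by
  have hms : MeasurableSet {e | toC (g e) = z} := by
    have h1 : StronglyMeasurable fun e => toC (g e) :=
      continuous_toC.comp_stronglyMeasurable g.stronglyMeasurable
    exact StronglyMeasurable.measurableSet_eq_fun h1 stronglyMeasurable_const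
  constructor
  · intro h
    apply ae_of_mp hφ hms
    filter_upwards [h, coeFn_pull φ hφ g] with z h1 h2
    rw [h2] at h1
    exact h1
  · intro h
    have h1 := hφ.quasiMeasurePreserving.ae h
    filter_upwards [h1, coeFn_pull φ hφ g] with z h1 h2
    rw [h2]
    exact h1

lemma coef_congr {P : Measure E} {u v : E → ℂ} (h : u =ᵐ[P] v) (g : UF P) :
    coef P u g = coef P v g := by
  apply integral_congr_ae
  filter_upwards [h] with e he
  rw [he]

/-- the action of `T` : the group over `T_* P` pulls back onto the group over `P`. -/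
lemma map_pull_T {P P' : Measure E} {μX : Measure X} {C C' : Set (E → ℂ)} {π : E → X}
    {S : ℤ → X → X} (hS : End.Act μX S) (T : E ≃ᵐ E) (hT : MeasurePreserving T P P')
    (hπ' : MeasurePreserving π P' μX)
    (hag : ∀ᵐ e ∂P, π (T e) = S 1 (π e))
    (hCC : ∀ χ : E → ℂ, χ ∈ C' ↔ (fun e => χ (T e)) ∈ C) :
    (NN P' C' π μX).map (pull T hT) = NN P C π μX := by
  have hcoef : ∀ (h : X → ℂ) (g : UF P'), MemLp h 2 μX →
      coef P ((h ∘ S 1) ∘ π) (pull T hT g) = coef P' (h ∘ π) g := by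
    intro h g hh
    rw [← coef_pull hT (hh.comp_measurePreserving hπ').aestronglyMeasurable g]
    apply coef_congr
    filter_upwards [hag] with e he
    simp only [Function.comp, he]
  rw [NN, MonoidHom.map_closure, NN]
  congr 1
  ext g'
  constructor
  · rintro ⟨g, hg | ⟨⟨χ, hχ, hgχ⟩, h, hh, hne⟩, rfl⟩
    · obtain ⟨c, rfl⟩ := hg
      left
      exact ⟨c, pull_cst _ hT c⟩
    · right
      refine ⟨⟨fun e => χ (T e), (hCC χ).1 hχ, ?_⟩, h ∘ S 1,
        hh.comp_measurePreserving (hS.mp 1), ?_⟩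
      · filter_upwards [coeFn_pull T hT g, hT.quasiMeasurePreserving.ae_eq_comp hgχ] with e h1 h2
        rw [h1]
        exact h2
      · rw [hcoef h g hh]
        exact hne
  · have hTs : MeasurePreserving T.symm P' P := hT.symm
    rintro (⟨c, rfl⟩ | ⟨⟨χ, hχ, hgχ⟩, h, hh, hne⟩)
    · exact ⟨cst P' c, Or.inl ⟨c, rfl⟩, pull_cst _ hT c⟩
    · have hpp : pull T hT (pull T.symm hTs g') = g' := by
        apply AEEqFun.ext
        filter_upwards [coeFn_pull T hT (pull T.symm hTs g'),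
          hT.quasiMeasurePreserving.ae_eq_comp (coeFn_pull T.symm hTs g')] with e h1 h2
        rw [h1]
        refine h2.trans ?_
        simp
      refine ⟨pull T.symm hTs g', Or.inr ⟨⟨fun e => χ (T.symm e), ?_, ?_⟩, h ∘ S (-1),
        hh.comp_measurePreserving (hS.mp (-1)), ?_⟩, hpp⟩
      · rw [hCC]
        simpa using hχ
      · filter_upwards [coeFn_pull T.symm hTs g', hTs.quasiMeasurePreserving.ae_eq_comp hgχ]
          with e h1 h2
        rw [h1]
        exact h2
      · rw [← hcoef _ _ (hh.comp_measurePreserving (hS.mp (-1))), hpp]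
        have h3 : (h ∘ S (-1)) ∘ S 1 = h := by
          funext x
          simp only [Function.comp]
          rw [← hS.add]
          simp [hS.zero]
        rw [h3]
        exact hne

end Iso

section Main

/-- push of a good property through a measurable map between standard Borel spaces -/
lemma ae_exists_fiber {W2 Z : Type*} [MeasurableSpace W2] [StandardBorelSpace W2]
    [MeasurableSpace Z] [StandardBorelSpace Z] {ν2 : Measure W2} [IsProbabilityMeasure ν2]
    {φ : W2 → Z} (hφ : Measurable φ) {Good : W2 → Prop} (h : ∀ᵐ w ∂ν2, Good w) :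
    ∀ᵐ z ∂(ν2.map φ), ∃ w, φ w = z ∧ Good w := by
  classical
  have : Nonempty W2 := by
    obtain ⟨w, -⟩ := h.exists
    exact ⟨w⟩
  obtain ⟨A, hA, hAm, hA0⟩ : ∃ A : Set W2, A ⊆ {w | Good w} ∧ MeasurableSet A ∧ ν2 Aᶜ = 0 := by
    obtain ⟨B, hB, hBm, hB0⟩ := exists_measurable_superset_of_null (show ν2 {w | ¬ Good w} = 0 from h)
    refine ⟨Bᶜ, ?_, hBm.compl, by simpa using hB0⟩
    intro w hw
    by_contra hcon
    exact hw (hB hcon)
  have h1 : (ν2.map φ) ⊗ₘ condDistrib id φ ν2 = ν2.map (fun w => (φ w, id w)) :=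
    compProd_map_condDistrib measurable_id.aemeasurable
  have hset : MeasurableSet {p : Z × W2 | φ p.2 = p.1 ∧ p.2 ∈ A} := by
    apply MeasurableSet.inter
    · exact measurableSet_eq_fun (hφ.comp measurable_snd) measurable_fst
    · exact hAm.preimage measurable_snd
  have h2 : ∀ᵐ p ∂((ν2.map φ) ⊗ₘ condDistrib id φ ν2), φ p.2 = p.1 ∧ p.2 ∈ A := by
    rw [h1, ae_map_iff (by fun_prop) hset]
    have : ∀ᵐ w ∂ν2, w ∈ A := hA0
    filter_upwards [this] with w hw
    exact ⟨rfl, hw⟩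
  have h3 := Measure.ae_ae_of_ae_compProd h2
  filter_upwards [h3] with z hz
  obtain ⟨w, hw1, hw2⟩ := hz.exists
  exact ⟨w, hw1, hA hw2⟩

/-- (H1)-(H8) of note 12194. -/
structure Hyp {E X W W2 : Type*} [MeasurableSpace E] [MeasurableSpace X] [MeasurableSpace W]
    [MeasurableSpace W2] (μX : Measure X) (S : ℤ → X → X) (ν : Measure W) (κ : Kernel W E)
    (ν2 : Measure W2) (κ2 : Kernel W2 (E × E)) (p p' : W2 → W) (π : E → X) (T : E ≃ᵐ E)
    (σ : W → W) (Ch : W → Set (E → ℂ)) : Prop where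
  hp : Measurable p
  hp' : Measurable p'
  H1 : ν2.map (fun w => (p w, p' w)) = ν.prod ν
  H2 : ∀ᵐ w ∂ν2, (κ2 w).map Prod.fst = κ (p w) ∧ (κ2 w).map Prod.snd = κ (p' w)
  H3 : ∀ᵐ w ∂ν2, ∀ᵐ z ∂(κ2 w), π z.1 = π z.2
  H45 : ∀ᵐ w ∂ν, IsCh (κ w) (Ch w)
  H6 : ∀ᵐ w ∂ν2, ∀ χ ∈ Ch (p w), ∀ χ' ∈ Ch (p' w),
    (∃ c : ℂ, ∀ᵐ z ∂(κ2 w), χ z.1 * conj (χ' z.2) = c) ∨
      ∫ z, χ z.1 * conj (χ' z.2) ∂(κ2 w) = 0
  hσ : MeasurePreserving σ ν ν
  H7 : ∀ᵐ w ∂ν, (κ w).map T = κ (σ w) ∧
    ∀ χ : E → ℂ, χ ∈ Ch (σ w) ↔ (fun e => χ (T e)) ∈ Ch w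
  hπ : Measurable π
  H8 : ∀ᵐ w ∂ν, (κ w).map π = μX
  H8' : ∀ᵐ w ∂ν, ∀ᵐ e ∂(κ w), π (T e) = S 1 (π e)

variable {E X : Type*} [MeasurableSpace E] [MeasurableSpace X]

/-- two fibres coupled over `X` -/
def Cpl (μX : Measure X) (π : E → X) (P P' : Measure E) (C C' : Set (E → ℂ)) : Prop :=
  ∃ Q : Measure (E × E), IsProbabilityMeasure Q ∧ Q.map Prod.fst = P ∧ Q.map Prod.snd = P' ∧
    (∀ᵐ z ∂Q, π z.1 = π z.2) ∧ IsCh P C ∧ IsCh P' C' ∧ P.map π = μX ∧ P'.map π = μX ∧
    (∀ χ ∈ C, ∀ χ' ∈ C', (∃ c : ℂ, ∀ᵐ z ∂Q, χ z.1 * conj (χ' z.2) = c) ∨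
      ∫ z, χ z.1 * conj (χ' z.2) ∂Q = 0)

lemma Cpl.exists_equiv {μX : Measure X} {π : E → X} (hπ : Measurable π) {P P' : Measure E}
    [IsProbabilityMeasure P] [IsProbabilityMeasure P'] {C C' : Set (E → ℂ)}
    (h : Cpl μX π P P' C C') :
    ∃ e : NN P C π μX ≃* NN P' C' π μX,
      (∀ h : X → ℂ, MemLp h 2 μX → ∀ χ : NN P C π μX,
        coef P' (h ∘ π) (e χ : UF P') = coef P (h ∘ π) (χ : UF P)) ∧
      ∀ (χ : NN P C π μX) (z : ℂ), IsCst (χ : UF P) z ↔ IsCst (e χ : UF P') z := by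
  obtain ⟨Q, hQ, hfst, hsnd, hag, hC, hC', hP, hP', hcross⟩ := h
  have hφ : MeasurePreserving Prod.fst Q P := ⟨measurable_fst, hfst⟩
  have hψ : MeasurePreserving Prod.snd Q P' := ⟨measurable_snd, hsnd⟩
  have hπP : MeasurePreserving π P μX := ⟨hπ, hP⟩
  have hπP' : MeasurePreserving π P' μX := ⟨hπ, hP'⟩
  have hmap := map_pull_eq hC hC' hπP hπP' hφ hψ hag hcross
  refine ⟨tr _ _ _ _ (pull_injective _ hφ) (pull_injective _ hψ) hmap, ?_, ?_⟩
  · intro h hh χ
    rw [← coef_pull hφ (hh.comp_measurePreserving hπP).aestronglyMeasurable (χ : UF P),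
      ← coef_pull hψ (hh.comp_measurePreserving hπP').aestronglyMeasurable, tr_spec]
    apply coef_congr
    filter_upwards [hag] with z hz
    simp only [Function.comp, hz]
  · intro χ z
    rw [← isCst_pull hφ (χ : UF P) z, ← isCst_pull hψ, tr_spec]

lemma exists_equiv_T {μX : Measure X} {π : E → X} {P P' : Measure E} {C C' : Set (E → ℂ)}
    {S : ℤ → X → X} (hS : End.Act μX S) (T : E ≃ᵐ E) (hT : P.map T = P')
    (hπ : Measurable π) (hπ' : P'.map π = μX)
    (hag : ∀ᵐ e ∂P, π (T e) = S 1 (π e))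
    (hCC : ∀ χ : E → ℂ, χ ∈ C' ↔ (fun e => χ (T e)) ∈ C) :
    ∃ e : NN P' C' π μX ≃* NN P C π μX,
      (∀ h : X → ℂ, MemLp h 2 μX → ∀ χ : NN P' C' π μX,
        coef P ((h ∘ S 1) ∘ π) (e χ : UF P) = coef P' (h ∘ π) (χ : UF P')) ∧
      ∀ (χ : NN P' C' π μX) (z : ℂ), IsCst (χ : UF P') z ↔ IsCst (e χ : UF P) z := by
  have hTm : MeasurePreserving T P P' := ⟨T.measurable, hT⟩
  have hπm : MeasurePreserving π P' μX := ⟨hπ, hπ'⟩
  have hmap := map_pull_T hS T hTm hπm hag hCC
  have hmap2 : (NN P' C' π μX).map (pull T hTm) = (NN P C π μX).map (MonoidHom.id _) := by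
    rw [hmap, Subgroup.map_id]
  refine ⟨tr _ _ _ _ (pull_injective _ hTm) (fun _ _ h => h) hmap2, ?_, ?_⟩
  · intro h hh χ
    have h1 := tr_spec _ _ _ _ (pull_injective _ hTm) (fun _ _ h => h) hmap2 χ
    simp only [MonoidHom.id_apply] at h1
    rw [h1, ← coef_pull hTm (hh.comp_measurePreserving hπm).aestronglyMeasurable (χ : UF P')]
    apply coef_congr
    filter_upwards [hag] with e he
    simp only [Function.comp, he]
  · intro χ z
    have h1 := tr_spec _ _ _ _ (pull_injective _ hTm) (fun _ _ h => h) hmap2 χ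
    simp only [MonoidHom.id_apply] at h1
    rw [h1, isCst_pull hTm]

lemma BM.memLp {μX : Measure X} [IsFiniteMeasure μX] {h : X → ℂ} (hh : End.BM h) :
    MemLp h 2 μX := by
  obtain ⟨hm, C, hC⟩ := hh
  exact MemLp.of_bound hm.aestronglyMeasurable C (ae_of_all _ hC)

lemma memLp_UF {P : Measure E} [IsFiniteMeasure P] (g : UF P) : MemLp (fun e => toC (g e)) 2 P := by
  refine MemLp.of_bound (continuous_toC.comp_aestronglyMeasurable g.aestronglyMeasurable) 1
    (ae_of_all _ fun e => ?_)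
  exact (norm_toC _).le

/-- approximation of `h ∘ π` by finite sums of elements of the group. -/
lemma exists_approx {μX : Measure X} [IsProbabilityMeasure μX] {P : Measure E}
    [IsProbabilityMeasure P] {C : Set (E → ℂ)} (hC : IsCh P C) {π : E → X}
    (hπ : MeasurePreserving π P μX) {h : X → ℂ} (hh : MemLp h 2 μX) {ε : ℝ} (hε : 0 < ε) :
    ∃ (F : Finset (NN P C π μX)) (c : NN P C π μX → ℂ),
      ∫ w, ‖h (π w) - ∑ χ ∈ F, c χ * toC ((χ : UF P) w)‖ ^ 2 ∂P < ε := by
  classical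
  have hu : MemLp (h ∘ π) 2 P := hh.comp_measurePreserving hπ
  set u : Lp ℂ 2 P := hu.toLp _ with hudef
  let Ψ : NN P C π μX → Lp ℂ 2 P := fun χ => (memLp_UF (χ : UF P)).toLp _
  have hmem := mem_closure_of_total hC u
  have hle : (Submodule.span ℂ {v : Lp ℂ 2 P | ∃ χ, ∃ hχ : χ ∈ C, v = (hC.memLp hχ).toLp χ ∧
      ∫ e, u e * conj (χ e) ∂P ≠ 0}).topologicalClosure
      ≤ (Submodule.span ℂ (Set.range Ψ)).topologicalClosure := by
    apply Submodule.topologicalClosure_mono
    apply Submodule.span_mono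
    rintro v ⟨χ, hχ, rfl, hne⟩
    have hg : toUF P χ (hC.meas χ hχ) (hC.norm χ hχ) ∈ NN P C π μX := by
      apply Subgroup.subset_closure
      refine Or.inr ⟨⟨χ, hχ, coeFn_toUF _ _⟩, h, hh, ?_⟩
      intro h0
      apply hne
      rw [← h0]
      apply integral_congr_ae
      filter_upwards [hu.coeFn_toLp, coeFn_toUF (P := P) (hC.meas χ hχ) (hC.norm χ hχ)]
        with e h1 h2
      rw [h2, hudef, h1]
    refine ⟨⟨_, hg⟩, ?_⟩
    apply Lp.ext
    refine (MemLp.coeFn_toLp _).trans ?_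
    refine (coeFn_toUF (P := P) (hC.meas χ hχ) (hC.norm χ hχ)).trans ?_
    exact (MemLp.coeFn_toLp _).symm
  have hmem2 := hle hmem
  rw [← SetLike.mem_coe, Submodule.topologicalClosure_coe, Metric.mem_closure_iff] at hmem2
  obtain ⟨v, hv, hd⟩ := hmem2 (Real.sqrt ε) (Real.sqrt_pos.2 hε)
  rw [SetLike.mem_coe, Finsupp.mem_span_range_iff_exists_finsupp] at hv
  obtain ⟨c, rfl⟩ := hv
  refine ⟨c.support, c, ?_⟩
  have hcoe : (u - c.sum fun i a => a • Ψ i : Lp ℂ 2 P) =ᵐ[P]
      fun w => h (π w) - ∑ χ ∈ c.support, c χ * toC ((χ : UF P) w) := by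
    have h1 : ((c.sum fun i a => a • Ψ i : Lp ℂ 2 P) : E → ℂ) =ᵐ[P]
        fun w => ∑ χ ∈ c.support, c χ * toC ((χ : UF P) w) := by
      rw [Finsupp.sum]
      have h2 : ∀ (F : Finset (NN P C π μX)), ((∑ χ ∈ F, c χ • Ψ χ : Lp ℂ 2 P) : E → ℂ) =ᵐ[P]
          fun w => ∑ χ ∈ F, c χ * toC ((χ : UF P) w) := by
        intro F
        induction F using Finset.induction_on with
        | empty =>
          simp only [Finset.sum_empty]
          exact Lp.coeFn_zero _ _ _
        | insert a F ha ih =>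
          rw [Finset.sum_insert ha]
          have h3 : (Ψ a : E → ℂ) =ᵐ[P] fun w => toC ((a : UF P) w) := MemLp.coeFn_toLp _
          filter_upwards [Lp.coeFn_add (c a • Ψ a) (∑ χ ∈ F, c χ • Ψ χ),
            Lp.coeFn_smul (c a) (Ψ a), ih, h3] with w h4 h5 h6 h7
          rw [h4, Pi.add_apply, h5, h6, Pi.smul_apply, h7, Finset.sum_insert ha, smul_eq_mul]
      exact h2 _
    filter_upwards [Lp.coeFn_sub u (c.sum fun i a => a • Ψ i), h1, hu.coeFn_toLp] with w h3 h4 h5
    rw [h3, Pi.sub_apply, h4, hudef, h5]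
    rfl
  have hnorm : ∫ w, ‖h (π w) - ∑ χ ∈ c.support, c χ * toC ((χ : UF P) w)‖ ^ 2 ∂P
      = ‖u - c.sum fun i a => a • Ψ i‖ ^ 2 := by
    set v : Lp ℂ 2 P := u - c.sum fun i a => a • Ψ i with hv
    have h6 : (‖v‖ ^ 2 : ℝ) = RCLike.re (inner ℂ v v) := by
      rw [inner_self_eq_norm_sq (𝕜 := ℂ)]
    rw [h6, L2.inner_def, ← integral_re (L2.integrable_inner v v)]
    apply integral_congr_ae
    filter_upwards [hcoe] with w hw
    rw [inner_self_eq_norm_sq (𝕜 := ℂ), hw]
  rw [hnorm]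
  rw [dist_eq_norm] at hd
  calc _ < (Real.sqrt ε) ^ 2 := by
        apply pow_lt_pow_left₀ hd (norm_nonneg _) (by norm_num)
    _ = ε := Real.sq_sqrt hε.le


/-- **DESC**: (H1)-(H8) produce the end-game data at one point of the environment. -/
theorem exists_data {W W2 : Type*} [MeasurableSpace W] [StandardBorelSpace W]
    [MeasurableSpace W2] [StandardBorelSpace W2] {μX : Measure X} [IsProbabilityMeasure μX]
    {S : ℤ → X → X} (hS : End.Act μX S) {ν : Measure W} [IsProbabilityMeasure ν]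
    {κ : Kernel W E} [IsMarkovKernel κ] {ν2 : Measure W2} [IsProbabilityMeasure ν2]
    {κ2 : Kernel W2 (E × E)} [IsMarkovKernel κ2] {p p' : W2 → W} {π : E → X} {T : E ≃ᵐ E}
    {σ : W → W} {Ch : W → Set (E → ℂ)} (H : Hyp μX S ν κ ν2 κ2 p p' π T σ Ch) :
    ∃ (w : W) (N : Subgroup (UF (κ w))), Nonempty (End.Data μX S (κ w) N) := by
  classical
  -- the good pairs
  have hpp : Measurable fun w => (p w, p' w) := H.hp.prodMk H.hp'
  have hν1 : ν2.map p = ν := by
    have h1 : (ν2.map fun w => (p w, p' w)).map Prod.fst = ν2.map p := by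
      rw [Measure.map_map measurable_fst hpp]; rfl
    rw [← h1, H.H1, Measure.map_fst_prod]; simp
  have hν2 : ν2.map p' = ν := by
    have h1 : (ν2.map fun w => (p w, p' w)).map Prod.snd = ν2.map p' := by
      rw [Measure.map_map measurable_snd hpp]; rfl
    rw [← h1, H.H1, Measure.map_snd_prod]; simp
  have hmp : MeasurePreserving p ν2 ν := ⟨H.hp, hν1⟩
  have hmp' : MeasurePreserving p' ν2 ν := ⟨H.hp', hν2⟩
  have hgood : ∀ᵐ w ∂ν2, Cpl μX π (κ (p w)) (κ (p' w)) (Ch (p w)) (Ch (p' w)) := by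
    filter_upwards [H.H2, H.H3, H.H6, hmp.quasiMeasurePreserving.ae H.H45,
      hmp'.quasiMeasurePreserving.ae H.H45, hmp.quasiMeasurePreserving.ae H.H8,
      hmp'.quasiMeasurePreserving.ae H.H8] with w h2 h3 h6 h4 h5 h8 h8'
    exact ⟨κ2 w, inferInstance, h2.1, h2.2, h3, h4, h5, h8, h8', h6⟩
  have hfib := ae_exists_fiber hpp hgood
  rw [H.H1] at hfib
  have hfib2 : ∀ᵐ z ∂(ν.prod ν), Cpl μX π (κ z.1) (κ z.2) (Ch z.1) (Ch z.2) := by
    filter_upwards [hfib] with z hz
    obtain ⟨w, rfl, hw⟩ := hz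
    exact hw
  have hfib3 := Measure.ae_ae_of_ae_prod hfib2
  obtain ⟨ws, hws⟩ := hfib3.exists
  simp only at hws
  obtain ⟨w, hc1, hc2, hT, hag, h8s⟩ := (hws.and ((H.hσ.quasiMeasurePreserving.ae hws).and
    (H.H7.and (H.H8'.and (H.hσ.quasiMeasurePreserving.ae H.H8))))).exists
  obtain ⟨e1, he1, hk1⟩ := hc2.exists_equiv H.hπ
  obtain ⟨e3, he3, hk3⟩ := hc1.exists_equiv H.hπ
  obtain ⟨e2, he2, hk2⟩ := exists_equiv_T hS T hT.1 H.hπ h8s hag hT.2
  obtain ⟨Q, hQ, hfst, hsnd, hagQ, hC, hC', hP, hP', hcross⟩ := hc1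
  have hπP : MeasurePreserving π (κ ws) μX := ⟨H.hπ, hP⟩
  refine ⟨ws, NN (κ ws) (Ch ws) π μX, ⟨{
    pr := π
    mp := hπP
    ev := fun χ e => toC ((χ : UF (κ ws)) e)
    ev_meas := fun χ => continuous_toC.comp_aestronglyMeasurable
      (χ : UF (κ ws)).aestronglyMeasurable
    ev_norm := fun χ => ae_of_all _ fun e => norm_toC _
    ev_mul := ?_
    ev_mean := ?_
    span := fun h hh ε hε => exists_approx hC hπP (BM.memLp hh) hε
    al := (e1.trans e2).trans e3.symm
    al_const := ?_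
    al_pair := ?_ }⟩⟩
  · intro χ ψ
    filter_upwards [AEEqFun.coeFn_mul (χ : UF (κ ws)) (ψ : UF (κ ws))] with e he
    rw [Subgroup.coe_mul, he, Pi.mul_apply, toC_mul]
  · intro χ hne
    -- every element of the group is a.e. an element of `Ch`
    have hin : ∀ g ∈ NN (κ ws) (Ch ws) π μX, ∃ χ ∈ Ch ws, (fun e => toC (g e)) =ᵐ[κ ws] χ := by
      intro g hg
      induction hg using Subgroup.closure_induction with
      | mem g hg =>
        rcases hg with ⟨c, rfl⟩ | ⟨hg, -⟩
        · refine ⟨fun _ => toC c, hC.const _ (norm_toC c), ?_⟩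
          filter_upwards [coeFn_cst (P := κ ws) c] with e he
          rw [he]
        · exact hg
      | one =>
        refine ⟨fun _ => 1, hC.const 1 (by simp), ?_⟩
        filter_upwards [AEEqFun.coeFn_one (μ := κ ws) (β := Circle)] with e he
        rw [he, Pi.one_apply, toC_one]
      | mul a b _ _ ha hb =>
        obtain ⟨χ1, h1, h1'⟩ := ha
        obtain ⟨χ2, h2, h2'⟩ := hb
        refine ⟨_, hC.mul _ h1 _ h2, ?_⟩
        filter_upwards [AEEqFun.coeFn_mul a b, h1', h2'] with e he h3 h4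
        rw [he, Pi.mul_apply, toC_mul, h3, h4]
      | inv a _ ha =>
        obtain ⟨χ1, h1, h1'⟩ := ha
        refine ⟨_, hC.cj _ h1, ?_⟩
        filter_upwards [AEEqFun.coeFn_inv a, h1'] with e he h3
        rw [he, Pi.inv_apply, ← toC_conj, h3]
    obtain ⟨χ', hχ', hev⟩ := hin _ χ.2
    rcases hC.cz χ' hχ' with ⟨c, hc⟩ | h0
    · refine ⟨c, ?_⟩
      filter_upwards [hev, hc] with e h1 h2
      rw [h1, h2]
    · exfalso
      apply hne
      rw [← h0]
      exact integral_congr_ae hev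
  · intro χ z
    have h1 : IsCst (χ : UF (κ ws)) z ↔
        IsCst ((((e1.trans e2).trans e3.symm) χ : NN (κ ws) (Ch ws) π μX) : UF (κ ws)) z := by
      have h3 := hk3 (e3.symm (e2 (e1 χ))) z
      rw [MulEquiv.apply_symm_apply] at h3
      exact (hk1 χ z).trans ((hk2 (e1 χ) z).trans h3.symm)
    exact h1
  · intro h hh χ
    have hm : MemLp h 2 μX := BM.memLp hh
    have hm1 : MemLp (h ∘ S 1) 2 μX := hm.comp_measurePreserving (hS.mp 1)
    have h1 := he1 h hm χ
    have h2 := he2 h hm (e1 χ)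
    have h3 := he3 (h ∘ S 1) hm1 (e3.symm (e2 (e1 χ)))
    rw [MulEquiv.apply_symm_apply] at h3
    have h4 : coef (κ ws) ((h ∘ S 1) ∘ π)
        ((((e1.trans e2).trans e3.symm) χ : NN (κ ws) (Ch ws) π μX) : UF (κ ws))
        = coef (κ ws) (h ∘ π) (χ : UF (κ ws)) := by
      rw [← h1, ← h2, h3]; rfl
    exact h4

/-- density of the span gives `total`. -/
lemma total_of_dense {P : Measure E} [IsProbabilityMeasure P] {Ch : Set (E → ℂ)}
    (hm : ∀ χ ∈ Ch, Measurable χ) (hn : ∀ χ ∈ Ch, ∀ e, ‖χ e‖ = 1)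
    (hd : ∀ f : Lp ℂ 2 P, (∀ χ (hχ : χ ∈ Ch), inner ℂ ((MemLp.of_bound
      (hm χ hχ).aestronglyMeasurable 1 (ae_of_all _ fun e => (hn χ hχ e).le) :
        MemLp χ 2 P).toLp χ) f = 0) → f = 0) :
    ∀ f : E → ℂ, MemLp f 2 P → (∀ χ ∈ Ch, ∫ e, f e * conj (χ e) ∂P = 0) → f =ᵐ[P] 0 := by
  intro f hf h0
  have h1 : hf.toLp f = 0 := by
    apply hd
    intro χ hχ
    rw [L2.inner_def, ← h0 χ hχ]
    apply integral_congr_ae
    filter_upwards [hf.coeFn_toLp, (MemLp.of_bound (hm χ hχ).aestronglyMeasurable 1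
      (ae_of_all _ fun e => (hn χ hχ e).le) : MemLp χ 2 P).coeFn_toLp] with e h1 h2
    rw [RCLike.inner_apply, h1, h2]
  have h2 := hf.coeFn_toLp
  rw [h1] at h2
  exact h2.symm.trans (Lp.coeFn_zero _ _ _)

end Main

end Crest.Agent.R069.Desc
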