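import Crest.Agent.R069.Defs
import Crest.Agent.R069.Sites
import Crest.Agent.R069.LoebCE

/-!
# Glue: site sigma-algebras, internal sigma-algebras and factor maps (row 69)

`siteG m u` is the sigma-algebra on `Lb α` of the sets `{x | ∀ᶠ k, u k (x k) ∈ A}`, `A ∈ m`, for a
sequence of maps `u k : α → β` (for `u k = S (s k)` this is the algebra of the site `s`).
Everything is stated for arbitrary probability spaces and a.e. equivariant maps; inclusions of
sigma-algebras are in the sense `AELe` (up to null sets).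

* `sg_comap`, `sg_comap_base`, `sg_congr_ae`, `sg_aele`, `LL_aele`;
* `comap_sg_factor` : `comap (lbmap e) (siteG m uβ) = siteG (m.comap e) uα` mod null sets;
* `st_congr_ae`, `st_comp_factor`;
* Sys level: `siteM`, `restM`, `rest`, `vis`, `visX` under factor maps, invariance under the shift;
* the Loeb system `M.loeb`, its invariant sub-sigma-algebras, point sites as factor maps
  `E.loeb → E`, pairs and extensions carried by the Loeb system.
-/

set_option autoImplicit false

open MeasureTheory Filter Set ProbabilityTheory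
open scoped ENNReal Topology

namespace Crest.Agent.R069.Glue

/-! ### general facts on `AELe` -/

section aele

variable {Ω : Type*} {mΩ : MeasurableSpace Ω} {μ : Measure Ω} {m₁ m₂ m₁' m₂' m : MeasurableSpace Ω}

theorem aele_iSup_iSup {ι : Sort*} {a b : ι → MeasurableSpace Ω} (h : ∀ i, AELe μ (a i) (b i)) :
    AELe μ (⨆ i, a i) (⨆ i, b i) :=
  AELe.iSup fun i => (h i).trans (AELe.of_le (le_iSup b i))

/-- a sigma-algebra all of whose sets are null or conull is contained mod null in every other -/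
theorem aele_of_triv (h : ∀ A, MeasurableSet[m₁] A → μ A = 0 ∨ μ Aᶜ = 0) : AELe μ m₁ m := by
  intro A hA
  rcases h A hA with h0 | h1
  · exact ⟨∅, @MeasurableSet.empty _ m, ae_eq_empty.2 h0⟩
  · exact ⟨univ, @MeasurableSet.univ _ m, ae_eq_univ.2 h1⟩


end aele

/-! ### the sigma-algebra of a site -/

section sg

variable {α β γ δ : Type*}

theorem measurableSet_sg (u : ℕ → α → β) {m : MeasurableSpace β} {A : Set β}
    (hA : MeasurableSet[m] A) : MeasurableSet[siteG m u] (intl (fun k => u k ⁻¹' A)) :=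
  MeasurableSpace.measurableSet_generateFrom ⟨A, hA, rfl⟩

theorem sg_mono (u : ℕ → α → β) {m m' : MeasurableSpace β} (h : m ≤ m') : siteG m u ≤ siteG m' u := by
  refine MeasurableSpace.generateFrom_le ?_
  rintro _ ⟨A, hA, rfl⟩
  exact measurableSet_sg u (h _ hA)


/-- Pulling back along an internal map. -/
theorem sg_comap (u : ℕ → β → γ) (v : ℕ → α → β) (m : MeasurableSpace γ) :
    (siteG m u).comap (lbmap v) = siteG m (fun k => u k ∘ v k) := by
  rw [siteG, MeasurableSpace.comap_generateFrom]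
  apply le_antisymm
  · refine MeasurableSpace.generateFrom_le ?_
    rintro _ ⟨_, ⟨A, hA, rfl⟩, rfl⟩
    rw [lbmap_preimage]
    exact measurableSet_sg (fun k => u k ∘ v k) hA
  · refine MeasurableSpace.generateFrom_le ?_
    rintro _ ⟨A, hA, rfl⟩
    refine MeasurableSpace.measurableSet_generateFrom ?_
    exact ⟨_, ⟨A, hA, rfl⟩, rfl⟩


/-- The site algebra of a pulled back sigma-algebra. -/
theorem sg_comap_base (u : ℕ → α → β) (e : β → γ) (m : MeasurableSpace γ) :
    siteG (m.comap e) u = siteG m (fun k => e ∘ u k) := by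
  apply le_antisymm
  · refine MeasurableSpace.generateFrom_le ?_
    rintro _ ⟨_, ⟨A, hA, rfl⟩, rfl⟩
    exact measurableSet_sg (fun k => e ∘ u k) hA
  · refine MeasurableSpace.generateFrom_le ?_
    rintro _ ⟨A, hA, rfl⟩
    exact measurableSet_sg (m := m.comap e) u ⟨A, hA, rfl⟩

/-- `lbmap v` is measurable between site algebras. -/
theorem measurable_lbmap_sg {u : ℕ → β → γ} {v : ℕ → α → β} {m : MeasurableSpace γ}
    {m' : MeasurableSpace (Lb α)} (h : siteG m (fun k => u k ∘ v k) ≤ m') :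
    Measurable[m', siteG m u] (lbmap v) := by
  rw [measurable_iff_comap_le, sg_comap]
  exact h

/-- Invariance of the site algebra under an internal map commuting with the site maps. -/
theorem measurable_lbmap_sg_self {u : ℕ → α → β} {T : α → α} {T' : β → β}
    {m : MeasurableSpace β} (hT' : Measurable[m, m] T') (hc : ∀ k x, u k (T x) = T' (u k x)) :
    Measurable[siteG m u, siteG m u] (lbmap (fun _ => T)) := by
  refine measurable_lbmap_sg ?_
  have : (fun k => u k ∘ T) = fun k => T' ∘ u k := by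
    funext k x; exact hc k x
  rw [this, ← sg_comap_base]
  exact sg_mono u hT'.comap_le

theorem sg_congr_ae {mα : MeasurableSpace α} {u u' : ℕ → α → β} {μ : Measure α}
    (h : ∀ k, u k =ᵐ[μ] u' k) (m : MeasurableSpace β) : AELe (lb μ) (siteG m u) (siteG m u') := by
  refine AELe.generateFrom ?_
  rintro _ ⟨A, hA, rfl⟩
  refine ⟨_, measurableSet_sg u' hA, intl_ae_eq (fun k => ?_)⟩
  filter_upwards [h k] with x hx
  apply propext
  show u k x ∈ A ↔ u' k x ∈ A
  rw [hx]

theorem sg_aele {m₁ m₂ : MeasurableSpace β} {mα : MeasurableSpace α} {mβ : MeasurableSpace β}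
    {u : ℕ → α → β} {μ : Measure α} {ν : Measure β}
    (hu : ∀ k, MeasurePreserving (u k) μ ν) (h : AELe ν m₁ m₂) :
    AELe (lb μ) (siteG m₁ u) (siteG m₂ u) := by
  refine AELe.generateFrom ?_
  rintro _ ⟨A, hA, rfl⟩
  obtain ⟨B, hB, hAB⟩ := h A hA
  exact ⟨_, measurableSet_sg u hB,
    intl_ae_eq (fun k => (hu k).quasiMeasurePreserving.preimage_ae_eq hAB)⟩

theorem LL_aele {m₁ m₂ : MeasurableSpace α} {mα : MeasurableSpace α} {μ : Measure α}
    (h : AELe μ m₁ m₂) : AELe (lb μ) (LL m₁) (LL m₂) := by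
  refine AELe.generateFrom ?_
  rintro _ ⟨A, hA, rfl⟩
  have h1 : ∀ k, ∃ B, MeasurableSet[m₂] B ∧ A k =ᵐ[μ] B := fun k => h (A k) (hA k)
  choose B hB hAB using h1
  exact ⟨_, measurableSet_intl hB, intl_ae_eq hAB⟩


/-- **Factor maps and sites**: for an a.e. equivariant map `e`,
`(lbmap e)⁻¹ (site of m) = site of e⁻¹ m` up to null sets. -/
theorem comap_sg_factor {mα : MeasurableSpace α} {uα : ℕ → α → α} {uβ : ℕ → β → β}
    {μ : Measure α} {e : α → β}
    (he : ∀ k, e ∘ uα k =ᵐ[μ] uβ k ∘ e) (m : MeasurableSpace β) :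
    AELe (lb μ) ((siteG m uβ).comap (lbmap (fun _ => e))) (siteG (m.comap e) uα) ∧
      AELe (lb μ) (siteG (m.comap e) uα) ((siteG m uβ).comap (lbmap (fun _ => e))) := by
  rw [sg_comap, sg_comap_base]
  exact ⟨sg_congr_ae (fun k => (he k).symm) m, sg_congr_ae he m⟩

end sg

/-! ### standard parts -/

section st

variable {α β : Type*} {E : Type*} [TopologicalSpace E] [Nonempty E]





omit [TopologicalSpace E] [Nonempty E] in
/-- The set version. -/
theorem intl_comp_factor {mα : MeasurableSpace α} {uα : ℕ → α → α} {uβ : ℕ → β → β}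
    {μ : Measure α} {e : α → β} (he : ∀ k, e ∘ uα k =ᵐ[μ] uβ k ∘ e) (A : Set β) :
    intl (fun k => uα k ⁻¹' (e ⁻¹' A)) =ᵐ[lb μ]
      lbmap (fun _ => e) ⁻¹' intl (fun k => uβ k ⁻¹' A) := by
  rw [lbmap_preimage]
  refine intl_ae_eq (fun k => ?_)
  filter_upwards [he k] with x hx
  apply propext
  show e (uα k x) ∈ A ↔ uβ k (e x) ∈ A
  have hx' : e (uα k x) = uβ k (e x) := hx
  rw [hx']

end st

/-! ### null sets -/

section nul

variable {α β : Type*}

theorem intl_ae_eq' {mα : MeasurableSpace α} {μ : Measure α} {A B : ℕ → Set α}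
    (h : ∀ k, A k =ᵐ[μ] B k) : intl A =ᵐ[lb μ] intl B := intl_ae_eq h

theorem of_ae_nul {m mα : MeasurableSpace α} {μ : Measure α} (hm : m ≤ mα)
    (hn : @nul α mα μ ≤ m) {A B : Set α} (hA : MeasurableSet[mα] A)
    (hB : MeasurableSet[m] B) (hAB : A =ᵐ[μ] B) : MeasurableSet[m] A :=
  measurableSet_of_ae_nul hm hn hA hB hAB

theorem aele_nul {m mα : MeasurableSpace α} {μ : Measure α} : AELe μ (@nul α mα μ) m :=
  aele_of_triv fun _ hA => hA.2

theorem comap_nul_le {mα : MeasurableSpace α} {mβ : MeasurableSpace β} {μ : Measure α}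
    {ν : Measure β} {f : α → β} (hf : MeasurePreserving f μ ν) :
    (@nul β mβ ν).comap f ≤ @nul α mα μ := by
  rintro _ ⟨A, ⟨hA, h⟩, rfl⟩
  refine ⟨hf.measurable hA, ?_⟩
  rw [← preimage_compl, hf.measure_preimage hA.nullMeasurableSet,
    hf.measure_preimage hA.compl.nullMeasurableSet]
  exact h




end nul

/-! ### factor maps of systems -/

section sys

theorem S_meas (M : Sys) (a : ℤ) : @Measurable M.Ω M.Ω M.ms M.ms (M.S a) :=
  (M.S_mp a).measurable

/-- the null sigma-algebra of a system -/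
@[implicit_reducible]
noncomputable def nulM (M : Sys) : MeasurableSpace M.Ω := @nul M.Ω M.ms M.μ


/-- the Loeb measure of a system (to avoid instance problems when sub-sigma-algebras are in
context) -/
noncomputable abbrev lbm (M : Sys) : @Measure (Lb M.Ω) (LL M.ms) := lb M.μ

/-- A factor map between systems (a.e. equivariant). -/
structure IsFac (N M : Sys) (f : N.Ω → M.Ω) : Prop where
  mp : MeasurePreserving f N.μ M.μ
  equi : ∀ n, (fun x => f (N.S n x)) =ᵐ[N.μ] fun x => M.S n (f x)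

theorem IsFac.meas {N M : Sys} {f : N.Ω → M.Ω} (hf : IsFac N M f) :
    @Measurable N.Ω M.Ω N.ms M.ms f := hf.mp.measurable



theorem IsFac.id (M : Sys) : IsFac M M id := ⟨MeasurePreserving.id _, fun _ => EventuallyEq.rfl⟩

theorem IsFac.shift (M : Sys) (a : ℤ) : IsFac M M (M.S a) :=
  ⟨M.S_mp a, fun n => Eventually.of_forall fun x => by
    show M.S a (M.S n x) = M.S n (M.S a x)
    rw [← M.S_add, ← M.S_add, add_comm]⟩

variable {N M L : Sys} {f : N.Ω → M.Ω}

theorem IsFac.comp {g : M.Ω → L.Ω} (hg : IsFac M L g) (hf : IsFac N M f) :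
    IsFac N L (g ∘ f) := by
  refine ⟨hg.mp.comp hf.mp, fun n => ?_⟩
  filter_upwards [hf.equi n, hf.mp.quasiMeasurePreserving.ae (hg.equi n)] with x h1 h2
  show g (f (N.S n x)) = L.S n (g (f x))
  rw [h1, h2]

theorem IsFac.congr (hf : IsFac N M f) {g : N.Ω → M.Ω} (hg : Measurable g)
    (h : f =ᵐ[N.μ] g) : IsFac N M g := by
  refine ⟨⟨hg, ?_⟩, fun n => ?_⟩
  · rw [← Measure.map_congr h, hf.mp.map_eq]
  · filter_upwards [hf.equi n, h, (N.S_mp n).quasiMeasurePreserving.ae h] with x h1 h2 h3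
    rw [← h3, h1, h2]


theorem lbmp_eq {α β : Type*} (g : α → β) : Lb.mp g = lbmap (fun _ => g) := rfl

/-- `Lb` of a measure preserving map is measure preserving. -/
theorem lbmp_mp {α β : Type*} {mα : MeasurableSpace α} {mβ : MeasurableSpace β} {μ : Measure α}
    {ν : Measure β} [IsProbabilityMeasure μ] [IsProbabilityMeasure ν] {g : α → β}
    (hg : MeasurePreserving g μ ν) : MeasurePreserving (Lb.mp g) (lb μ) (lb ν) :=
  measurePreserving_lbmap (fun _ => hg)



/-- sites and factor maps -/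
theorem IsFac.comap_siteM (hf : IsFac N M f) (s : ℕ → ℤ) (m : MeasurableSpace M.Ω) :
    AELe (lbm N) ((siteM M s m).comap (Lb.mp f)) (siteM N s (m.comap f)) ∧
      AELe (lbm N) (siteM N s (m.comap f)) ((siteM M s m).comap (Lb.mp f)) :=
  comap_sg_factor (uα := fun k => N.S (s k)) (uβ := fun k => M.S (s k))
    (fun k => hf.equi (s k)) m

theorem comap_LL (g : N.Ω → M.Ω) (C : MeasurableSpace M.Ω) :
    (LL C).comap (Lb.mp g) = LL (C.comap g) := comap_lbmap_LL g

theorem IsFac.comap_nulL (hf : IsFac N M f) : (nulL M).comap (Lb.mp f) ≤ nulL N :=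
  comap_nul_le (lbmp_mp hf.mp)



theorem nulL_le_restM {ι : Type} (s : ι → ℕ → ℤ) (i : ι) (M : Sys)
    (m C : MeasurableSpace M.Ω) : nulL M ≤ restM s i M m C := le_sup_right




/-- the rest algebra of a pulled back sub-sigma-algebra, up to null sets -/
theorem IsFac.restM_aele_comap (hf : IsFac N M f) {ι : Type} (s : ι → ℕ → ℤ) (i : ι)
    (m C : MeasurableSpace M.Ω) :
    AELe (lbm N) (restM s i N (m.comap f) (C.comap f)) ((restM s i M m C).comap (Lb.mp f)) := by
  unfold restM
  rw [MeasurableSpace.comap_sup, MeasurableSpace.comap_sup, MeasurableSpace.comap_iSup]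
  refine AELe.sup_sup (AELe.sup_sup ?_ ?_) aele_nul
  · refine aele_iSup_iSup fun j => ?_
    rw [MeasurableSpace.comap_iSup]
    refine aele_iSup_iSup fun _ => ?_
    exact (hf.comap_siteM (s j) m).2
  · rw [comap_LL]
    exact AELe.refl



/-- sets at a site and factor maps -/
theorem IsFac.site_preimage (hf : IsFac N M f) (s : ℕ → ℤ) (A : Set M.Ω) :
    intl (fun k => N.S (s k) ⁻¹' (f ⁻¹' A)) =ᵐ[lbm N]
      Lb.mp f ⁻¹' intl (fun k => M.S (s k) ⁻¹' A) :=
  intl_comp_factor (uα := fun k => N.S (s k)) (uβ := fun k => M.S (s k))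
    (fun k => hf.equi (s k)) A

/-- translation of a site by the shift -/
theorem site_preimage_S (M : Sys) (s : ℕ → ℤ) (a : ℤ) (A : Set M.Ω) :
    intl (fun k => M.S (s k) ⁻¹' (M.S a ⁻¹' A)) =
      Lb.mp (M.S a) ⁻¹' intl (fun k => M.S (s k) ⁻¹' A) := by
  rw [lbmp_eq, lbmap_preimage]
  congr 1
  funext k
  ext x
  show M.S a (M.S (s k) x) ∈ A ↔ M.S (s k) (M.S a x) ∈ A
  rw [← M.S_add, ← M.S_add, add_comm]

/-! ### invariance under the shift -/

theorem siteM_S (M : Sys) (s : ℕ → ℤ) {m : MeasurableSpace M.Ω} (a : ℤ)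
    (hm : Measurable[m, m] (M.S a)) :
    Measurable[siteM M s m, siteM M s m] (Lb.mp (M.S a)) :=
  measurable_lbmap_sg_self (u := fun k => M.S (s k)) (T := M.S a) (T' := M.S a) hm
    (fun k x => by rw [← M.S_add, ← M.S_add, add_comm])

theorem LL_S (M : Sys) {C : MeasurableSpace M.Ω} (a : ℤ) (hC : Measurable[C, C] (M.S a)) :
    Measurable[LL C, LL C] (Lb.mp (M.S a)) := measurable_lbmap' (fun _ => hC)

theorem nulL_S (M : Sys) (a : ℤ) : Measurable[nulL M, nulL M] (Lb.mp (M.S a)) := by
  rw [measurable_iff_comap_le]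
  exact (IsFac.shift M a).comap_nulL


theorem measurable_sup_self {α : Type*} {m₁ m₂ : MeasurableSpace α} {T : α → α}
    (h₁ : Measurable[m₁, m₁] T) (h₂ : Measurable[m₂, m₂] T) :
    Measurable[m₁ ⊔ m₂, m₁ ⊔ m₂] T := by
  rw [measurable_iff_comap_le, MeasurableSpace.comap_sup]
  exact sup_le_sup h₁.comap_le h₂.comap_le

theorem measurable_iSup_self {α : Type*} {κ : Sort*} {m : κ → MeasurableSpace α} {T : α → α}
    (h : ∀ i, Measurable[m i, m i] T) : Measurable[⨆ i, m i, ⨆ i, m i] T := by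
  rw [measurable_iff_comap_le, MeasurableSpace.comap_iSup]
  exact iSup_mono fun i => (h i).comap_le

theorem restM_S {ι : Type} (s : ι → ℕ → ℤ) (i : ι) (M : Sys) {m C : MeasurableSpace M.Ω} (a : ℤ)
    (hm : Measurable[m, m] (M.S a)) (hC : Measurable[C, C] (M.S a)) :
    Measurable[restM s i M m C, restM s i M m C] (Lb.mp (M.S a)) :=
  measurable_sup_self (measurable_sup_self
    (measurable_iSup_self fun j => measurable_iSup_self fun _ => siteM_S M (s j) a hm)
    (LL_S M a hC)) (nulL_S M a)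


/-! ### the visible algebra -/

section vis

variable {ι : Type} (s : ι → ℕ → ℤ)

/-- sets at a site are a.e. equal if the sets are -/
theorem site_congr_ae (M : Sys) (t : ℕ → ℤ) {A B : Set M.Ω} (h : A =ᵐ[M.μ] B) :
    intl (fun k => M.S (t k) ⁻¹' A) =ᵐ[lbm M] intl (fun k => M.S (t k) ⁻¹' B) :=
  intl_ae_eq' fun k => (M.S_mp (t k)).quasiMeasurePreserving.preimage_ae_eq h

/-- The visible algebra is complete: closed under a.e. equality. -/
theorem visσ_of_ae {M : Sys} {C : MeasurableSpace M.Ω} (hC : C ≤ M.ms) {A B : Set M.Ω}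
    (hA : MeasurableSet[M.ms] A) (hB : MeasurableSet[visσ s M C hC] B) (h : A =ᵐ[M.μ] B) :
    MeasurableSet[visσ s M C hC] A := by
  refine ⟨hA, fun i => ?_⟩
  exact of_ae_nul (μ := lbm M) (restM_le s i M le_rfl hC)
    (nulL_le_restM s i M M.ms C) (M.measurableSet_site (s i) hA) (hB.2 i)
    (site_congr_ae M (s i) h)



theorem visσ_S {M : Sys} {C : MeasurableSpace M.Ω} (hC : C ≤ M.ms)
    (hCS : ∀ n, Measurable[C, C] (M.S n)) (a : ℤ) :
    Measurable[visσ s M C hC, visσ s M C hC] (M.S a) := by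
  rintro A ⟨hA, h⟩
  refine ⟨(S_meas M a) hA, fun i => ?_⟩
  rw [site_preimage_S]
  exact restM_S s i M a (S_meas M a) (hCS a) (h i)


variable {X : Sys}



theorem vis_S (P : Pair X) (a : ℤ) : Measurable[P.vis s, P.vis s] (P.S a) :=
  visσ_S s P.C_le P.C_S a

theorem vis_of_ae (P : Pair X) {A B : Set P.Ω} (hA : MeasurableSet[P.ms] A)
    (hB : MeasurableSet[P.vis s] B) (h : A =ᵐ[P.μ] B) : MeasurableSet[P.vis s] A :=
  visσ_of_ae s P.C_le hA hB h


theorem visX_le (P : Pair X) : P.visX s ≤ X.ms := fun _ h => h.1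


theorem visX_S (P : Pair X) (a : ℤ) : Measurable[P.visX s, P.visX s] (X.S a) := by
  rintro A ⟨hA, h⟩
  refine ⟨(X.S_mp a).measurable hA, ?_⟩
  have h1 : P.π ⁻¹' (X.S a ⁻¹' A) =ᵐ[P.μ] P.S a ⁻¹' (P.π ⁻¹' A) := by
    filter_upwards [P.π_S a] with x hx
    apply propext
    show X.S a (P.π x) ∈ A ↔ P.π (P.S a x) ∈ A
    rw [hx]
  exact vis_of_ae s P (P.π_mp.measurable ((X.S_mp a).measurable hA)) (vis_S s P a h) h1


end vis

/-! ### point sites as factor maps of the Loeb system -/

section point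







variable {E : Sys} [StandardBorelSpace E.Ω]


















end point

end sys

end Crest.Agent.R069.Glue
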