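import Mathlib

/-!
# Row 69, node SITE: (iii) from (S1) + plain q-mixing (note 12234)

On one probability space: sub-σ-algebras `X i ≤ E i` (sites), `C` (environment), a predicate `Inv`
("T-invariant"), stable under `⊔`.  If the `X i` are independent, jointly independent of `C`, and
(S1) `Indep (X j) D → μ[F | D] = μ[F | C]` for `F` `E j`-measurable bounded and every
`Inv` `D ≥ C`, then the `E i` are conditionally independent given `C`.
-/

set_option autoImplicit false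

open MeasureTheory ProbabilityTheory Set Filter

namespace Crest.Agent.R069.Site

variable {Ω : Type*} {m0 : MeasurableSpace Ω}

/-- rectangles of two σ-algebras -/
def rect (m1 m2 : MeasurableSpace Ω) : Set (Set Ω) :=
  {s | ∃ a b, MeasurableSet[m1] a ∧ MeasurableSet[m2] b ∧ s = a ∩ b}

lemma isPiSystem_rect (m1 m2 : MeasurableSpace Ω) : IsPiSystem (rect m1 m2) := by
  rintro _ ⟨a, b, ha, hb, rfl⟩ _ ⟨a', b', ha', hb', rfl⟩ _
  refine ⟨a ∩ a', b ∩ b', MeasurableSet.inter ha ha', MeasurableSet.inter hb hb', ?_⟩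
  rw [inter_inter_inter_comm]

lemma generateFrom_rect (m1 m2 : MeasurableSpace Ω) :
    m1 ⊔ m2 = MeasurableSpace.generateFrom (rect m1 m2) := by
  apply le_antisymm
  · refine sup_le ?_ ?_
    · intro s hs
      exact MeasurableSpace.measurableSet_generateFrom
        ⟨s, univ, hs, MeasurableSet.univ, (inter_univ s).symm⟩
    · intro s hs
      exact MeasurableSpace.measurableSet_generateFrom
        ⟨univ, s, MeasurableSet.univ, hs, (univ_inter s).symm⟩
  · refine MeasurableSpace.generateFrom_le ?_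
    rintro _ ⟨a, b, ha, hb, rfl⟩
    have h1 : MeasurableSet[m1 ⊔ m2] a := (le_sup_left : m1 ≤ m1 ⊔ m2) a ha
    have h2 : MeasurableSet[m1 ⊔ m2] b := (le_sup_right : m2 ≤ m1 ⊔ m2) b hb
    exact MeasurableSet.inter h1 h2

lemma indep_sup_of {μ : Measure Ω} [IsProbabilityMeasure μ] {k a b : MeasurableSpace Ω}
    (hk : k ≤ m0) (ha : a ≤ m0) (hb : b ≤ m0)
    (h : ∀ K A B, MeasurableSet[k] K → MeasurableSet[a] A → MeasurableSet[b] B →
      μ (K ∩ (A ∩ B)) = μ K * μ (A ∩ B)) : Indep k (a ⊔ b) μ := by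
  refine IndepSets.indep (p1 := {s | MeasurableSet[k] s}) (p2 := rect a b) hk (sup_le ha hb)
    (@MeasurableSpace.isPiSystem_measurableSet _ k) (isPiSystem_rect a b)
    (@MeasurableSpace.generateFrom_measurableSet _ k).symm (generateFrom_rect a b) ?_
  rw [IndepSets_iff]
  rintro K _ hK ⟨A, B, hA, hB, rfl⟩
  exact h K A B hK hA hB

/-- `a ∨ b ⊥ c`, `a ⊥ b` ⟹ `a ⊥ c ∨ b`. -/
lemma indep_rot {μ : Measure Ω} [IsProbabilityMeasure μ] {a b c : MeasurableSpace Ω}
    (ha : a ≤ m0) (hb : b ≤ m0) (hc : c ≤ m0)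
    (h1 : Indep (a ⊔ b) c μ) (h2 : Indep a b μ) : Indep a (c ⊔ b) μ := by
  rw [Indep_iff] at h1 h2
  refine indep_sup_of ha hc hb ?_
  intro A U B hA hU hB
  have hA' : MeasurableSet[a ⊔ b] A := (le_sup_left : a ≤ a ⊔ b) A hA
  have hB' : MeasurableSet[a ⊔ b] B := (le_sup_right : b ≤ a ⊔ b) B hB
  have e1 : A ∩ (U ∩ B) = (A ∩ B) ∩ U := by
    ext x; simp only [mem_inter_iff]; tauto
  rw [e1, h1 _ _ (MeasurableSet.inter hA' hB') hU, h2 _ _ hA hB, inter_comm U B,
    h1 _ _ hB' hU, mul_assoc]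

/-- the basic step -/
lemma step {μ : Measure Ω} [IsProbabilityMeasure μ] {k u e c : MeasurableSpace Ω}
    (hk : k ≤ m0) (hu : u ≤ m0) (he : e ≤ m0) (hcu : c ≤ u)
    (h1 : Indep k u μ)
    (hce : ∀ F : Ω → ℝ, StronglyMeasurable[e] F → (∃ K, ∀ x, |F x| ≤ K) →
      μ[F | u ⊔ k] =ᵐ[μ] μ[F | c]) : Indep k (u ⊔ e) μ := by
  have hc : c ≤ m0 := hcu.trans hu
  have hD : u ⊔ k ≤ m0 := sup_le hu hk
  refine indep_sup_of hk hu he ?_
  intro K A B hK hA hB
  have hK0 := hk K hK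
  have hA0 := hu A hA
  have hB0 := he B hB
  set F : Ω → ℝ := B.indicator (fun _ => (1 : ℝ)) with hF
  have hFm : StronglyMeasurable[e] F := stronglyMeasurable_const.indicator hB
  have hFb : ∃ K, ∀ x, |F x| ≤ K := by
    refine ⟨1, fun x => ?_⟩
    by_cases hx : x ∈ B <;> simp [hF, hx]
  have hFi : Integrable F μ := (integrable_const (1 : ℝ)).indicator hB0
  set g : Ω → ℝ := μ[F | c] with hg
  have hgD : μ[F | u ⊔ k] =ᵐ[μ] g := hce F hFm hFb
  have hgi : Integrable g μ := integrable_condExp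
  have hgc : StronglyMeasurable[c] g := stronglyMeasurable_condExp
  -- ∫_{S} F = ∫_S g for S in D
  have key : ∀ S, MeasurableSet[u ⊔ k] S → ∫ x in S, F x ∂μ = ∫ x in S, g x ∂μ := by
    intro S hS
    rw [← setIntegral_condExp hD hFi hS]
    exact setIntegral_congr_ae (hD S hS) (hgD.mono fun x hx _ => hx)
  have hAD : MeasurableSet[u ⊔ k] A := (le_sup_left : u ≤ u ⊔ k) A hA
  have hKD : MeasurableSet[u ⊔ k] K := (le_sup_right : k ≤ u ⊔ k) K hK
  have eq1 : ∫ x in K ∩ A, F x ∂μ = μ.real (K ∩ (A ∩ B)) := by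
    rw [hF, setIntegral_indicator hB0, setIntegral_const, smul_eq_mul, mul_one, inter_assoc]
  have eq2 : ∫ x in A, F x ∂μ = μ.real (A ∩ B) := by
    rw [hF, setIntegral_indicator hB0, setIntegral_const, smul_eq_mul, mul_one]
  have eq3 : ∫ x in K ∩ A, g x ∂μ = μ.real K * ∫ x in A, g x ∂μ := by
    have hgA : StronglyMeasurable[u] (A.indicator g) := (hgc.mono hcu).indicator hA
    have hgAi : Integrable (A.indicator g) μ := hgi.indicator hA0
    have h4 := condExp_indep_eq (μ := μ) hu hk hgA h1.symm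
    have h5 := setIntegral_condExp hk hgAi hK
    rw [setIntegral_congr_ae hK0 (h4.mono fun x hx _ => hx), setIntegral_const,
      setIntegral_indicator hA0, integral_indicator hA0, smul_eq_mul] at h5
    exact h5.symm
  have : μ.real (K ∩ (A ∩ B)) = μ.real K * μ.real (A ∩ B) := by
    rw [← eq1, key _ (MeasurableSet.inter hKD hAD), eq3, ← key A hAD, eq2]
  have h6 : (μ (K ∩ (A ∩ B))).toReal = (μ K * μ (A ∩ B)).toReal := by
    rw [ENNReal.toReal_mul]; exact this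
  exact (ENNReal.toReal_eq_toReal_iff' (measure_ne_top _ _)
    (ENNReal.mul_ne_top (measure_ne_top _ _) (measure_ne_top _ _))).1 h6

/-- sup of the `X i`, `i ∉ S` -/
@[reducible] def XC {ι : Type*} (X : ι → MeasurableSpace Ω) (S : Finset ι) : MeasurableSpace Ω :=
  ⨆ i, ⨆ (_ : i ∉ S), X i

/-- sup of the `E i`, `i ∈ S` -/
@[reducible] def EE {ι : Type*} (E : ι → MeasurableSpace Ω) (S : Finset ι) : MeasurableSpace Ω :=
  ⨆ i ∈ S, E i

lemma XC_insert {ι : Type*} [DecidableEq ι] {X : ι → MeasurableSpace Ω} (S : Finset ι) {j : ι}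
    (hj : j ∉ S) : XC X S = X j ⊔ XC X (insert j S) := by
  unfold XC
  apply le_antisymm
  · refine iSup_le fun i => iSup_le fun hi => ?_
    by_cases h : i = j
    · subst h; exact le_sup_left
    · exact le_sup_of_le_right (le_iSup_of_le i (le_iSup_of_le (by simp [h, hi]) le_rfl))
  · refine sup_le (le_iSup_of_le j (le_iSup_of_le hj le_rfl)) ?_
    refine iSup_le fun i => iSup_le fun hi => ?_
    have : i ∉ S := fun h => hi (Finset.mem_insert_of_mem h)
    exact le_iSup_of_le i (le_iSup_of_le this le_rfl)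

lemma EE_insert {ι : Type*} [DecidableEq ι] {E : ι → MeasurableSpace Ω} (S : Finset ι) (j : ι) :
    EE E (insert j S) = EE E S ⊔ E j := by
  unfold EE
  rw [Finset.iSup_insert, sup_comm]

lemma EE_empty {ι : Type*} {E : ι → MeasurableSpace Ω} : EE E (∅ : Finset ι) = ⊥ := by simp [EE]

lemma XC_empty {ι : Type*} {X : ι → MeasurableSpace Ω} : XC X (∅ : Finset ι) = ⨆ i, X i := by
  simp [XC]

lemma XC_le {ι : Type*} {X : ι → MeasurableSpace Ω} (hX0 : ∀ i, X i ≤ m0) (S : Finset ι) :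
    XC X S ≤ m0 :=
  iSup_le fun i => iSup_le fun _ => hX0 i

lemma EE_le {ι : Type*} {E : ι → MeasurableSpace Ω} (hE0 : ∀ i, E i ≤ m0) (S : Finset ι) :
    EE E S ≤ m0 :=
  iSup_le fun i => iSup_le fun _ => hE0 i

lemma indep_XC {ι : Type*} [DecidableEq ι] {X : ι → MeasurableSpace Ω} {μ : Measure Ω}
    (hX0 : ∀ i, X i ≤ m0) (hiX : iIndep X μ) (S : Finset ι) (j : ι) :
    Indep (X j) (XC X (insert j S)) μ := by
  have h := indep_iSup_of_disjoint hX0 hiX (S := {j}) (T := {i | i ∉ insert j S}) (by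
    rw [Set.disjoint_left]; rintro i rfl hi; exact hi (Finset.mem_insert_self _ _))
  simpa [XC] using h

end Crest.Agent.R069.Site


namespace Crest.Agent.R069.Site

/-- Hypotheses of the site theorem. -/
structure Hyp {Ω : Type*} {m0 : MeasurableSpace Ω} {ι : Type*} (μ : Measure Ω)
    (E X : ι → MeasurableSpace Ω) (C : MeasurableSpace Ω)
    (Inv : MeasurableSpace Ω → Prop) : Prop where
  inv_sup : ∀ a b, Inv a → Inv b → Inv (a ⊔ b)
  inv_C : Inv C
  inv_E : ∀ S : Finset ι, Inv (EE E S)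
  inv_X : ∀ S : Finset ι, Inv (XC X S)
  E_le : ∀ i, E i ≤ m0
  X_le : ∀ i, X i ≤ m0
  C_le : C ≤ m0
  iX : iIndep X μ
  XC : Indep (⨆ i, X i) C μ
  S1 : ∀ (j : ι) (D : MeasurableSpace Ω), C ≤ D → D ≤ m0 → Inv D → Indep (X j) D μ →
    ∀ F : Ω → ℝ, StronglyMeasurable[E j] F → (∃ K, ∀ x, |F x| ≤ K) → μ[F | D] =ᵐ[μ] μ[F | C]

variable {Ω : Type*} {m0 : MeasurableSpace Ω} {ι : Type*} [DecidableEq ι] {μ : Measure Ω}
  [IsProbabilityMeasure μ] {E X : ι → MeasurableSpace Ω} {C : MeasurableSpace Ω}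
  {Inv : MeasurableSpace Ω → Prop}

/-- the independence used to apply (S1), given the previous stage. -/
lemma Hyp.indep_j (H : Hyp μ E X C Inv) {S : Finset ι} {j : ι} (hj : j ∉ S)
    (hP : Indep (Site.XC X S) (C ⊔ EE E S) μ) :
    Indep (X j) ((C ⊔ EE E S) ⊔ Site.XC X (insert j S)) μ := by
  rw [XC_insert S hj] at hP
  exact indep_rot (H.X_le j) (XC_le H.X_le _) (sup_le H.C_le (EE_le H.E_le _)) hP
    (indep_XC H.X_le H.iX S j)

lemma Hyp.ce_aux (H : Hyp μ E X C Inv) {S : Finset ι} {j : ι} (hj : j ∉ S)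
    (hP : Indep (Site.XC X S) (C ⊔ EE E S) μ) (F : Ω → ℝ) (hF : StronglyMeasurable[E j] F)
    (hb : ∃ K, ∀ x, |F x| ≤ K) :
    μ[F | (C ⊔ EE E S) ⊔ Site.XC X (insert j S)] =ᵐ[μ] μ[F | C] :=
  H.S1 j _ (le_sup_of_le_left le_sup_left)
    (sup_le (sup_le H.C_le (EE_le H.E_le _)) (XC_le H.X_le _))
    (H.inv_sup _ _ (H.inv_sup _ _ H.inv_C (H.inv_E S)) (H.inv_X _))
    (H.indep_j hj hP) F hF hb

/-- Stage `S`: `X_{Sᶜ} ⊥ C ∨ E_S`. -/
theorem Hyp.stage (H : Hyp μ E X C Inv) (S : Finset ι) :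
    Indep (Site.XC X S) (C ⊔ EE E S) μ := by
  induction S using Finset.induction_on with
  | empty =>
    rw [EE_empty, sup_bot_eq, XC_empty]
    exact H.XC
  | insert j S hj ih =>
    rw [EE_insert, ← sup_assoc]
    refine step (c := C) (XC_le H.X_le _) (sup_le H.C_le (EE_le H.E_le _)) (H.E_le j)
      le_sup_left ?_ ?_
    · refine indep_of_indep_of_le_left ih ?_
      rw [XC_insert S hj]
      exact le_sup_right
    · intro F hF hb
      exact H.ce_aux hj ih F hF hb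

/-- (S1) at stage `S`. -/
theorem Hyp.ce_stage (H : Hyp μ E X C Inv) {S : Finset ι} {j : ι} (hj : j ∉ S) (F : Ω → ℝ)
    (hF : StronglyMeasurable[E j] F) (hb : ∃ K, ∀ x, |F x| ≤ K) :
    μ[F | (C ⊔ EE E S) ⊔ Site.XC X (insert j S)] =ᵐ[μ] μ[F | C] :=
  H.ce_aux hj (H.stage S) F hF hb

/-- conditional independence: `μ[F | D] = μ[F | C]` for every `D` between `C` and
`C ∨ E_S ∨ X_{(S ∪ {j})ᶜ}`. -/
theorem Hyp.ce_of_le (H : Hyp μ E X C Inv) {S : Finset ι} {j : ι} (hj : j ∉ S) (F : Ω → ℝ)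
    (hF : StronglyMeasurable[E j] F) (hb : ∃ K, ∀ x, |F x| ≤ K) {D : MeasurableSpace Ω}
    (hCD : C ≤ D) (hD : D ≤ (C ⊔ EE E S) ⊔ Site.XC X (insert j S)) :
    μ[F | D] =ᵐ[μ] μ[F | C] := by
  have hBig : (C ⊔ EE E S) ⊔ Site.XC X (insert j S) ≤ m0 :=
    sup_le (sup_le H.C_le (EE_le H.E_le _)) (XC_le H.X_le _)
  have h1 := H.ce_stage hj F hF hb
  have h2 : μ[μ[F | (C ⊔ EE E S) ⊔ Site.XC X (insert j S)] | D] =ᵐ[μ] μ[F | D] :=
    condExp_condExp_of_le hD hBig
  have h3 : μ[μ[F | (C ⊔ EE E S) ⊔ Site.XC X (insert j S)] | D] =ᵐ[μ] μ[μ[F | C] | D] :=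
    condExp_congr_ae h1
  have h4 : μ[μ[F | C] | D] = μ[F | C] :=
    condExp_of_stronglyMeasurable (hD.trans hBig)
      (stronglyMeasurable_condExp.mono hCD) integrable_condExp
  rw [h4] at h3
  exact h2.symm.trans h3

/-- (iii): conditional independence of the sites given `C`. -/
theorem Hyp.ce_E (H : Hyp μ E X C Inv) {S : Finset ι} {j : ι} (hj : j ∉ S) (F : Ω → ℝ)
    (hF : StronglyMeasurable[E j] F) (hb : ∃ K, ∀ x, |F x| ≤ K) :
    μ[F | C ⊔ EE E S] =ᵐ[μ] μ[F | C] :=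
  H.ce_of_le hj F hF hb le_sup_left le_sup_left

/-- strong form `D_q`: `X_j ⊥ C ∨ E_S` for `j ∉ S`. -/
theorem Hyp.strong (H : Hyp μ E X C Inv) {S : Finset ι} {j : ι} (hj : j ∉ S) :
    Indep (X j) (C ⊔ EE E S) μ := by
  refine indep_of_indep_of_le_left (H.stage S) ?_
  rw [XC_insert S hj]
  exact le_sup_left

lemma bdd_prod {Ω : Type*} {ι : Type*} (S : Finset ι) {F : ι → Ω → ℝ}
    (hb : ∀ i, ∃ K, ∀ x, |F i x| ≤ K) : ∃ K, ∀ x, |(∏ i ∈ S, F i) x| ≤ K := by
  classical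
  choose K hK using hb
  refine ⟨∏ i ∈ S, K i, fun x => ?_⟩
  rw [Finset.prod_apply, Finset.abs_prod]
  exact Finset.prod_le_prod (fun _ _ => abs_nonneg _) fun i _ => hK i x

lemma integrable_of_bdd {Ω : Type*} {m0 : MeasurableSpace Ω} {μ : Measure Ω} [IsFiniteMeasure μ]
    {f : Ω → ℝ} (hf : AEStronglyMeasurable f μ) (hb : ∃ K, ∀ x, |f x| ≤ K) : Integrable f μ := by
  obtain ⟨K, hK⟩ := hb
  exact Integrable.of_bound hf K (Eventually.of_forall fun x => by simpa using hK x)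

lemma sm_prod {Ω : Type*} {ι : Type*} {m : MeasurableSpace Ω} (S : Finset ι) {F : ι → Ω → ℝ}
    (hF : ∀ i ∈ S, StronglyMeasurable[m] (F i)) : StronglyMeasurable[m] (∏ i ∈ S, F i) :=
  Finset.stronglyMeasurable_prod S hF

/-- (iii) in product form. -/
theorem Hyp.condExp_prod (H : Hyp μ E X C Inv) (S : Finset ι) (F : ι → Ω → ℝ)
    (hF : ∀ i, StronglyMeasurable[E i] (F i)) (hb : ∀ i, ∃ K, ∀ x, |F i x| ≤ K) :
    μ[∏ i ∈ S, F i | C] =ᵐ[μ] ∏ i ∈ S, μ[F i | C] := by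
  induction S using Finset.induction_on with
  | empty =>
    simp only [Finset.prod_empty]
    have : μ[(1 : Ω → ℝ) | C] = 1 := condExp_const H.C_le (1 : ℝ)
    rw [this]
  | insert j S hj ih =>
    rw [Finset.prod_insert hj, Finset.prod_insert hj]
    set P : Ω → ℝ := ∏ i ∈ S, F i with hP
    have hCE : C ⊔ EE E S ≤ m0 := sup_le H.C_le (EE_le H.E_le _)
    have hPm : StronglyMeasurable[C ⊔ EE E S] P := by
      refine sm_prod S fun i hi => (hF i).mono ?_
      exact le_sup_of_le_right (le_iSup_of_le i (le_iSup_of_le hi le_rfl))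
    have hPb := bdd_prod S hb
    have hFi : Integrable (F j) μ :=
      integrable_of_bdd ((hF j).mono (H.E_le j)).aestronglyMeasurable (hb j)
    have hPi : Integrable P μ := integrable_of_bdd (hPm.mono hCE).aestronglyMeasurable hPb
    have hPF : Integrable (P * F j) μ := by
      obtain ⟨K, hK⟩ := hPb
      exact hFi.bdd_mul (hPm.mono hCE).aestronglyMeasurable
        (Eventually.of_forall fun x => (Real.norm_eq_abs _).trans_le (hK x))
    have hPce : Integrable (P * μ[F j | C]) μ := by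
      obtain ⟨K, hK⟩ := hPb
      exact (integrable_condExp (f := F j)).bdd_mul (hPm.mono hCE).aestronglyMeasurable
        (Eventually.of_forall fun x => (Real.norm_eq_abs _).trans_le (hK x))
    have e1 : μ[P * F j | C ⊔ EE E S] =ᵐ[μ] P * μ[F j | C ⊔ EE E S] :=
      condExp_mul_of_stronglyMeasurable_left hPm hPF hFi
    have e2 : μ[P * F j | C ⊔ EE E S] =ᵐ[μ] P * μ[F j | C] :=
      e1.trans ((H.ce_E hj (F j) (hF j) (hb j)).mono fun x hx => by
        simp only [Pi.mul_apply, hx])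
    have e3 : μ[P * F j | C] =ᵐ[μ] μ[μ[P * F j | C ⊔ EE E S] | C] :=
      (condExp_condExp_of_le le_sup_left hCE).symm
    have e4 : μ[μ[P * F j | C ⊔ EE E S] | C] =ᵐ[μ] μ[P * μ[F j | C] | C] := condExp_congr_ae e2
    have e5 : μ[P * μ[F j | C] | C] =ᵐ[μ] μ[P | C] * μ[F j | C] :=
      condExp_mul_of_stronglyMeasurable_right stronglyMeasurable_condExp hPce hPi
    rw [mul_comm (F j) P]
    refine (e3.trans e4).trans (e5.trans ?_)
    refine ih.mono fun x hx => ?_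
    simp only [Pi.mul_apply, hx, mul_comm]


omit [DecidableEq ι] [IsProbabilityMeasure μ] in
/-- Constructor from the form of (S1) with the site environment `Cs j ≤ C`. -/
theorem Hyp.of_sites {Cs : ι → MeasurableSpace Ω}
    (inv_sup : ∀ a b, Inv a → Inv b → Inv (a ⊔ b)) (inv_C : Inv C)
    (inv_E : ∀ S : Finset ι, Inv (EE E S)) (inv_X : ∀ S : Finset ι, Inv (Site.XC X S))
    (E_le : ∀ i, E i ≤ m0) (X_le : ∀ i, X i ≤ m0) (C_le : C ≤ m0)
    (iX : iIndep X μ) (hXC : Indep (⨆ i, X i) C μ)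
    (S1 : ∀ (j : ι) (D : MeasurableSpace Ω), C ≤ D → D ≤ m0 → Inv D → Indep (X j) D μ →
      ∀ F : Ω → ℝ, StronglyMeasurable[E j] F → (∃ K, ∀ x, |F x| ≤ K) →
        μ[F | D] =ᵐ[μ] μ[F | Cs j]) : Hyp μ E X C Inv :=
  { inv_sup := inv_sup, inv_C := inv_C, inv_E := inv_E, inv_X := inv_X, E_le := E_le,
    X_le := X_le, C_le := C_le, iX := iX, XC := hXC,
    S1 := fun j D hCD hD hI hind F hF hb => by
      have hj : Indep (X j) C μ := indep_of_indep_of_le_left hXC (le_iSup X j)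
      exact (S1 j D hCD hD hI hind F hF hb).trans (S1 j C le_rfl C_le inv_C hj F hF hb).symm }

end Crest.Agent.R069.Site
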