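import Crest.Agent.R069.StdFac
import Crest.Agent.R069.Iface
import Crest.Agent.R069.Defs

-- ▼ part R069/Fac
section

/-!
# Row 69, node FAC: an invariant sub-sigma-algebra of a standard system is, modulo null sets, the
pull-back of the sigma-algebra of a standard factor system (also for pairs)
-/

set_option autoImplicit false

open MeasureTheory Filter Set ProbabilityTheory
open scoped ENNReal Topology

namespace Crest.Agent.R069.Fac

section gen

variable {Ω : Type*} {m : MeasurableSpace Ω} [mΩ : MeasurableSpace Ω]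

/-- A set which is `L¹`-approximated by sets of `m` is a.e. equal to a set of `m`. -/
theorem exists_ae_eq_of_approx {μ : Measure Ω} [IsFiniteMeasure μ]
    (hm : m ≤ mΩ) {B : Set Ω} (hB : MeasurableSet[mΩ] B)
    (h : ∀ ε : ℝ≥0∞, 0 < ε → ∃ A, MeasurableSet[m] A ∧
      eLpNorm (fun x => A.indicator (fun _ => (1 : ℝ)) x - B.indicator (fun _ => (1 : ℝ)) x) 1 μ
        ≤ ε) :
    ∃ B', MeasurableSet[m] B' ∧ B =ᵐ[μ] B' := by
  set f : Ω → ℝ := B.indicator (fun _ => (1 : ℝ)) with hf
  have hfi : Integrable f μ := (integrable_const (1 : ℝ)).indicator hB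
  set g : Ω → ℝ := μ[f | m] with hg
  have hgm : StronglyMeasurable[m] g := stronglyMeasurable_condExp
  have hgi : Integrable g μ := integrable_condExp
  have key : eLpNorm (fun x => g x - f x) 1 μ = 0 := by
    refine le_antisymm (le_of_forall_pos_le_add ?_) bot_le
    intro ε hε
    obtain ⟨A, hA, hAε⟩ := h (ε / 2) (by
      exact ENNReal.div_pos hε.ne' (by norm_num))
    set a : Ω → ℝ := A.indicator (fun _ => (1 : ℝ)) with ha
    have hai : Integrable a μ := (integrable_const (1 : ℝ)).indicator (hm _ hA)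
    have ham : StronglyMeasurable[m] a := (stronglyMeasurable_const).indicator hA
    have h1 : μ[a | m] = a := condExp_of_stronglyMeasurable hm ham hai
    have h2 : (fun x => g x - f x) =ᵐ[μ]
        (μ[fun x => f x - a x | m]) + fun x => a x - f x := by
      have h3 := condExp_sub hfi hai m
      filter_upwards [h3] with x hx
      have h4 : (μ[fun x => f x - a x | m]) x = (μ[f - a | m]) x := rfl
      rw [Pi.add_apply, h4, hx, Pi.sub_apply, h1]
      ring
    rw [eLpNorm_congr_ae h2, zero_add]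
    refine (eLpNorm_add_le (integrable_condExp.aestronglyMeasurable)
      (hai.sub hfi).aestronglyMeasurable le_rfl).trans ?_
    have h5 : eLpNorm (μ[fun x => f x - a x | m]) 1 μ ≤ ε / 2 := by
      refine (eLpNorm_condExp_le_eLpNorm _ le_rfl).trans ?_
      have h6 : eLpNorm (fun x => f x - a x) 1 μ = eLpNorm (fun x => a x - f x) 1 μ :=
        eLpNorm_sub_comm f a 1 μ
      rw [h6]
      exact hAε
    calc _ ≤ ε / 2 + ε / 2 := add_le_add h5 hAε
      _ = ε := ENNReal.add_halves ε
  have hae : (fun x => g x - f x) =ᵐ[μ] 0 :=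
    (eLpNorm_eq_zero_iff (hgi.sub hfi).aestronglyMeasurable one_ne_zero).1 key
  refine ⟨{x | (1 : ℝ) / 2 < g x}, ?_, ?_⟩
  · exact measurableSet_lt (@measurable_const _ _ _ m _) hgm.measurable
  · filter_upwards [hae] with x hx
    have hx' : g x = f x := by
      have := hx
      simp only [Pi.zero_apply] at this
      linarith
    apply propext
    show x ∈ B ↔ (1 : ℝ) / 2 < g x
    rw [hx', hf]
    by_cases hxB : x ∈ B
    · simp [hxB]; norm_num
    · simp [hxB]

/-- **Sub-sigma-algebras of a countably generated measure space are countably generated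
mod 0.** -/
theorem exists_gen (μ : Measure Ω) [IsFiniteMeasure μ] [MeasurableSpace.CountablyGenerated Ω]
    (hm : m ≤ mΩ) :
    ∃ A : ℕ → Set Ω, (∀ j, MeasurableSet[m] (A j)) ∧
      AELe μ m (MeasurableSpace.generateFrom (range A)) := by
  classical
  let S1 : Set (Lp ℝ 1 μ) := {u | ∃ (A : Set Ω) (hA : MeasurableSet[m] A),
    u = indicatorConstLp 1 (hm _ hA) (measure_ne_top μ A) (1 : ℝ)}
  have hne : Nonempty S1 := ⟨⟨_, ∅, @MeasurableSet.empty _ m, rfl⟩⟩
  have hf1 : Fact ((1 : ℝ≥0∞) ≠ ∞) := ⟨by norm_num⟩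
  have hsc : SecondCountableTopology (Lp ℝ 1 μ) := inferInstance
  obtain ⟨u, hu⟩ := TopologicalSpace.exists_dense_seq S1
  choose A hA hAu using fun j => (u j).2
  refine ⟨A, hA, ?_⟩
  have hgen : MeasurableSpace.generateFrom (range A) ≤ m :=
    MeasurableSpace.generateFrom_le (by rintro _ ⟨j, rfl⟩; exact hA j)
  intro B hB
  have hBS : indicatorConstLp 1 (hm _ hB) (measure_ne_top μ B) (1 : ℝ) ∈ S1 := ⟨B, hB, rfl⟩
  refine exists_ae_eq_of_approx (hgen.trans hm) (hm _ hB) ?_
  intro ε hε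
  obtain ⟨δ, hδ, hδε⟩ : ∃ δ : ℝ, 0 < δ ∧ ENNReal.ofReal δ ≤ ε := by
    rcases eq_or_ne ε ∞ with rfl | hε'
    · exact ⟨1, one_pos, le_top⟩
    · exact ⟨ε.toReal, ENNReal.toReal_pos hε.ne' hε', (ENNReal.ofReal_toReal hε').le⟩
  obtain ⟨j, hj⟩ := hu.exists_dist_lt ⟨_, hBS⟩ hδ
  refine ⟨A j, MeasurableSpace.measurableSet_generateFrom ⟨j, rfl⟩, ?_⟩
  have h1 : dist (indicatorConstLp 1 (hm _ hB) (measure_ne_top μ B) (1 : ℝ))
      (indicatorConstLp 1 (hm _ (hA j)) (measure_ne_top μ (A j)) (1 : ℝ)) < δ := by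
    have h2 : ((u j : S1) : Lp ℝ 1 μ)
        = indicatorConstLp 1 (hm _ (hA j)) (measure_ne_top μ (A j)) (1 : ℝ) := hAu j
    rw [← h2]
    exact hj
  rw [dist_comm, dist_eq_norm] at h1
  have h3 : eLpNorm (fun x => (A j).indicator (fun _ => (1 : ℝ)) x
      - B.indicator (fun _ => (1 : ℝ)) x) 1 μ
      = eLpNorm (indicatorConstLp 1 (hm _ (hA j)) (measure_ne_top μ (A j)) (1 : ℝ)
        - indicatorConstLp 1 (hm _ hB) (measure_ne_top μ B) (1 : ℝ) : Lp ℝ 1 μ) 1 μ := by
    apply eLpNorm_congr_ae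
    have h4 := Lp.coeFn_sub (indicatorConstLp 1 (hm _ (hA j)) (measure_ne_top μ (A j)) (1 : ℝ))
      (indicatorConstLp 1 (hm _ hB) (measure_ne_top μ B) (1 : ℝ))
    filter_upwards [h4, indicatorConstLp_coeFn (p := 1) (hs := hm _ (hA j))
      (hμs := measure_ne_top μ (A j)) (c := (1 : ℝ)), indicatorConstLp_coeFn (p := 1)
      (hs := hm _ hB) (hμs := measure_ne_top μ B) (c := (1 : ℝ))] with x hx h5 h6
    rw [hx, Pi.sub_apply, h5, h6]
  rw [h3]
  rw [Lp.norm_def] at h1
  refine le_trans ?_ hδε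
  rw [← ENNReal.ofReal_toReal (Lp.eLpNorm_ne_top (indicatorConstLp 1 (hm _ (hA j))
    (measure_ne_top μ (A j)) (1 : ℝ) - indicatorConstLp 1 (hm _ hB) (measure_ne_top μ B) (1 : ℝ) :
      Lp ℝ 1 μ))]
  exact ENNReal.ofReal_le_ofReal h1.le

end gen

section sys

open Crest.Agent.R069.Std

variable {X : Sys}

/-- the symbolic factor of a system defined by countably many sets -/
noncomputable def codeSys (X : Sys) {A : ℕ → Set X.Ω} (hA : ∀ j, MeasurableSet (A j)) : Sys where
  Ω := Sym
  μ := X.μ.map (code X A)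
  pr := Measure.isProbabilityMeasure_map (measurable_code' hA (measurable_S X)).aemeasurable
  S := shS
  S_zero := shS_zero
  S_add := shS_add
  S_mp n := by
    refine ⟨measurable_shS n, ?_⟩
    have hc : Measurable (code X A) := measurable_code' hA (measurable_S X)
    rw [Measure.map_map (measurable_shS n) hc]
    have h1 : shS n ∘ code X A = code X A ∘ X.S n := by
      funext x
      exact (code_S A n x).symm
    rw [h1, ← Measure.map_map hc (measurable_S X n), (X.S_mp n).map_eq]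

/-- **FAC for systems**: an invariant sub-sigma-algebra of a standard system is mod 0 the
pull-back of a standard factor system; the factor map is equivariant everywhere. -/
theorem exists_fac_sys (X : Sys) [MeasurableSpace.CountablyGenerated X.Ω]
    {m1 : MeasurableSpace X.Ω} (h1 : m1 ≤ X.ms) (h1S : ∀ n, Measurable[m1, m1] (X.S n)) :
    ∃ (Y : Sys) (_ : StandardBorelSpace Y.Ω) (φ : X.Ω → Y.Ω),
      @MeasurePreserving _ _ X.ms Y.ms φ X.μ Y.μ ∧ (∀ n x, φ (X.S n x) = Y.S n (φ x)) ∧
      Y.ms.comap φ ≤ m1 ∧ AELe X.μ m1 (Y.ms.comap φ) := by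
  obtain ⟨A, hA, hA'⟩ := @exists_gen _ m1 X.ms X.μ _ _ h1
  have hAm : ∀ j, MeasurableSet[X.ms] (A j) := fun j => h1 _ (hA j)
  have hcm : @MeasurePreserving _ _ X.ms (codeSys X hAm).ms (code X A) X.μ (codeSys X hAm).μ :=
    @MeasurePreserving.mk _ _ X.ms (codeSys X hAm).ms _ _ _
      (@measurable_code' X X.ms A hAm (measurable_S X)) rfl
  refine ⟨codeSys X hAm, ?_, code X A, hcm, fun n x => code_S A n x, ?_, ?_⟩
  · show StandardBorelSpace Sym
    infer_instance
  · have h2 : @Measurable _ _ m1 _ (code X A) := measurable_code' hA h1S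
    exact measurable_iff_comap_le.1 h2
  · refine hA'.trans (AELe.of_le ?_)
    refine MeasurableSpace.generateFrom_le ?_
    rintro _ ⟨j, rfl⟩
    refine ⟨{p | p 0 j = true}, ?_, ?_⟩
    · have h1 : Measurable (fun a : Sym => a 0 j) :=
        (measurable_pi_apply j).comp (measurable_pi_apply (0 : ℤ))
      exact h1 (measurableSet_singleton true)
    · ext x
      show code X A x 0 j = true ↔ x ∈ A j
      rw [code_apply, X.S_zero]

/-- the trivial pair over a system -/
noncomputable def triv (X : Sys) : Pair X where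
  toSys := X
  π := id
  π_mp := MeasurePreserving.id X.μ
  π_S _ := Eventually.of_forall (fun _ => rfl)
  C := nul X.μ
  C_le := nul_le
  C_nul := le_rfl
  C_S n := by
    rw [measurable_iff_comap_le]
    exact comap_nul_le (X.S_mp n)
  indep := by
    rw [Indep_iff]
    rintro _ B ⟨A, hA, rfl⟩ ⟨hB, hB'⟩
    rcases hB' with h | h
    · rw [h, mul_zero]
      exact measure_mono_null inter_subset_right h
    · have h1 : X.μ B = 1 := by
        have := prob_add_prob_compl (μ := X.μ) hB
        rwa [h, add_zero] at this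
      rw [h1, mul_one]
      refine measure_congr ?_
      have h2 : B =ᵐ[X.μ] univ := by
        rw [ae_eq_univ]; exact h
      have h3 := (ae_eq_refl (μ := X.μ) (id ⁻¹' A)).inter h2
      rwa [inter_univ] at h3



/-! ### changing the base -/

variable {Y : Sys} {φ : X.Ω → Y.Ω}

/-- a pair over `X` is a pair over every factor `Y` of `X` -/
noncomputable def down (hφ : MeasurePreserving φ X.μ Y.μ)
    (hS : ∀ n, (fun x => φ (X.S n x)) =ᵐ[X.μ] fun x => Y.S n (φ x)) (P : Pair X) : Pair Y where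
  toSys := P.toSys
  π := φ ∘ P.π
  π_mp := hφ.comp P.π_mp
  π_S n := by
    filter_upwards [P.π_S n, P.π_mp.quasiMeasurePreserving.ae (hS n)] with x h1 h2
    show φ (P.π (P.S n x)) = Y.S n (φ (P.π x))
    rw [h1, h2]
  C := P.C
  C_le := P.C_le
  C_nul := P.C_nul
  C_S := P.C_S
  indep := by
    refine indep_of_indep_of_le_left P.indep ?_
    rw [← MeasurableSpace.comap_comp]
    exact MeasurableSpace.comap_mono hφ.measurable.comap_le


end sys

section iface

open Crest.Agent.R069.Std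

theorem le_sup_nul {Ω : Type*} {m m' : MeasurableSpace Ω} [mΩ : MeasurableSpace Ω] {μ : Measure Ω}
    (hm : m ≤ mΩ) (hm' : m' ≤ mΩ) (h : AELe μ m m') : m ≤ m' ⊔ nul μ := by
  intro A hA
  obtain ⟨B, hB, hAB⟩ := h A hA
  exact measurableSet_of_ae_nul (sup_le hm' (nul_le_ms μ)) le_sup_right (hm _ hA)
    ((le_sup_left : m' ≤ m' ⊔ nul μ) _ hB) hAB

theorem aele_of_le_sup_nul {Ω : Type*} {m m' : MeasurableSpace Ω} [mΩ : MeasurableSpace Ω]
    {μ : Measure Ω} (h : m ≤ m' ⊔ nul μ) : AELe μ m m' := by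
  refine (AELe.of_le h).trans (AELe.sup AELe.refl ?_)
  rintro A ⟨hA, hA'⟩
  rcases hA' with h | h
  · exact ⟨∅, @MeasurableSet.empty _ m', ae_eq_empty.2 h⟩
  · exact ⟨univ, @MeasurableSet.univ _ m', ae_eq_univ.2 h⟩

/-- **Node N_FAC.** -/
theorem fac : N_FAC := by
  intro M hM m hm hS
  obtain ⟨F, hF, φ, hφ, hφS, h1, h2⟩ := exists_fac_sys M hm hS
  exact ⟨F, φ, hF, hφ, hφS, h1, @le_sup_nul _ m (F.ms.comap φ) M.ms M.μ hm (h1.trans hm) h2⟩

theorem n_fac : N_FAC := fac

/-- a measurable function to a standard Borel space which is measurable mod 0 with respect to the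
pull-back of `φ` is a.e. a function of `φ` -/
theorem exists_ae_eq_comp {Ω Γ Z : Type*} [MeasurableSpace Ω] {μ : Measure Ω} [IsFiniteMeasure μ]
    [mΓ : MeasurableSpace Γ] {φ : Ω → Γ} (hφ : Measurable φ)
    [MeasurableSpace Z] [StandardBorelSpace Z] [Nonempty Z] {π : Ω → Z} (hπ : Measurable π)
    (h : AELe μ (MeasurableSpace.comap π inferInstance) (mΓ.comap φ)) :
    ∃ πF : Γ → Z, Measurable πF ∧ π =ᵐ[μ] πF ∘ φ := by
  have he : MeasurableEmbedding (embeddingReal Z) := measurableEmbedding_embeddingReal Z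
  obtain ⟨r, hr, hre⟩ := he.exists_measurable_extend (g := (id : Z → Z)) measurable_id
    (fun _ => inferInstance)
  -- bounded version
  have hb : BdM (MeasurableSpace.comap π inferInstance)
      (fun x => Real.arctan (embeddingReal Z (π x))) := by
    refine ⟨Real.measurable_arctan.comp (he.measurable.comp (comap_measurable π)), Real.pi / 2,
      fun x => ?_⟩
    rw [abs_le]
    exact ⟨(Real.neg_pi_div_two_lt_arctan _).le, (Real.arctan_lt_pi_div_two _).le⟩
  obtain ⟨F, hF, hFe⟩ := h.exists_bm (μ := μ) hπ.comap_le hφ.comap_le hb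
  obtain ⟨F', hF', rfl⟩ := hF.factors
  refine ⟨fun y => r (Real.tan (F' y)), hr.comp ?_, ?_⟩
  · have : Measurable Real.tan := by
      have h1 : Real.tan = fun x => Real.sin x / Real.cos x := by
        funext x; exact Real.tan_eq_sin_div_cos x
      rw [h1]
      exact Real.measurable_sin.div Real.measurable_cos
    exact this.comp hF'.meas
  · filter_upwards [hFe] with x hx
    show π x = r (Real.tan (F' (φ x)))
    have h1 : F' (φ x) = Real.arctan (embeddingReal Z (π x)) := hx.symm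
    rw [h1, Real.tan_arctan]
    have := congrFun hre (π x)
    exact this.symm

variable {X : Sys}

/-- the environment of the factor -/
@[implicit_reducible]
def facC (P : Pair X) (F : Sys) (φ : P.Ω → F.Ω) : MeasurableSpace F.Ω where
  MeasurableSet' B := MeasurableSet[F.ms] B ∧ MeasurableSet[P.C] (φ ⁻¹' B)
  measurableSet_empty := ⟨@MeasurableSet.empty _ F.ms, @MeasurableSet.empty _ P.C⟩
  measurableSet_compl B hB := ⟨hB.1.compl, hB.2.compl⟩
  measurableSet_iUnion B hB := ⟨MeasurableSet.iUnion fun n => (hB n).1, by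
    rw [preimage_iUnion]
    exact MeasurableSet.iUnion fun n => (hB n).2⟩

/-- making a factor system (with the base and the environment inside) into a factor pair -/
theorem exists_facOf_of (hX : StandardBorelSpace X.Ω) (P : Pair X)
    {F : Sys} (hF : StandardBorelSpace F.Ω) {φ : P.Ω → F.Ω} (hφ : MeasurePreserving φ P.μ F.μ)
    (hφS : ∀ n x, φ (P.S n x) = F.S n (φ x))
    (hael : AELe P.μ (X.ms.comap P.π) (F.ms.comap φ)) (haelC : AELe P.μ P.C (F.ms.comap φ)) :
    ∃ (FP : Pair X) (φ' : P.Ω → FP.Ω), StandardBorelSpace FP.Ω ∧ FacOf P FP φ' ∧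
      FP.ms.comap φ' = F.ms.comap φ := by
  have hneX : Nonempty X.Ω := by
    by_contra hne
    rw [not_nonempty_iff] at hne
    have h3 := measure_univ (μ := X.μ)
    rw [univ_eq_empty_iff.2 hne, measure_empty] at h3
    exact zero_ne_one h3
  obtain ⟨πF, hπF, hπe⟩ := @exists_ae_eq_comp P.Ω F.Ω X.Ω P.ms P.μ _ F.ms φ hφ.measurable X.ms
    hX hneX P.π P.π_mp.measurable hael
  have hφm : Measurable φ := hφ.measurable
  -- preimages under `φ`
  have hμ : ∀ B : Set F.Ω, MeasurableSet[F.ms] B → F.μ B = P.μ (φ ⁻¹' B) := fun B hB =>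
    (hφ.measure_preimage hB.nullMeasurableSet).symm
  have hCle : facC P F φ ≤ F.ms := fun _ h => h.1
  have hnul : @nul _ F.ms F.μ ≤ facC P F φ := by
    rintro B ⟨hB, hB'⟩
    refine ⟨hB, P.C_nul _ ⟨hφm hB, ?_⟩⟩
    rcases hB' with h | h
    · left; rw [← hμ B hB]; exact h
    · right; rw [← preimage_compl, ← hμ _ hB.compl]; exact h
  have hCS : ∀ n, @Measurable _ _ (facC P F φ) (facC P F φ) (F.S n) := by
    intro n B hB
    refine ⟨(F.S_mp n).measurable hB.1, ?_⟩
    have h3 : φ ⁻¹' (F.S n ⁻¹' B) = P.S n ⁻¹' (φ ⁻¹' B) := by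
      ext x
      show F.S n (φ x) ∈ B ↔ φ (P.S n x) ∈ B
      rw [hφS n x]
    rw [h3]
    exact P.C_S n hB.2
  have hπmp : @MeasurePreserving _ _ F.ms X.ms πF F.μ X.μ := by
    refine ⟨hπF, ?_⟩
    have h3 : Measure.map πF F.μ = Measure.map (πF ∘ φ) P.μ := by
      rw [← hφ.map_eq, Measure.map_map hπF hφm]
    rw [h3, ← Measure.map_congr hπe, P.π_mp.map_eq]
  have hind : @Indep _ (X.ms.comap πF) (facC P F φ) F.ms F.μ := by
    rw [Indep_iff]
    rintro _ B ⟨U, hU, rfl⟩ ⟨hB, hB'⟩
    have hU' : MeasurableSet[F.ms] (πF ⁻¹' U) := hπF hU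
    have h4 : (φ ⁻¹' (πF ⁻¹' U)) =ᵐ[P.μ] (P.π ⁻¹' U) := by
      filter_upwards [hπe] with x hx
      apply propext
      show πF (φ x) ∈ U ↔ P.π x ∈ U
      rw [hx]
      rfl
    rw [hμ _ (hU'.inter hB), hμ _ hU', hμ _ hB, preimage_inter]
    rw [measure_congr (h4.inter (ae_eq_refl (φ ⁻¹' B))), measure_congr h4]
    exact (Indep_iff _ _ _).1 P.indep (P.π ⁻¹' U) _ ⟨U, hU, rfl⟩ hB'
  have hπS : ∀ n, (fun p => πF (F.S n p)) =ᵐ[F.μ] fun p => X.S n (πF p) := by
    intro n
    have hset : MeasurableSet[F.ms] {p | πF (F.S n p) = X.S n (πF p)} :=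
      measurableSet_eq_fun (hπF.comp (F.S_mp n).measurable) ((X.S_mp n).measurable.comp hπF)
    have h5 : ∀ᵐ x ∂P.μ, πF (F.S n (φ x)) = X.S n (πF (φ x)) := by
      have h6 : ∀ᵐ x ∂P.μ, P.π (P.S n x) = πF (φ (P.S n x)) :=
        (P.S_mp n).quasiMeasurePreserving.ae hπe
      filter_upwards [h6, hπe, P.π_S n] with x h7 h8 h9
      rw [← hφS n x, ← h7, h9, h8]
      rfl
    have h10 : F.μ {p | πF (F.S n p) = X.S n (πF p)}ᶜ = 0 := by
      rw [hμ _ hset.compl]
      exact h5
    exact h10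
  let FP : Pair X :=
    { toSys := F
      π := πF
      π_mp := hπmp
      π_S := hπS
      C := facC P F φ
      C_le := hCle
      C_nul := hnul
      C_S := hCS
      indep := hind }
  refine ⟨FP, φ, hF, ⟨hφ, hφS, hπe, ?_⟩, rfl⟩
  apply le_antisymm
  · intro A hA
    obtain ⟨B, hB, hAB⟩ := haelC A hA
    obtain ⟨B, hB', rfl⟩ := hB
    have hAm : MeasurableSet[P.ms] A := P.C_le _ hA
    have hBC : MeasurableSet[P.C] (φ ⁻¹' B) :=
      @measurableSet_of_ae_nul _ P.C P.ms P.μ P.C_le P.C_nul _ _ (hφm hB') hA hAB.symm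
    have hBC' : MeasurableSet[(facC P F φ).comap φ] (φ ⁻¹' B) := ⟨B, ⟨hB', hBC⟩, rfl⟩
    refine @measurableSet_of_ae_nul _ ((facC P F φ).comap φ ⊔ nul P.μ) P.ms P.μ
      (sup_le ?_ (nul_le_ms P.μ)) le_sup_right _ _ hAm
      ((le_sup_left : (facC P F φ).comap φ ≤ (facC P F φ).comap φ ⊔ nul P.μ) _ hBC') hAB
    rintro _ ⟨B', hB'', rfl⟩
    exact hφm hB''.1
  · refine sup_le ?_ P.C_nul
    rintro _ ⟨B, hB, rfl⟩
    exact hB.2

/-- **FAC for pairs in the form of `FacOf`** (the factor map is equivariant everywhere). -/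
theorem exists_facOf (hX : StandardBorelSpace X.Ω) (P : Pair X) (hP : StandardBorelSpace P.Ω)
    {m : MeasurableSpace P.Ω} (hm : m ≤ P.ms) (hS : ∀ n, Measurable[m, m] (P.S n))
    (hC : P.C ≤ m) (hπ : X.ms.comap P.π ≤ m) :
    ∃ (F : Pair X) (φ : P.Ω → F.Ω), StandardBorelSpace F.Ω ∧ FacOf P F φ ∧
      F.ms.comap φ ≤ m ∧ m ≤ F.ms.comap φ ⊔ @nul _ P.ms P.μ := by
  obtain ⟨F, φ, hF, hφ, hφS, h1, h2⟩ := fac P.toSys hP m hm hS
  have h3 : AELe P.μ m (F.ms.comap φ) := @aele_of_le_sup_nul _ m (F.ms.comap φ) P.ms P.μ h2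
  obtain ⟨FP, φ', hFP, hfac, hcomap⟩ := exists_facOf_of hX P hF hφ hφS
    ((AELe.of_le hπ).trans h3) ((AELe.of_le hC).trans h3)
  exact ⟨FP, φ', hFP, hfac, hcomap ▸ h1, hcomap ▸ h2⟩

end iface

end Crest.Agent.R069.Fac
end

-- ▼ part R069/YEVis

/-!
# The visible algebra of a pair (row 69, node YE)

`sc M s A` is the copy of the set `A` at the site `s` on the Loeb space of `M`.
`vis s P` is the sigma-algebra of the sets all of whose site copies are measurable with respect to
the other sites and the environment.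
-/

set_option autoImplicit false

open MeasureTheory Filter Set ProbabilityTheory
open scoped ENNReal Topology

namespace Crest.Agent.R069.YEVis

/-- The copy of the set `A` at the site `s`. -/
def sc (M : Sys) (s : ℕ → ℤ) (A : Set M.Ω) : Set (Lb M.Ω) := intl (fun k => M.S (s k) ⁻¹' A)

section sc

variable {M : Sys} {s : ℕ → ℤ}

theorem sc_compl (A : Set M.Ω) : sc M s Aᶜ = (sc M s A)ᶜ := intl_compl _


theorem sc_union (A B : Set M.Ω) : sc M s (A ∪ B) = sc M s A ∪ sc M s B := intl_union _ _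

@[simp] theorem sc_empty : sc M s ∅ = ∅ := intl_empty

@[simp] theorem sc_univ : sc M s univ = univ := intl_univ

theorem sc_mono {A B : Set M.Ω} (h : A ⊆ B) : sc M s A ⊆ sc M s B := by
  intro x hx
  have hx' : ∀ᶠ k in (UU : Filter ℕ), M.S (s k) (x k) ∈ A := hx
  show ∀ᶠ k in (UU : Filter ℕ), M.S (s k) (x k) ∈ B
  filter_upwards [hx'] with k hk using h hk

theorem measurableSet_sc {A : Set M.Ω} (hA : MeasurableSet A) : MeasurableSet (sc M s A) :=
  measurableSet_intl fun k => (M.S_mp (s k)).measurable hA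

theorem lb_sc {A : Set M.Ω} (hA : MeasurableSet A) : lb M.μ (sc M s A) = M.μ A := by
  rw [sc, lb_intl M.μ fun k => (M.S_mp (s k)).measurable hA]
  apply ulim_eq
  simp_rw [(M.S_mp _).measure_preimage hA.nullMeasurableSet]
  exact tendsto_const_nhds

theorem sc_accumulate (A : ℕ → Set M.Ω) (n : ℕ) :
    sc M s (Set.accumulate A n) ⊆ ⋃ n, sc M s (A n) := by
  induction n with
  | zero =>
    have h0 : Set.accumulate A 0 = A 0 := by
      ext x; simp [Set.accumulate]
    rw [h0]
    exact subset_iUnion (fun n => sc M s (A n)) 0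
  | succ n ih =>
    rw [Set.accumulate_succ, sc_union]
    exact union_subset ih (subset_iUnion (fun n => sc M s (A n)) (n + 1))

theorem sc_iUnion_ae {A : ℕ → Set M.Ω} (hA : ∀ n, MeasurableSet (A n)) :
    (⋃ n, sc M s (A n) : Set (Lb M.Ω)) =ᵐ[lb M.μ] sc M s (⋃ n, A n) := by
  refine ae_eq_of_subset_of_measure_ge
    (iUnion_subset fun n => sc_mono (subset_iUnion A n)) ?_
    (MeasurableSet.iUnion fun n => measurableSet_sc (hA n)).nullMeasurableSet
    (measure_ne_top _ _)
  rw [lb_sc (MeasurableSet.iUnion hA), measure_iUnion_eq_iSup_accumulate]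
  refine iSup_le fun n => ?_
  have h1 : MeasurableSet (Set.accumulate A n) := by
    rw [Set.accumulate_def]
    exact MeasurableSet.biUnion (Set.to_countable _) fun i _ => hA i
  rw [← lb_sc (s := s) h1]
  exact measure_mono (sc_accumulate A n)

theorem S_comm (M : Sys) (a b : ℤ) (x : M.Ω) : M.S a (M.S b x) = M.S b (M.S a x) := by
  rw [← M.S_add, ← M.S_add, add_comm]

theorem lbmap_preimage_sc (n : ℤ) (A : Set M.Ω) :
    (lbmap fun _ => M.S n) ⁻¹' (sc M s A) = sc M s (M.S n ⁻¹' A) := by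
  rw [sc, lbmap_preimage, sc]
  congr 1
  funext k
  ext x
  simp only [mem_preimage, S_comm M n (s k)]


end sc

/-! ### null sets -/

section nul

variable {α β : Type*} {m mα : MeasurableSpace α} {mβ : MeasurableSpace β} {μ : Measure α}

theorem mem_nul_of_null {A : Set α} (hA : MeasurableSet A) (h : μ A = 0) :
    MeasurableSet[nul μ] A := ⟨hA, Or.inl h⟩

/-- a sigma-algebra containing the null sets is closed under a.e. equality. -/
theorem measurableSet_of_ae_eq (hm : nul μ ≤ m) {A B : Set α}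
    (hA : MeasurableSet[m] A) (hA' : MeasurableSet[mα] A) (hB : MeasurableSet[mα] B)
    (h : A =ᵐ[μ] B) : MeasurableSet[m] B := by
  have h1 : MeasurableSet[m] (A \ B) := by
    refine hm _ (mem_nul_of_null (hA'.diff hB) ?_)
    exact (ae_le_set.1 h.le)
  have h2 : MeasurableSet[m] (B \ A) := by
    refine hm _ (mem_nul_of_null (hB.diff hA') ?_)
    exact (ae_le_set.1 h.symm.le)
  have h3 : B = (A \ (A \ B)) ∪ (B \ A) := by
    ext x; by_cases hx : x ∈ A <;> by_cases hy : x ∈ B <;> simp [hx, hy]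
  rw [h3]
  exact MeasurableSet.union (MeasurableSet.diff hA h1) h2

theorem nul_comap {ν : Measure β} {f : α → β} (hf : MeasurePreserving f μ ν) {B : Set β}
    (hB : MeasurableSet[nul ν] B) : MeasurableSet[nul μ] (f ⁻¹' B) := by
  refine ⟨hf.measurable hB.1, ?_⟩
  rcases hB.2 with h | h
  · left; rwa [hf.measure_preimage hB.1.nullMeasurableSet]
  · right; rwa [← preimage_compl, hf.measure_preimage hB.1.compl.nullMeasurableSet]

end nul

/-! ### `rest` -/

section rest

variable {X : Sys} {ι : Type} {s : ι → ℕ → ℤ}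


theorem sc_mem_siteA {M : Sys} {t : ℕ → ℤ} {A : Set M.Ω} (hA : MeasurableSet A) :
    MeasurableSet[siteA M t] (sc M t A) :=
  MeasurableSpace.measurableSet_generateFrom ⟨A, hA, rfl⟩


theorem nul_le_rest (i : ι) (P : Pair X) : nul (lb P.μ) ≤ rest s i P := le_sup_right

theorem LL_le_rest (i : ι) (P : Pair X) : LL P.C ≤ rest s i P :=
  le_sup_right.trans le_sup_left

theorem siteA_le_rest {i j : ι} (h : j ≠ i) (P : Pair X) :
    siteA P.toSys (s j) ≤ rest s i P :=
  ((le_iSup_of_le (f := fun j => ⨆ _ : j ≠ i, siteA P.toSys (s j)) j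
    (le_iSup (fun _ : j ≠ i => siteA P.toSys (s j)) h)).trans le_sup_left).trans le_sup_left

theorem sc_mem_rest {i j : ι} (h : j ≠ i) (P : Pair X) {A : Set P.Ω} (hA : MeasurableSet A) :
    MeasurableSet[rest s i P] (sc P.toSys (s j) A) :=
  siteA_le_rest h P _ (sc_mem_siteA hA)

/-- measurability criterion for maps into `rest`. -/
theorem measurable_rest {α : Type*} {m : MeasurableSpace α} {P : Pair X} {i : ι}
    {φ : α → Lb P.Ω}
    (h1 : ∀ j, j ≠ i → ∀ A : Set P.Ω, MeasurableSet A →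
      MeasurableSet[m] (φ ⁻¹' (sc P.toSys (s j) A)))
    (h2 : ∀ A : ℕ → Set P.Ω, (∀ k, MeasurableSet[P.C] (A k)) → MeasurableSet[m] (φ ⁻¹' (intl A)))
    (h3 : ∀ B, MeasurableSet[nul (lb P.μ)] B → MeasurableSet[m] (φ ⁻¹' B)) :
    Measurable[m, rest s i P] φ := by
  rw [measurable_iff_comap_le, rest, MeasurableSpace.comap_sup, MeasurableSpace.comap_sup,
    MeasurableSpace.comap_iSup]
  refine sup_le (sup_le (iSup_le fun j => ?_) ?_) ?_
  · rw [MeasurableSpace.comap_iSup]
    refine iSup_le fun hj => ?_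
    rw [← measurable_iff_comap_le]
    refine measurable_generateFrom ?_
    rintro _ ⟨A, hA, rfl⟩
    exact h1 j hj A hA
  · rw [← measurable_iff_comap_le]
    refine measurable_generateFrom ?_
    rintro _ ⟨A, hA, rfl⟩
    exact h2 A hA
  · rw [← measurable_iff_comap_le]
    intro B hB
    exact h3 B hB

/-- `rest` is invariant under the internal shift. -/
theorem rest_S (i : ι) (P : Pair X) (n : ℤ) :
    Measurable[rest s i P, rest s i P] (lbmap fun _ => P.S n) := by
  refine measurable_rest (fun j hj A hA => ?_) (fun A hA => ?_) (fun B hB => ?_)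
  · rw [lbmap_preimage_sc]
    exact sc_mem_rest hj P ((P.S_mp n).measurable hA)
  · rw [lbmap_preimage]
    exact LL_le_rest i P _ (measurableSet_intl fun k => P.C_S n (hA k))
  · exact nul_le_rest i P _ (nul_comap (measurePreserving_lbmap fun _ => P.S_mp n) hB)

theorem mp_lbmap_ext {P Q : Pair X} (e : Ext P Q) :
    MeasurePreserving (lbmap fun _ => e.f) (lb Q.μ) (lb P.μ) :=
  measurePreserving_lbmap fun _ => e.f_mp

theorem lbmap_preimage_sc_ext {P Q : Pair X} (e : Ext P Q) (t : ℕ → ℤ) (A : Set P.Ω) :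
    (lbmap fun _ => e.f) ⁻¹' (sc P.toSys t A) =ᵐ[lb Q.μ] sc Q.toSys t (e.f ⁻¹' A) := by
  rw [sc, lbmap_preimage, sc]
  refine intl_ae_eq fun k => ?_
  filter_upwards [e.f_S (t k)] with x hx
  apply propext
  show P.S (t k) (e.f x) ∈ A ↔ e.f (Q.S (t k) x) ∈ A
  rw [hx]

/-- `rest` is monotone under extensions. -/
theorem rest_ext {P Q : Pair X} (e : Ext P Q) (i : ι) :
    Measurable[rest s i Q, rest s i P] (lbmap fun _ => e.f) := by
  refine measurable_rest (fun j hj A hA => ?_) (fun A hA => ?_) (fun B hB => ?_)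
  · refine measurableSet_of_ae_eq (nul_le_rest i Q)
      (sc_mem_rest hj Q (e.f_mp.measurable hA)) (measurableSet_sc (e.f_mp.measurable hA))
      ((mp_lbmap_ext e).measurable (measurableSet_sc hA)) ?_
    exact (lbmap_preimage_sc_ext e (s j) A).symm
  · rw [lbmap_preimage]
    exact LL_le_rest i Q _ (measurableSet_intl fun k => e.f_C _ ⟨A k, hA k, rfl⟩)
  · exact nul_le_rest i Q _ (nul_comap (mp_lbmap_ext e) hB)

end rest

/-! ### the visible algebra -/

section vis

variable {X : Sys} {ι : Type}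

/-- **The visible algebra** of a pair: sets all of whose site copies are functions of the other
sites and the environment. -/
@[implicit_reducible]
def vis (s : ι → ℕ → ℤ) (P : Pair X) : MeasurableSpace P.Ω where
  MeasurableSet' A := MeasurableSet A ∧ ∀ i, MeasurableSet[rest s i P] (sc P.toSys (s i) A)
  measurableSet_empty := ⟨MeasurableSet.empty, fun i => by
    rw [sc_empty]; exact @MeasurableSet.empty _ (rest s i P)⟩
  measurableSet_compl A hA := ⟨hA.1.compl, fun i => by
    rw [sc_compl]; exact @MeasurableSet.compl _ _ (rest s i P) (hA.2 i)⟩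
  measurableSet_iUnion A hA := by
    refine ⟨MeasurableSet.iUnion fun n => (hA n).1, fun i => ?_⟩
    exact measurableSet_of_ae_eq (nul_le_rest i P) (MeasurableSet.iUnion fun n => (hA n).2 i)
      (MeasurableSet.iUnion fun n => measurableSet_sc (hA n).1)
      (measurableSet_sc (MeasurableSet.iUnion fun n => (hA n).1))
      (sc_iUnion_ae fun n => (hA n).1)

variable {s : ι → ℕ → ℤ}


theorem vis_le (s : ι → ℕ → ℤ) (P : Pair X) : vis s P ≤ P.ms := fun _ h => h.1

theorem C_le_vis (s : ι → ℕ → ℤ) (P : Pair X) : P.C ≤ vis s P := fun A hA =>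
  ⟨P.C_le A hA, fun i => LL_le_rest i P _ (measurableSet_intl fun k => P.C_S (s i k) hA)⟩

theorem nul_le_vis (s : ι → ℕ → ℤ) (P : Pair X) : nul P.μ ≤ vis s P :=
  P.C_nul.trans (C_le_vis s P)

/-- the visible algebra is invariant. -/
theorem vis_S (s : ι → ℕ → ℤ) (P : Pair X) (n : ℤ) :
    Measurable[vis s P, vis s P] (P.S n) := by
  rintro A ⟨hA, hA2⟩
  refine ⟨(P.S_mp n).measurable hA, fun i => ?_⟩
  rw [← lbmap_preimage_sc]
  exact rest_S i P n (hA2 i)

/-- visible stays visible in extensions. -/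
theorem vis_ext {P Q : Pair X} (e : Ext P Q) : Measurable[vis s Q, vis s P] e.f := by
  rintro A ⟨hA, hA2⟩
  refine ⟨e.f_mp.measurable hA, fun i => ?_⟩
  exact measurableSet_of_ae_eq (nul_le_rest i Q) (rest_ext e i (hA2 i))
    ((mp_lbmap_ext e).measurable (measurableSet_sc hA))
    (measurableSet_sc (e.f_mp.measurable hA)) (lbmap_preimage_sc_ext e (s i) A)


/-! the same statements for `Pair.vis`, `Pair.visX` of `Defs` -/


theorem C_le_pvis (s : ι → ℕ → ℤ) (P : Pair X) : P.C ≤ P.vis s := C_le_vis s P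

theorem nul_le_pvis (s : ι → ℕ → ℤ) (P : Pair X) : nul P.μ ≤ P.vis s := nul_le_vis s P

theorem pvis_S (s : ι → ℕ → ℤ) (P : Pair X) (n : ℤ) :
    Measurable[P.vis s, P.vis s] (P.S n) := vis_S s P n

theorem pvis_ext {P Q : Pair X} (e : Ext P Q) : Measurable[Q.vis s, P.vis s] e.f :=
  vis_ext e


theorem visX_le (s : ι → ℕ → ℤ) (P : Pair X) : P.visX s ≤ X.ms := fun _ h => h.1



theorem visX_S (s : ι → ℕ → ℤ) (P : Pair X) (n : ℤ) :
    Measurable[P.visX s, P.visX s] (X.S n) := by
  rintro A ⟨hA, hA2⟩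
  refine ⟨(X.S_mp n).measurable hA, ?_⟩
  refine measurableSet_of_ae_eq (nul_le_pvis s P) (pvis_S s P n hA2)
    ((P.S_mp n).measurable (P.π_mp.measurable hA))
    (P.π_mp.measurable ((X.S_mp n).measurable hA)) ?_
  filter_upwards [P.π_S n] with x hx
  apply propext
  show P.π (P.S n x) ∈ A ↔ X.S n (P.π x) ∈ A
  rw [hx]

end vis

end Crest.Agent.R069.YEVis
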