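import Crest.Agent.R069.Defs
import Crest.Agent.R069.CI
import Crest.Agent.R069.Iface
import Crest.Agent.R069.Glue
import Crest.Agent.R069.YEVis_Mg
import Crest.Agent.R069.Rel2
import Crest.Agent.R069.SatDefs
import Crest.Agent.R069.Sites
import Crest.Agent.R069.LoebInt
import Crest.Agent.R069.LoebMap
import Crest.Agent.R069.Site

-- ▼ part R069/YETau
section

/-!
# Row 69, node YE: the multilinear form `tau`, factors and conditional expectations
-/

set_option autoImplicit false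

open MeasureTheory Filter Set ProbabilityTheory
open scoped ENNReal Topology

namespace Crest.Agent.R069.YETau

section bd

theorem bd_sub {α : Type*} {m : MeasurableSpace α} {f g : α → ℝ} (hf : Bd m f) (hg : Bd m g) :
    Bd m (fun x => f x - g x) := by
  obtain ⟨hf1, K, hK⟩ := hf
  obtain ⟨hg1, L, hL⟩ := hg
  refine ⟨hf1.sub hg1, K + L, fun x => ?_⟩
  calc |f x - g x| ≤ |f x| + |g x| := abs_sub _ _
    _ ≤ K + L := add_le_add (hK x) (hL x)

theorem bd_comp {α β : Type*} {m : MeasurableSpace α} {m' : MeasurableSpace β} {f : α → ℝ}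
    (hf : Bd m f) {φ : β → α} (hφ : Measurable[m', m] φ) : Bd m' (f ∘ φ) := by
  obtain ⟨hf1, K, hK⟩ := hf
  exact ⟨hf1.comp hφ, K, fun x => hK _⟩

theorem bd_mul {α : Type*} {m : MeasurableSpace α} {f g : α → ℝ} (hf : Bd m f) (hg : Bd m g) :
    Bd m (fun x => f x * g x) := by
  obtain ⟨hf1, K, hK⟩ := hf
  obtain ⟨hg1, L, hL⟩ := hg
  refine ⟨hf1.mul hg1, K * L, fun x => ?_⟩
  rw [abs_mul]
  exact mul_le_mul (hK x) (hL x) (abs_nonneg _) ((abs_nonneg _).trans (hK x))

theorem bd_const {α : Type*} {m : MeasurableSpace α} (c : ℝ) : Bd m (fun _ : α => c) :=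
  ⟨measurable_const, |c|, fun _ => le_rfl⟩

theorem bd_prod {α : Type*} {m : MeasurableSpace α} {ι : Type*} (J : Finset ι) {f : ι → α → ℝ}
    (hf : ∀ i ∈ J, Bd m (f i)) : Bd m (fun x => ∏ i ∈ J, f i x) := by
  classical
  induction J using Finset.induction_on with
  | empty => simpa using bd_const (m := m) (1 : ℝ)
  | insert a J ha ih =>
    simp only [Finset.prod_insert ha]
    exact bd_mul (hf a (Finset.mem_insert_self _ _))
      (ih fun i hi => hf i (Finset.mem_insert_of_mem hi))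

theorem bd_integrable {α : Type*} [mα : MeasurableSpace α] {μ : Measure α} [IsFiniteMeasure μ]
    {f : α → ℝ} (hf : Bd mα f) : Integrable f μ := by
  obtain ⟨hf1, K, hK⟩ := hf
  exact Integrable.of_bound hf1.aestronglyMeasurable K (Eventually.of_forall hK)

end bd

section site

variable {X Y : Sys}

theorem integrableX {f : X.Ω → ℝ} (hf : Bd X.ms f) : Integrable f X.μ := bd_integrable hf

theorem ok_site (s : ℕ → ℤ) {f : X.Ω → ℝ} (hf : Bd X.ms f) :
    StOK (fun k x => f (X.S (s k) x)) := by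
  obtain ⟨_, K, hK⟩ := hf
  exact stOK_of_bdd (C := K) fun k x => hK _

theorem bd_sitef (s : ℕ → ℤ) {f : X.Ω → ℝ} (hf : Bd X.ms f) :
    Bd (LL X.ms) (sitef X s f) := by
  have hf' := hf
  obtain ⟨hm, K, hK⟩ := hf
  refine ⟨?_, K, fun x => ?_⟩
  · exact measurable_st (ok_site s hf') (fun k => hm.comp (X.S_mp (s k)).measurable)
  · exact norm_st_le (f := fun k x => f (X.S (s k) x)) (C := K) (fun k x => hK _) x

theorem sitef_sub (s : ℕ → ℤ) {f g : X.Ω → ℝ} (hf : Bd X.ms f) (hg : Bd X.ms g) (x : Lb X.Ω) :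
    sitef X s (fun y => f y - g y) x = sitef X s f x - sitef X s g x := by
  have := congrFun (st_sub (ok_site s hf) (ok_site s hg)) x
  exact this

/-- exact naturality of site functions under an exactly equivariant map. -/
theorem sitef_comp {φ : X.Ω → Y.Ω} (hφ : ∀ n x, φ (X.S n x) = Y.S n (φ x)) (s : ℕ → ℤ)
    (g : Y.Ω → ℝ) (x : Lb X.Ω) : sitef X s (g ∘ φ) x = sitef Y s g (Lb.mp φ x) := by
  show ulim (fun k => g (φ (X.S (s k) (x k)))) = ulim (fun k => g (Y.S (s k) (φ (x k))))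
  simp only [hφ]

theorem integral_lbmp {φ : X.Ω → Y.Ω} (hmp : MeasurePreserving φ X.μ Y.μ) {G : Lb Y.Ω → ℝ}
    (hG : Measurable G) : ∫ x, G (Lb.mp φ x) ∂(lb X.μ) = ∫ y, G y ∂(lb Y.μ) := by
  have h1 : MeasurePreserving (Lb.mp φ) (lb X.μ) (lb Y.μ) := measurePreserving_lbmap fun _ => hmp
  rw [← h1.map_eq, integral_map h1.measurable.aemeasurable hG.aestronglyMeasurable]

theorem integral_prod_comp {ι : Type} (s : ι → ℕ → ℤ) (J : Finset ι) {φ : X.Ω → Y.Ω}
    (hmp : MeasurePreserving φ X.μ Y.μ) (hφ : ∀ n x, φ (X.S n x) = Y.S n (φ x))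
    {g : ι → Y.Ω → ℝ} (hg : ∀ i, Bd Y.ms (g i)) :
    ∫ x, ∏ i ∈ J, sitef X (s i) (g i ∘ φ) x ∂(lb X.μ) =
      ∫ y, ∏ i ∈ J, sitef Y (s i) (g i) y ∂(lb Y.μ) := by
  rw [← integral_lbmp (Y := Y) hmp (G := fun y => ∏ i ∈ J, sitef Y (s i) (g i) y)
    (bd_prod J fun i _ => bd_sitef (s i) (hg i)).1]
  refine integral_congr_ae (Eventually.of_forall fun x => ?_)
  exact Finset.prod_congr rfl fun i _ => sitef_comp hφ (s i) (g i) x

theorem tau_comp {ι : Type} [Fintype ι] (s : ι → ℕ → ℤ) {φ : X.Ω → Y.Ω}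
    (hmp : MeasurePreserving φ X.μ Y.μ) (hφ : ∀ n x, φ (X.S n x) = Y.S n (φ x))
    {g : ι → Y.Ω → ℝ} (hg : ∀ i, Bd Y.ms (g i)) :
    tau X s (fun i => g i ∘ φ) = tau Y s g :=
  integral_prod_comp s Finset.univ hmp hφ hg

theorem integral_comp_fac {φ : X.Ω → Y.Ω} (hmp : MeasurePreserving φ X.μ Y.μ) {g : Y.Ω → ℝ}
    (hg : Bd Y.ms g) : ∫ x, (g ∘ φ) x ∂X.μ = ∫ y, g y ∂Y.μ := by
  rw [← hmp.map_eq, integral_map hmp.measurable.aemeasurable hg.1.aestronglyMeasurable]
  rfl

theorem xInd_fac {ι : Type} (s : ι → ℕ → ℤ) (J : Finset ι) {φ : X.Ω → Y.Ω}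
    (hmp : MeasurePreserving φ X.μ Y.μ) (hφ : ∀ n x, φ (X.S n x) = Y.S n (φ x))
    (h : XInd X s J) : XInd Y s J := by
  intro g hg
  rw [← integral_prod_comp s J hmp hφ hg, h _ fun i => bd_comp (hg i) hmp.measurable]
  exact Finset.prod_congr rfl fun i _ => integral_comp_fac hmp (hg i)

theorem xIndP_fac {ι : Type} [Fintype ι] (s : ι → ℕ → ℤ) {φ : X.Ω → Y.Ω}
    (hmp : MeasurePreserving φ X.μ Y.μ) (hφ : ∀ n x, φ (X.S n x) = Y.S n (φ x))
    (h : XIndP X s) : XIndP Y s := fun J hJ => xInd_fac s J hmp hφ (h J hJ)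

end site

section tau

variable {X : Sys} {ι : Type} [Fintype ι]

open Classical in
theorem tau_update_sub (s : ι → ℕ → ℤ) {f : ι → X.Ω → ℝ} (hf : ∀ i, Bd X.ms (f i)) (i : ι)
    {a b : X.Ω → ℝ} (ha : Bd X.ms a) (hb : Bd X.ms b) :
    tau X s (Function.update f i (fun x => a x - b x)) =
      tau X s (Function.update f i a) - tau X s (Function.update f i b) := by
  have key : ∀ h : X.Ω → ℝ, ∀ x, ∏ j, sitef X (s j) (Function.update f i h j) x =
      sitef X (s i) h x * ∏ j ∈ Finset.univ.erase i, sitef X (s j) (f j) x := by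
    intro h x
    rw [← Finset.mul_prod_erase Finset.univ _ (Finset.mem_univ i), Function.update_self]
    congr 1
    refine Finset.prod_congr rfl fun j hj => ?_
    rw [Function.update_of_ne (Finset.ne_of_mem_erase hj)]
  have hint : ∀ h : X.Ω → ℝ, Bd X.ms h → Integrable (fun x =>
      sitef X (s i) h x * ∏ j ∈ Finset.univ.erase i, sitef X (s j) (f j) x) (lb X.μ) :=
    fun h hh => bd_integrable (bd_mul (bd_sitef (s i) hh)
      (bd_prod _ fun j _ => bd_sitef (s j) (hf j)))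
  unfold tau
  simp only [key]
  rw [← integral_sub (hint a ha) (hint b hb)]
  refine integral_congr_ae (Eventually.of_forall fun x => ?_)
  simp only [sitef_sub (s i) ha hb]
  ring

/-- if slots with zero conditional expectation do not contribute, then `tau` only depends on the
conditional expectations. -/
theorem tau_cond (s : ι → ℕ → ℤ) (m : MeasurableSpace X.Ω)
    (h0 : ∀ f : ι → X.Ω → ℝ, (∀ i, Bd X.ms (f i)) → (∃ i0, X.μ[f i0 | m] =ᵐ[X.μ] 0) →
      tau X s f = 0) {f g : ι → X.Ω → ℝ} (hf : ∀ i, Bd X.ms (f i)) (hg : ∀ i, Bd X.ms (g i))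
    (hfg : ∀ i, X.μ[f i | m] =ᵐ[X.μ] X.μ[g i | m]) : tau X s f = tau X s g := by
  classical
  have key : ∀ T : Finset ι, tau X s (fun j => if j ∈ T then g j else f j) = tau X s f := by
    intro T
    induction T using Finset.induction_on with
    | empty => simp
    | insert i T hi ih =>
      rw [← ih]
      set h : ι → X.Ω → ℝ := fun j => if j ∈ T then g j else f j with hh
      have hhb : ∀ j, Bd X.ms (h j) := by
        intro j
        by_cases hj : j ∈ T
        · simp only [hh, hj, if_true]; exact hg j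
        · simp only [hh, hj, if_false]; exact hf j
      have h1 : (fun j => if j ∈ insert i T then g j else f j) = Function.update h i (g i) := by
        funext j
        by_cases hj : j = i
        · subst hj
          simp
        · rw [Function.update_of_ne hj]
          simp [hh, hj]
      have h2 : h = Function.update h i (f i) := by
        funext j
        by_cases hj : j = i
        · subst hj
          simp [hh, hi]
        · rw [Function.update_of_ne hj]
      rw [h1]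
      conv_rhs => rw [h2]
      have h3 := tau_update_sub s hhb i (hg i) (hf i)
      have h4 : tau X s (Function.update h i (fun x => g i x - f i x)) = 0 := by
        refine h0 _ (fun j => ?_) ⟨i, ?_⟩
        · by_cases hj : j = i
          · subst hj
            rw [Function.update_self]
            exact bd_sub (hg j) (hf j)
          · rw [Function.update_of_ne hj]
            exact hhb j
        · rw [Function.update_self]
          have h5 : X.μ[(fun x => g i x - f i x) | m] =ᵐ[X.μ] X.μ[g i | m] - X.μ[f i | m] :=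
            condExp_sub (integrableX (hg i)) (integrableX (hf i)) m
          filter_upwards [h5, hfg i] with x hx1 hx2
          rw [hx1, Pi.sub_apply, hx2, sub_self]
          rfl
      rw [h4] at h3
      linarith
  have := key Finset.univ
  simpa using this.symm

end tau

end Crest.Agent.R069.YETau
end

-- ▼ part R069/ClTr
section

/-!
# Row 69 (S0092): closedness descends to the factor of the visible algebra
-/

set_option autoImplicit false

open MeasureTheory Filter Set ProbabilityTheory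
open scoped ENNReal Topology

namespace Crest.Agent.R069.ClTr

variable {X : Sys} {P F : Pair X} {φ : P.Ω → F.Ω}

theorem isFac_of_facOf (h : FacOf P F φ) : Glue.IsFac P.toSys F.toSys φ :=
  ⟨h.mp, fun n => Eventually.of_forall fun x => h.equi n x⟩

/-- site algebras of a.e. equal sub-sigma-algebras -/
theorem siteM_aele (M : Sys) (s : ℕ → ℤ) {m₁ m₂ : MeasurableSpace M.Ω}
    (h : AELe M.μ m₁ m₂) : AELe (Glue.lbm M) (siteM M s m₁) (siteM M s m₂) :=
  Glue.sg_aele (u := fun k => M.S (s k)) (fun k => M.S_mp (s k)) h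

theorem restM_aele (M : Sys) {ι : Type} (s : ι → ℕ → ℤ) (i : ι)
    {m₁ m₂ C₁ C₂ : MeasurableSpace M.Ω} (h : AELe M.μ m₁ m₂) (hC : AELe M.μ C₁ C₂) :
    AELe (Glue.lbm M) (restM s i M m₁ C₁) (restM s i M m₂ C₂) := by
  unfold restM
  refine AELe.sup_sup (AELe.sup_sup ?_ ?_) AELe.refl
  · exact Glue.aele_iSup_iSup fun j => Glue.aele_iSup_iSup fun _ => siteM_aele M (s j) h
  · exact Glue.LL_aele hC

/-- if `m ≤ comap φ m' ⊔ nul` and `C ≤ comap φ C' ⊔ nul`, the rest algebra of `(m, C)` is, up to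
null sets, contained in the pull back of the rest algebra of `(m', C')`. -/
theorem restM_aele_comap_fac (h : Glue.IsFac P.toSys F.toSys φ) {ι : Type} (s : ι → ℕ → ℤ) (i : ι)
    {m C : MeasurableSpace P.Ω} {m' C' : MeasurableSpace F.Ω}
    (hm : m ≤ m'.comap φ ⊔ @nul _ P.ms P.μ) (hC : C ≤ C'.comap φ ⊔ @nul _ P.ms P.μ) :
    AELe (Glue.lbm P.toSys) (restM s i P.toSys m C)
      ((restM s i F.toSys m' C').comap (Lb.mp φ)) := by
  refine AELe.trans (restM_aele P.toSys s i (m₂ := m'.comap φ) (C₂ := C'.comap φ) ?_ ?_)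
    (h.restM_aele_comap s i m' C')
  · exact (AELe.of_le hm).trans (AELe.sup AELe.refl Glue.aele_nul)
  · exact (AELe.of_le hC).trans (AELe.sup AELe.refl Glue.aele_nul)

/-- **Closedness descends to the factor of the visible algebra.** -/
theorem closed_of_fac (h : FacOf P F φ) {ι : Type} (s : ι → ℕ → ℤ)
    (h1 : F.ms.comap φ ≤ P.vis s) (h2 : P.vis s ≤ F.ms.comap φ ⊔ @nul _ P.ms P.μ)
    (hcl : ∀ i, siteM P.toSys (s i) (P.vis s) ≤ restM s i P.toSys (P.vis s) P.C) :
    Closed s F := by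
  intro i
  have hf := isFac_of_facOf h
  refine MeasurableSpace.generateFrom_le ?_
  rintro _ ⟨A, hA, rfl⟩
  -- the copy upstairs
  have hup : MeasurableSet[restM s i P.toSys (P.vis s) P.C]
      (intl (fun k => P.S (s i k) ⁻¹' (φ ⁻¹' A))) :=
    hcl i _ (MeasurableSpace.measurableSet_generateFrom ⟨φ ⁻¹' A, h1 _ ⟨A, hA, rfl⟩, rfl⟩)
  obtain ⟨_, ⟨D, hD, rfl⟩, hAD⟩ :=
    restM_aele_comap_fac hf s i h2 (le_of_eq h.C_eq) _ hup
  have hB := hf.site_preimage (s i) A
  have hpre : Lb.mp φ ⁻¹' intl (fun k => F.S (s i k) ⁻¹' A) =ᵐ[lb P.μ] Lb.mp φ ⁻¹' D :=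
    hB.symm.trans hAD
  have hmp : MeasurePreserving (Lb.mp φ) (lb P.μ) (lb F.μ) := Glue.lbmp_mp h.mp
  have hrest : rest s i F ≤ LL F.ms := restM_le s i F.toSys le_rfl F.C_le
  have hAm : MeasurableSet[LL F.ms] (intl (fun k => F.S (s i k) ⁻¹' A)) :=
    F.toSys.measurableSet_site (s i) hA
  have hDm : MeasurableSet[LL F.ms] D := hrest _ hD
  have hae : intl (fun k => F.S (s i k) ⁻¹' A) =ᵐ[lb F.μ] D := by
    have hE : MeasurableSet {x | (x ∈ intl (fun k => F.S (s i k) ⁻¹' A)) ↔ x ∈ D} := by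
      have : {x | (x ∈ intl (fun k => F.S (s i k) ⁻¹' A)) ↔ x ∈ D} =
          (intl (fun k => F.S (s i k) ⁻¹' A) ∩ D) ∪
            ((intl (fun k => F.S (s i k) ⁻¹' A))ᶜ ∩ Dᶜ) := by
        ext x; simp only [mem_ofPred_eq, mem_union, mem_inter_iff, mem_compl_iff]; tauto
      rw [this]
      exact (hAm.inter hDm).union (hAm.compl.inter hDm.compl)
    have h3 : ∀ᵐ x ∂((lb P.μ).map (Lb.mp φ)),
        (x ∈ intl (fun k => F.S (s i k) ⁻¹' A)) ↔ x ∈ D := by
      rw [ae_map_iff hmp.measurable.aemeasurable hE]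
      filter_upwards [hpre] with x hx
      exact iff_of_eq hx
    rw [hmp.map_eq] at h3
    filter_upwards [h3] with x hx
    exact propext hx
  exact measurableSet_of_ae_nul (mα := LL F.ms) hrest le_sup_right hAm hD hae

end Crest.Agent.R069.ClTr
end

-- ▼ part R069/YE
section

/-!
# Row 69, node YE: the upstream assembly
`N_SAT`, `N_RULE`, `N_CLOSED`, `N_S1F` (and `N_FAC`, proved) imply `N_YE`.
-/

set_option autoImplicit false

open MeasureTheory Filter Set ProbabilityTheory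
open scoped ENNReal Topology

namespace Crest.Agent.R069.YE

open YEVis YETau

/-- transfer of closedness to the standard factor (node CLTR) -/
def N_CLTR : Prop :=
  ∀ (X : Sys) (P F : Pair X), StandardBorelSpace P.Ω → StandardBorelSpace F.Ω →
    ∀ (φ : P.Ω → F.Ω), FacOf P F φ → ∀ (ι : Type) [Fintype ι] (s : ι → ℕ → ℤ),
      F.ms.comap φ ≤ P.vis s → P.vis s ≤ F.ms.comap φ ⊔ nul P.μ →
      (∀ i, siteM P.toSys (s i) (P.vis s) ≤ restM s i P.toSys (P.vis s) P.C) → Closed s F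

theorem comap_le {X Y : Sys} {φ : X.Ω → Y.Ω} (hφ : MeasurePreserving φ X.μ Y.μ) :
    Y.ms.comap φ ≤ X.ms := hφ.measurable.comap_le

/-- bounded versions of conditional expectations which are functions of the factor map -/
theorem exists_version {X Y : Sys} {φ : X.Ω → Y.Ω} (hφ : MeasurePreserving φ X.μ Y.μ)
    (m : MeasurableSpace X.Ω) (hm : m ≤ X.ms) (h : AELe X.μ m (Y.ms.comap φ))
    {f : X.Ω → ℝ} (hf : Bd X.ms f) :
    ∃ g : Y.Ω → ℝ, Bd Y.ms g ∧ X.μ[f | m] =ᵐ[X.μ] g ∘ φ := by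
  have hf' : BdM X.ms f := ⟨hf.1, hf.2⟩
  obtain ⟨F, hF, hFe⟩ := BdM.condExp_bm (μ := X.μ) hm hf'
  obtain ⟨F', hF', hFe'⟩ := h.exists_bm (μ := X.μ) hm (comap_le hφ) hF
  obtain ⟨g, hg, rfl⟩ := hF'.factors
  exact ⟨g, ⟨hg.meas, hg.bdd⟩, hFe.trans hFe'⟩

theorem bd_fac {X Y : Sys} {φ : X.Ω → Y.Ω} (hφ : MeasurePreserving φ X.μ Y.μ)
    {g : Y.Ω → ℝ} (hg : Bd Y.ms g) : Bd X.ms (g ∘ φ) := bd_comp hg hφ.measurable

theorem condExp_version {X : Sys} (m : MeasurableSpace X.Ω) (hm : m ≤ X.ms)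
    {f g : X.Ω → ℝ} (h : X.μ[f | m] =ᵐ[X.μ] g) : X.μ[f | m] =ᵐ[X.μ] X.μ[g | m] := by
  have h1 : X.μ[X.μ[f | m] | m] =ᵐ[X.μ] X.μ[g | m] := condExp_congr_ae h
  have h2 : X.μ[X.μ[f | m] | m] = X.μ[f | m] :=
    condExp_of_stronglyMeasurable hm stronglyMeasurable_condExp integrable_condExp
  rw [h2] at h1
  exact h1

theorem integral_version {X : Sys} (m : MeasurableSpace X.Ω) (hm : m ≤ X.ms)
    {f g : X.Ω → ℝ} (h : X.μ[f | m] =ᵐ[X.μ] g) : ∫ x, f x ∂X.μ = ∫ x, g x ∂X.μ := by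
  rw [← integral_congr_ae h, integral_condExp hm]

/-- the standard factor of the visible part of the base -/
theorem exists_base {X : Sys} (hX : StandardBorelSpace X.Ω) {ι : Type} [Fintype ι]
    (s : ι → ℕ → ℤ) (m : MeasurableSpace X.Ω) (hm : m ≤ X.ms)
    (hmS : ∀ n, Measurable[m, m] (X.S n))
    (h0 : ∀ f : ι → X.Ω → ℝ, (∀ i, Bd X.ms (f i)) → (∃ i0, X.μ[f i0 | m] =ᵐ[X.μ] 0) →
      tau X s f = 0)
    {f : ι → X.Ω → ℝ} (hf : ∀ i, Bd X.ms (f i)) (hne : tau X s f ≠ ∏ i, ∫ x, f i x ∂X.μ) :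
    ∃ (Y : Sys) (φ : X.Ω → Y.Ω), StandardBorelSpace Y.Ω ∧
      @MeasurePreserving _ _ X.ms Y.ms φ X.μ Y.μ ∧
      (∀ n x, φ (X.S n x) = Y.S n (φ x)) ∧ Y.ms.comap φ ≤ m ∧
      ∃ g : ι → Y.Ω → ℝ, (∀ i, Bd Y.ms (g i)) ∧ tau Y s g ≠ ∏ i, ∫ y, g i y ∂Y.μ := by
  obtain ⟨Y, φ, hY, hφ, hφS, hc1, hc2⟩ := Fac.n_fac X hX m hm hmS
  have hae : AELe X.μ m (Y.ms.comap φ) := @Fac.aele_of_le_sup_nul _ _ _ X.ms _ hc2
  have hex := fun i => exists_version hφ m hm hae (hf i)
  choose g hg hfg using hex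
  refine ⟨Y, φ, hY, hφ, hφS, hc1, g, hg, ?_⟩
  have hb : ∀ i, Bd X.ms (g i ∘ φ) := fun i => bd_fac hφ (hg i)
  have h1 : tau X s f = tau X s (fun i => g i ∘ φ) :=
    tau_cond s m h0 hf hb fun i => condExp_version m hm (hfg i)
  have h2 : tau X s (fun i => g i ∘ φ) = tau Y s g := tau_comp s hφ hφS hg
  have h3 : ∀ i, ∫ x, f i x ∂X.μ = ∫ y, g i y ∂Y.μ := fun i => by
    rw [integral_version m hm (hfg i)]
    exact integral_comp_fac hφ (hg i)
  intro h4
  apply hne
  rw [h1, h2, h4]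
  exact Finset.prod_congr rfl fun i _ => (h3 i).symm

/-- the base of a pair over the factor `Y` is visible in extensions of `down Q`. -/
theorem base_visible {X Y : Sys} {ι : Type} (s : ι → ℕ → ℤ) {φ : X.Ω → Y.Ω}
    (hφ : MeasurePreserving φ X.μ Y.μ)
    (hφS : ∀ n, (fun x => φ (X.S n x)) =ᵐ[X.μ] fun x => Y.S n (φ x)) (Q : Pair X)
    (hvis : Y.ms.comap φ ≤ Q.visX s) {R : Pair Y} (e : Ext (Fac.down hφ hφS Q) R) :
    Y.ms.comap R.π ≤ R.vis s := by
  rintro _ ⟨B, hB, rfl⟩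
  have h1 : MeasurableSet[Q.visX s] (φ ⁻¹' B) := hvis _ ⟨B, hB, rfl⟩
  have h2 : MeasurableSet[(Fac.down hφ hφS Q).vis s] ((Fac.down hφ hφS Q).π ⁻¹' B) := h1.2
  have h3 : MeasurableSet[R.vis s] (e.f ⁻¹' ((Fac.down hφ hφS Q).π ⁻¹' B)) := pvis_ext e h2
  have h4 : (R.π ⁻¹' B) =ᵐ[R.μ] (e.f ⁻¹' ((Fac.down hφ hφS Q).π ⁻¹' B)) := by
    filter_upwards [e.f_π] with x hx
    apply propext
    show R.π x ∈ B ↔ (Fac.down hφ hφS Q).π (e.f x) ∈ B
    rw [hx]
    rfl
  exact measurableSet_of_ae_nul (R.vis_le s) (nul_le_pvis s R) (R.π_mp.measurable hB) h3 h4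

/-- **Node YE.** -/
theorem n_ye_of (hSAT : N_SAT) (hRULE : N_RULE) (hCLOSED : N_CLOSED) (hS1F : N_S1F)
    (hTr : N_CLTR) : N_YE := by
  intro X hX ι _ s hι hInd f hf hne
  obtain ⟨Q, _, hQ, hQ1, hQ2⟩ := hSAT X hX (Fac.triv X) hX ι s
  obtain ⟨Y, φ, hY, hφ, hφS, hc1, g, hg, hgne⟩ := exists_base hX s (Q.visX s) (visX_le s Q)
    (visX_S s Q) (fun f' hf' h0 => hRULE X hX Q hQ ι s hι hInd hQ1 hQ2 f' hf' h0) hf hne
  have hφS' : ∀ n, (fun x => φ (X.S n x)) =ᵐ[X.μ] fun x => Y.S n (φ x) := fun n =>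
    Eventually.of_forall fun x => hφS n x
  have hYInd : XIndP Y s := xIndP_fac s hφ hφS hInd
  obtain ⟨R, e, hR, hR1, hR2⟩ := hSAT Y hY (Fac.down hφ hφS' Q) hQ ι s
  have hvis : Y.ms.comap R.π ≤ R.vis s := base_visible s hφ hφS' Q hc1 e
  obtain ⟨F, ψ, hF, hfac, hle1, hle2⟩ := Fac.exists_facOf hY R hR (m := R.vis s) (R.vis_le s)
    (pvis_S s R) (C_le_pvis s R) hvis
  refine ⟨Y, φ, hY, hφ, hφS, ⟨g, hg, hgne⟩, F, hF, ?_, ?_⟩
  · exact hS1F Y hY R F hR hF ψ hfac hR1
  · exact hTr Y R F hR hF ψ hfac ι s hle1 hle2 (hCLOSED Y hY R hR ι s hι hYInd hR1 hR2)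

theorem n_cltr : N_CLTR := fun _ _ _ _ _ _ h _ _ s h1 h2 hcl =>
  ClTr.closed_of_fac h s h1 h2 hcl

/-- **Node YE**, from the four remaining nodes. -/
theorem n_ye (hSAT : N_SAT) (hRULE : N_RULE) (hCLOSED : N_CLOSED) (hS1F : N_S1F) : N_YE :=
  n_ye_of hSAT hRULE hCLOSED hS1F n_cltr

end Crest.Agent.R069.YE
end

-- ▼ part R069/S1FRel
section

/-!
# Row 69, node S1F: the relative product of an ARBITRARY probability space `Q` with a standard Borel
`E` over a common factor `B`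
-/

set_option autoImplicit false

open MeasureTheory Filter Set ProbabilityTheory
open scoped ENNReal Topology

namespace Crest.Agent.R069.S1F

variable {Q E B : Type*} [mQ : MeasurableSpace Q] [mE : MeasurableSpace E] [StandardBorelSpace E]
  [Nonempty E] [mB : MeasurableSpace B]

/-- the law of `(q, e)`, `e` of law `rker μ φ (f q)` given `q`. -/
noncomputable def exProd (ν : Measure Q) (f : Q → B) (hf : Measurable f) (μ : Measure E)
    [IsFiniteMeasure μ] (φ : E → B) : Measure (Q × E) :=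
  ν ⊗ₘ ((rker μ φ).comap f hf)

variable {ν : Measure Q} [IsProbabilityMeasure ν] {f : Q → B} {hf : Measurable f}
  {μ : Measure E} [IsProbabilityMeasure μ] {φ : E → B}

instance : IsProbabilityMeasure (exProd ν f hf μ φ) := by
  unfold exProd; infer_instance

theorem exProd_fst : MeasurePreserving Prod.fst (exProd ν f hf μ φ) ν := by
  refine ⟨measurable_fst, ?_⟩
  rw [exProd]
  exact Measure.fst_compProd ν _

theorem exProd_snd (hφ : Measurable φ) (h : ν.map f = μ.map φ) :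
    MeasurePreserving Prod.snd (exProd ν f hf μ φ) μ := by
  refine ⟨measurable_snd, ?_⟩
  have h1 : (exProd ν f hf μ φ).map Prod.snd = ((rker μ φ).comap f hf) ∘ₘ ν :=
    Measure.snd_compProd ν _
  rw [h1]
  ext A hA
  rw [Measure.bind_apply hA (Kernel.aemeasurable _)]
  have h2 : ∫⁻ a, ((rker μ φ).comap f hf) a A ∂ν = ∫⁻ b, rker μ φ b A ∂(ν.map f) := by
    rw [lintegral_map (Kernel.measurable_coe _ hA) hf]
    rfl
  rw [h2, h]
  conv_rhs => rw [← rker_comp (μ := μ) hφ]
  rw [Measure.bind_apply hA (Kernel.aemeasurable _)]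

theorem exProd_base [MeasurableEq B] (hφ : Measurable φ) (h : ν.map f = μ.map φ) :
    ∀ᵐ p ∂(exProd ν f hf μ φ), φ p.2 = f p.1 := by
  rw [exProd]
  refine Measure.ae_compProd_of_ae_ae (measurableSet_eq_fun (by fun_prop) (by fun_prop)) ?_
  have h1 := ae_rker_eq (μ := μ) hφ (measurable_id (α := B))
  rw [← h] at h1
  filter_upwards [ae_of_ae_map hf.aemeasurable h1] with x hx
  exact hx

theorem exProd_map (hφ : Measurable φ) (h : ν.map f = μ.map φ) {T₁ : Q → Q} {T : E → E}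
    (hT₁ : MeasurePreserving T₁ ν ν) (hT : MeasurePreserving T μ μ) (S : B ≃ᵐ B)
    (h1 : (fun x => f (T₁ x)) =ᵐ[ν] fun x => S (f x))
    (h2 : (fun x => φ (T x)) =ᵐ[μ] fun x => S (φ x)) :
    MeasurePreserving (Prod.map T₁ T) (exProd ν f hf μ φ) (exProd ν f hf μ φ) := by
  refine ⟨hT₁.measurable.prodMap hT.measurable, ?_⟩
  refine Measure.ext_prod fun {A A'} hA hA' => ?_
  rw [Measure.map_apply (hT₁.measurable.prodMap hT.measurable) (hA.prod hA')]
  have e : Prod.map T₁ T ⁻¹' (A ×ˢ A') = (T₁ ⁻¹' A) ×ˢ (T ⁻¹' A') := rfl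
  rw [e, exProd, Measure.compProd_apply_prod (hT₁.measurable hA) (hT.measurable hA'),
    Measure.compProd_apply_prod hA hA']
  have h3 := fibMap_of_equiv hT hφ hφ S h2 A' hA'
  rw [← h] at h3
  have h4 := ae_of_ae_map hf.aemeasurable h3
  have h5 : ∀ᵐ x ∂ν, ((rker μ φ).comap f hf) x (T ⁻¹' A') =
      ((rker μ φ).comap f hf) (T₁ x) A' := by
    filter_upwards [h4, h1] with x hx4 hx1
    simp only [Kernel.comap_apply]
    rw [hx1]
    exact hx4
  rw [← lintegral_indicator (hT₁.measurable hA), ← lintegral_indicator hA]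
  conv_rhs => rw [← hT₁.map_eq]
  rw [lintegral_map ((Kernel.measurable_coe _ hA').indicator hA) hT₁.measurable]
  refine lintegral_congr_ae ?_
  filter_upwards [h5] with x hx
  by_cases hxA : T₁ x ∈ A
  · rw [indicator_of_mem (show x ∈ T₁ ⁻¹' A from hxA), indicator_of_mem hxA, hx]
  · rw [indicator_of_notMem (show x ∉ T₁ ⁻¹' A from hxA), indicator_of_notMem hxA]

end Crest.Agent.R069.S1F
end

-- ▼ part R069/S1F
section

/-!
# Row 69, node N_S1F: (S1) passes to factors containing the base and the environment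
-/

set_option autoImplicit false

open MeasureTheory Filter Set ProbabilityTheory
open scoped ENNReal Topology

namespace Crest.Agent.R069.S1F

theorem nul_preimage {α β : Type*} [mα : MeasurableSpace α] [mβ : MeasurableSpace β]
    {μ : Measure α} {ν : Measure β} {f : α → β} (hf : MeasurePreserving f μ ν) {B : Set β}
    (hB : MeasurableSet[nul ν] B) : MeasurableSet[nul μ] (f ⁻¹' B) := by
  refine ⟨hf.measurable hB.1, ?_⟩
  rcases hB.2 with h | h
  · left; rwa [hf.measure_preimage hB.1.nullMeasurableSet]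
  · right; rwa [← preimage_compl, hf.measure_preimage hB.1.compl.nullMeasurableSet]

theorem aele_nul {α : Type*} {m' : MeasurableSpace α} [mα : MeasurableSpace α] (μ : Measure α) :
    AELe μ (nul μ) m' := by
  intro A hA
  rcases hA.2 with h | h
  · exact ⟨∅, @MeasurableSet.empty _ m', ae_eq_empty.2 h⟩
  · exact ⟨univ, @MeasurableSet.univ _ m', ae_eq_univ.2 h⟩

theorem aele_sup_nul {α : Type*} {m' : MeasurableSpace α} [mα : MeasurableSpace α]
    (μ : Measure α) : AELe μ (m' ⊔ nul μ) m' :=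
  AELe.sup AELe.refl (aele_nul μ)

theorem condExp_sup_nul {α : Type*} {m' : MeasurableSpace α} [mα : MeasurableSpace α]
    {μ : Measure α} [IsProbabilityMeasure μ] (hm : m' ≤ mα) {f : α → ℝ} (hf : BdM mα f) :
    μ[f | m' ⊔ nul μ] =ᵐ[μ] μ[f | m'] :=
  condExp_eq_of_aele (sup_le hm (nul_le_ms μ)) hm (aele_sup_nul μ) (AELe.of_le le_sup_left) hf

/-- the automorphism `S n` -/
def seq (M : Sys) (n : ℤ) : M.Ω ≃ᵐ M.Ω where
  toFun := M.S n
  invFun := M.S (-n)
  left_inv x := by rw [← M.S_add, neg_add_cancel, M.S_zero]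
  right_inv x := by rw [← M.S_add, add_neg_cancel, M.S_zero]
  measurable_toFun := (M.S_mp n).measurable
  measurable_invFun := (M.S_mp (-n)).measurable

section main

variable {X : Sys} {P F Q : Pair X} {φ : P.Ω → F.Ω}

section defs

variable [StandardBorelSpace P.Ω] [Nonempty P.Ω] [StandardBorelSpace F.Ω]

/-- the law of the relative product `Q ×_F P` -/
noncomputable def law (_hφ : FacOf P F φ) (e : Ext F Q) : Measure (Q.Ω × P.Ω) :=
  exProd Q.μ e.f e.f_mp.measurable P.μ φ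

instance (hφ : FacOf P F φ) (e : Ext F Q) : IsProbabilityMeasure (law hφ e) := by
  unfold law; infer_instance

theorem law_fst (hφ : FacOf P F φ) (e : Ext F Q) : MeasurePreserving Prod.fst (law hφ e) Q.μ :=
  exProd_fst

theorem law_snd (hφ : FacOf P F φ) (e : Ext F Q) : MeasurePreserving Prod.snd (law hφ e) P.μ :=
  exProd_snd hφ.mp.measurable (e.f_mp.map_eq.trans hφ.mp.map_eq.symm)

theorem law_base (hφ : FacOf P F φ) (e : Ext F Q) : ∀ᵐ p ∂(law hφ e), φ p.2 = e.f p.1 :=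
  exProd_base hφ.mp.measurable (e.f_mp.map_eq.trans hφ.mp.map_eq.symm)

theorem law_S (hφ : FacOf P F φ) (e : Ext F Q) (n : ℤ) :
    MeasurePreserving (Prod.map (Q.S n) (P.S n)) (law hφ e) (law hφ e) :=
  exProd_map hφ.mp.measurable (e.f_mp.map_eq.trans hφ.mp.map_eq.symm) (Q.S_mp n)
    (P.S_mp n) (seq F.toSys n) (e.f_S n) (Eventually.of_forall fun x => hφ.equi n x)

theorem comap_fst_le (hφ : FacOf P F φ) (e : Ext F Q) :
    Q.C.comap Prod.fst ≤ (Prod.instMeasurableSpace : MeasurableSpace (Q.Ω × P.Ω)) :=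
  comap_le_of_mp (law_fst hφ e) Q.C_le

/-- the relative product `Q ×_F P` as a pair over `X` -/
noncomputable def relPair (hφ : FacOf P F φ) (e : Ext F Q) : Pair X where
  Ω := Q.Ω × P.Ω
  ms := Prod.instMeasurableSpace
  μ := law hφ e
  pr := inferInstance
  S n := Prod.map (Q.S n) (P.S n)
  S_zero x := by ext <;> simp [Q.S_zero, P.S_zero]
  S_add a b x := by ext <;> simp [Q.S_add, P.S_add]
  S_mp n := law_S hφ e n
  π := Q.π ∘ Prod.fst
  π_mp := Q.π_mp.comp (law_fst hφ e)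
  π_S n := (law_fst hφ e).quasiMeasurePreserving.ae_eq_comp (Q.π_S n)
  C := Q.C.comap Prod.fst ⊔ nul (law hφ e)
  C_le := sup_le (comap_fst_le hφ e) (nul_le_ms _)
  C_nul := le_sup_right
  C_S n := by
    rw [measurable_iff_comap_le, MeasurableSpace.comap_sup]
    refine sup_le ?_ ?_
    · refine le_trans ?_ le_sup_left
      rintro _ ⟨_, ⟨A, hA, rfl⟩, rfl⟩
      exact ⟨Q.S n ⁻¹' A, Q.C_S n hA, rfl⟩
    · refine le_trans ?_ le_sup_right
      rintro _ ⟨A, hA, rfl⟩
      exact nul_preimage (law_S hφ e n) hA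
  indep := by
    have h1 := (indep_comap_iff (law_fst hφ e) Q.π_mp.measurable.comap_le Q.C_le).2 Q.indep
    rw [MeasurableSpace.comap_comp] at h1
    exact Indep.mono_ae (Q.π_mp.measurable.comp measurable_fst).comap_le
      (Q.π_mp.measurable.comp measurable_fst).comap_le (comap_fst_le hφ e)
      (sup_le (comap_fst_le hφ e) (nul_le_ms _)) AELe.refl (aele_sup_nul _) h1

/-- `Q ×_F P` extends `P` -/
noncomputable def relExt (hφ : FacOf P F φ) (e : Ext F Q) : Ext P (relPair hφ e) where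
  f := Prod.snd
  f_mp := law_snd hφ e
  f_S n := Eventually.of_forall fun x => rfl
  f_π := by
    have h3 := (law_fst hφ e).quasiMeasurePreserving.ae_eq_comp e.f_π
    have h4 := (law_snd hφ e).quasiMeasurePreserving.ae_eq_comp hφ.pi_eq
    have h5 : ∀ᵐ p ∂(law hφ e), Q.π p.1 = P.π p.2 := by
      filter_upwards [law_base hφ e, h3, h4] with p hp0 hp3 hp4
      have hp3' : Q.π p.1 = F.π (e.f p.1) := hp3
      have hp4' : P.π p.2 = F.π (φ p.2) := hp4
      rw [hp3', hp4', hp0]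
    exact h5
  f_C := by
    change P.C.comap Prod.snd ≤ Q.C.comap Prod.fst ⊔ nul (law hφ e)
    rintro _ ⟨A, hA, rfl⟩
    rw [hφ.C_eq] at hA
    obtain ⟨_, ⟨B, hB, rfl⟩, hAB⟩ := aele_sup_nul P.μ A hA
    have hA' : MeasurableSet A := by
      have : F.C.comap φ ⊔ nul P.μ ≤ P.ms := hφ.C_eq ▸ P.C_le
      exact this _ hA
    have h1 : Prod.snd ⁻¹' A =ᵐ[law hφ e] Prod.snd ⁻¹' (φ ⁻¹' B) :=
      (law_snd hφ e).quasiMeasurePreserving.preimage_ae_eq hAB
    have h2 : (Prod.snd ⁻¹' (φ ⁻¹' B) : Set (Q.Ω × P.Ω)) =ᵐ[law hφ e]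
        Prod.fst ⁻¹' (e.f ⁻¹' B) := by
      filter_upwards [law_base hφ e] with p hp
      apply propext
      change φ p.2 ∈ B ↔ e.f p.1 ∈ B
      rw [hp]
    have h3 : MeasurableSet[Q.C.comap Prod.fst] (Prod.fst ⁻¹' (e.f ⁻¹' B) : Set (Q.Ω × P.Ω)) :=
      ⟨e.f ⁻¹' B, e.f_C _ ⟨B, hB, rfl⟩, rfl⟩
    exact measurableSet_of_ae_nul (m := Q.C.comap Prod.fst ⊔ nul (law hφ e))
      (sup_le (comap_fst_le hφ e) (nul_le_ms _)) le_sup_right (measurable_snd hA')
      ((le_sup_left : Q.C.comap Prod.fst ≤ Q.C.comap Prod.fst ⊔ nul (law hφ e)) _ h3)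
      (h1.trans h2)

end defs

theorem s1F_aux [StandardBorelSpace P.Ω] [Nonempty P.Ω] [StandardBorelSpace F.Ω] (hP : S1 P)
    (hφ : FacOf P F φ) : S1 F := by
  intro Q e f hf
  have hfm : Measurable f := hf.1
  obtain ⟨K, hK⟩ := hf.2
  have hb : BdM F.ms f := ⟨hf.1, hf.2⟩
  have hbφ : BdM P.ms (f ∘ φ) := ⟨hfm.comp hφ.mp.measurable, K, fun x => hK _⟩
  have hbe : BdM Q.ms (f ∘ e.f) := ⟨hfm.comp e.f_mp.measurable, K, fun x => hK _⟩
  have key := hP (relPair hφ e) (relExt hφ e) (f ∘ φ) ⟨hbφ.meas, hbφ.bdd⟩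
  have key' : (law hφ e)[(f ∘ φ) ∘ Prod.snd | Q.C.comap Prod.fst ⊔ nul (law hφ e)]
      =ᵐ[law hφ e] (P.μ[f ∘ φ | P.C]) ∘ Prod.snd := key
  -- left side
  have hbp : BdM (Prod.instMeasurableSpace : MeasurableSpace (Q.Ω × P.Ω))
      ((f ∘ e.f) ∘ Prod.fst) :=
    ⟨hbe.meas.comp measurable_fst, K, fun x => hK _⟩
  have e1 : ((f ∘ φ) ∘ Prod.snd : Q.Ω × P.Ω → ℝ) =ᵐ[law hφ e] (f ∘ e.f) ∘ Prod.fst := by
    filter_upwards [law_base hφ e] with p hp
    show f (φ p.2) = f (e.f p.1)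
    rw [hp]
  have e2 : (law hφ e)[(f ∘ φ) ∘ Prod.snd | Q.C.comap Prod.fst ⊔ nul (law hφ e)] =ᵐ[law hφ e]
      (Q.μ[f ∘ e.f | Q.C]) ∘ Prod.fst :=
    ((condExp_congr_ae e1).trans (condExp_sup_nul (comap_fst_le hφ e) hbp)).trans
      (condExp_comp_mp (law_fst hφ e) Q.C_le (hbe.integrable le_rfl))
  -- right side
  have e3 : P.μ[f ∘ φ | P.C] =ᵐ[P.μ] (F.μ[f | F.C]) ∘ φ := by
    rw [hφ.C_eq]
    exact (condExp_sup_nul (comap_le_of_mp hφ.mp F.C_le) hbφ).trans
      (condExp_comp_mp hφ.mp F.C_le (hb.integrable le_rfl))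
  have e4 : (P.μ[f ∘ φ | P.C]) ∘ Prod.snd =ᵐ[law hφ e] ((F.μ[f | F.C]) ∘ e.f) ∘ Prod.fst := by
    filter_upwards [(law_snd hφ e).quasiMeasurePreserving.ae_eq_comp e3, law_base hφ e]
      with p hp3 hp
    have hp3' : (P.μ[f ∘ φ | P.C]) p.2 = (F.μ[f | F.C]) (φ p.2) := hp3
    show (P.μ[f ∘ φ | P.C]) p.2 = (F.μ[f | F.C]) (e.f p.1)
    rw [hp3', hp]
  have e5 : (Q.μ[f ∘ e.f | Q.C]) ∘ Prod.fst =ᵐ[law hφ e]
      ((F.μ[f | F.C]) ∘ e.f) ∘ Prod.fst := (e2.symm.trans key').trans e4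
  refine (ae_comp_iff (law_fst hφ e) ?_ ?_).1 e5
  · exact (stronglyMeasurable_condExp.mono Q.C_le).measurable
  · exact (stronglyMeasurable_condExp.mono F.C_le).measurable.comp e.f_mp.measurable

/-- **N_S1F** -/
theorem s1F : N_S1F := by
  intro X _ P F hP hF φ hφ h1
  have hne : Nonempty P.Ω := by
    by_contra hemp
    rw [not_nonempty_iff] at hemp
    have h3 : P.μ univ = 1 := measure_univ
    rw [Set.univ_eq_empty_iff.2 hemp, measure_empty] at h3
    exact zero_ne_one h3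
  exact s1F_aux h1 hφ

end main

end Crest.Agent.R069.S1F
end

-- ▼ part R069/SitePair
section

/-!
# Row 69: the Loeb space of a pair as a pair, visible sets

* `visE s P` : the visible sub-sigma-algebra of a pair (invariant, contains `C`);
* `ptS M t : Lb M.Ω → M.Ω` : the point at the site `t` (measure preserving, equivariant);
* `lbSys M` : the Loeb system;
* `sitePair P t D ..` : the Loeb space of `P` as a pair over the base, through the site `t`, with
  environment `D`;  `sitePairExt` : it is an extension of `P` through `ptS P t`;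
* `visE_comap_le` : visible sets stay visible.
-/

set_option autoImplicit false
set_option linter.unusedVariables false

open MeasureTheory Filter Set ProbabilityTheory
open scoped ENNReal Topology

namespace Crest.Agent.R069.Cl

section tools

theorem measurableSet_of_ae_eq {α : Type*} {m : MeasurableSpace α} [mα : MeasurableSpace α]
    {μ : Measure α} (hm : m ≤ mα) (hn : nul μ ≤ m) {A B : Set α} (hA : MeasurableSet A)
    (hB : MeasurableSet[m] B) (h : A =ᵐ[μ] B) : MeasurableSet[m] A := by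
  have h1 : μ (A \ B) = 0 := (ae_eq_set.1 h).1
  have h2 : μ (B \ A) = 0 := (ae_eq_set.1 h).2
  have e1 : MeasurableSet[m] (A \ B) := hn _ ⟨hA.diff (hm _ hB), Or.inl h1⟩
  have e2 : MeasurableSet[m] (B \ A) := hn _ ⟨(hm _ hB).diff hA, Or.inl h2⟩
  have e3 : A = (A \ B) ∪ (B \ (B \ A)) := by
    ext x; simp only [Set.mem_union, Set.mem_sdiff]; tauto
  rw [e3]
  exact e1.union (hB.diff e2)

theorem comap_nul_le {α β : Type*} [mα : MeasurableSpace α] [mβ : MeasurableSpace β]
    {μ : Measure α} {ν : Measure β} {f : α → β} (hf : MeasurePreserving f μ ν) :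
    (nul ν).comap f ≤ nul μ := by
  rintro _ ⟨A, ⟨hA, hA2⟩, rfl⟩
  refine ⟨hf.measurable hA, ?_⟩
  rw [← preimage_compl, hf.measure_preimage hA.nullMeasurableSet,
    hf.measure_preimage hA.compl.nullMeasurableSet]
  exact hA2

theorem nul_le {α : Type*} [mα : MeasurableSpace α] {μ : Measure α} : nul μ ≤ mα :=
  fun _ h => h.1

theorem comap_le_of_ae {α β : Type*} {m : MeasurableSpace α} {mC : MeasurableSpace β}
    [mα : MeasurableSpace α] {μ : Measure α} (hm : m ≤ mα) (hn : nul μ ≤ m) {f : α → β}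
    (hf : ∀ A, MeasurableSet[mC] A → MeasurableSet (f ⁻¹' A) ∧
      ∃ B, MeasurableSet[m] B ∧ f ⁻¹' A =ᵐ[μ] B) : mC.comap f ≤ m := by
  rintro _ ⟨A, hA, rfl⟩
  obtain ⟨h1, B, hB, h2⟩ := hf A hA
  exact measurableSet_of_ae_eq hm hn h1 hB h2

theorem generateFrom_le_of_ae {α : Type*} {m : MeasurableSpace α} [mα : MeasurableSpace α]
    {μ : Measure α} (hm : m ≤ mα) (hn : nul μ ≤ m) {𝓢 : Set (Set α)}
    (hf : ∀ A ∈ 𝓢, MeasurableSet A ∧ ∃ B, MeasurableSet[m] B ∧ A =ᵐ[μ] B) :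
    MeasurableSpace.generateFrom 𝓢 ≤ m := by
  refine MeasurableSpace.generateFrom_le fun A hA => ?_
  obtain ⟨h1, B, hB, h2⟩ := hf A hA
  exact measurableSet_of_ae_eq hm hn h1 hB h2

end tools

section site

theorem measurableSet_site (M : Sys) (s : ℕ → ℤ) {A : Set M.Ω} (hA : MeasurableSet A) :
    MeasurableSet (intl (fun k => M.S (s k) ⁻¹' A)) :=
  measurableSet_intl (fun k => (M.S_mp (s k)).measurable hA)

theorem siteA_le (M : Sys) (t : ℕ → ℤ) : siteA M t ≤ LL M.ms := by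
  refine MeasurableSpace.generateFrom_le ?_
  rintro _ ⟨A, hA, rfl⟩
  exact measurableSet_site M t hA

theorem measurableSet_siteA (M : Sys) (t : ℕ → ℤ) {A : Set M.Ω} (hA : MeasurableSet A) :
    MeasurableSet[siteA M t] (intl (fun k => M.S (t k) ⁻¹' A)) :=
  MeasurableSpace.measurableSet_generateFrom ⟨A, hA, rfl⟩

/-- a countable union of site sets is a.e. the site set of the union -/
theorem intl_site_iUnion_ae (M : Sys) (t : ℕ → ℤ) (A : ℕ → Set M.Ω)
    (hA : ∀ n, MeasurableSet (A n)) :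
    intl (fun k => M.S (t k) ⁻¹' (⋃ n, A n)) =ᵐ[lb M.μ] ⋃ n, intl (fun k => M.S (t k) ⁻¹' (A n)) := by
  have hsub : (⋃ n, intl (fun k => M.S (t k) ⁻¹' (A n))) ⊆
      intl (fun k => M.S (t k) ⁻¹' (⋃ n, A n)) := by
    intro x hx
    obtain ⟨n, hn⟩ := mem_iUnion.1 hx
    have hn' : ∀ᶠ k in (UU : Filter ℕ), x k ∈ M.S (t k) ⁻¹' (A n) := hn
    show ∀ᶠ k in (UU : Filter ℕ), x k ∈ M.S (t k) ⁻¹' (⋃ n, A n)
    filter_upwards [hn'] with k hk
    exact mem_iUnion.2 ⟨n, hk⟩
  have hmeasU : MeasurableSet (⋃ n, A n) := MeasurableSet.iUnion hA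
  have hv : ∀ B : Set M.Ω, MeasurableSet B → lb M.μ (intl (fun k => M.S (t k) ⁻¹' B)) = M.μ B := by
    intro B hB
    rw [lb_intl M.μ (fun k => (M.S_mp (t k)).measurable hB)]
    apply ulim_eq
    have : (fun k => M.μ (M.S (t k) ⁻¹' B)) = fun _ => M.μ B := by
      funext k
      exact (M.S_mp (t k)).measure_preimage hB.nullMeasurableSet
    rw [this]
    exact tendsto_const_nhds
  refine (ae_eq_of_subset_of_measure_ge hsub ?_ ?_ (measure_ne_top _ _)).symm
  · rw [hv _ hmeasU]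
    rw [measure_iUnion_eq_iSup_accumulate]
    refine iSup_le fun n => ?_
    have hacc : accumulate A n = ⋃ i ∈ Finset.range (n+1), A i := by
      ext x; simp [mem_accumulate]
    have hms : MeasurableSet (accumulate A n) := by
      rw [hacc]; exact Finset.measurableSet_biUnion _ (fun i _ => hA i)
    rw [← hv _ hms]
    refine measure_mono ?_
    intro x hx
    have hx' : ∀ᶠ k in (UU : Filter ℕ), x k ∈ M.S (t k) ⁻¹' (accumulate A n) := hx
    by_contra hcon
    have h3 : ∀ i ∈ Finset.range (n+1), ∀ᶠ k in (UU : Filter ℕ), ¬ (x k ∈ M.S (t k) ⁻¹' (A i)) := by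
      intro i _
      rw [Ultrafilter.eventually_not]
      intro h4
      exact hcon (mem_iUnion.2 ⟨i, h4⟩)
    have h5 := (Filter.eventually_all_finset (Finset.range (n+1))).2 h3
    obtain ⟨k, hk, hk'⟩ := (hx'.and h5).exists
    rw [hacc] at hk
    simp only [mem_preimage, mem_iUnion] at hk
    obtain ⟨i, hi, h6⟩ := hk
    exact hk' i hi h6
  · exact (MeasurableSet.iUnion fun n => measurableSet_site M t (hA n)).nullMeasurableSet

theorem comap_site_eq (M : Sys) (t : ℕ → ℤ) (n : ℤ) (A : Set M.Ω) :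
    lbmap (fun _ : ℕ => M.S n) ⁻¹' intl (fun k => M.S (t k) ⁻¹' A) =
      intl (fun k => M.S (t k) ⁻¹' (M.S n ⁻¹' A)) := by
  rw [lbmap_preimage]
  congr 1
  funext k
  ext x
  simp only [mem_preimage]
  rw [← M.S_add, ← M.S_add, add_comm]

end site

section visible

variable {X : Sys} {ι : Type} (s : ι → ℕ → ℤ) (P : Pair X)

theorem rest_le (i : ι) : rest s i P ≤ LL P.ms :=
  sup_le (sup_le (iSup_le fun _ => iSup_le fun _ => siteA_le _ _) (LL_mono P.C_le)) nul_le

theorem nul_le_rest (i : ι) : nul (lb P.μ) ≤ rest s i P := le_sup_right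

theorem LL_C_le_rest (i : ι) : LL P.C ≤ rest s i P := le_sup_right.trans le_sup_left

/-- **The visible sets** of a pair: measurable sets which, placed at any site `i`, are measurable
with respect to everything at the other sites and the environment. -/
@[implicit_reducible]
noncomputable def visE : MeasurableSpace P.Ω where
  MeasurableSet' A := MeasurableSet A ∧
    ∀ i, MeasurableSet[rest s i P] (intl (fun k => P.S (s i k) ⁻¹' A))
  measurableSet_empty := ⟨MeasurableSet.empty, fun i => by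
    have : intl (fun k => P.S (s i k) ⁻¹' (∅ : Set P.Ω)) = ∅ := by
      simp only [preimage_empty, intl_empty]
    rw [this]; exact @MeasurableSet.empty _ (rest s i P)⟩
  measurableSet_compl A hA := ⟨hA.1.compl, fun i => by
    have : intl (fun k => P.S (s i k) ⁻¹' Aᶜ) = (intl (fun k => P.S (s i k) ⁻¹' A))ᶜ := by
      rw [← intl_compl]; rfl
    rw [this]; exact (hA.2 i).compl⟩
  measurableSet_iUnion A hA := ⟨MeasurableSet.iUnion fun n => (hA n).1, fun i =>
    measurableSet_of_ae_eq (rest_le s P i) (nul_le_rest s P i)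
      (measurableSet_site P.toSys (s i) (MeasurableSet.iUnion fun n => (hA n).1))
      (@MeasurableSet.iUnion _ _ (rest s i P) _ _ fun n => (hA n).2 i)
      (intl_site_iUnion_ae P.toSys (s i) A (fun n => (hA n).1))⟩

theorem visE_le : visE s P ≤ P.ms := fun _ h => h.1

/-- `rest` is invariant under the shift of the Loeb space. -/
theorem measurable_rest (i : ι) (n : ℤ) :
    Measurable[rest s i P, rest s i P] (lbmap (fun _ : ℕ => P.S n)) := by
  rw [measurable_iff_comap_le]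
  unfold rest
  simp only [MeasurableSpace.comap_sup, MeasurableSpace.comap_iSup]
  refine sup_le_sup (sup_le_sup ?_ ?_) ?_
  · refine iSup_mono fun j => iSup_mono fun _ => ?_
    rw [siteA, MeasurableSpace.comap_generateFrom]
    refine MeasurableSpace.generateFrom_mono ?_
    rintro _ ⟨_, ⟨A, hA, rfl⟩, rfl⟩
    exact ⟨P.S n ⁻¹' A, (P.S_mp n).measurable hA, comap_site_eq P.toSys (s j) n A⟩
  · rw [comap_lbmap_LL]
    exact LL_mono (measurable_iff_comap_le.1 (P.C_S n))
  · exact comap_nul_le (measurePreserving_lbmap (fun _ => P.S_mp n))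

/-- the visible sigma-algebra is invariant. -/
theorem visE_S (n : ℤ) : Measurable[visE s P, visE s P] (P.S n) := by
  intro A hA
  refine ⟨(P.S_mp n).measurable hA.1, fun i => ?_⟩
  rw [← comap_site_eq P.toSys (s i) n A]
  exact measurable_rest s P i n (hA.2 i)




variable {s P}

theorem intl_comap_ae {Q : Pair X} {f : Q.Ω → P.Ω} (hmp : MeasurePreserving f Q.μ P.μ)
    (hS : ∀ n, (fun x => f (Q.S n x)) =ᵐ[Q.μ] fun x => P.S n (f x)) (t : ℕ → ℤ)
    (A : Set P.Ω) :
    lbmap (fun _ : ℕ => f) ⁻¹' intl (fun k => P.S (t k) ⁻¹' A) =ᵐ[lb Q.μ]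
      intl (fun k => Q.S (t k) ⁻¹' (f ⁻¹' A)) := by
  rw [lbmap_preimage]
  refine intl_ae_eq fun k => ?_
  filter_upwards [hS (t k)] with x hx
  apply propext
  show P.S (t k) (f x) ∈ A ↔ f (Q.S (t k) x) ∈ A
  rw [hx]

/-- functoriality of `rest`. -/
theorem comap_rest_le {Q : Pair X} {f : Q.Ω → P.Ω} (hmp : MeasurePreserving f Q.μ P.μ)
    (hS : ∀ n, (fun x => f (Q.S n x)) =ᵐ[Q.μ] fun x => P.S n (f x)) (hC : P.C.comap f ≤ Q.C)
    (i : ι) : (rest s i P).comap (lbmap (fun _ : ℕ => f)) ≤ rest s i Q := by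
  have hlb : MeasurePreserving (lbmap (fun _ : ℕ => f)) (lb Q.μ) (lb P.μ) :=
    measurePreserving_lbmap (fun _ => hmp)
  have hle := rest_le s Q i
  have hnl := nul_le_rest s Q i
  unfold rest
  simp only [MeasurableSpace.comap_sup, MeasurableSpace.comap_iSup]
  refine sup_le (sup_le ?_ ?_) ?_
  · refine iSup_le fun j => iSup_le fun hj => ?_
    rw [siteA, MeasurableSpace.comap_generateFrom]
    refine generateFrom_le_of_ae (μ := lb Q.μ) hle hnl ?_
    rintro _ ⟨_, ⟨A, hA, rfl⟩, rfl⟩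
    refine ⟨hlb.measurable (measurableSet_site P.toSys (s j) hA),
      intl (fun k => Q.S (s j k) ⁻¹' (f ⁻¹' A)), ?_, intl_comap_ae hmp hS (s j) A⟩
    have h1 : siteA Q.toSys (s j) ≤ rest s i Q :=
      (le_iSup₂_of_le (f := fun j (_ : j ≠ i) => siteA Q.toSys (s j)) j hj le_rfl).trans
        (le_sup_left.trans le_sup_left)
    exact h1 _ (measurableSet_siteA Q.toSys (s j) (hmp.measurable hA))
  · rw [comap_lbmap_LL]
    exact (LL_mono hC).trans (LL_C_le_rest s Q i)
  · exact (comap_nul_le hlb).trans hnl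

/-- **visible sets stay visible.** -/
theorem visE_comap_le {Q : Pair X} {f : Q.Ω → P.Ω} (hmp : MeasurePreserving f Q.μ P.μ)
    (hS : ∀ n, (fun x => f (Q.S n x)) =ᵐ[Q.μ] fun x => P.S n (f x)) (hC : P.C.comap f ≤ Q.C) :
    (visE s P).comap f ≤ visE s Q := by
  rintro _ ⟨A, hA, rfl⟩
  refine ⟨hmp.measurable hA.1, fun i => ?_⟩
  refine measurableSet_of_ae_eq (rest_le s Q i) (nul_le_rest s Q i)
    (measurableSet_site Q.toSys (s i) (hmp.measurable hA.1)) ?_
    (intl_comap_ae hmp hS (s i) A).symm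
  exact comap_rest_le hmp hS hC i _ ⟨_, hA.2 i, rfl⟩


end visible

section ptS

variable (M : Sys)

/-- The point at the site `s`. -/
noncomputable def ptS [StandardBorelSpace M.Ω] [Nonempty M.Ω] (s : ℕ → ℤ) : Lb M.Ω → M.Ω :=
  sv (fun k => M.S (s k))

variable [StandardBorelSpace M.Ω] [Nonempty M.Ω]

theorem mp_ptS (s : ℕ → ℤ) : MeasurePreserving (ptS M s) (lb M.μ) M.μ :=
  measurePreserving_sv (fun k => M.S_mp (s k))

theorem measurable_ptS (s : ℕ → ℤ) : Measurable (ptS M s) := (mp_ptS M s).measurable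

theorem ptS_preimage_ae (s : ℕ → ℤ) {A : Set M.Ω} (hA : MeasurableSet A) :
    ptS M s ⁻¹' A =ᵐ[lb M.μ] intl (fun k => M.S (s k) ⁻¹' A) :=
  sv_preimage_ae (fun k => M.S_mp (s k)) hA

theorem ptS_equivariant (s : ℕ → ℤ) (n : ℤ) :
    (fun x => ptS M s (lbmap (fun _ => M.S n) x)) =ᵐ[lb M.μ] fun x => M.S n (ptS M s x) := by
  have h1 := pt_lbmap_ae (μ := M.μ) (g := M.S n) (M.S_mp n).measurable
  have h2 := (measurePreserving_lbmap (fun k => M.S_mp (s k))).quasiMeasurePreserving.ae h1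
  filter_upwards [h2] with x hx
  have e : lbmap (fun k => M.S (s k)) (lbmap (fun _ => M.S n) x)
      = lbmap (fun _ => M.S n) (lbmap (fun k => M.S (s k)) x) := by
    funext k
    simp only [lbmap_apply]
    rw [← M.S_add, ← M.S_add, add_comm]
  show pt _ = _
  rw [e, hx]
  rfl

/-- the Loeb system. -/
@[reducible] noncomputable def lbSys (M : Sys) : Sys where
  Ω := Lb M.Ω
  ms := LL M.ms
  μ := lb M.μ
  pr := inferInstance
  S n := lbmap (fun _ => M.S n)
  S_zero x := by funext k; exact M.S_zero _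
  S_add a b x := by funext k; exact M.S_add a b _
  S_mp n := measurePreserving_lbmap (fun _ => M.S_mp n)

/-- the null sets of the Loeb space. -/
@[reducible] noncomputable def nulL (M : Sys) : MeasurableSpace (Lb M.Ω) := nul (lb M.μ)

theorem nulL_le (M : Sys) : nulL M ≤ LL M.ms := nul_le

/-- full site at `t` (through the point map). -/
@[reducible] noncomputable def fullS (t : ℕ → ℤ) : MeasurableSpace (Lb M.Ω) :=
  M.ms.comap (ptS M t)

theorem fullS_le (t : ℕ → ℤ) : fullS M t ≤ LL M.ms :=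
  measurable_iff_comap_le.1 (measurable_ptS M t)

theorem siteA_le_fullS (t : ℕ → ℤ) : siteA M t ≤ fullS M t ⊔ nulL M := by
  refine generateFrom_le_of_ae (μ := lb M.μ) (sup_le (fullS_le M t) (nulL_le M)) le_sup_right ?_
  rintro _ ⟨A, hA, rfl⟩
  refine ⟨measurableSet_site M t hA, ptS M t ⁻¹' A, ?_, (ptS_preimage_ae M t hA).symm⟩
  exact (le_sup_left : fullS M t ≤ fullS M t ⊔ nulL M) _ ⟨A, hA, rfl⟩


theorem measurable_ptS_lbmap (t : ℕ → ℤ) (n : ℤ) :
    Measurable (ptS M t ∘ lbmap (fun _ : ℕ => M.S n)) :=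
  (measurable_ptS M t).comp (measurable_lbmap fun _ => (M.S_mp n).measurable)

/-- a site sigma-algebra of an invariant sigma-algebra is invariant up to null sets. -/
theorem comap_site_le {m : MeasurableSpace M.Ω} (hm : m ≤ M.ms)
    (hS : ∀ n, Measurable[m, m] (M.S n)) (t : ℕ → ℤ) (n : ℤ) :
    (m.comap (ptS M t)).comap (lbmap (fun _ : ℕ => M.S n)) ≤ m.comap (ptS M t) ⊔ nulL M := by
  rw [MeasurableSpace.comap_comp]
  have hle : m.comap (ptS M t) ≤ LL M.ms := (MeasurableSpace.comap_mono hm).trans (fullS_le M t)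
  refine @comap_le_of_ae _ _ _ _ (LL M.ms) (lbSys M).μ (sup_le hle (nulL_le M)) le_sup_right _ ?_
  intro A hA
  refine ⟨measurable_ptS_lbmap M t n (hm _ hA), ptS M t ⁻¹' (M.S n ⁻¹' A), ?_, ?_⟩
  · exact (le_sup_left : m.comap (ptS M t) ≤ _) _ ⟨_, hS n hA, rfl⟩
  · filter_upwards [ptS_equivariant M t n] with x hx
    apply propext
    show ptS M t (lbmap (fun _ => M.S n) x) ∈ A ↔ M.S n (ptS M t x) ∈ A
    rw [hx]

end ptS

section sitePair

variable {X : Sys} (P : Pair X) [StandardBorelSpace P.Ω] [Nonempty P.Ω] (t : ℕ → ℤ)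

/-- the factor map of the Loeb space to the base through the site `t`. -/
noncomputable def piS : Lb P.Ω → X.Ω := P.π ∘ ptS P.toSys t

theorem mp_piS : MeasurePreserving (piS P t) (lb P.μ) X.μ := P.π_mp.comp (mp_ptS P.toSys t)

theorem piS_S (n : ℤ) : (fun x => piS P t (lbmap (fun _ => P.S n) x)) =ᵐ[lb P.μ]
    fun x => X.S n (piS P t x) := by
  have h1 := ptS_equivariant P.toSys t n
  have h2 := (mp_ptS P.toSys t).quasiMeasurePreserving.ae (P.π_S n)
  filter_upwards [h1, h2] with x hx1 hx2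
  show P.π (ptS P.toSys t (lbmap (fun _ => P.S n) x)) = _
  rw [hx1, hx2]
  rfl

/-- The Loeb space of `P` as a pair over `X` through the site `t`, with environment `D`. -/
noncomputable def sitePair (D : MeasurableSpace (Lb P.Ω)) (hD : D ≤ LL P.ms)
    (hnul : nulL P.toSys ≤ D)
    (hinv : ∀ n, Measurable[D, D] (lbmap (fun _ : ℕ => P.S n)))
    (hind : @Indep _ (X.ms.comap (piS P t)) D (LL P.ms) (lb P.μ)) : Pair X where
  toSys := lbSys P.toSys
  π := piS P t
  π_mp := mp_piS P t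
  π_S := piS_S P t
  C := D
  C_le := hD
  C_nul := hnul
  C_S := hinv
  indep := hind

theorem comap_C_le {D : MeasurableSpace (Lb P.Ω)} (hD : D ≤ LL P.ms)
    (hnul : nulL P.toSys ≤ D) (hLL : LL P.C ≤ D) : P.C.comap (ptS P.toSys t) ≤ D := by
  rintro _ ⟨A, hA, rfl⟩
  refine @measurableSet_of_ae_eq _ D (LL P.ms) (lb P.μ) hD hnul _ _
    (measurable_ptS P.toSys t (P.C_le _ hA))
    (hLL _ (measurableSet_intl (fun k => P.C_S (t k) hA)))
    (ptS_preimage_ae P.toSys t (P.C_le _ hA))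

noncomputable def sitePairExt (D : MeasurableSpace (Lb P.Ω)) (hD : D ≤ LL P.ms)
    (hnul : nulL P.toSys ≤ D)
    (hinv : ∀ n, Measurable[D, D] (lbmap (fun _ : ℕ => P.S n)))
    (hind : @Indep _ (X.ms.comap (piS P t)) D (LL P.ms) (lb P.μ))
    (hLL : LL P.C ≤ D) :
    Ext P (sitePair P t D hD hnul hinv hind) where
  f := ptS P.toSys t
  f_mp := mp_ptS P.toSys t
  f_S n := ptS_equivariant P.toSys t n
  f_π := EventuallyEq.rfl
  f_C := comap_C_le P t hD hnul hLL

end sitePair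

end Crest.Agent.R069.Cl
end

-- ▼ part R069/Closed
section

/-!
# Row 69, node CLOSED

If pushes are possible for every extension (`hpush`: PUSH) and the base sites are independent of the
other full sites and the environment (`hind`: SITE), then a visible set placed at a site `r0` is
measurable with respect to the visible sets at the other sites, the environment and null sets.
-/

set_option autoImplicit false
set_option linter.unusedVariables false

open MeasureTheory Filter Set ProbabilityTheory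
open scoped ENNReal Topology

namespace Crest.Agent.R069.Cl

section closed

variable {X : Sys} {ι : Type} (s : ι → ℕ → ℤ) (P : Pair X)
  [StandardBorelSpace P.Ω] [Nonempty P.Ω]

/-- visible site. -/
@[reducible] noncomputable def visS (j : ι) : MeasurableSpace (Lb P.Ω) :=
  (visE s P).comap (ptS P.toSys (s j))

theorem visS_le (j : ι) : visS s P j ≤ fullS P.toSys (s j) :=
  MeasurableSpace.comap_mono (visE_le s P)

/-- the environment of the Loeb space -/
@[reducible] noncomputable def envL (P : Pair X) : MeasurableSpace (Lb P.Ω) :=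
  LL P.C ⊔ nulL P.toSys

omit [StandardBorelSpace P.Ω] [Nonempty P.Ω] in
theorem envL_le : envL P ≤ LL P.ms := sup_le (LL_mono P.C_le) (nulL_le P.toSys)

/-- visible sites in `T`, full sites outside `T ∪ U`, environment. -/
@[reducible] noncomputable def mixD (T U : Finset ι) : MeasurableSpace (Lb P.Ω) :=
  (⨆ j ∈ T, visS s P j) ⊔ (⨆ j ∈ U, fullS P.toSys (s j)) ⊔ envL P

theorem mixD_le (T U : Finset ι) : mixD s P T U ≤ LL P.ms :=
  sup_le (sup_le (iSup₂_le fun j _ => (visS_le s P j).trans (fullS_le _ _))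
    (iSup₂_le fun j _ => fullS_le _ _)) (envL_le P)

theorem nul_le_mixD (T U : Finset ι) : nulL P.toSys ≤ mixD s P T U :=
  le_sup_right.trans le_sup_right

theorem LLC_le_mixD (T U : Finset ι) : LL P.C ≤ mixD s P T U :=
  le_sup_left.trans le_sup_right

theorem mixD_inv (T U : Finset ι) (n : ℤ) :
    Measurable[mixD s P T U, mixD s P T U] (lbmap (fun _ : ℕ => P.S n)) := by
  rw [measurable_iff_comap_le]
  have h0 := nul_le_mixD s P T U
  conv_lhs => unfold mixD
  simp only [MeasurableSpace.comap_sup, MeasurableSpace.comap_iSup]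
  refine sup_le (sup_le ?_ ?_) (sup_le ?_ ?_)
  · refine iSup₂_le fun j hj => ?_
    refine (comap_site_le P.toSys (visE_le s P) (visE_S s P) (s j) n).trans (sup_le ?_ h0)
    exact (le_iSup₂_of_le (f := fun j (_ : j ∈ T) => visS s P j) j hj le_rfl).trans
      (le_sup_left.trans le_sup_left)
  · refine iSup₂_le fun j hj => ?_
    refine (comap_site_le P.toSys le_rfl (fun n => (P.S_mp n).measurable) (s j) n).trans
      (sup_le ?_ h0)
    exact (le_iSup₂_of_le (f := fun j (_ : j ∈ U) => fullS P.toSys (s j)) j hj le_rfl).trans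
      (le_sup_right.trans le_sup_left)
  · rw [comap_lbmap_LL]
    exact (LL_mono (measurable_iff_comap_le.1 (P.C_S n))).trans (LLC_le_mixD s P T U)
  · exact (comap_nul_le (measurePreserving_lbmap (fun _ => P.S_mp n))).trans h0

variable [Fintype ι] [DecidableEq ι]

/-- a visible set at the site `r0` is measurable with respect to the other full sites and the
environment. -/
theorem closed_start (r0 : ι) {A : Set P.Ω} (hA : MeasurableSet[visE s P] A) :
    MeasurableSet[mixD s P ∅ (Finset.univ.erase r0)] (ptS P.toSys (s r0) ⁻¹' A) := by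
  refine measurableSet_of_ae_eq (mixD_le s P _ _) (nul_le_mixD s P _ _)
    (measurable_ptS P.toSys (s r0) hA.1) ?_ (ptS_preimage_ae P.toSys (s r0) hA.1)
  have hle : rest s r0 P ≤ mixD s P ∅ (Finset.univ.erase r0) := by
    unfold rest
    refine sup_le (sup_le ?_ (LLC_le_mixD s P _ _)) (nul_le_mixD s P _ _)
    refine iSup₂_le fun j hj => ?_
    refine (siteA_le_fullS P.toSys (s j)).trans (sup_le ?_ (nul_le_mixD s P _ _))
    exact (le_iSup₂_of_le (f := fun j (_ : j ∈ Finset.univ.erase r0) => fullS P.toSys (s j)) j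
      (Finset.mem_erase.2 ⟨hj, Finset.mem_univ j⟩) le_rfl).trans (le_sup_right.trans le_sup_left)
  exact hle _ (hA.2 r0)

/-- **CLOSED**. -/
theorem closed
    (hpush : ∀ (Q : Pair X) (e : Ext P Q) (G : Set Q.Ω), MeasurableSet[P.ms.comap e.f ⊔ Q.C] G →
      MeasurableSet[visE s Q] G → MeasurableSet[(visE s P).comap e.f ⊔ Q.C] G)
    (hind : ∀ r0 j, j ≠ r0 → Indep (X.ms.comap (piS P (s j)))
      (mixD s P ∅ ((Finset.univ.erase r0).erase j)) (lb P.μ))
    (r0 : ι) {A : Set P.Ω} (hA : MeasurableSet[visE s P] A) :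
    MeasurableSet[(⨆ j, ⨆ _ : j ≠ r0, visS s P j) ⊔ LL P.C ⊔ nulL P.toSys]
      (ptS P.toSys (s r0) ⁻¹' A) := by
  -- induction on the set of treated sites
  have key : ∀ T : Finset ι, T ⊆ Finset.univ.erase r0 →
      MeasurableSet[mixD s P T ((Finset.univ.erase r0) \ T)] (ptS P.toSys (s r0) ⁻¹' A) := by
    intro T
    induction T using Finset.induction_on with
    | empty =>
      intro _
      rw [Finset.sdiff_empty]
      exact closed_start s P r0 hA
    | insert a T ha ih =>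
      intro hT
      have hT' : T ⊆ Finset.univ.erase r0 := (Finset.subset_insert a T).trans hT
      have ih' := ih hT'
      have har : a ≠ r0 := (Finset.mem_erase.1 (hT (Finset.mem_insert_self a T))).1
      set U : Finset ι := (Finset.univ.erase r0) \ insert a T with hU
      have hD := mixD_le s P T U
      have hnul := nul_le_mixD s P T U
      have hLL := LLC_le_mixD s P T U
      have hinv := mixD_inv s P T U
      have hindep : Indep (X.ms.comap (piS P (s a))) (mixD s P T U) (lb P.μ) := by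
        refine indep_of_indep_of_le_right (hind r0 a har) ?_
        refine sup_le (sup_le ?_ ?_) le_sup_right
        · refine iSup₂_le fun j hj => (visS_le s P j).trans ?_
          have hja : j ≠ a := fun h => ha (h ▸ hj)
          have hjr : j ≠ r0 := (Finset.mem_erase.1 (hT' hj)).1
          exact (le_iSup₂_of_le (f := fun j (_ : j ∈ (Finset.univ.erase r0).erase a) =>
            fullS P.toSys (s j)) j (Finset.mem_erase.2 ⟨hja, Finset.mem_erase.2
              ⟨hjr, Finset.mem_univ j⟩⟩) le_rfl).trans (le_sup_right.trans le_sup_left)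
        · refine iSup₂_le fun j hj => ?_
          rw [hU, Finset.mem_sdiff, Finset.mem_insert, not_or] at hj
          exact (le_iSup₂_of_le (f := fun j (_ : j ∈ (Finset.univ.erase r0).erase a) =>
            fullS P.toSys (s j)) j (Finset.mem_erase.2 ⟨hj.2.1, hj.1⟩) le_rfl).trans
              (le_sup_right.trans le_sup_left)
      let Q : Pair X := sitePair P (s a) (mixD s P T U) hD hnul hinv hindep
      let e : Ext P Q := sitePairExt P (s a) (mixD s P T U) hD hnul hinv hindep hLL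
      have h1 : MeasurableSet[P.ms.comap e.f ⊔ Q.C] (ptS P.toSys (s r0) ⁻¹' A) := by
        have hle : mixD s P T ((Finset.univ.erase r0) \ T) ≤
            fullS P.toSys (s a) ⊔ mixD s P T U := by
          refine sup_le (sup_le ?_ ?_) (le_sup_right.trans le_sup_right)
          · exact le_sup_left.trans (le_sup_left.trans le_sup_right)
          · refine iSup₂_le fun j hj => ?_
            by_cases hja : j = a
            · subst hja; exact le_sup_left
            · have hj' : j ∈ U := by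
                rw [hU, Finset.mem_sdiff, Finset.mem_insert, not_or]
                exact ⟨(Finset.mem_sdiff.1 hj).1, hja, (Finset.mem_sdiff.1 hj).2⟩
              exact (le_iSup₂_of_le (f := fun j (_ : j ∈ U) => fullS P.toSys (s j)) j hj'
                le_rfl).trans ((le_sup_right.trans le_sup_left).trans le_sup_right)
        exact hle _ ih'
      have h2 : MeasurableSet[visE s Q] (ptS P.toSys (s r0) ⁻¹' A) := by
        have hle : (visE s P).comap (ptS P.toSys (s r0)) ≤ visE s Q :=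
          visE_comap_le (P := P) (Q := Q) (f := ptS P.toSys (s r0)) (mp_ptS P.toSys (s r0))
            (fun n => ptS_equivariant P.toSys (s r0) n) (comap_C_le P (s r0) hD hnul hLL)
        exact hle _ ⟨A, hA, rfl⟩
      have h3 := hpush Q e _ h1 h2
      have hle : (visE s P).comap e.f ⊔ Q.C ≤ mixD s P (insert a T) U := by
        refine sup_le ?_ ?_
        · exact (le_iSup₂_of_le (f := fun j (_ : j ∈ insert a T) => visS s P j) a
            (Finset.mem_insert_self a T) le_rfl).trans (le_sup_left.trans le_sup_left)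
        · refine sup_le (sup_le ?_ (le_sup_right.trans le_sup_left)) le_sup_right
          refine iSup₂_le fun j hj => ?_
          exact (le_iSup₂_of_le (f := fun j (_ : j ∈ insert a T) => visS s P j) j
            (Finset.mem_insert_of_mem hj) le_rfl).trans (le_sup_left.trans le_sup_left)
      exact hle _ h3
  have h := key (Finset.univ.erase r0) (Finset.Subset.refl _)
  have hle : mixD s P (Finset.univ.erase r0) ((Finset.univ.erase r0) \ (Finset.univ.erase r0)) ≤
      (⨆ j, ⨆ _ : j ≠ r0, visS s P j) ⊔ LL P.C ⊔ nulL P.toSys := by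
    rw [sup_assoc]
    refine sup_le (sup_le ?_ ?_) le_sup_right
    · refine iSup₂_le fun j hj => ?_
      exact (le_iSup₂_of_le (f := fun j (_ : j ≠ r0) => visS s P j) j
        (Finset.mem_erase.1 hj).1 le_rfl).trans le_sup_left
    · refine iSup₂_le fun j hj => ?_
      rw [Finset.sdiff_self] at hj
      exact absurd hj (Finset.notMem_empty j)
  exact hle _ h

end closed

end Crest.Agent.R069.Cl
end

-- ▼ part R069/Push
section

/-!
# PUSH: the visible sub-sigma-algebra and extensions (row 69)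

* `atS M s g` : the function `g` placed at the site `s` (on the Loeb space of the system `M`);
* `E1 s P`    : the sigma-algebra of the sets visible in every role;
* `push`      : a function of `e.f` and `Q.C` that is visible in every role for the extension `Q`
                is a function of `e.f⁻¹ (E1 s P)` and `Q.C`.
-/

set_option autoImplicit false

open MeasureTheory Filter Set ProbabilityTheory
open scoped ENNReal Topology

namespace Crest.Agent.R069.Push

/-! ### Complete sub-sigma-algebras -/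

section nul

variable {Ω : Type*} {m : MeasurableSpace Ω} {mΩ : MeasurableSpace Ω} {μ : Measure Ω}

theorem nul_le (μ : Measure Ω) : nul μ ≤ mΩ := fun _ hA => hA.1

theorem measurableSet_of_ae_eq (hm : m ≤ mΩ) (hn : nul μ ≤ m) {A B : Set Ω}
    (hA : MeasurableSet A) (hB : MeasurableSet[m] B) (h : A =ᵐ[μ] B) : MeasurableSet[m] A := by
  have h1 : MeasurableSet[m] (A \ B) :=
    hn _ ⟨hA.diff (hm _ hB), Or.inl (by
      have := ae_le_set.1 h.le
      exact this)⟩
  have h2 : MeasurableSet[m] (B \ A) :=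
    hn _ ⟨(hm _ hB).diff hA, Or.inl (by
      have := ae_le_set.1 h.symm.le
      exact this)⟩
  have h3 : A = (B \ (B \ A)) ∪ (A \ B) := by
    ext x; simp only [mem_union, Set.mem_sdiff]; tauto
  rw [h3]
  exact MeasurableSet.union (MeasurableSet.diff hB h2) h1

theorem measurable_of_aesm (hm : m ≤ mΩ) (hn : nul μ ≤ m) {f : Ω → ℝ}
    (hf : Measurable f) (h : AEStronglyMeasurable[m] f μ) : Measurable[m] f := by
  obtain ⟨g, hg, hfg⟩ := h
  intro B hB
  refine measurableSet_of_ae_eq hm hn (hf hB) (hg.measurable hB) ?_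
  filter_upwards [hfg] with x hx
  show (f x ∈ B) = (g x ∈ B)
  rw [hx]

end nul

/-! ### Functions and sets at a site -/

/-- the function `g` placed at the site `s`. -/
noncomputable def atS (M : Sys) (s : ℕ → ℤ) (g : M.Ω → ℝ) : Lb M.Ω → ℝ :=
  st (fun k y => g (M.S (s k) y))

section sites

variable {M : Sys} {s : ℕ → ℤ}

theorem measurable_site {A : Set M.Ω} (hA : MeasurableSet A) :
    MeasurableSet (intl (fun k => M.S (s k) ⁻¹' A)) :=
  measurableSet_intl (fun k => (M.S_mp (s k)).measurable hA)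

theorem lb_site {A : Set M.Ω} (hA : MeasurableSet A) :
    lb M.μ (intl (fun k => M.S (s k) ⁻¹' A)) = M.μ A := by
  rw [lb_intl M.μ (fun k => (M.S_mp (s k)).measurable hA)]
  apply ulim_eq
  have : ∀ k, M.μ (M.S (s k) ⁻¹' A) = M.μ A := fun k =>
    (M.S_mp (s k)).measure_preimage hA.nullMeasurableSet
  simp_rw [this]
  exact tendsto_const_nhds

theorem intl_mono {α : Type*} {A B : ℕ → Set α} (h : ∀ k, A k ⊆ B k) : intl A ⊆ intl B := by
  intro x hx
  have hx' : ∀ᶠ k in (UU : Filter ℕ), x k ∈ A k := hx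
  show ∀ᶠ k in (UU : Filter ℕ), x k ∈ B k
  filter_upwards [hx'] with k hk using h k hk

theorem intl_accumulate {α : Type*} {A : ℕ → ℕ → Set α} (N : ℕ) :
    intl (fun k => ⋃ n ≤ N, A n k) ⊆ ⋃ n, intl (A n) := by
  induction N with
  | zero =>
    intro x hx
    refine mem_iUnion.2 ⟨0, ?_⟩
    have hx' : ∀ᶠ k in (UU : Filter ℕ), x k ∈ ⋃ n ≤ 0, A n k := hx
    show ∀ᶠ k in (UU : Filter ℕ), x k ∈ A 0 k
    filter_upwards [hx'] with k hk
    simp only [mem_iUnion] at hk
    obtain ⟨n, hn, hk⟩ := hk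
    obtain rfl : n = 0 := by omega
    exact hk
  | succ N ih =>
    intro x hx
    have hx' : x ∈ intl (fun k => (⋃ n ≤ N, A n k) ∪ A (N + 1) k) := by
      have hx1 : ∀ᶠ k in (UU : Filter ℕ), x k ∈ ⋃ n ≤ N + 1, A n k := hx
      show ∀ᶠ k in (UU : Filter ℕ), x k ∈ (⋃ n ≤ N, A n k) ∪ A (N + 1) k
      filter_upwards [hx1] with k hk
      simp only [mem_iUnion] at hk
      obtain ⟨n, hn, hk⟩ := hk
      rcases Nat.lt_or_ge N n with h | h
      · right
        obtain rfl : n = N + 1 := by omega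
        exact hk
      · left
        simp only [mem_iUnion]
        exact ⟨n, h, hk⟩
    rw [intl_union] at hx'
    rcases hx' with h | h
    · exact ih h
    · exact mem_iUnion.2 ⟨N + 1, h⟩

theorem site_iUnion_ae {A : ℕ → Set M.Ω} (hA : ∀ n, MeasurableSet (A n)) :
    intl (fun k => M.S (s k) ⁻¹' (⋃ n, A n)) =ᵐ[lb M.μ]
      ⋃ n, intl (fun k => M.S (s k) ⁻¹' (A n)) := by
  have hsub : (⋃ n, intl (fun k => M.S (s k) ⁻¹' (A n))) ⊆
      intl (fun k => M.S (s k) ⁻¹' (⋃ n, A n)) :=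
    iUnion_subset fun n => intl_mono fun k => preimage_mono (subset_iUnion A n)
  refine (ae_eq_of_subset_of_measure_ge hsub ?_
    (MeasurableSet.iUnion fun n => measurable_site (hA n)).nullMeasurableSet
    (measure_ne_top _ _)).symm
  rw [lb_site (MeasurableSet.iUnion hA), measure_iUnion_eq_iSup_accumulate]
  refine iSup_le fun N => ?_
  have h1 : MeasurableSet (Set.accumulate A N) := by
    rw [Set.accumulate_def]
    exact MeasurableSet.iUnion fun n => MeasurableSet.iUnion fun _ => hA n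
  rw [← lb_site (M := M) (s := s) h1]
  refine measure_mono ?_
  refine Subset.trans ?_ (intl_accumulate (A := fun n k => M.S (s k) ⁻¹' (A n)) N)
  refine intl_mono fun k => ?_
  intro y hy
  rw [mem_preimage, Set.mem_accumulate] at hy
  simp only [mem_iUnion]
  obtain ⟨n, hn, hy⟩ := hy
  exact ⟨n, hn, hy⟩

theorem stOK_at {g : M.Ω → ℝ} (hg : ∃ C, ∀ x, |g x| ≤ C) :
    StOK (fun k y => g (M.S (s k) y)) := by
  obtain ⟨C, hC⟩ := hg
  exact stOK_of_bdd (C := C) (fun k x => by simpa using hC _)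

/-- the level sets of the standard part -/
theorem atS_gt {g : M.Ω → ℝ} (hg : ∃ C, ∀ x, |g x| ≤ C) (q : ℝ) :
    {x | q < atS M s g x} = ⋃ (p : ℚ), ⋃ (_ : q < p),
      intl (fun k => M.S (s k) ⁻¹' {y | (p : ℝ) < g y}) := by
  have hok := stOK_at (M := M) (s := s) hg
  ext x
  simp only [mem_iUnion, mem_ofPred_eq]
  constructor
  · intro hx
    obtain ⟨p, hp1, hp2⟩ := exists_rat_btwn hx
    refine ⟨p, hp1, ?_⟩
    have := (hok x).eventually (lt_mem_nhds hp2)
    exact this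
  · rintro ⟨p, hp, hx⟩
    have hx' : ∀ᶠ k in (UU : Filter ℕ), (p : ℝ) < g (M.S (s k) (x k)) := hx
    have h1 : (p : ℝ) ≤ atS M s g x := ge_of_tendsto (hok x) (hx'.mono fun k hk => hk.le)
    exact lt_of_lt_of_le hp h1

theorem bdM_atS {m : MeasurableSpace M.Ω} {g : M.Ω → ℝ} (hg : BdM m g)
    (hS : ∀ n, Measurable[m, m] (M.S n)) : BdM (LL m) (atS M s g) := by
  obtain ⟨C, hC⟩ := hg.bdd
  refine ⟨measurable_st (stOK_at hg.bdd) (fun k => ?_), C, fun x => ?_⟩
  · exact hg.meas.comp (hS (s k))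
  · have := norm_st_le (f := fun k y => g (M.S (s k) y)) (C := C)
      (fun k x => by simpa using hC _) x
    rw [Real.norm_eq_abs] at this
    exact this

theorem bdM_atS' {g : M.Ω → ℝ} (hg : BdM M.ms g) : BdM (LL M.ms) (atS M s g) :=
  bdM_atS hg (fun n => (M.S_mp n).measurable)

theorem atS_mul {f g : M.Ω → ℝ} (hf : ∃ C, ∀ x, |f x| ≤ C) (hg : ∃ C, ∀ x, |g x| ≤ C) :
    atS M s (fun x => f x * g x) = fun x => atS M s f x * atS M s g x :=
  st_mul (stOK_at hf) (stOK_at hg)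

theorem integral_atS {g : M.Ω → ℝ} (hg : BdM M.ms g) :
    ∫ x, atS M s g x ∂(lb M.μ) = ∫ x, g x ∂M.μ := by
  obtain ⟨C, hC⟩ := hg.bdd
  have h1 := tendsto_integral_st (μ := M.μ) (f := fun k y => g (M.S (s k) y)) (C := C)
    ⟨fun k => hg.meas.comp (M.S_mp (s k)).measurable, fun k x => hC _⟩
  have h2 : ∀ k, ∫ x, g (M.S (s k) x) ∂M.μ = ∫ x, g x ∂M.μ := fun k =>
    integral_comp_mp (M.S_mp (s k)) (hg.aemeas le_rfl)
  simp_rw [h2] at h1
  exact tendsto_nhds_unique h1 tendsto_const_nhds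

theorem atS_indicator {A : Set M.Ω} :
    atS M s (A.indicator (fun _ => (1 : ℝ))) =
      (intl (fun k => M.S (s k) ⁻¹' A)).indicator (fun _ => (1 : ℝ)) := by
  have h1 : (fun (k : ℕ) (y : M.Ω) => A.indicator (fun _ => (1 : ℝ)) (M.S (s k) y)) =
      fun k => (M.S (s k) ⁻¹' A).indicator (fun _ => (1 : ℝ)) := by
    funext k y
    by_cases hy : M.S (s k) y ∈ A
    · rw [indicator_of_mem hy, indicator_of_mem (show y ∈ M.S (s k) ⁻¹' A from hy)]
    · rw [indicator_of_notMem hy, indicator_of_notMem (show y ∉ M.S (s k) ⁻¹' A from hy)]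
  unfold atS
  rw [h1, st_indicator _ (f := fun _ _ => (1 : ℝ)) (stOK_of_bdd (C := 1) (by simp)), st_const]


end sites

/-! ### The sigma-algebras `rest` -/

section restSec

variable {X : Sys} {ι : Type} {s : ι → ℕ → ℤ}

theorem siteA_le (M : Sys) (s : ℕ → ℤ) : siteA M s ≤ LL M.ms := by
  refine MeasurableSpace.generateFrom_le ?_
  rintro _ ⟨A, hA, rfl⟩
  exact measurable_site hA

theorem rest_le (i : ι) (P : Pair X) : rest s i P ≤ LL P.ms := by
  refine sup_le (sup_le ?_ (LL_mono P.C_le)) (nul_le _)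
  exact iSup_le fun j => iSup_le fun _ => siteA_le _ _

theorem LL_le_rest (i : ι) (P : Pair X) : LL P.C ≤ rest s i P :=
  le_sup_of_le_left le_sup_right

theorem nul_le_rest (i : ι) (P : Pair X) : nul (lb P.μ) ≤ rest s i P := le_sup_right

end restSec

/-- **The sets visible in every role.** -/
@[implicit_reducible]
noncomputable def E1 {X : Sys} {ι : Type} (s : ι → ℕ → ℤ) (P : Pair X) : MeasurableSpace P.Ω where
  MeasurableSet' A := MeasurableSet A ∧
    ∀ i, MeasurableSet[rest s i P] (intl (fun k => P.S (s i k) ⁻¹' A))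
  measurableSet_empty := by
    refine ⟨MeasurableSet.empty, fun i => ?_⟩
    simp only [preimage_empty, intl_empty]
    exact @MeasurableSet.empty _ (rest s i P)
  measurableSet_compl A hA := by
    refine ⟨hA.1.compl, fun i => ?_⟩
    simp only [preimage_compl]
    rw [intl_compl]
    exact (hA.2 i).compl
  measurableSet_iUnion A hA := by
    refine ⟨MeasurableSet.iUnion fun n => (hA n).1, fun i => ?_⟩
    exact measurableSet_of_ae_eq (rest_le i P) (nul_le_rest i P)
      (measurable_site (MeasurableSet.iUnion fun n => (hA n).1))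
      (MeasurableSet.iUnion fun n => (hA n).2 i) (site_iUnion_ae fun n => (hA n).1)

section E1

variable {X : Sys} {ι : Type} {s : ι → ℕ → ℤ} {P : Pair X}

theorem E1_le : E1 s P ≤ P.ms := fun _ hA => hA.1

theorem le_E1 : P.C ≤ E1 s P := fun A hA =>
  ⟨P.C_le _ hA, fun i => LL_le_rest i P _ (measurableSet_intl fun k => P.C_S (s i k) hA)⟩

/-- A bounded function is `E1`-measurable iff it is visible in every role. -/
theorem aesm_atS_iff {g : P.Ω → ℝ} (hg : BdM P.ms g) :
    (∀ i, AEStronglyMeasurable[rest s i P] (atS P.toSys (s i) g) (lb P.μ)) ↔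
      Measurable[E1 s P] g := by
  constructor
  · intro h
    have h1 : ∀ i, Measurable[rest s i P] (atS P.toSys (s i) g) := fun i =>
      measurable_of_aesm (rest_le i P) (nul_le_rest i P) (bdM_atS' hg).meas (h i)
    refine @measurable_of_Ioi _ _ _ _ _ (E1 s P) _ _ _ _ fun q => ?_
    refine ⟨hg.meas measurableSet_Ioi, fun i => ?_⟩
    obtain ⟨r, hr⟩ := exists_surjective_nat ℚ
    have h2 : g ⁻¹' Ioi q = ⋃ n : ℕ, {y | q < (r n : ℝ) ∧ (r n : ℝ) < g y} := by
      ext y
      simp only [mem_preimage, mem_Ioi, mem_iUnion, mem_ofPred_eq]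
      constructor
      · intro hy
        obtain ⟨p, hp1, hp2⟩ := exists_rat_btwn hy
        obtain ⟨n, rfl⟩ := hr p
        exact ⟨n, hp1, hp2⟩
      · rintro ⟨n, hp1, hp2⟩
        exact hp1.trans hp2
    have hm : ∀ n : ℕ, MeasurableSet {y | q < (r n : ℝ) ∧ (r n : ℝ) < g y} := by
      intro n
      by_cases hq : q < (r n : ℝ)
      · simp only [hq, true_and]
        exact hg.meas measurableSet_Ioi
      · simp only [hq, false_and]
        exact MeasurableSet.empty
    have h3 : {x | q < atS P.toSys (s i) g x} =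
        ⋃ n, intl (fun k => P.S (s i k) ⁻¹' {y | q < (r n : ℝ) ∧ (r n : ℝ) < g y}) := by
      rw [atS_gt hg.bdd]
      ext x
      simp only [mem_iUnion]
      constructor
      · rintro ⟨p, hp, hx⟩
        obtain ⟨n, rfl⟩ := hr p
        refine ⟨n, ?_⟩
        have hx' : ∀ᶠ k in (UU : Filter ℕ), (r n : ℝ) < g (P.S (s i k) (x k)) := hx
        exact hx'.mono fun k hk => ⟨hp, hk⟩
      · rintro ⟨n, hx⟩
        have hx' : ∀ᶠ k in (UU : Filter ℕ), q < (r n : ℝ) ∧ (r n : ℝ) < g (P.S (s i k) (x k)) := hx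
        obtain ⟨k, hk⟩ := hx'.exists
        exact ⟨r n, hk.1, hx'.mono fun k hk => hk.2⟩
    have h4 : MeasurableSet[rest s i P] {x | q < atS P.toSys (s i) g x} := h1 i measurableSet_Ioi
    rw [h3] at h4
    rw [h2]
    exact measurableSet_of_ae_eq (rest_le i P) (nul_le_rest i P)
      (measurable_site (MeasurableSet.iUnion hm)) h4 (site_iUnion_ae hm)
  · intro h i
    have h1 : Measurable[rest s i P] (atS P.toSys (s i) g) := by
      refine @measurable_of_Ioi _ _ _ _ _ (rest s i P) _ _ _ _ fun q => ?_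
      have h2 : atS P.toSys (s i) g ⁻¹' Ioi q = {x | q < atS P.toSys (s i) g x} := rfl
      rw [h2, atS_gt hg.bdd]
      refine MeasurableSet.iUnion fun p => MeasurableSet.iUnion fun _ => ?_
      have h3 : MeasurableSet[E1 s P] {y | (p : ℝ) < g y} := h measurableSet_Ioi
      exact h3.2 i
    exact h1.stronglyMeasurable.aestronglyMeasurable

end E1

/-! ### Conditional expectations on the Loeb space -/

section core

theorem push_condExp_st {α : Type*} {m : MeasurableSpace α} [mα : MeasurableSpace α]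
    {μ : Measure α} [IsProbabilityMeasure μ] (hm : m ≤ mα) {K k : ℕ → α → ℝ} {C C' : ℝ}
    (hK : ∀ n, Measurable (K n)) (hKC : ∀ n x, |K n x| ≤ C)
    (hk : ∀ n, Measurable[m] (k n)) (hkC : ∀ n x, |k n x| ≤ C')
    (h : ∀ n, μ[K n | m] =ᵐ[μ] k n) : (lb μ)[st K | LL m] =ᵐ[lb μ] st k := by
  have okK : StOK K := stOK_of_bdd (C := C) (fun n x => by simpa using hKC n x)
  have okk : StOK k := stOK_of_bdd (C := C') (fun n x => by simpa using hkC n x)
  have hKm : BdM (LL mα) (st K) := ⟨measurable_st okK hK, C, fun x => by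
    have := norm_st_le (f := K) (C := C) (fun n x => by simpa using hKC n x) x
    rwa [Real.norm_eq_abs] at this⟩
  have hkm : BdM (LL m) (st k) := ⟨measurable_st okk hk, C', fun x => by
    have := norm_st_le (f := k) (C := C') (fun n x => by simpa using hkC n x) x
    rwa [Real.norm_eq_abs] at this⟩
  have hk' : ∀ n, Measurable (k n) := fun n => (hk n).mono hm le_rfl
  have key : ∀ A : ℕ → Set α, (∀ n, MeasurableSet[m] (A n)) →
      ∫ x in intl A, st k x ∂(lb μ) = ∫ x in intl A, st K x ∂(lb μ) := by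
    intro A hA
    have hA' : ∀ n, MeasurableSet (A n) := fun n => hm _ (hA n)
    have h1 := tendsto_setIntegral_st (μ := μ) (f := K) (C := C) ⟨hK, hKC⟩ hA'
    have h2 := tendsto_setIntegral_st (μ := μ) (f := k) (C := C') ⟨hk', hkC⟩ hA'
    have h3 : ∀ n, ∫ x in A n, k n x ∂μ = ∫ x in A n, K n x ∂μ := by
      intro n
      have hKi : Integrable (K n) μ := (BdM.mk (hK n) ⟨C, hKC n⟩).integrable le_rfl
      rw [← setIntegral_condExp hm hKi (hA n)]
      exact setIntegral_congr_ae (hA' n) ((h n).mono fun x hx _ => hx.symm)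
    simp_rw [h3] at h2
    exact tendsto_nhds_unique h2 h1
  refine condExp_eq_of_piSystem (LL_mono hm) rfl (isPiSystem_intlSets m)
    (hKm.integrable le_rfl) (hkm.integrable (LL_mono hm)) hkm.aesm ?_ ?_
  · have := key (fun _ => univ) (fun _ => @MeasurableSet.univ _ m)
    rw [intl_univ, setIntegral_univ, setIntegral_univ] at this
    exact this
  · rintro _ ⟨A, hA, rfl⟩
    exact key A hA

variable {X : Sys} {P Q : Pair X}

theorem lb_mp (e : Ext P Q) : MeasurePreserving (Lb.mp e.f) (lb Q.μ) (lb P.μ) :=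
  measurePreserving_lbmap (f := fun _ => e.f) (fun _ => e.f_mp)

theorem S_neg (M : Sys) (n : ℤ) (x : M.Ω) : M.S (-n) (M.S n x) = x := by
  rw [← M.S_add, neg_add_cancel, M.S_zero]


/-- placing a lifted function at a site -/
theorem atS_comp (e : Ext P Q) (s : ℕ → ℤ) (g : P.Ω → ℝ) :
    atS Q.toSys s (g ∘ e.f) =ᵐ[lb Q.μ] atS P.toSys s g ∘ Lb.mp e.f := by
  have h1 : ∀ k, ∀ᵐ x ∂Q.μ, g (e.f (Q.S (s k) x)) = g (P.S (s k) (e.f x)) := fun k =>
    (e.f_S (s k)).mono fun x hx => congrArg g hx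
  filter_upwards [ae_lb_of_forall_ae (μ := Q.μ)
    (p := fun k x => g (e.f (Q.S (s k) x)) = g (P.S (s k) (e.f x))) h1] with x hx
  show ulim _ = ulim _
  unfold ulim
  congr 1
  have : Filter.map (fun k => g (e.f (Q.S (s k) (x k)))) (UU : Filter ℕ) =
      Filter.map (fun k => g (P.S (s k) (e.f (x k)))) (UU : Filter ℕ) := Filter.map_congr hx
  exact this

/-- shifting a conditional expectation onto a factor -/
theorem condExp_shift (e : Ext P Q) {K : Q.Ω → ℝ} {k₀ : P.Ω → ℝ} (hK : BdM Q.ms K)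
    (hk : BdM P.ms k₀) (h : Q.μ[K | P.ms.comap e.f] =ᵐ[Q.μ] k₀ ∘ e.f) (n : ℤ) :
    Q.μ[fun x => K (Q.S n x) | P.ms.comap e.f] =ᵐ[Q.μ] fun x => k₀ (P.S n (e.f x)) := by
  have hle : P.ms.comap e.f ≤ Q.ms := e.f_mp.measurable.comap_le
  have hk1 : BdM (P.ms.comap e.f) (fun x => k₀ (P.S n (e.f x))) :=
    BdM.comp (φ := e.f) (f := fun y => k₀ (P.S n y))
      ⟨hk.meas.comp (P.S_mp n).measurable, hk.bdd.imp fun C hC x => hC _⟩
  have hK1 : BdM Q.ms (fun x => K (Q.S n x)) :=
    ⟨hK.meas.comp (Q.S_mp n).measurable, hK.bdd.imp fun C hC x => hC _⟩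
  refine condExp_eq_of_integral_mul hle (hK1.integrable le_rfl) (hk1.integrable hle) hk1.aesm ?_
  intro h' hh'
  obtain ⟨φ, hφ, rfl⟩ := hh'.factors
  have hψ : BdM P.ms (fun y => φ (P.S (-n) y)) :=
    ⟨hφ.meas.comp (P.S_mp (-n)).measurable, hφ.bdd.imp fun C hC x => hC _⟩
  have hkψ : BdM P.ms (fun y => k₀ y * φ (P.S (-n) y)) := hk.mul hψ
  have e1 : ∫ x, k₀ (P.S n (e.f x)) * (φ ∘ e.f) x ∂Q.μ = ∫ y, k₀ y * φ (P.S (-n) y) ∂P.μ := by
    have h1 := integral_comp_mp (μ := P.μ) (μ' := Q.μ) e.f_mp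
      (F := fun y => k₀ (P.S n y) * φ y)
      (((hk.meas.comp (P.S_mp n).measurable).mul hφ.meas).aestronglyMeasurable)
    have h2 := integral_comp_mp (μ := P.μ) (μ' := P.μ) (P.S_mp n)
      (F := fun y => k₀ y * φ (P.S (-n) y)) (hkψ.aemeas le_rfl)
    simp only [S_neg P.toSys] at h2
    exact h1.trans h2
  have e2 : ∫ x, K (Q.S n x) * (φ ∘ e.f) x ∂Q.μ = ∫ x, K x * φ (P.S (-n) (e.f x)) ∂Q.μ := by
    have h2 := integral_comp_mp (μ := Q.μ) (μ' := Q.μ) (Q.S_mp n)
      (F := fun x => K x * φ (P.S (-n) (e.f x)))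
      ((hK.mul ((hψ.comp (φ := e.f)).mono hle)).aemeas le_rfl)
    rw [← h2]
    refine integral_congr_ae ((e.f_S n).mono fun x hx => ?_)
    have hx' : e.f (Q.S n x) = P.S n (e.f x) := hx
    simp only [Function.comp]
    rw [hx', S_neg P.toSys]
  have e3 : ∫ x, K x * φ (P.S (-n) (e.f x)) ∂Q.μ = ∫ y, k₀ y * φ (P.S (-n) y) ∂P.μ := by
    have h1 := integral_condExp_mul (μ := Q.μ) hle (hK.integrable le_rfl) (hψ.comp (φ := e.f))
    have h2 := integral_comp_mp (μ := P.μ) (μ' := Q.μ) e.f_mp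
      (F := fun y => k₀ y * φ (P.S (-n) y)) (hkψ.aemeas le_rfl)
    rw [← h2]
    refine Eq.trans h1.symm ?_
    exact integral_congr_ae (h.mono fun x hx => by simp only [hx, Function.comp])
  rw [e1, e2, e3]

/-- projecting a site function onto the Loeb space of a factor -/
theorem condExp_atS (e : Ext P Q) {K : Q.Ω → ℝ} {k₀ : P.Ω → ℝ} (hK : BdM Q.ms K)
    (hk : BdM P.ms k₀) (h : Q.μ[K | P.ms.comap e.f] =ᵐ[Q.μ] k₀ ∘ e.f) (s : ℕ → ℤ) :
    (lb Q.μ)[atS Q.toSys s K | LL (P.ms.comap e.f)] =ᵐ[lb Q.μ]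
      atS P.toSys s k₀ ∘ Lb.mp e.f := by
  have hle : P.ms.comap e.f ≤ Q.ms := e.f_mp.measurable.comap_le
  obtain ⟨C, hC⟩ := hK.bdd
  obtain ⟨C', hC'⟩ := hk.bdd
  exact push_condExp_st (μ := Q.μ) hle (K := fun n x => K (Q.S (s n) x))
    (k := fun n x => k₀ (P.S (s n) (e.f x)))
    (C := C) (C' := C')
    (fun n => hK.meas.comp (Q.S_mp (s n)).measurable) (fun n x => hC _)
    (fun n => (hk.meas.comp (P.S_mp (s n)).measurable).comp (comap_measurable e.f))
    (fun n x => hC' _) (fun n => condExp_shift e hK hk h (s n))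

/-- test against a function of `Lb.mp e.f` -/
theorem integral_atS_mul_comp (e : Ext P Q) {K : Q.Ω → ℝ} {k₀ : P.Ω → ℝ} (hK : BdM Q.ms K)
    (hk : BdM P.ms k₀) (h : Q.μ[K | P.ms.comap e.f] =ᵐ[Q.μ] k₀ ∘ e.f) (s : ℕ → ℤ)
    {H : Lb P.Ω → ℝ} (hH : BdM (LL P.ms) H) :
    ∫ x, atS Q.toSys s K x * H (Lb.mp e.f x) ∂(lb Q.μ) =
      ∫ y, atS P.toSys s k₀ y * H y ∂(lb P.μ) := by
  have hle : P.ms.comap e.f ≤ Q.ms := e.f_mp.measurable.comap_le
  have hH1 : BdM (LL (P.ms.comap e.f)) (H ∘ Lb.mp e.f) := by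
    rw [← comap_lbmap_LL]
    exact hH.comp (φ := lbmap (fun _ => e.f))
  have h1 := integral_condExp_mul (μ := lb Q.μ) (LL_mono hle)
    ((bdM_atS' (s := s) hK).integrable le_rfl) hH1
  have h2 := integral_comp_mp (μ := lb P.μ) (μ' := lb Q.μ) (lb_mp e)
    (F := fun y => atS P.toSys s k₀ y * H y) (((bdM_atS' hk).mul hH).aemeas le_rfl)
  rw [← h2]
  refine Eq.trans h1.symm ?_
  exact integral_congr_ae ((condExp_atS e hK hk h s).mono fun x hx => by
    simp only [hx, Function.comp])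

end core

/-! ### Visible stays visible -/

section mor

variable {X X' : Sys} {ι : Type} {s : ι → ℕ → ℤ} {P : Pair X} {Q : Pair X'} {f : Q.Ω → P.Ω}





end mor





section push

variable {X : Sys} {ι : Type} {s : ι → ℕ → ℤ} {P Q : Pair X}

/-- The functions `g_b = E[G b | e.f]` are visible. -/
theorem push_visible (e : Ext P Q)
    (hS2 : ∀ (i : ι) (g : P.Ω → ℝ), BdM P.ms g →
      (lb Q.μ)[atS P.toSys (s i) g ∘ Lb.mp e.f | rest s i Q] =ᵐ[lb Q.μ]
        (lb P.μ)[atS P.toSys (s i) g | rest s i P] ∘ Lb.mp e.f)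
    {G : Q.Ω → ℝ} (hG : BdM Q.ms G)
    (hvis : ∀ i, AEStronglyMeasurable[rest s i Q] (atS Q.toSys (s i) G) (lb Q.μ))
    {b : Q.Ω → ℝ} (hb : BdM Q.C b) {g : P.Ω → ℝ} (hg : BdM P.ms g)
    (h : Q.μ[fun x => G x * b x | P.ms.comap e.f] =ᵐ[Q.μ] g ∘ e.f) :
    Measurable[E1 s P] g := by
  refine (aesm_atS_iff hg).1 fun i => ?_
  have hle : P.ms.comap e.f ≤ Q.ms := e.f_mp.measurable.comap_le
  have hbQ : BdM Q.ms b := hb.mono Q.C_le
  have hK : BdM Q.ms (fun x => G x * b x) := hG.mul hbQ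
  -- the function `G_i b_i`
  have hKi : atS Q.toSys (s i) (fun x => G x * b x) =
      fun x => atS Q.toSys (s i) G x * atS Q.toSys (s i) b x := atS_mul hG.bdd hbQ.bdd
  have hGi : Measurable[rest s i Q] (atS Q.toSys (s i) G) :=
    measurable_of_aesm (rest_le i Q) (nul_le_rest i Q) (bdM_atS' hG).meas (hvis i)
  have hbi : BdM (LL Q.C) (atS Q.toSys (s i) b) := bdM_atS hb Q.C_S
  have hKr : BdM (rest s i Q) (atS Q.toSys (s i) (fun x => G x * b x)) := by
    rw [hKi]
    exact BdM.mul ⟨hGi, (bdM_atS' hG).bdd⟩ (hbi.mono (LL_le_rest i Q))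
  have hgi : BdM (LL P.ms) (atS P.toSys (s i) g) := bdM_atS' hg
  obtain ⟨R, hR, hRe⟩ := hgi.condExp_bm (μ := lb P.μ) (rest_le (s := s) i P)
  -- the chain of equalities
  have c1 : ∫ x, g x ^ 2 ∂P.μ = ∫ x, atS P.toSys (s i) g x ^ 2 ∂(lb P.μ) := by
    have h1 := integral_atS (M := P.toSys) (s := s i) (hg.mul hg)
    rw [atS_mul hg.bdd hg.bdd] at h1
    simp only [pow_two]
    exact h1.symm
  have c2 : ∫ x, (fun x => G x * b x) x * g (e.f x) ∂Q.μ = ∫ x, g x ^ 2 ∂P.μ := by
    have h1 := integral_condExp_mul (μ := Q.μ) hle (hK.integrable le_rfl) (hg.comp (φ := e.f))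
    have h2 := integral_comp_mp (μ := P.μ) (μ' := Q.μ) e.f_mp
      (F := fun y => g y ^ 2) ((hg.pow 2).aemeas le_rfl)
    rw [← h2]
    refine Eq.trans h1.symm ?_
    exact integral_congr_ae (h.mono fun x hx => by simp only [hx, Function.comp, pow_two])
  have hgf : BdM Q.ms (g ∘ e.f) := (hg.comp (φ := e.f)).mono hle
  have c3 : ∫ x, (fun x => G x * b x) x * g (e.f x) ∂Q.μ =
      ∫ x, atS Q.toSys (s i) (fun x => G x * b x) x * atS P.toSys (s i) g (Lb.mp e.f x)
        ∂(lb Q.μ) := by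
    have h1 := integral_atS (M := Q.toSys) (s := s i) (hK.mul hgf)
    rw [atS_mul hK.bdd hgf.bdd] at h1
    refine Eq.trans h1.symm ?_
    exact integral_congr_ae ((atS_comp e (s i) g).mono fun x hx => by
      simp only [hx, Function.comp])
  have c4 : ∫ x, atS Q.toSys (s i) (fun x => G x * b x) x * atS P.toSys (s i) g (Lb.mp e.f x)
        ∂(lb Q.μ) =
      ∫ x, atS Q.toSys (s i) (fun x => G x * b x) x * R (Lb.mp e.f x) ∂(lb Q.μ) := by
    have hgif : Integrable (atS P.toSys (s i) g ∘ Lb.mp e.f) (lb Q.μ) :=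
      (lb_mp e).integrable_comp_of_integrable (hgi.integrable le_rfl)
    have h1 := integral_mul_condExp (μ := lb Q.μ) (rest_le (s := s) i Q) hgif hKr
    refine Eq.trans h1.symm ?_
    refine integral_congr_ae ?_
    filter_upwards [hS2 i g hg, (lb_mp e).quasiMeasurePreserving.ae_eq_comp hRe] with x hx hx2
    rw [hx]
    simp only [Function.comp] at hx2 ⊢
    rw [hx2]
  have c5 : ∫ x, atS Q.toSys (s i) (fun x => G x * b x) x * R (Lb.mp e.f x) ∂(lb Q.μ) =
      ∫ y, atS P.toSys (s i) g y * R y ∂(lb P.μ) :=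
    integral_atS_mul_comp e hK hg h (s i) (hR.mono (rest_le i P))
  have c6 : ∫ y, atS P.toSys (s i) g y * R y ∂(lb P.μ) =
      ∫ y, ((lb P.μ)[atS P.toSys (s i) g | rest s i P]) y ^ 2 ∂(lb P.μ) := by
    have h1 := integral_condExp_mul (μ := lb P.μ) (rest_le (s := s) i P)
      (hgi.integrable le_rfl) hR
    refine Eq.trans h1.symm ?_
    exact integral_congr_ae (hRe.mono fun x hx => by simp only [hx, pow_two])
  have c7 : (lb P.μ)[atS P.toSys (s i) g | rest s i P] =ᵐ[lb P.μ] atS P.toSys (s i) g := by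
    refine condExp_eq_self_of_sq (rest_le i P) hgi ?_
    rw [← c1, ← c2, c3, c4, c5, c6]
  exact ⟨_, stronglyMeasurable_condExp, c7.symm⟩

/-- **PUSH.** -/
theorem push (e : Ext P Q)
    (hS1 : ∀ g : P.Ω → ℝ, BdM P.ms g → Q.μ[g ∘ e.f | Q.C] =ᵐ[Q.μ] P.μ[g | P.C] ∘ e.f)
    (hS2 : ∀ (i : ι) (g : P.Ω → ℝ), BdM P.ms g →
      (lb Q.μ)[atS P.toSys (s i) g ∘ Lb.mp e.f | rest s i Q] =ᵐ[lb Q.μ]
        (lb P.μ)[atS P.toSys (s i) g | rest s i P] ∘ Lb.mp e.f)
    {G : Q.Ω → ℝ} (hG : BdM (P.ms.comap e.f ⊔ Q.C) G)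
    (hvis : ∀ i, AEStronglyMeasurable[rest s i Q] (atS Q.toSys (s i) G) (lb Q.μ)) :
    ∃ G' : Q.Ω → ℝ, BdM ((E1 s P).comap e.f ⊔ Q.C) G' ∧ G =ᵐ[Q.μ] G' := by
  have hle : P.ms.comap e.f ≤ Q.ms := e.f_mp.measurable.comap_le
  have hsup : P.ms.comap e.f ⊔ Q.C ≤ Q.ms := sup_le hle Q.C_le
  have hGQ : BdM Q.ms G := hG.mono hsup
  have hE : (E1 s P).comap e.f ≤ P.ms.comap e.f := MeasurableSpace.comap_mono E1_le
  have hEQ : (E1 s P).comap e.f ≤ Q.ms := hE.trans hle
  have h𝒢 : (E1 s P).comap e.f ⊔ Q.C ≤ Q.ms := sup_le hEQ Q.C_le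
  have hCE : P.C.comap e.f ≤ (E1 s P).comap e.f := MeasurableSpace.comap_mono le_E1
  have hCQ : P.C.comap e.f ≤ Q.ms := hCE.trans hEQ
  -- S1 as conditional independence
  have ci1 : CI Q.μ (P.ms.comap e.f) Q.C (P.C.comap e.f) := by
    intro F hF
    obtain ⟨f, hf, rfl⟩ := hF.factors
    rw [sup_eq_left.2 e.f_C]
    exact (hS1 f hf).trans (condExp_comp_mp e.f_mp P.C_le (hf.integrable le_rfl)).symm
  have ci2 : CI Q.μ Q.C (P.ms.comap e.f) ((E1 s P).comap e.f) :=
    (ci1.symm hle Q.C_le hCQ).up hle hCQ hCE (hE.trans le_sup_left)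
  have ci3 : CI Q.μ (P.ms.comap e.f) Q.C ((E1 s P).comap e.f) := ci2.symm Q.C_le hle hEQ
  obtain ⟨G', hG', hG'e⟩ := hGQ.condExp_bm (μ := Q.μ) h𝒢
  refine ⟨G', hG', ?_⟩
  -- first half: only `E[u | E1]` matters for `G`
  have a1 : ∀ (u U : P.Ω → ℝ) (b : Q.Ω → ℝ), BdM P.ms u → BdM (E1 s P) U →
      P.μ[u | E1 s P] =ᵐ[P.μ] U → BdM Q.C b →
      ∫ x, G x * b x * u (e.f x) ∂Q.μ = ∫ x, G x * b x * U (e.f x) ∂Q.μ := by
    intro u U b hu hU huU hb
    have hK : BdM Q.ms (fun x => G x * b x) := hGQ.mul (hb.mono Q.C_le)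
    obtain ⟨F, hF, hFe⟩ := hK.condExp_bm (μ := Q.μ) hle
    obtain ⟨g, hg, rfl⟩ := hF.factors
    have hgE : BdM (E1 s P) g := ⟨push_visible e hS2 hGQ hvis hb hg hFe, hg.bdd⟩
    have t : ∀ v : P.Ω → ℝ, BdM P.ms v →
        ∫ x, G x * b x * v (e.f x) ∂Q.μ = ∫ y, g y * v y ∂P.μ := by
      intro v hv
      have h1 := integral_condExp_mul (μ := Q.μ) hle (hK.integrable le_rfl) (hv.comp (φ := e.f))
      have h2 := integral_comp_mp (μ := P.μ) (μ' := Q.μ) e.f_mp
        (F := fun y => g y * v y) ((hg.mul hv).aemeas le_rfl)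
      rw [← h2]
      refine Eq.trans h1.symm ?_
      exact integral_congr_ae (hFe.mono fun x hx => by simp only [hx, Function.comp])
    rw [t u hu, t U (hU.mono E1_le)]
    have h3 := integral_mul_condExp (μ := P.μ) (E1_le (s := s) (P := P)) (hu.integrable le_rfl) hgE
    rw [← h3]
    exact integral_congr_ae (huU.mono fun x hx => by simp only [hx])
  -- second half: the same for `G'`
  have a2 : ∀ (u U : P.Ω → ℝ) (b : Q.Ω → ℝ), BdM P.ms u → BdM (E1 s P) U →
      P.μ[u | E1 s P] =ᵐ[P.μ] U → BdM Q.C b →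
      ∫ x, G' x * b x * u (e.f x) ∂Q.μ = ∫ x, G x * b x * U (e.f x) ∂Q.μ := by
    intro u U b hu hU huU hb
    have hG'b : BdM ((E1 s P).comap e.f ⊔ Q.C) (fun x => G' x * b x) :=
      hG'.mul (hb.mono le_sup_right)
    have huf : BdM (P.ms.comap e.f) (u ∘ e.f) := hu.comp
    have hUf : BdM ((E1 s P).comap e.f) (U ∘ e.f) := hU.comp
    have h0 : Q.μ[u ∘ e.f | (E1 s P).comap e.f ⊔ Q.C] =ᵐ[Q.μ] U ∘ e.f := by
      have h1 := ci3 _ huf
      rw [sup_comm] at h1
      have h2 := condExp_comp_mp (μ := P.μ) (μ' := Q.μ) e.f_mp (E1_le (s := s) (P := P))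
        (hu.integrable le_rfl)
      exact h1.trans (h2.trans (e.f_mp.quasiMeasurePreserving.ae_eq_comp huU))
    have h1 := integral_mul_condExp (μ := Q.μ) h𝒢 (huf.integrable hle) hG'b
    have h2 : ∫ x, G' x * b x * u (e.f x) ∂Q.μ = ∫ x, G' x * b x * U (e.f x) ∂Q.μ := by
      refine Eq.trans h1.symm ?_
      exact integral_congr_ae (h0.mono fun x hx => by simp only [hx, Function.comp])
    rw [h2]
    have hbU : BdM ((E1 s P).comap e.f ⊔ Q.C) (fun x => b x * U (e.f x)) :=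
      (hb.mono le_sup_right).mul (hUf.mono le_sup_left)
    have h3 := integral_condExp_mul (μ := Q.μ) h𝒢 (hGQ.integrable le_rfl) hbU
    simp only [mul_assoc]
    rw [← h3]
    exact integral_congr_ae (hG'e.mono fun x hx => by simp only [hx])
  have fin : Q.μ[G | P.ms.comap e.f ⊔ Q.C] =ᵐ[Q.μ] G' := by
    refine condExp_sup_eq hle Q.C_le (hGQ.integrable le_rfl) (hG'.integrable h𝒢)
      (hG'.mono (sup_le_sup_right hE _)).aesm ?_
    rintro A B ⟨A₀, hA₀, rfl⟩ hB
    have hu : BdM P.ms (A₀.indicator (fun _ => (1 : ℝ))) := BdM.indicator hA₀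
    have hb : BdM Q.C (B.indicator (fun _ => (1 : ℝ))) := BdM.indicator hB
    obtain ⟨U, hU, hUe⟩ := hu.condExp_bm (μ := P.μ) (E1_le (s := s) (P := P))
    have hAB : MeasurableSet (e.f ⁻¹' A₀ ∩ B) :=
      (e.f_mp.measurable hA₀).inter (Q.C_le _ hB)
    have e0 : (e.f ⁻¹' A₀ ∩ B).indicator (fun _ => (1 : ℝ)) = fun x =>
        B.indicator (fun _ => (1 : ℝ)) x * A₀.indicator (fun _ => (1 : ℝ)) (e.f x) := by
      funext x
      by_cases hx : x ∈ e.f ⁻¹' A₀ <;> by_cases hy : x ∈ B <;>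
        simp_all [Set.indicator, mem_preimage]
    rw [setIntegral_eq_indicator hAB, setIntegral_eq_indicator hAB, e0]
    have h1 := a1 _ U _ hu hU hUe hb
    have h2 := a2 _ U _ hu hU hUe hb
    simp only [mul_assoc] at h1 h2 ⊢
    rw [h1, h2]
  rw [condExp_of_bm hsup hG] at fin
  exact fin

/-! ### The same in the notation of the interface -/

theorem atS_eq (M : Sys) (t : ℕ → ℤ) (g : M.Ω → ℝ) : atS M t g = sitef M t g := rfl


theorem S2_iff (e : Ext P Q) : S2At s P Q e ↔ ∀ (i : ι) (g : P.Ω → ℝ), BdM P.ms g →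
      (lb Q.μ)[atS P.toSys (s i) g ∘ Lb.mp e.f | rest s i Q] =ᵐ[lb Q.μ]
        (lb P.μ)[atS P.toSys (s i) g | rest s i P] ∘ Lb.mp e.f := by
  constructor
  · intro h i g hg
    exact (condExp_congr_ae (atS_comp e (s i) g).symm).trans (h i g ⟨hg.meas, hg.bdd⟩)
  · intro h i g hg
    exact (condExp_congr_ae (atS_comp e (s i) g)).trans (h i g ⟨hg.1, hg.2⟩)

/-- **PUSH**, interface form. -/
theorem push' (e : Ext P Q) (h1 : S1At P Q e) (h2 : S2At s P Q e)
    {G : Q.Ω → ℝ} (hG : Bd (P.ms.comap e.f ⊔ Q.C) G)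
    (hvis : ∀ i, AEStronglyMeasurable[rest s i Q] (sitef Q.toSys (s i) G) (lb Q.μ)) :
    ∃ G' : Q.Ω → ℝ, Bd ((P.vis s).comap e.f ⊔ Q.C) G' ∧ G =ᵐ[Q.μ] G' := by
  obtain ⟨G', hG', h⟩ := push e (fun g hg => h1 g ⟨hg.meas, hg.bdd⟩) ((S2_iff e).1 h2)
    (⟨hG.1, hG.2⟩ : BdM _ G) hvis
  exact ⟨G', ⟨hG'.meas, hG'.bdd⟩, h⟩

end push

end Crest.Agent.R069.Push
end

-- ▼ part R069/HInd
section

/-!
# Row 69: independence of a base site from the other full sites and the environment (from N_IND)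
-/

set_option autoImplicit false
set_option linter.unusedVariables false

open MeasureTheory Filter Set ProbabilityTheory
open scoped ENNReal Topology

namespace Crest.Agent.R069.Cl

section

variable {X : Sys}

/-- the identity extension. -/
def extRefl (P : Pair X) : Ext P P where
  f := id
  f_mp := MeasurePreserving.id _
  f_S _ := EventuallyEq.rfl
  f_π := EventuallyEq.rfl
  f_C := by rw [MeasurableSpace.comap_id]

/-- a base site is independent of the environment. -/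
theorem condExp_base (P : Pair X) {F : X.Ω → ℝ} (hF : Bd X.ms F) (t : ℕ → ℤ) :
    (lb P.μ)[sitef P.toSys t (F ∘ P.π) | LL P.C] =ᵐ[lb P.μ] fun _ => ∫ x, F x ∂X.μ := by
  obtain ⟨hm, K, hK⟩ := hF
  have hk : st (fun (_ : ℕ) (_ : P.Ω) => ∫ x, F x ∂X.μ) = fun _ => ∫ x, F x ∂X.μ := st_const _
  rw [← hk]
  refine Push.push_condExp_st P.C_le (K := fun k x => (F ∘ P.π) (P.S (t k) x))
    (k := fun _ _ => ∫ x, F x ∂X.μ) (C := K) (C' := |∫ x, F x ∂X.μ|)
    (fun n => (hm.comp P.π_mp.measurable).comp (P.S_mp (t n)).measurable) (fun n x => hK _)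
    (fun n => measurable_const) (fun n x => le_rfl) (fun n => ?_)
  have e1 : (fun x => (F ∘ P.π) (P.S (t n) x)) =ᵐ[P.μ] fun x => F (X.S (t n) (P.π x)) :=
    (P.π_S (t n)).mono fun x hx => congrArg F hx
  refine (condExp_congr_ae e1).trans ?_
  have hG : Measurable (fun y => F (X.S (t n) y)) := hm.comp (X.S_mp (t n)).measurable
  have h1 : StronglyMeasurable[X.ms.comap P.π] (fun x => F (X.S (t n) (P.π x))) :=
    (hG.comp (comap_measurable P.π)).stronglyMeasurable
  have h2 := condExp_indep_eq (P.π_mp.measurable.comap_le) P.C_le h1 P.indep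
  refine h2.trans (Eventually.of_forall fun _ => ?_)
  show ∫ x, F (X.S (t n) (P.π x)) ∂P.μ = ∫ x, F x ∂X.μ
  rw [integral_comp_mp (F := fun y => F (X.S (t n) y)) P.π_mp hG.aestronglyMeasurable,
    integral_comp_mp (F := F) (X.S_mp (t n)) hm.aestronglyMeasurable]

variable {ι : Type}

/-- the site set. -/
@[reducible] noncomputable def ss (M : Sys) (t : ℕ → ℤ) (A : Set M.Ω) : Set (Lb M.Ω) :=
  intl (fun k => M.S (t k) ⁻¹' A)

/-- rectangles over the sites in `K` and the environment. -/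
def rectK (P : Pair X) (s : ι → ℕ → ℤ) (K : Finset ι) : Set (Set (Lb P.Ω)) :=
  {R | ∃ (A : ι → Set P.Ω) (B : Set (Lb P.Ω)), (∀ i, MeasurableSet (A i)) ∧
    MeasurableSet[LL P.C] B ∧ R = (⋂ i ∈ K, ss P.toSys (s i) (A i)) ∩ B}

theorem isPiSystem_rectK (P : Pair X) (s : ι → ℕ → ℤ) (K : Finset ι) :
    IsPiSystem (rectK P s K) := by
  rintro _ ⟨A, B, hA, hB, rfl⟩ _ ⟨A', B', hA', hB', rfl⟩ -
  refine ⟨fun i => A i ∩ A' i, B ∩ B', fun i => (hA i).inter (hA' i), hB.inter hB', ?_⟩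
  ext x
  simp only [mem_inter_iff, mem_iInter]
  have hx : ∀ i, x ∈ ss P.toSys (s i) (A i ∩ A' i) ↔
      x ∈ ss P.toSys (s i) (A i) ∧ x ∈ ss P.toSys (s i) (A' i) := by
    intro i
    have : ss P.toSys (s i) (A i ∩ A' i) = ss P.toSys (s i) (A i) ∩ ss P.toSys (s i) (A' i) := by
      unfold ss
      rw [← intl_inter]
      rfl
    rw [this]
    exact Iff.rfl
  simp only [hx]
  constructor
  · rintro ⟨⟨h1, h2⟩, h3, h4⟩
    exact ⟨fun i hi => ⟨h1 i hi, h3 i hi⟩, h2, h4⟩
  · rintro ⟨h1, h2, h3⟩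
    exact ⟨⟨fun i hi => (h1 i hi).1, h2⟩, fun i hi => (h1 i hi).2, h3⟩

theorem rectK_meas (P : Pair X) (s : ι → ℕ → ℤ) (K : Finset ι) :
    ∀ R ∈ rectK P s K, MeasurableSet R := by
  rintro _ ⟨A, B, hA, hB, rfl⟩
  exact (Finset.measurableSet_biInter K fun i _ => measurableSet_site P.toSys (s i) (hA i)).inter
    (LL_mono P.C_le _ hB)

/-- `mixD` is generated modulo null sets by the rectangles. -/
theorem mixD_aele [DecidableEq ι] (P : Pair X) [StandardBorelSpace P.Ω] [Nonempty P.Ω] (s : ι → ℕ → ℤ)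
    (K : Finset ι) :
    AELe (lb P.μ) (mixD s P ∅ K) (MeasurableSpace.generateFrom (rectK P s K)) := by
  have hsite : ∀ j ∈ K, siteA P.toSys (s j) ≤ MeasurableSpace.generateFrom (rectK P s K) := by
    intro j hj
    refine MeasurableSpace.generateFrom_le ?_
    rintro _ ⟨A, hA, rfl⟩
    refine MeasurableSpace.measurableSet_generateFrom
      ⟨fun i => if i = j then A else univ, univ, fun i => ?_, @MeasurableSet.univ _ (LL P.C), ?_⟩
    · by_cases hij : i = j
      · simp only [hij, if_true]; exact hA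
      · simp only [hij, if_false]; exact MeasurableSet.univ
    · ext x
      simp only [mem_inter_iff, mem_iInter, mem_univ, and_true]
      constructor
      · intro hx i hi
        by_cases hij : i = j
        · subst hij; simpa using hx
        · simp only [hij, if_false, ss, preimage_univ, intl_univ, mem_univ]
      · intro hx
        simpa using hx j hj
  have hC : LL P.C ≤ MeasurableSpace.generateFrom (rectK P s K) := by
    intro B hB
    refine MeasurableSpace.measurableSet_generateFrom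
      ⟨fun _ => univ, B, fun _ => MeasurableSet.univ, hB, ?_⟩
    simp only [ss, preimage_univ, intl_univ, iInter_univ, univ_inter]
  have hnul : AELe (lb P.μ) (Cl.nulL P.toSys) (MeasurableSpace.generateFrom (rectK P s K)) := by
    rintro A ⟨hA, h | h⟩
    · exact ⟨∅, @MeasurableSet.empty _ (_), by
        rw [ae_eq_empty]; exact h⟩
    · exact ⟨univ, @MeasurableSet.univ _ (_), by
        rw [ae_eq_univ]; exact h⟩
  refine AELe.sup (AELe.sup ?_ ?_) (AELe.sup (AELe.of_le hC) hnul)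
  · exact AELe.iSup fun j => AELe.iSup fun hj => absurd hj (Finset.notMem_empty j)
  · refine AELe.iSup fun j => AELe.iSup fun hj => ?_
    refine AELe.trans ?_ (AELe.of_le (hsite j hj))
    rintro _ ⟨A, hA, rfl⟩
    exact ⟨_, measurableSet_siteA P.toSys (s j) hA, ptS_preimage_ae P.toSys (s j) hA⟩

/-- independence of a base site from the other full sites and the environment. -/
theorem hind_of [Fintype ι] [DecidableEq ι] (hN : N_IND) (hX : StandardBorelSpace X.Ω)
    (P : Pair X) [hP : StandardBorelSpace P.Ω] [Nonempty P.Ω] (hS1 : S1 P) (s : ι → ℕ → ℤ)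
    (hXI : XIndP X s) (r0 j : ι) (hj : j ≠ r0) :
    Indep (X.ms.comap (piS P (s j))) (mixD s P ∅ ((Finset.univ.erase r0).erase j)) (lb P.μ) := by
  set J : Finset ι := Finset.univ.erase r0 with hJdef
  set K : Finset ι := J.erase j with hKdef
  have hJne : J ≠ Finset.univ := fun h =>
    (Finset.notMem_erase r0 Finset.univ) (hJdef ▸ h ▸ Finset.mem_univ r0)
  have hKne : K ≠ Finset.univ := fun h =>
    (Finset.notMem_erase j J) (hKdef ▸ h ▸ Finset.mem_univ j)
  have hjJ : j ∈ J := Finset.mem_erase.2 ⟨hj, Finset.mem_univ j⟩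
  have hIJ := hN X hX P hP hS1 ι s J (hXI J hJne) P (extRefl P)
  have hIK := hN X hX P hP hS1 ι s K (hXI K hKne) P (extRefl P)
  -- base rectangles
  set π1 : Set (Set (Lb P.Ω)) :=
    {R | ∃ A : Set X.Ω, MeasurableSet A ∧ R = ss P.toSys (s j) (P.π ⁻¹' A)} with hπ1
  have hpi1 : IsPiSystem π1 := by
    rintro _ ⟨A, hA, rfl⟩ _ ⟨B, hB, rfl⟩ -
    refine ⟨A ∩ B, hA.inter hB, ?_⟩
    unfold ss
    rw [← intl_inter]
    rfl
  have hπ1m : ∀ R ∈ π1, MeasurableSet R := by
    rintro _ ⟨A, hA, rfl⟩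
    exact measurableSet_site P.toSys (s j) (P.π_mp.measurable hA)
  have h1 : AELe (lb P.μ) (X.ms.comap (piS P (s j))) (MeasurableSpace.generateFrom π1) := by
    rintro _ ⟨A, hA, rfl⟩
    have hmem : ss P.toSys (s j) (P.π ⁻¹' A) ∈ π1 := ⟨A, hA, rfl⟩
    have hpi : piS P (s j) ⁻¹' A = ptS P.toSys (s j) ⁻¹' (P.π ⁻¹' A) := rfl
    have hae : piS P (s j) ⁻¹' A =ᵐ[lb P.μ] ss P.toSys (s j) (P.π ⁻¹' A) := by
      rw [hpi]
      exact ptS_preimage_ae P.toSys (s j) (P.π_mp.measurable hA)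
    exact ⟨ss P.toSys (s j) (P.π ⁻¹' A), MeasurableSpace.measurableSet_generateFrom hmem, hae⟩
  have h2 := mixD_aele P s K
  refine Indep.mono_ae (MeasurableSpace.generateFrom_le hπ1m)
    ((mp_piS P (s j)).measurable.comap_le) (MeasurableSpace.generateFrom_le (rectK_meas P s K))
    (mixD_le s P _ _) h1 h2 ?_
  refine IndepSets.indep (MeasurableSpace.generateFrom_le hπ1m)
    (MeasurableSpace.generateFrom_le (rectK_meas P s K)) hpi1 (isPiSystem_rectK P s K) rfl rfl ?_
  rw [IndepSets_iff]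
  rintro _ _ ⟨A, hA, rfl⟩ ⟨A', B, hA', hB, rfl⟩
  -- the functions
  let F : ι → P.Ω → ℝ := fun i => if i = j then (P.π ⁻¹' A).indicator (fun _ => (1 : ℝ)) else
    (A' i).indicator (fun _ => (1 : ℝ))
  have hFj : F j = (A.indicator (fun _ => (1 : ℝ))) ∘ P.π := by
    funext x
    simp only [F, if_true, Function.comp]
    rfl
  have hFK : ∀ i ∈ K, F i = (A' i).indicator (fun _ => (1 : ℝ)) := by
    intro i hi
    have : i ≠ j := (Finset.mem_erase.1 hi).1
    simp only [F, this, if_false]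
  have hF : ∀ i, Bd P.ms (F i) := by
    intro i
    by_cases hij : i = j
    · simp only [F, hij, if_true]
      have := BdM.indicator (P.π_mp.measurable hA)
      exact ⟨this.meas, this.bdd⟩
    · simp only [F, hij, if_false]
      have := BdM.indicator (hA' i)
      exact ⟨this.meas, this.bdd⟩
  have hbase : (lb P.μ)[sitef P.toSys (s j) (F j) | LL P.C] =ᵐ[lb P.μ]
      fun _ => ∫ x, A.indicator (fun _ => (1 : ℝ)) x ∂X.μ := by
    rw [hFj]
    have := BdM.indicator hA
    exact condExp_base P ⟨this.meas, this.bdd⟩ (s j)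
  have eJ : (lb P.μ)[fun x => ∏ i ∈ J, sitef P.toSys (s i) (F i) x | LL P.C] =ᵐ[lb P.μ]
      fun x => ∏ i ∈ J, ((lb P.μ)[sitef P.toSys (s i) (F i) | LL P.C]) x := hIJ F hF
  have eK : (lb P.μ)[fun x => ∏ i ∈ K, sitef P.toSys (s i) (F i) x | LL P.C] =ᵐ[lb P.μ]
      fun x => ∏ i ∈ K, ((lb P.μ)[sitef P.toSys (s i) (F i) | LL P.C]) x := hIK F hF
  -- products of indicators
  have hb : ∀ i, BdM (LL P.ms) (sitef P.toSys (s i) (F i)) := fun i =>
    Push.bdM_atS' ⟨(hF i).1, (hF i).2⟩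
  have hss : ∀ i, F i = (if i = j then P.π ⁻¹' A else A' i).indicator (fun _ => (1 : ℝ)) := by
    intro i
    by_cases hij : i = j <;> simp only [F, hij, if_true, if_false]
  have hsite : ∀ i, sitef P.toSys (s i) (F i) =
      (ss P.toSys (s i) (if i = j then P.π ⁻¹' A else A' i)).indicator (fun _ => (1 : ℝ)) := by
    intro i
    rw [hss i, ← Push.atS_eq, Push.atS_indicator]
  have hsitej : sitef P.toSys (s j) (F j) =
      (ss P.toSys (s j) (P.π ⁻¹' A)).indicator (fun _ => (1 : ℝ)) := by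
    rw [hsite j]; simp only [if_true]
  have hprodK : (fun x => ∏ i ∈ K, sitef P.toSys (s i) (F i) x) =
      (⋂ i ∈ K, ss P.toSys (s i) (A' i)).indicator (fun _ => (1 : ℝ)) := by
    funext x
    by_cases hx : x ∈ ⋂ i ∈ K, ss P.toSys (s i) (A' i)
    · rw [indicator_of_mem hx]
      refine Finset.prod_eq_one fun i hi => ?_
      have hij : i ≠ j := (Finset.mem_erase.1 hi).1
      rw [hsite i]
      simp only [hij, if_false]
      exact indicator_of_mem (mem_iInter₂.1 hx i hi) _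
    · rw [indicator_of_notMem hx]
      simp only [mem_iInter, not_forall] at hx
      obtain ⟨i, hi, hxi⟩ := hx
      refine Finset.prod_eq_zero hi ?_
      have hij : i ≠ j := (Finset.mem_erase.1 hi).1
      rw [hsite i]
      simp only [hij, if_false]
      exact indicator_of_notMem hxi _
  have hprodJ : (fun x => ∏ i ∈ J, sitef P.toSys (s i) (F i) x) =
      (ss P.toSys (s j) (P.π ⁻¹' A) ∩ ⋂ i ∈ K, ss P.toSys (s i) (A' i)).indicator
        (fun _ => (1 : ℝ)) := by
    funext x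
    rw [← Finset.mul_prod_erase J _ hjJ, hsitej]
    have h0 : ∏ i ∈ J.erase j, sitef P.toSys (s i) (F i) x =
      (⋂ i ∈ K, ss P.toSys (s i) (A' i)).indicator (fun _ => (1 : ℝ)) x := congrFun hprodK x
    rw [h0]
    by_cases h1 : x ∈ ss P.toSys (s j) (P.π ⁻¹' A) <;>
      by_cases h2 : x ∈ ⋂ i ∈ K, ss P.toSys (s i) (A' i) <;>
      simp only [indicator_of_mem, indicator_of_notMem, h1, h2, mem_inter_iff, and_self,
        and_false, false_and, not_false_iff, mul_one, mul_zero]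
  -- the identity of conditional expectations
  set c : ℝ := ∫ x, A.indicator (fun _ => (1 : ℝ)) x ∂X.μ with hc
  have eJK : (lb P.μ)[fun x => ∏ i ∈ J, sitef P.toSys (s i) (F i) x | LL P.C] =ᵐ[lb P.μ]
      fun x => c * ((lb P.μ)[fun x => ∏ i ∈ K, sitef P.toSys (s i) (F i) x | LL P.C]) x := by
    filter_upwards [eJ, eK, hbase] with x h1 h2 h3
    rw [h1, h2, ← Finset.mul_prod_erase J _ hjJ, h3]
  have hLLC : LL P.C ≤ LL P.ms := LL_mono P.C_le
  have hmj : MeasurableSet (ss P.toSys (s j) (P.π ⁻¹' A)) :=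
    measurableSet_site P.toSys (s j) (P.π_mp.measurable hA)
  have hmK : MeasurableSet (⋂ i ∈ K, ss P.toSys (s i) (A' i)) :=
    Finset.measurableSet_biInter K fun i _ => measurableSet_site P.toSys (s i) (hA' i)
  have hiJ : Integrable (fun x => ∏ i ∈ J, sitef P.toSys (s i) (F i) x) (lb P.μ) :=
    (BdM.prod fun i _ => hb i).integrable le_rfl
  have hiK : Integrable (fun x => ∏ i ∈ K, sitef P.toSys (s i) (F i) x) (lb P.μ) :=
    (BdM.prod fun i _ => hb i).integrable le_rfl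
  have i1 : ∫ x in B, ∏ i ∈ J, sitef P.toSys (s i) (F i) x ∂(lb P.μ) =
      c * ∫ x in B, ∏ i ∈ K, sitef P.toSys (s i) (F i) x ∂(lb P.μ) := by
    rw [← setIntegral_condExp hLLC hiJ hB, ← setIntegral_condExp hLLC hiK hB,
      ← integral_const_mul]
    exact setIntegral_congr_ae (hLLC _ hB) (eJK.mono fun x hx _ => hx)
  have hB' : MeasurableSet B := hLLC _ hB
  rw [hprodK, hprodJ, setIntegral_indicator (hmj.inter hmK), setIntegral_indicator hmK,
    setIntegral_const, setIntegral_const, smul_eq_mul, smul_eq_mul, mul_one, mul_one] at i1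
  have hcv : c = (lb P.μ).real (ss P.toSys (s j) (P.π ⁻¹' A)) := by
    rw [hc, integral_indicator hA, setIntegral_const, smul_eq_mul, mul_one, Measure.real,
      Measure.real, Push.lb_site (P.π_mp.measurable hA), P.π_mp.measure_preimage
        hA.nullMeasurableSet]
  rw [hcv] at i1
  have hset1 : ss P.toSys (s j) (P.π ⁻¹' A) ∩ ((⋂ i ∈ K, ss P.toSys (s i) (A' i)) ∩ B) =
      B ∩ (ss P.toSys (s j) (P.π ⁻¹' A) ∩ ⋂ i ∈ K, ss P.toSys (s i) (A' i)) := by
    ext x; simp only [mem_inter_iff]; tauto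
  have hset2 : (⋂ i ∈ K, ss P.toSys (s i) (A' i)) ∩ B =
      B ∩ ⋂ i ∈ K, ss P.toSys (s i) (A' i) := inter_comm _ _
  rw [hset1, hset2]
  have h6 : (lb P.μ (B ∩ (ss P.toSys (s j) (P.π ⁻¹' A) ∩ ⋂ i ∈ K, ss P.toSys (s i) (A' i)))).toReal
      = (lb P.μ (ss P.toSys (s j) (P.π ⁻¹' A)) *
        lb P.μ (B ∩ ⋂ i ∈ K, ss P.toSys (s i) (A' i))).toReal := by
    rw [ENNReal.toReal_mul]; exact i1
  exact (ENNReal.toReal_eq_toReal_iff' (measure_ne_top _ _)
    (ENNReal.mul_ne_top (measure_ne_top _ _) (measure_ne_top _ _))).1 h6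

end

end Crest.Agent.R069.Cl
end

-- ▼ part R069/NClosed
section

/-!
# Row 69, node N_CLOSED : `N_IND → N_CLOSED`
-/

set_option autoImplicit false
set_option linter.unusedVariables false

open MeasureTheory Filter Set ProbabilityTheory
open scoped ENNReal Topology

namespace Crest.Agent.R069.Cl

section push

variable {X : Sys} {ι : Type} {s : ι → ℕ → ℤ} {P : Pair X}


/-- **PUSH for sets**, for a sated pair. -/
theorem hpush_of (h1 : S1 P) (h2 : S2 s P) (Q : Pair X) (e : Ext P Q) (G : Set Q.Ω)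
    (hG : MeasurableSet[P.ms.comap e.f ⊔ Q.C] G) (hv : MeasurableSet[visE s Q] G) :
    MeasurableSet[(visE s P).comap e.f ⊔ Q.C] G := by
  have hle : P.ms.comap e.f ≤ Q.ms := e.f_mp.measurable.comap_le
  have hle' : (visE s P).comap e.f ≤ Q.ms := (MeasurableSpace.comap_mono (visE_le s P)).trans hle
  have hGi : BdM (P.ms.comap e.f ⊔ Q.C) (G.indicator (fun _ => (1 : ℝ))) := BdM.indicator hG
  have hvis : ∀ i, AEStronglyMeasurable[rest s i Q]
      (sitef Q.toSys (s i) (G.indicator (fun _ => (1 : ℝ)))) (lb Q.μ) := by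
    intro i
    rw [← Push.atS_eq, Push.atS_indicator]
    exact (stronglyMeasurable_const.indicator (hv.2 i)).aestronglyMeasurable
  obtain ⟨G', hG', hGG'⟩ := Push.push' e (h1 Q e) (h2 Q e) ⟨hGi.meas, hGi.bdd⟩ hvis
  have hm : MeasurableSet[(visE s P).comap e.f ⊔ Q.C] (G' ⁻¹' {1}) :=
    hG'.1 (measurableSet_singleton 1)
  refine measurableSet_of_ae_eq (sup_le hle' Q.C_le) (Q.C_nul.trans le_sup_right) hv.1 hm ?_
  filter_upwards [hGG'] with x hx
  apply propext
  show x ∈ G ↔ G' x = 1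
  rw [← hx]
  by_cases hxG : x ∈ G <;> simp [hxG]

end push

/-- **N_CLOSED**. -/
theorem n_closed (hN : N_IND) : N_CLOSED := by
  classical
  intro X hX P hP ι _ s h3 hXI h1 h2 i
  have : Nonempty P.Ω := P.μ.nonempty_of_neZero
  have hcl := @closed X ι s P hP this _ _ (hpush_of h1 h2)
    (fun r0 j hj => hind_of hN hX P h1 s hXI r0 j hj) i
  have hM : restM s i P.toSys (P.vis s) P.C ≤ LL P.ms :=
    restM_le s i P.toSys (Pair.vis_le s P) P.C_le
  have hn : nul (lb P.μ) ≤ restM s i P.toSys (P.vis s) P.C := le_sup_right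
  unfold siteM
  refine generateFrom_le_of_ae (μ := lb P.μ) hM hn ?_
  rintro _ ⟨A, hA, rfl⟩
  refine ⟨measurableSet_site P.toSys (s i) hA.1, _, ?_, (ptS_preimage_ae P.toSys (s i) hA.1).symm⟩
  have hle : (⨆ j, ⨆ _ : j ≠ i, visS s P j) ⊔ LL P.C ⊔ Cl.nulL P.toSys ≤
      restM s i P.toSys (P.vis s) P.C := by
    refine sup_le (sup_le ?_ (le_sup_right.trans le_sup_left)) hn
    refine iSup₂_le fun j hj => ?_
    refine comap_le_of_ae (μ := lb P.μ) hM hn ?_
    intro B hB
    refine ⟨measurable_ptS P.toSys (s j) hB.1, _, ?_, ptS_preimage_ae P.toSys (s j) hB.1⟩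
    have h4 : siteM P.toSys (s j) (P.vis s) ≤ restM s i P.toSys (P.vis s) P.C :=
      (le_iSup₂_of_le (f := fun j (_ : j ≠ i) => siteM P.toSys (s j) (P.vis s)) j hj le_rfl).trans
        (le_sup_left.trans le_sup_left)
    exact h4 _ (MeasurableSpace.measurableSet_generateFrom ⟨B, hB, rfl⟩)
  exact hle _ (hcl hA)

end Crest.Agent.R069.Cl
end

-- ▼ part R069/Ind

/-!
# Row 69, node IND

The sites of a sated pair on the Loeb space of ANY extension are conditionally independent given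
the Loeb environment (note 12234).  `P` is a pair satisfying (S1), `e : Ext P Q`,
`siteP e s : Lb Q.Ω → P.Ω` is the point of `P` at the site `s` of `Q`.
-/

set_option autoImplicit false

open MeasureTheory Filter Set ProbabilityTheory
open scoped ENNReal Topology

namespace Crest.Agent.R069.Ind

/-! ### null sets -/

section nul

variable {Ω : Type*} {k m : MeasurableSpace Ω} [m0 : MeasurableSpace Ω] {μ : Measure Ω}

theorem nul_le : nul μ ≤ m0 := fun _ hA => hA.1

theorem aele_nul : AELe μ (nul μ) m := by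
  intro A hA
  rcases hA.2 with h | h
  · exact ⟨∅, @MeasurableSet.empty _ m, ae_eq_empty.2 h⟩
  · exact ⟨univ, @MeasurableSet.univ _ m, ae_eq_univ.2 h⟩

theorem aele_sup_nul : AELe μ (m ⊔ nul μ) m :=
  AELe.refl.sup aele_nul

theorem condExp_sup_nul [IsProbabilityMeasure μ] (hm : m ≤ m0)
    {f : Ω → ℝ} (hf : BdM m0 f) : μ[f | m ⊔ nul μ] =ᵐ[μ] μ[f | m] :=
  condExp_eq_of_aele (sup_le hm nul_le) hm aele_sup_nul (AELe.of_le le_sup_left) hf

theorem indep_sup_nul [IsProbabilityMeasure μ] (hk : k ≤ m0)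
    (hm : m ≤ m0) (h : Indep k m μ) : Indep k (m ⊔ nul μ) μ :=
  Indep.mono_ae hk hk hm (sup_le hm nul_le) AELe.refl aele_sup_nul h

/-- a.e. equal to a set of `m` and measurable implies measurable for `m ⊔ nul`. -/
theorem measurableSet_sup_nul (hm : m ≤ m0) {A B : Set Ω}
    (hA : MeasurableSet[m0] A) (hB : MeasurableSet[m] B) (h : A =ᵐ[μ] B) :
    MeasurableSet[m ⊔ nul μ] A := by
  have hB' : MeasurableSet[m ⊔ nul μ] B := (le_sup_left : m ≤ m ⊔ nul μ) B hB
  have hB0 := hm B hB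
  have h1 : μ (A \ B) = 0 := ae_le_set.1 h.le
  have h2 : μ (B \ A) = 0 := ae_le_set.1 h.symm.le
  have e1 : MeasurableSet[m ⊔ nul μ] (A \ B) :=
    (le_sup_right : nul μ ≤ m ⊔ nul μ) _ ⟨hA.diff hB0, Or.inl h1⟩
  have e2 : MeasurableSet[m ⊔ nul μ] (B \ A) :=
    (le_sup_right : nul μ ≤ m ⊔ nul μ) _ ⟨hB0.diff hA, Or.inl h2⟩
  have e3 : A = (B \ (B \ A)) ∪ (A \ B) := by
    ext x
    simp only [mem_union, Set.mem_sdiff]
    tauto
  rw [e3]
  exact MeasurableSet.union (MeasurableSet.diff hB' e2) e1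


theorem comap_nul_le {Ω' : Type*} [m0' : MeasurableSpace Ω'] {μ' : Measure Ω'} {T : Ω' → Ω}
    (hT : MeasurePreserving T μ' μ) : (nul μ).comap T ≤ nul μ' := by
  rintro _ ⟨B, hB, rfl⟩
  refine ⟨hT.measurable hB.1, ?_⟩
  rcases hB.2 with h | h
  · left
    rw [hT.measure_preimage hB.1.nullMeasurableSet]; exact h
  · right
    rw [← preimage_compl, hT.measure_preimage hB.1.compl.nullMeasurableSet]; exact h

end nul

/-! ### site maps -/

section site

variable {X : Sys} {P Q : Pair X} [StandardBorelSpace P.Ω] [Nonempty P.Ω]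

/-- the point of `P` at the site `s` on the Loeb space of the extension `Q`. -/
noncomputable def siteP (e : Ext P Q) (s : ℕ → ℤ) : Lb Q.Ω → P.Ω :=
  sv (fun k => e.f ∘ Q.S (s k))

/-- the induced action on the Loeb space -/
def lbS (Q : Sys) (n : ℤ) : Lb Q.Ω → Lb Q.Ω := lbmap (fun _ => Q.S n)

theorem lbS_mp (Q : Sys) (n : ℤ) : MeasurePreserving (lbS Q n) (lb Q.μ) (lb Q.μ) :=
  measurePreserving_lbmap (fun _ => Q.S_mp n)

omit [StandardBorelSpace P.Ω] [Nonempty P.Ω] in
theorem fS_mp (e : Ext P Q) (s : ℕ → ℤ) (k : ℕ) :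
    MeasurePreserving (e.f ∘ Q.S (s k)) Q.μ P.μ := e.f_mp.comp (Q.S_mp (s k))

theorem siteP_mp (e : Ext P Q) (s : ℕ → ℤ) : MeasurePreserving (siteP e s) (lb Q.μ) P.μ :=
  (measurePreserving_pt P.μ).comp (measurePreserving_lbmap fun k => e.f_mp.comp (Q.S_mp (s k)))

theorem siteP_preimage_ae (e : Ext P Q) (s : ℕ → ℤ) {A : Set P.Ω} (hA : MeasurableSet A) :
    siteP e s ⁻¹' A =ᵐ[lb Q.μ] intl (fun k => Q.S (s k) ⁻¹' (e.f ⁻¹' A)) := by
  have hmp : MeasurePreserving (lbmap fun k => e.f ∘ Q.S (s k)) (lb Q.μ) (lb P.μ) :=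
    measurePreserving_lbmap fun k => e.f_mp.comp (Q.S_mp (s k))
  have h := hmp.quasiMeasurePreserving.ae_eq_comp (pt_preimage_ae (μ := P.μ) hA)
  exact h

theorem siteP_S (e : Ext P Q) (s : ℕ → ℤ) (n : ℤ) :
    (fun x => siteP e s (lbS Q.toSys n x)) =ᵐ[lb Q.μ] fun x => P.S n (siteP e s x) := by
  have hmp : MeasurePreserving (lbmap fun k => e.f ∘ Q.S (s k)) (lb Q.μ) (lb P.μ) :=
    measurePreserving_lbmap fun k => e.f_mp.comp (Q.S_mp (s k))
  have h1 : ∀ᵐ x ∂(lb Q.μ), pt (lbmap (fun _ => P.S n) (lbmap (fun k => e.f ∘ Q.S (s k)) x)) =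
      P.S n (pt (lbmap (fun k => e.f ∘ Q.S (s k)) x)) :=
    hmp.quasiMeasurePreserving.ae (pt_lbmap_ae (μ := P.μ) (P.S_mp n).measurable)
  have h2 : ∀ᵐ x ∂(lb Q.μ), ∀ᶠ k in (UU : Filter ℕ),
      e.f (Q.S n (Q.S (s k) (x k))) = P.S n (e.f (Q.S (s k) (x k))) :=
    ae_lb_of_forall_ae (μ := Q.μ)
      (p := fun k y => e.f (Q.S n (Q.S (s k) y)) = P.S n (e.f (Q.S (s k) y)))
      fun k => (Q.S_mp (s k)).quasiMeasurePreserving.ae (e.f_S n)
  filter_upwards [h1, h2] with x hx1 hx2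
  rw [show siteP e s x = pt (lbmap (fun k => e.f ∘ Q.S (s k)) x) from rfl, ← hx1]
  refine pt_congr ?_
  filter_upwards [hx2] with k hk
  show e.f (Q.S (s k) (Q.S n (x k))) = P.S n (e.f (Q.S (s k) (x k)))
  rw [← hk, ← Q.S_add, ← Q.S_add, add_comm]

/-- the environment of `P` at the site `s` is in the Loeb environment of `Q`. -/
theorem siteP_C (e : Ext P Q) (s : ℕ → ℤ) :
    P.C.comap (siteP e s) ≤ LL Q.C ⊔ nul (lb Q.μ) := by
  rintro _ ⟨A, hA, rfl⟩
  have hA0 := P.C_le A hA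
  refine measurableSet_sup_nul (LL_mono Q.C_le) ((siteP_mp e s).measurable hA0) ?_
    (siteP_preimage_ae e s hA0)
  exact measurableSet_intl fun k => Q.C_S (s k) (e.f_C _ ⟨A, hA, rfl⟩)

theorem siteP_π_mp (e : Ext P Q) (s : ℕ → ℤ) :
    MeasurePreserving (fun x => P.π (siteP e s x)) (lb Q.μ) X.μ :=
  P.π_mp.comp (siteP_mp e s)

theorem siteP_π_S (e : Ext P Q) (s : ℕ → ℤ) (n : ℤ) :
    (fun x => P.π (siteP e s (lbS Q.toSys n x))) =ᵐ[lb Q.μ]
      fun x => X.S n (P.π (siteP e s x)) := by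
  have h1 := siteP_S e s n
  have h2 := (siteP_mp e s).quasiMeasurePreserving.ae (P.π_S n)
  filter_upwards [h1, h2] with x hx1 hx2
  rw [hx1]; exact hx2

/-- the null sets of the Loeb space -/
@[implicit_reducible]
noncomputable def NN (Q : Sys) : MeasurableSpace (Lb Q.Ω) := nul (lb Q.μ)

/-- the pair over `X` on the Loeb space of `Q` given by a site. -/
noncomputable def sitePair (e : Ext P Q) (s : ℕ → ℤ) (D : MeasurableSpace (Lb Q.Ω))
    (hD : D ≤ LL Q.ms) (hnul : NN Q.toSys ≤ D) (hS : ∀ n, Measurable[D, D] (lbS Q.toSys n))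
    (hind : Indep (X.ms.comap fun x => P.π (siteP e s x)) D (lb Q.μ)) : Pair X where
  Ω := Lb Q.Ω
  ms := LL Q.ms
  μ := lb Q.μ
  S n := lbS Q.toSys n
  S_zero x := funext fun k => Q.S_zero (x k)
  S_add a b x := funext fun k => Q.S_add a b (x k)
  S_mp n := lbS_mp Q.toSys n
  π := fun x => P.π (siteP e s x)
  π_mp := siteP_π_mp e s
  π_S n := siteP_π_S e s n
  C := D
  C_le := hD
  C_nul := hnul
  C_S := hS
  indep := hind

/-- `sitePair` is an extension of `P`. -/
noncomputable def siteExt (e : Ext P Q) (s : ℕ → ℤ) (D : MeasurableSpace (Lb Q.Ω))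
    (hD : D ≤ LL Q.ms) (hnul : NN Q.toSys ≤ D) (hS : ∀ n, Measurable[D, D] (lbS Q.toSys n))
    (hind : Indep (X.ms.comap fun x => P.π (siteP e s x)) D (lb Q.μ))
    (hC : P.C.comap (siteP e s) ≤ D) : Ext P (sitePair e s D hD hnul hS hind) where
  f := siteP e s
  f_mp := siteP_mp e s
  f_S n := siteP_S e s n
  f_π := EventuallyEq.rfl
  f_C := hC

end site

/-! ### invariance up to null sets -/

/-- invariance, up to null sets, of a sub-σ-algebra of the Loeb space. -/
def LInv (Q : Sys) (m : MeasurableSpace (Lb Q.Ω)) : Prop :=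
  ∀ n, m.comap (lbS Q n) ≤ m ⊔ NN Q

section linv

variable {Q : Sys}

theorem LInv.sup {a b : MeasurableSpace (Lb Q.Ω)} (ha : LInv Q a) (hb : LInv Q b) :
    LInv Q (a ⊔ b) := fun n => by
  rw [MeasurableSpace.comap_sup]
  refine sup_le ((ha n).trans ?_) ((hb n).trans ?_)
  · exact sup_le_sup_right le_sup_left _
  · exact sup_le_sup_right le_sup_right _

theorem LInv.iSup {ι : Sort*} {a : ι → MeasurableSpace (Lb Q.Ω)} (ha : ∀ i, LInv Q (a i)) :
    LInv Q (⨆ i, a i) := fun n => by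
  rw [MeasurableSpace.comap_iSup]
  exact iSup_le fun i => (ha i n).trans (sup_le_sup_right (le_iSup a i) _)

theorem comap_NN_le (n : ℤ) : (NN Q).comap (lbS Q n) ≤ NN Q := comap_nul_le (lbS_mp Q n)

theorem LInv.nn : LInv Q (NN Q) := fun n => (comap_NN_le n).trans le_sup_left

theorem LInv.measurable {a : MeasurableSpace (Lb Q.Ω)} (ha : LInv Q a) (n : ℤ) :
    Measurable[a ⊔ NN Q, a ⊔ NN Q] (lbS Q n) := by
  rw [measurable_iff_comap_le, MeasurableSpace.comap_sup]
  exact sup_le (ha n) ((comap_NN_le n).trans le_sup_right)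

theorem LInv.ll {C : MeasurableSpace Q.Ω} (hC : ∀ n, Measurable[C, C] (Q.S n)) :
    LInv Q (LL C) := fun n => by
  refine le_sup_of_le_left ?_
  rw [LL, MeasurableSpace.comap_generateFrom]
  refine MeasurableSpace.generateFrom_le ?_
  rintro _ ⟨_, ⟨A, hA, rfl⟩, rfl⟩
  rw [lbS, lbmap_preimage]
  exact measurableSet_intl fun k => hC n (hA k)

/-- σ-algebras of an a.e. equivariant map are invariant. -/
theorem LInv.comap {M : Sys} {f : Lb Q.Ω → M.Ω} (hf : Measurable f)
    (hS : ∀ n, (fun x => f (lbS Q n x)) =ᵐ[lb Q.μ] fun x => M.S n (f x))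
    {m : MeasurableSpace M.Ω} (hm : m ≤ M.ms) (hmS : ∀ n, Measurable[m, m] (M.S n)) :
    LInv Q (m.comap f) := fun n => by
  rw [MeasurableSpace.comap_comp]
  rintro _ ⟨B, hB, rfl⟩
  have hB0 := hm B hB
  refine measurableSet_sup_nul (B := f ⁻¹' (M.S n ⁻¹' B))
    ((MeasurableSpace.comap_mono hm).trans (measurable_iff_comap_le.1 hf)) ?_
    ⟨_, hmS n hB, rfl⟩ ?_
  · exact (hf.comp (lbS_mp Q n).measurable) hB0
  · filter_upwards [hS n] with x hx
    apply propext
    show f (lbS Q n x) ∈ B ↔ M.S n (f x) ∈ B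
    rw [hx]

end linv

/-! ### the independence of the sites -/

section ind

variable {X : Sys} {P Q : Pair X} [StandardBorelSpace P.Ω] [Nonempty P.Ω]

/-- the σ-algebra of the site `s` of `P` -/
@[implicit_reducible]
noncomputable def sE (e : Ext P Q) (s : ℕ → ℤ) : MeasurableSpace (Lb Q.Ω) :=
  P.ms.comap (siteP e s)

/-- the σ-algebra of the site `s` of `X` -/
@[implicit_reducible]
noncomputable def sX (e : Ext P Q) (s : ℕ → ℤ) : MeasurableSpace (Lb Q.Ω) :=
  X.ms.comap fun x => P.π (siteP e s x)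

theorem sE_le (e : Ext P Q) (s : ℕ → ℤ) : sE e s ≤ LL Q.ms :=
  measurable_iff_comap_le.1 (siteP_mp e s).measurable

theorem sX_le (e : Ext P Q) (s : ℕ → ℤ) : sX e s ≤ LL Q.ms :=
  measurable_iff_comap_le.1 (siteP_π_mp e s).measurable


theorem sE_inv (e : Ext P Q) (s : ℕ → ℤ) : LInv Q.toSys (sE e s) :=
  LInv.comap (M := P.toSys) (siteP_mp e s).measurable (siteP_S e s) le_rfl
    fun n => (P.S_mp n).measurable

theorem sX_inv (e : Ext P Q) (s : ℕ → ℤ) : LInv Q.toSys (sX e s) :=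
  LInv.comap (M := X) (siteP_π_mp e s).measurable (siteP_π_S e s) le_rfl
    fun n => (X.S_mp n).measurable

theorem LC_inv (Q : Pair X) : LInv Q.toSys (LL Q.C) := LInv.ll Q.C_S

/-- (S1) at a site (the environment is bundled to keep it out of the instance search). -/
theorem siteAux (hP : S1 P) (e : Ext P Q) (s : ℕ → ℤ) {F : P.Ω → ℝ} (hF : Measurable F)
    (hb : ∃ K, ∀ x, |F x| ≤ K) (D : {m : MeasurableSpace (Lb Q.Ω) // LL Q.C ≤ m ∧ m ≤ LL Q.ms ∧
      LInv Q.toSys m ∧ Indep (sX e s) m (lb Q.μ)}) :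
    (lb Q.μ)[fun x => F (siteP e s x) | D.1] =ᵐ[lb Q.μ]
      fun x => (P.μ[F | P.C]) (siteP e s x) := by
  have hCD := D.2.1
  have hD := D.2.2.1
  have hI := D.2.2.2.1
  have hind := D.2.2.2.2
  have hD' : D.1 ⊔ NN Q.toSys ≤ LL Q.ms := sup_le hD nul_le
  have hind' : Indep (sX e s) (D.1 ⊔ NN Q.toSys) (lb Q.μ) :=
    indep_sup_nul (sX_le e s) hD hind
  have hC' : P.C.comap (siteP e s) ≤ D.1 ⊔ NN Q.toSys :=
    (siteP_C e s).trans (sup_le_sup_right hCD _)
  have h1 := hP (sitePair e s (D.1 ⊔ NN Q.toSys) hD' le_sup_right hI.measurable hind')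
    (siteExt e s (D.1 ⊔ NN Q.toSys) hD' le_sup_right hI.measurable hind' hC') F ⟨hF, hb⟩
  have h2 : (lb Q.μ)[fun x => F (siteP e s x) | D.1 ⊔ NN Q.toSys] =ᵐ[lb Q.μ]
      (lb Q.μ)[fun x => F (siteP e s x) | D.1] :=
    condExp_sup_nul hD ⟨hF.comp (siteP_mp e s).measurable, hb.imp fun K hK x => hK _⟩
  exact h2.symm.trans h1

/-- (S1) at a site. -/
theorem S1_site (hP : S1 P) (e : Ext P Q) (s : ℕ → ℤ) {F : P.Ω → ℝ} (hF : Measurable F)
    (hb : ∃ K, ∀ x, |F x| ≤ K) {D : MeasurableSpace (Lb Q.Ω)} (hCD : LL Q.C ≤ D)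
    (hD : D ≤ LL Q.ms) (hI : LInv Q.toSys D) (hind : Indep (sX e s) D (lb Q.μ)) :
    (lb Q.μ)[fun x => F (siteP e s x) | D] =ᵐ[lb Q.μ]
      fun x => (P.μ[F | P.C]) (siteP e s x) :=
  siteAux hP e s hF hb ⟨D, hCD, hD, hI, hind⟩

theorem factors_site (e : Ext P Q) (s : ℕ → ℤ) {F : Lb Q.Ω → ℝ}
    (hF : StronglyMeasurable[sE e s] F) (hb : ∃ K, ∀ x, |F x| ≤ K) :
    ∃ F' : P.Ω → ℝ, Measurable F' ∧ (∃ K, ∀ x, |F' x| ≤ K) ∧ F = fun x => F' (siteP e s x) := by
  obtain ⟨F', hF', hFF⟩ := BdM.factors (φ := siteP e s) (F := F) ⟨hF.measurable, hb⟩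
  exact ⟨F', hF'.meas, hF'.bdd, hFF⟩

variable {ι : Type*}

/-- output of node JOINT: the `X`-sites are independent, and independent of the Loeb
environment. -/
structure Joint (e : Ext P Q) (s : ι → ℕ → ℤ) : Prop where
  iX : iIndep (fun j => sX e (s j)) (lb Q.μ)
  XC : Indep (⨆ j, sX e (s j)) (LL Q.C) (lb Q.μ)

/-- the hypotheses of the site theorem. -/
theorem hyp (hP : S1 P) {e : Ext P Q} {s : ι → ℕ → ℤ} (hJ : Joint e s) :
    Site.Hyp (lb Q.μ) (fun j => sE e (s j)) (fun j => sX e (s j)) (LL Q.C) (LInv Q.toSys) where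
  inv_sup _ _ := LInv.sup
  inv_C := LC_inv Q
  inv_E S := LInv.iSup fun i => LInv.iSup fun _ => sE_inv e (s i)
  inv_X S := LInv.iSup fun i => LInv.iSup fun _ => sX_inv e (s i)
  E_le j := sE_le e (s j)
  X_le j := sX_le e (s j)
  C_le := LL_mono Q.C_le
  iX := hJ.iX
  XC := hJ.XC
  S1 j D hCD hD hI hind F hF hb := by
    obtain ⟨F', hF', hb', rfl⟩ := factors_site e (s j) hF hb
    have hj : Indep (sX e (s j)) (LL Q.C) (lb Q.μ) :=
      indep_of_indep_of_le_left hJ.XC (le_iSup (fun j => sX e (s j)) j)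
    exact (S1_site hP e (s j) hF' hb' hCD hD hI hind).trans
      (S1_site hP e (s j) hF' hb' le_rfl (LL_mono Q.C_le) (LC_inv Q) hj).symm

end ind

/-! ### node JOINT -/

theorem sitef_indicator (M : Sys) (s : ℕ → ℤ) (A : Set M.Ω) :
    sitef M s (A.indicator fun _ => (1 : ℝ)) =
      (intl fun k => M.S (s k) ⁻¹' A).indicator fun _ => (1 : ℝ) := by
  have h1 : (fun (k : ℕ) (x : M.Ω) => (A.indicator fun _ => (1 : ℝ)) (M.S (s k) x)) =
      fun k => (M.S (s k) ⁻¹' A).indicator fun _ => (1 : ℝ) := by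
    funext k x
    rfl
  unfold sitef
  rw [h1, st_indicator _ (f := fun _ _ => (1 : ℝ)) (stOK_of_bdd (C := 1) (by simp)), st_const]

theorem prod_indicator {Ω ι : Type*} (J : Finset ι) (V : ι → Set Ω) (x : Ω) :
    ∏ i ∈ J, (V i).indicator (fun _ => (1 : ℝ)) x =
      (⋂ i ∈ J, V i).indicator (fun _ => (1 : ℝ)) x := by
  classical
  by_cases h : ∀ i ∈ J, x ∈ V i
  · rw [indicator_of_mem (mem_iInter₂.2 h)]
    exact Finset.prod_eq_one fun i hi => indicator_of_mem (h i hi) _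
  · rw [indicator_of_notMem (fun hx => h (mem_iInter₂.1 hx))]
    push Not at h
    obtain ⟨i, hi, hx⟩ := h
    exact Finset.prod_eq_zero hi (indicator_of_notMem hx _)

section joint

variable {X : Sys} {ι : Type}

theorem xind_sets {s : ι → ℕ → ℤ} {J : Finset ι} (h : XInd X s J) {A : ι → Set X.Ω}
    (hA : ∀ i, MeasurableSet (A i)) :
    lb X.μ (⋂ i ∈ J, intl fun k => X.S (s i k) ⁻¹' A i) = ∏ i ∈ J, X.μ (A i) := by
  have h1 := h (fun i => (A i).indicator fun _ => (1 : ℝ)) fun i =>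
    ⟨measurable_const.indicator (hA i), 1, fun x => by
      by_cases hx : x ∈ A i <;> simp [hx]⟩
  simp only [sitef_indicator, prod_indicator] at h1
  have hV : MeasurableSet (⋂ i ∈ J, intl fun k => X.S (s i k) ⁻¹' A i) :=
    Finset.measurableSet_biInter J fun i _ =>
      measurableSet_intl fun k => (X.S_mp (s i k)).measurable (hA i)
  rw [integral_indicator hV] at h1
  simp only [integral_indicator (hA _)] at h1
  simp only [integral_const, smul_eq_mul, mul_one, measureReal_def,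
    Measure.restrict_apply_univ] at h1
  rw [← ENNReal.toReal_prod] at h1
  exact (ENNReal.toReal_eq_toReal_iff' (measure_ne_top _ _)
    (ENNReal.prod_ne_top fun i _ => measure_ne_top _ _)).1 h1

variable {P Q : Pair X} [StandardBorelSpace P.Ω] [Nonempty P.Ω]

/-- the `X`-site through `P` is the site of `Q.π`. -/
theorem siteX_ae (e : Ext P Q) (s : ℕ → ℤ) {A : Set X.Ω} (hA : MeasurableSet A) :
    (fun x => P.π (siteP e s x)) ⁻¹' A =ᵐ[lb Q.μ]
      lbmap (fun _ => Q.π) ⁻¹' (intl fun k => X.S (s k) ⁻¹' A) := by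
  have h1 := siteP_preimage_ae e s (P.π_mp.measurable hA)
  refine h1.trans ?_
  rw [lbmap_preimage]
  refine intl_ae_eq fun k => ?_
  have h2 : (fun x => Q.π (Q.S (s k) x)) =ᵐ[Q.μ] fun x => P.π (e.f (Q.S (s k) x)) :=
    (Q.S_mp (s k)).quasiMeasurePreserving.ae_eq_comp e.f_π
  filter_upwards [h2, Q.π_S (s k)] with x hx1 hx2
  apply propext
  show P.π (e.f (Q.S (s k) x)) ∈ A ↔ X.S (s k) (Q.π x) ∈ A
  rw [← hx1, hx2]

theorem sX_aele (e : Ext P Q) (s : ℕ → ℤ) :
    AELe (lb Q.μ) (sX e s) (LL (X.ms.comap Q.π)) := by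
  rintro _ ⟨A, hA, rfl⟩
  refine ⟨_, ?_, siteX_ae e s hA⟩
  rw [← comap_lbmap_LL]
  exact ⟨_, measurableSet_intl fun k => (X.S_mp (s k)).measurable hA, rfl⟩

theorem indep_LLX (Q : Pair X) : Indep (LL (X.ms.comap Q.π)) (LL Q.C) (lb Q.μ) :=
  indep_LL (measurable_iff_comap_le.1 Q.π_mp.measurable) Q.C_le Q.indep

theorem indep_sX_LL (e : Ext P Q) {κ : Sort*} (s : κ → ℕ → ℤ) :
    Indep (⨆ j, sX e (s j)) (LL Q.C) (lb Q.μ) :=
  Indep.mono_ae (LL_mono (measurable_iff_comap_le.1 Q.π_mp.measurable))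
    (iSup_le fun j => sX_le e (s j)) (LL_mono Q.C_le) (LL_mono Q.C_le)
    (AELe.iSup fun j => sX_aele e (s j)) AELe.refl (indep_LLX Q)

theorem indep_sX_LL_one (e : Ext P Q) (s : ℕ → ℤ) : Indep (sX e s) (LL Q.C) (lb Q.μ) :=
  Indep.mono_ae (LL_mono (measurable_iff_comap_le.1 Q.π_mp.measurable))
    (sX_le e s) (LL_mono Q.C_le) (LL_mono Q.C_le) (sX_aele e s) AELe.refl (indep_LLX Q)

theorem iIndep_sX (e : Ext P Q) {s : ι → ℕ → ℤ} {J : Finset ι} (h : XInd X s J) :
    iIndep (fun j : J => sX e (s j)) (lb Q.μ) := by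
  classical
  rw [iIndep_iff]
  intro t f hf
  have hex : ∀ j : J, ∃ A : Set X.Ω, MeasurableSet A ∧
      (j ∈ t → (fun x => P.π (siteP e (s j) x)) ⁻¹' A = f j) ∧ (j ∉ t → A = univ) := by
    intro j
    by_cases hj : j ∈ t
    · obtain ⟨A, hA, hAf⟩ := hf j hj
      exact ⟨A, hA, fun _ => hAf, fun h => absurd hj h⟩
    · exact ⟨univ, MeasurableSet.univ, fun h => absurd h hj, fun _ => rfl⟩
  choose A hA hAf hAu using hex
  have hQ : MeasurePreserving (lbmap fun _ : ℕ => Q.π) (lb Q.μ) (lb X.μ) :=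
    measurePreserving_lbmap fun _ => Q.π_mp
  set V : J → Set (Lb X.Ω) := fun j => intl fun k => X.S (s j k) ⁻¹' A j with hV
  have hVm : ∀ j, MeasurableSet (V j) := fun j =>
    measurableSet_intl fun k => (X.S_mp (s j k)).measurable (hA j)
  -- the main identity
  have key : lb X.μ (⋂ j ∈ t, V j) = ∏ j ∈ t, X.μ (A j) := by
    have h1 := xind_sets h (A := fun i => if hi : i ∈ J then A ⟨i, hi⟩ else univ) (by
      intro i
      by_cases hi : i ∈ J
      · simp only [hi, dif_pos]; exact hA _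
      · simp only [hi, dif_neg, not_false_iff]; exact MeasurableSet.univ)
    have h2 : (⋂ i ∈ J, intl fun k => X.S (s i k) ⁻¹'
        (if hi : i ∈ J then A ⟨i, hi⟩ else univ)) = ⋂ j ∈ t, V j := by
      ext x
      simp only [mem_iInter]
      constructor
      · intro hx j _
        have := hx j j.2
        simpa only [j.2, dif_pos] using this
      · intro hx i hi
        simp only [hi, dif_pos]
        by_cases hit : (⟨i, hi⟩ : J) ∈ t
        · exact hx ⟨i, hi⟩ hit
        · rw [hAu ⟨i, hi⟩ hit]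
          simp
    have h3 : ∏ i ∈ J, X.μ (if hi : i ∈ J then A ⟨i, hi⟩ else univ) = ∏ j ∈ t, X.μ (A j) := by
      rw [← Finset.prod_attach J]
      have h4 : ∀ j ∈ J.attach, X.μ (if hi : (j : ι) ∈ J then A ⟨j, hi⟩ else univ) = X.μ (A j) := by
        intro j _
        simp only [j.2, dif_pos]
      rw [Finset.prod_congr rfl h4]
      symm
      refine Finset.prod_subset (Finset.subset_univ t) fun j _ hj => ?_
      rw [hAu j hj, measure_univ]
    rw [h2, h3] at h1
    exact h1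
  have hone : ∀ j ∈ t, lb Q.μ (f j) = X.μ (A j) := by
    intro j hj
    rw [← hAf j hj]
    exact (siteP_π_mp e (s j)).measure_preimage (hA j).nullMeasurableSet
  have hall : lb Q.μ (⋂ j ∈ t, f j) = lb X.μ (⋂ j ∈ t, V j) := by
    have h5 : (⋂ j ∈ t, f j) =ᵐ[lb Q.μ] (lbmap fun _ : ℕ => Q.π) ⁻¹' (⋂ j ∈ t, V j) := by
      have h6 : ∀ j ∈ t, f j =ᵐ[lb Q.μ] (lbmap fun _ : ℕ => Q.π) ⁻¹' V j := fun j hj => by
        rw [← hAf j hj]
        exact siteX_ae e (s j) (hA j)
      have h7 : ∀ᵐ x ∂(lb Q.μ), ∀ j ∈ t, (x ∈ f j ↔ x ∈ (lbmap fun _ : ℕ => Q.π) ⁻¹' V j) := by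
        rw [Filter.eventually_all_finset]
        intro j hj
        filter_upwards [h6 j hj] with x hx
        exact Iff.of_eq hx
      filter_upwards [h7] with x hx
      apply propext
      show x ∈ (⋂ j ∈ t, f j) ↔ x ∈ (lbmap fun _ : ℕ => Q.π) ⁻¹' (⋂ j ∈ t, V j)
      simp only [mem_iInter, mem_preimage]
      exact forall_congr' fun j => forall_congr' fun hj => hx j hj
    rw [measure_congr h5]
    exact hQ.measure_preimage (Finset.measurableSet_biInter t fun j _ => hVm j).nullMeasurableSet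
  rw [hall, key]
  exact Finset.prod_congr rfl fun j hj => (hone j hj).symm

theorem joint (e : Ext P Q) {s : ι → ℕ → ℤ} {J : Finset ι} (h : XInd X s J) :
    Joint e (fun j : J => s j) where
  iX := iIndep_sX e h
  XC := indep_sX_LL e fun j : J => s j

end joint

/-! ### node IND -/

/-- the identity extension -/
def extRefl {X : Sys} (P : Pair X) : Ext P P where
  f := id
  f_mp := MeasurePreserving.id _
  f_S _ := EventuallyEq.rfl
  f_π := EventuallyEq.rfl
  f_C := by rw [MeasurableSpace.comap_id]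

section final

variable {X : Sys} {P Q : Pair X} [StandardBorelSpace P.Ω] [Nonempty P.Ω]

/-- the function at the site is the function at the site point. -/
theorem sitef_ae (e : Ext P Q) (s : ℕ → ℤ) {F : P.Ω → ℝ} (hF : Measurable F) :
    sitef Q.toSys s (F ∘ e.f) =ᵐ[lb Q.μ] fun x => F (siteP e s x) :=
  (comp_sv_ae_eq_st (fS_mp e s) hF).symm

/-- E[F(e_s) | LL D] = E[F | C](e_s). -/
theorem condExp_site (hP : S1 P) (e : Ext P Q) (s : ℕ → ℤ) {F : P.Ω → ℝ} (hF : Measurable F)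
    (hb : ∃ K, ∀ x, |F x| ≤ K) :
    (lb Q.μ)[fun x => F (siteP e s x) | LL Q.C] =ᵐ[lb Q.μ]
      fun x => (P.μ[F | P.C]) (siteP e s x) :=
  S1_site hP e s hF hb le_rfl (LL_mono Q.C_le) (LC_inv Q) (indep_sX_LL_one e s)

/-- compatibility of the sites of `P` and of `Q`. -/
theorem siteP_refl_mp (e : Ext P Q) (s : ℕ → ℤ) :
    (fun x => siteP (extRefl P) s (Lb.mp e.f x)) =ᵐ[lb Q.μ] siteP e s := by
  have h : ∀ k, (P.S (s k) ∘ e.f) =ᵐ[Q.μ] (e.f ∘ Q.S (s k)) := fun k => (e.f_S (s k)).symm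
  have h1 : sv (fun k => P.S (s k) ∘ e.f) =ᵐ[lb Q.μ] siteP e s := sv_congr_ae h
  have h2 : (fun x => siteP (extRefl P) s (Lb.mp e.f x)) = sv (fun k => P.S (s k) ∘ e.f) := by
    funext x
    unfold siteP sv
    rfl
  rw [h2]
  exact h1

theorem condExp_site_comp (hP : S1 P) (e : Ext P Q) (s : ℕ → ℤ) {F : P.Ω → ℝ}
    (hF : Measurable F) (hb : ∃ K, ∀ x, |F x| ≤ K) :
    (fun x => ((lb P.μ)[sitef P.toSys s F | LL P.C]) (Lb.mp e.f x)) =ᵐ[lb Q.μ]
      fun x => (P.μ[F | P.C]) (siteP e s x) := by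
  have h1 : (lb P.μ)[sitef P.toSys s F | LL P.C] =ᵐ[lb P.μ]
      fun x => (P.μ[F | P.C]) (siteP (extRefl P) s x) :=
    (condExp_congr_ae (sitef_ae (extRefl P) s hF)).trans (condExp_site hP (extRefl P) s hF hb)
  have hmp : MeasurePreserving (Lb.mp e.f) (lb Q.μ) (lb P.μ) :=
    measurePreserving_lbmap fun _ => e.f_mp
  refine (hmp.quasiMeasurePreserving.ae_eq_comp h1).trans ?_
  filter_upwards [siteP_refl_mp e s] with x hx
  show (P.μ[F | P.C]) (siteP (extRefl P) s (Lb.mp e.f x)) = _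
  rw [hx]

variable {ι : Type}

/-- (iii), point form. -/
theorem condExp_prod_site (hP : S1 P) (e : Ext P Q) {s : ι → ℕ → ℤ} {J : Finset ι}
    (hX : XInd X s J) {F : ι → P.Ω → ℝ} (hF : ∀ i, Bd P.ms (F i)) :
    (lb Q.μ)[fun x => ∏ i ∈ J, F i (siteP e (s i) x) | LL Q.C] =ᵐ[lb Q.μ]
      fun x => ∏ i ∈ J, (P.μ[F i | P.C]) (siteP e (s i) x) := by
  classical
  have H := hyp hP (joint e hX)
  have h1 := H.condExp_prod Finset.univ (fun (j : J) x => F j (siteP e (s j) x))
    (fun j => ((hF j).1.comp (comap_measurable (siteP e (s j)))).stronglyMeasurable)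
    (fun j => (hF j).2.imp fun K hK x => hK _)
  have e1 : (∏ j : J, fun x => F j (siteP e (s j) x)) =
      fun x => ∏ i ∈ J, F i (siteP e (s i) x) := by
    funext x
    rw [Finset.prod_apply, Finset.prod_coe_sort J fun i => F i (siteP e (s i) x)]
  rw [e1] at h1
  refine h1.trans ?_
  have h2 : ∀ᵐ x ∂(lb Q.μ), ∀ j : J,
      ((lb Q.μ)[fun x => F j (siteP e (s j) x) | LL Q.C]) x =
        (P.μ[F j | P.C]) (siteP e (s j) x) := by
    rw [ae_all_iff]
    intro j
    exact condExp_site hP e (s j) (hF j).1 (hF j).2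
  filter_upwards [h2] with x hx
  rw [Finset.prod_apply, Finset.prod_congr rfl fun j _ => hx j,
    Finset.prod_coe_sort J fun i => (P.μ[F i | P.C]) (siteP e (s i) x)]

theorem indAt (hP : S1 P) (e : Ext P Q) {s : ι → ℕ → ℤ} {J : Finset ι}
    (hX : XInd X s J) : IndAt s J P Q e := by
  intro F hF
  have h1 : (fun x => ∏ i ∈ J, sitef Q.toSys (s i) (F i ∘ e.f) x) =ᵐ[lb Q.μ]
      fun x => ∏ i ∈ J, F i (siteP e (s i) x) := by
    have h2 : ∀ᵐ x ∂(lb Q.μ), ∀ i ∈ J,
        sitef Q.toSys (s i) (F i ∘ e.f) x = F i (siteP e (s i) x) := by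
      rw [Filter.eventually_all_finset]
      exact fun i _ => sitef_ae e (s i) (hF i).1
    filter_upwards [h2] with x hx
    exact Finset.prod_congr rfl hx
  refine (condExp_congr_ae h1).trans ((condExp_prod_site hP e hX hF).trans ?_)
  have h3 : ∀ᵐ x ∂(lb Q.μ), ∀ i ∈ J,
      ((lb P.μ)[sitef P.toSys (s i) (F i) | LL P.C]) (Lb.mp e.f x) =
        (P.μ[F i | P.C]) (siteP e (s i) x) := by
    rw [Filter.eventually_all_finset]
    exact fun i _ => condExp_site_comp hP e (s i) (hF i).1 (hF i).2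
  filter_upwards [h3] with x hx
  exact (Finset.prod_congr rfl hx).symm

end final

/-- **Node IND.** -/
theorem n_ind : N_IND := by
  intro X _ P hstd hS1 ι _ s J hX Q e
  have : StandardBorelSpace P.Ω := hstd
  have : Nonempty P.Ω := nonempty_of_isProbabilityMeasure P.μ
  exact indAt hS1 e hX

end Crest.Agent.R069.Ind
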