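import Crest.Agent.R069.CI
import Crest.Agent.R069.LoebMap

/-!
# Row 69, node SAT: energies of measured sets

`enS μ m A = ∫ (μ[1_A | m])²`.  Monotonicity along measure preserving maps (inclusions of
sigma-algebras modulo null sets), "equal energies ⟹ equal conditional expectations", continuity on
`MeasuredSets μ`, separability of `MeasuredSets μ`; sites on Loeb spaces.
-/

set_option autoImplicit false
set_option linter.unusedSectionVars false

open MeasureTheory Filter Set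
open scoped ENNReal Topology symmDiff

namespace Crest.Agent.R069.SatEn

open Crest.Agent.R069

section general

variable {Ω Ω' : Type*} {m mΩ : MeasurableSpace Ω} {m' mΩ' : MeasurableSpace Ω'}
  {μ : Measure Ω} {μ' : Measure Ω'}

/-- the indicator function of a set. -/
noncomputable abbrev ind (A : Set Ω) : Ω → ℝ := A.indicator (fun _ => (1 : ℝ))

/-- energy of a set. -/
noncomputable def enS (μ : Measure Ω) (m : MeasurableSpace Ω) (A : Set Ω) : ℝ :=
  ∫ x, (μ[ind A | m] x) ^ 2 ∂μ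

omit m mΩ mΩ' m' in
theorem ind_preimage (φ : Ω' → Ω) (A : Set Ω) : ind (φ ⁻¹' A) = ind A ∘ φ := by
  classical
  funext x
  by_cases hx : φ x ∈ A
  · have hx' : x ∈ φ ⁻¹' A := hx
    simp [ind, hx, hx']
  · have hx' : x ∉ φ ⁻¹' A := hx
    simp [ind, hx, hx']

theorem bm_ind {A : Set Ω} (hA : MeasurableSet[m] A) : BdM m (ind A) := BdM.indicator hA


theorem enS_le_one [IsProbabilityMeasure μ] (hm : m ≤ mΩ) {A : Set Ω} (hA : MeasurableSet A) :
    enS μ m A ≤ 1 := by
  refine (integral_condExp_sq_le hm (bm_ind hA)).trans ?_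
  have h : ∀ x, ind A x ^ 2 ≤ (1 : ℝ) := by
    intro x
    by_cases hx : x ∈ A <;> simp [ind, hx]
  calc ∫ x, ind A x ^ 2 ∂μ ≤ ∫ _, (1 : ℝ) ∂μ :=
        integral_mono ((bm_ind hA).pow 2 |>.integrable le_rfl) (integrable_const _) h
    _ = 1 := by simp

theorem enS_congr {A B : Set Ω} (h : A =ᵐ[μ] B) : enS μ m A = enS μ m B := by
  have e : ind A =ᵐ[μ] ind B := indicator_ae_eq_of_ae_eq_set h
  exact integral_congr_ae ((condExp_congr_ae (m := m) e).mono fun x hx => by simp only [hx])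

/-- `enS` is Lipschitz for `μ (A ∆ B)`. -/
theorem abs_enS_sub_le [IsProbabilityMeasure μ] (hm : m ≤ mΩ) {A B : Set Ω}
    (hA : MeasurableSet A) (hB : MeasurableSet B) :
    |enS μ m A - enS μ m B| ≤ 2 * μ.real (A ∆ B) := by
  obtain ⟨F, hF, hFe⟩ := (bm_ind hA).condExp_bm (μ := μ) hm
  obtain ⟨G, hG, hGe⟩ := (bm_ind hB).condExp_bm (μ := μ) hm
  have hF1 : ∀ᵐ x ∂μ, |F x| ≤ 1 := by
    have h1 : ∀ᵐ x ∂μ, |ind A x| ≤ 1 := Eventually.of_forall fun x => by
      by_cases hx : x ∈ A <;> simp [ind, hx]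
    have h2 := ae_bdd_abs_condExp_of_ae_bdd_abs (m := m) (R := (1 : ℝ)) h1
    filter_upwards [h2, hFe] with x hx hy
    rw [← hy]; exact hx
  have hG1 : ∀ᵐ x ∂μ, |G x| ≤ 1 := by
    have h1 : ∀ᵐ x ∂μ, |ind B x| ≤ 1 := Eventually.of_forall fun x => by
      by_cases hx : x ∈ B <;> simp [ind, hx]
    have h2 := ae_bdd_abs_condExp_of_ae_bdd_abs (m := m) (R := (1 : ℝ)) h1
    filter_upwards [h2, hGe] with x hx hy
    rw [← hy]; exact hx
  have e1 : enS μ m A = ∫ x, F x ^ 2 ∂μ :=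
    integral_congr_ae (hFe.mono fun x hx => by simp only [hx])
  have e2 : enS μ m B = ∫ x, G x ^ 2 ∂μ :=
    integral_congr_ae (hGe.mono fun x hx => by simp only [hx])
  have hFi : Integrable (fun x => F x ^ 2) μ := ((hF.mono hm).pow 2).integrable le_rfl
  have hGi : Integrable (fun x => G x ^ 2) μ := ((hG.mono hm).pow 2).integrable le_rfl
  rw [e1, e2, ← integral_sub hFi hGi]
  -- `∫ |F - G| ≤ ∫ |1_A - 1_B|`
  have hd : BdM mΩ (fun x => ind A x - ind B x) := (bm_ind hA).sub (bm_ind hB)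
  have hdc : μ[fun x => ind A x - ind B x | m] =ᵐ[μ] fun x => F x - G x := by
    have h3 := condExp_sub ((bm_ind hA).integrable (μ := μ) le_rfl)
      ((bm_ind hB).integrable (μ := μ) le_rfl) m
    have h4 : (fun x => ind A x - ind B x) = ind A - ind B := rfl
    rw [h4]
    filter_upwards [h3, hFe, hGe] with x hx hy hz
    rw [hx, Pi.sub_apply, hy, hz]
  have hL1 : ∫ x, |F x - G x| ∂μ ≤ ∫ x, |ind A x - ind B x| ∂μ := by
    have h6 : ∫ x, |(μ[fun x => ind A x - ind B x | m]) x| ∂μ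
        ≤ ∫ x, |ind A x - ind B x| ∂μ :=
      integral_abs_condExp_le (fun x => ind A x - ind B x)
    refine le_trans (le_of_eq ?_) h6
    exact integral_congr_ae (hdc.mono fun x hx => by simp only [hx])
  have hab : ∫ x, |ind A x - ind B x| ∂μ = μ.real (A ∆ B) := by
    have h7 : (fun x => |ind A x - ind B x|) = ind (A ∆ B) := by
      funext x
      by_cases hx : x ∈ A <;> by_cases hy : x ∈ B <;>
        simp [ind, hx, hy, Set.mem_symmDiff, Set.indicator]
    rw [h7, integral_indicator_const _ (hA.symmDiff hB)]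
    simp
  have hFG : BdM mΩ (fun x => F x - G x) := (hF.mono hm).sub (hG.mono hm)
  calc |∫ x, (F x ^ 2 - G x ^ 2) ∂μ| ≤ ∫ x, |F x ^ 2 - G x ^ 2| ∂μ :=
        abs_integral_le_integral_abs
    _ ≤ ∫ x, 2 * |F x - G x| ∂μ := by
        refine integral_mono_ae (hFi.sub hGi).abs
          ((hFG.integrable le_rfl).abs.const_mul 2) ?_
        filter_upwards [hF1, hG1] with x hx hy
        have : F x ^ 2 - G x ^ 2 = (F x + G x) * (F x - G x) := by ring
        show |F x ^ 2 - G x ^ 2| ≤ 2 * |F x - G x|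
        rw [this, abs_mul]
        have h8 : |F x + G x| ≤ 2 := (abs_add_le _ _).trans (by linarith)
        exact mul_le_mul_of_nonneg_right h8 (abs_nonneg _)
    _ = 2 * ∫ x, |F x - G x| ∂μ := integral_const_mul _ _
    _ ≤ 2 * μ.real (A ∆ B) := by rw [← hab]; linarith

variable {φ : Ω' → Ω}

/-- Energies with respect to sigma-algebras that are contained in each other modulo null sets. -/
theorem enS_mono_ae [IsProbabilityMeasure μ] {m₁ m₂ : MeasurableSpace Ω} (h₁ : m₁ ≤ mΩ)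
    (h₂ : m₂ ≤ mΩ) (h : AELe μ m₁ m₂) {A : Set Ω} (hA : MeasurableSet[mΩ] A) :
    enS μ m₁ A ≤ enS μ m₂ A := by
  obtain ⟨F, hF, hFe⟩ := (bm_ind hA).condExp_bm (μ := μ) h₂
  have e : μ[F | m₁] =ᵐ[μ] μ[ind A | m₁] :=
    (condExp_congr_ae hFe.symm).trans (h.condExp_condExp h₁ h₂ (bm_ind hA))
  calc enS μ m₁ A = ∫ x, (μ[F | m₁]) x ^ 2 ∂μ :=
        integral_congr_ae (e.mono fun x hx => by simp only [hx])
    _ ≤ ∫ x, F x ^ 2 ∂μ := integral_condExp_sq_le h₁ (hF.mono h₂)
    _ = enS μ m₂ A := integral_congr_ae (hFe.symm.mono fun x hx => by simp only [hx])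

/-- Equal energies imply equal conditional expectations (inclusion modulo null sets). -/
theorem condExp_eq_of_enS_le [IsProbabilityMeasure μ] {m₁ m₂ : MeasurableSpace Ω} (h₁ : m₁ ≤ mΩ)
    (h₂ : m₂ ≤ mΩ) (h : AELe μ m₁ m₂) {A : Set Ω} (hA : MeasurableSet[mΩ] A)
    (hle : enS μ m₂ A ≤ enS μ m₁ A) : μ[ind A | m₂] =ᵐ[μ] μ[ind A | m₁] := by
  obtain ⟨F, hF, hFe⟩ := (bm_ind hA).condExp_bm (μ := μ) h₂
  have e : μ[F | m₁] =ᵐ[μ] μ[ind A | m₁] :=
    (condExp_congr_ae hFe.symm).trans (h.condExp_condExp h₁ h₂ (bm_ind hA))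
  have h3 : μ[F | m₁] =ᵐ[μ] F := by
    refine condExp_eq_self_of_sq h₁ (hF.mono h₂) ?_
    calc ∫ x, F x ^ 2 ∂μ = enS μ m₂ A :=
          integral_congr_ae (hFe.symm.mono fun x hx => by simp only [hx])
      _ ≤ enS μ m₁ A := hle
      _ = ∫ x, (μ[F | m₁]) x ^ 2 ∂μ :=
          integral_congr_ae (e.symm.mono fun x hx => by simp only [hx])
  exact hFe.trans (h3.symm.trans e)

/-- the energy of the pulled back set w.r.t. the pulled back sigma-algebra. -/
theorem enS_comap [IsProbabilityMeasure μ] [IsProbabilityMeasure μ']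
    (hφ : MeasurePreserving φ μ' μ) (hm : m ≤ mΩ) {A : Set Ω} (hA : MeasurableSet A) :
    enS μ' (m.comap φ) (φ ⁻¹' A) = enS μ m A := by
  have h1 : ind (φ ⁻¹' A) = ind A ∘ φ := ind_preimage φ A
  have h2 := condExp_comp_mp hφ hm ((bm_ind hA).integrable (μ := μ) le_rfl)
  unfold enS
  rw [h1]
  have h3 : ∫ x, ((μ[ind A | m]) (φ x)) ^ 2 ∂μ' = ∫ x, ((μ[ind A | m]) x) ^ 2 ∂μ := by
    refine integral_comp_mp hφ (F := fun x => ((μ[ind A | m]) x) ^ 2) ?_
    exact ((integrable_condExp (μ := μ) (m := m) (f := ind A)).aestronglyMeasurable.pow 2)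
  rw [← h3]
  exact integral_congr_ae (h2.mono fun x hx => by simp only [hx, Function.comp])

/-- **Monotonicity of the energy along a measure preserving map.** -/
theorem enS_mono_map [IsProbabilityMeasure μ] [IsProbabilityMeasure μ']
    (hφ : MeasurePreserving φ μ' μ) (hm : m ≤ mΩ) (hm' : m' ≤ mΩ')
    (h : AELe μ' (m.comap φ) m') {A : Set Ω} (hA : MeasurableSet A) :
    enS μ m A ≤ enS μ' m' (φ ⁻¹' A) := by
  have hA' : MeasurableSet[mΩ'] (φ ⁻¹' A) := hφ.measurable hA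
  rw [← enS_comap hφ hm hA]
  exact enS_mono_ae (comap_le_of_mp hφ hm) hm' h hA'

/-- **Equal energies imply equal conditional expectations**, along a measure preserving map. -/
theorem condExp_eq_of_enS_map [IsProbabilityMeasure μ] [IsProbabilityMeasure μ']
    (hφ : MeasurePreserving φ μ' μ) (hm : m ≤ mΩ) (hm' : m' ≤ mΩ')
    (h : AELe μ' (m.comap φ) m') {A : Set Ω} (hA : MeasurableSet A)
    (hle : enS μ' m' (φ ⁻¹' A) ≤ enS μ m A) :
    μ'[ind (φ ⁻¹' A) | m'] =ᵐ[μ'] (μ[ind A | m]) ∘ φ := by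
  have h1 : ind (φ ⁻¹' A) = ind A ∘ φ := ind_preimage φ A
  have h2 := condExp_comp_mp hφ hm ((bm_ind hA).integrable (μ := μ) le_rfl)
  have hA' : MeasurableSet[mΩ'] (φ ⁻¹' A) := hφ.measurable hA
  rw [← enS_comap hφ hm hA] at hle
  have h3 := condExp_eq_of_enS_le (comap_le_of_mp hφ hm) hm' h hA' hle
  refine h3.trans ?_
  rw [h1]
  exact h2

end general

section measured

variable {Ω Ω' : Type*} {mΩ : MeasurableSpace Ω} {mΩ' : MeasurableSpace Ω'}
  {μ : Measure Ω} {μ' : Measure Ω'}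

/-- pull-back of measured sets. -/
def pullS {φ : Ω' → Ω} (hφ : MeasurePreserving φ μ' μ) (A : MeasuredSets μ) : MeasuredSets μ' :=
  ⟨φ ⁻¹' (A : Set Ω), hφ.measurable A.2⟩

theorem edist_pullS {φ : Ω' → Ω} (hφ : MeasurePreserving φ μ' μ) (A B : MeasuredSets μ) :
    edist (pullS hφ A) (pullS hφ B) = edist A B := by
  rw [MeasuredSets.edist_def, MeasuredSets.edist_def]
  exact hφ.measure_preimage (A.2.symmDiff B.2).nullMeasurableSet

theorem continuous_pullS {φ : Ω' → Ω} (hφ : MeasurePreserving φ μ' μ) :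
    Continuous (pullS hφ) := by
  have h : Isometry (pullS hφ) := fun A B => edist_pullS hφ A B
  exact h.continuous

instance [IsProbabilityMeasure μ] : Nonempty (MeasuredSets μ) := ⟨⟨∅, MeasurableSet.empty⟩⟩

theorem separableSpace_measuredSets [IsProbabilityMeasure μ] [IsSeparable μ] :
    TopologicalSpace.SeparableSpace (MeasuredSets μ) := by
  obtain ⟨𝒜, hc, hd⟩ := exists_countable_measureDense (μ := μ)
  refine ⟨⟨{A : MeasuredSets μ | (A : Set Ω) ∈ 𝒜}, ?_, ?_⟩⟩
  · exact (hc.preimage (f := fun A : MeasuredSets μ => (A : Set Ω)) SetLike.coe_injective)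
  · intro A
    rw [EMetric.mem_closure_iff]
    intro ε hε
    obtain ⟨δ, hδ, hδε⟩ : ∃ δ : ℝ, 0 < δ ∧ ENNReal.ofReal δ ≤ ε := by
      rcases eq_or_ne ε ⊤ with rfl | hne
      · exact ⟨1, one_pos, le_top⟩
      · exact ⟨ε.toReal, ENNReal.toReal_pos hε.ne' hne, by rw [ENNReal.ofReal_toReal hne]⟩
    obtain ⟨t, ht, hlt⟩ := hd.approx (A : Set Ω) A.2 (measure_ne_top _ _) δ hδ
    exact ⟨⟨t, hd.measurable t ht⟩, ht, lt_of_lt_of_le hlt hδε⟩

/-- continuity of energies of images of measured sets under maps that do not increase `μ (A ∆ B)`. -/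
theorem continuous_enS [IsProbabilityMeasure μ] [IsProbabilityMeasure μ']
    {m' : MeasurableSpace Ω'} (hm' : m' ≤ mΩ')
    (Φ : Set Ω → Set Ω') (hΦ : ∀ A, MeasurableSet A → MeasurableSet[mΩ'] (Φ A))
    (hd : ∀ A B, MeasurableSet A → MeasurableSet B → μ'.real (Φ A ∆ Φ B) ≤ μ.real (A ∆ B)) :
    Continuous (fun A : MeasuredSets μ => enS μ' m' (Φ A)) := by
  refine (LipschitzWith.of_dist_le_mul (K := 2) fun A B => ?_).continuous
  rw [Real.dist_eq, MeasuredSets.dist_def]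
  refine (abs_enS_sub_le hm' (hΦ A A.2) (hΦ B B.2)).trans ?_
  have := hd A B A.2 B.2
  simpa using this

end measured

end Crest.Agent.R069.SatEn
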