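import Mathlib
import Crest.Agent.R069.SatDefs
import Crest.Agent.R069.SatEn
import Crest.Agent.R069.LoebLift
import Crest.Agent.R069.Defs
import Crest.Agent.R069.StdFac
import Crest.Agent.R069.Iface

-- ▼ part R069/Sat
section

/-!
# Row 69, node SAT: existence of sated objects (abstract exhaustion lemma)

`P` = objects (pairs `(E, C)` of systems), `Hom p q` = extensions `q ≥ p`, `F p` = tests
(`L²(E_p)`), `pull f : F p → F q` = composition with the factor map, `en i p x` = countably many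
energies, monotone under extension and bounded.  If every `ω`-chain has a union, then above every
object there is a *sated* one: no extension increases any energy of any test.
The version `exists_sated_step` performs in addition a prescribed closure step infinitely often.
-/

set_option autoImplicit false

open Filter Topology TopologicalSpace

namespace Crest.Agent.R069.Sat

universe u v w

set_option linter.checkUnivs false in
/-- The data of the exhaustion argument. -/
structure Exh (I : Type) where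
  P : Type u
  Hom : P → P → Type v
  comp : ∀ {p q r : P}, Hom p q → Hom q r → Hom p r
  idh : ∀ p : P, Hom p p
  F : P → Type w
  instF : ∀ p, PseudoMetricSpace (F p)
  instS : ∀ p, SeparableSpace (F p)
  instN : ∀ p, Nonempty (F p)
  pull : ∀ {p q : P}, Hom p q → F p → F q
  pull_cont : ∀ {p q : P} (f : Hom p q), Continuous (pull f)
  pull_comp : ∀ {p q r : P} (f : Hom p q) (g : Hom q r) (x : F p),
    pull (comp f g) x = pull g (pull f x)
  pull_id : ∀ (p : P) (x : F p), pull (idh p) x = x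
  en : I → ∀ p : P, F p → ℝ
  en_cont : ∀ i p, Continuous (en i p)
  mono : ∀ i {p q : P} (f : Hom p q) (x : F p), en i p x ≤ en i q (pull f x)
  bdd : ∀ i {p : P} (x : F p), ∃ B : ℝ, ∀ (q : P) (f : Hom p q), en i q (pull f x) ≤ B
  lim : ∀ (p : ℕ → P) (f : ∀ n, Hom (p n) (p (n + 1))), ∃ (l : P) (g : ∀ n, Hom (p n) l),
    (∀ n (x : F (p n)), pull (g n) x = pull (g (n + 1)) (pull (f n) x)) ∧
      Dense (⋃ n, Set.range (pull (g n)))

namespace Exh

attribute [instance] Exh.instF Exh.instS Exh.instN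

variable {I : Type} (K : Exh.{u, v, w} I)

/-- `p` is sated: no extension increases an energy of a test of `p`. -/
def Sated (p : K.P) : Prop :=
  ∀ (q : K.P) (f : K.Hom p q) (i : I) (x : K.F p), K.en i q (K.pull f x) = K.en i p x

/-- one step: almost maximise one energy of one test. -/
lemma step (p : K.P) (i : I) (x : K.F p) {ε : ℝ} (hε : 0 < ε) :
    ∃ (q : K.P) (f : K.Hom p q), ∀ (r : K.P) (g : K.Hom q r),
      K.en i r (K.pull g (K.pull f x)) ≤ K.en i q (K.pull f x) + ε := by
  classical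
  let S : Set ℝ := {t | ∃ (q : K.P) (f : K.Hom p q), t = K.en i q (K.pull f x)}
  have hne : S.Nonempty := ⟨_, p, K.idh p, rfl⟩
  have hbd : BddAbove S := by
    obtain ⟨B, hB⟩ := K.bdd i x
    refine ⟨B, ?_⟩
    rintro t ⟨q, f, rfl⟩
    exact hB q f
  obtain ⟨t, ⟨q, f, rfl⟩, ht⟩ := exists_lt_of_lt_csSup hne (sub_lt_self (sSup S) hε)
  refine ⟨q, f, fun r g => ?_⟩
  have h1 : K.en i r (K.pull g (K.pull f x)) ≤ sSup S := by
    rw [← K.pull_comp]
    exact le_csSup hbd ⟨r, K.comp f g, rfl⟩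
  linarith

section chain

variable (Q : ∀ p q : K.P, K.Hom p q → Prop) (hQ : ∀ p, ∃ (q : K.P) (f : K.Hom p q), Q p q f)
  (p0 : K.P) (idx : ℕ → I)

/-- the state: an object with countably many tests. -/
abbrev St : Type _ := Σ p : K.P, (ℕ → K.F p)

/-- the saturating part of the next step. -/
noncomputable def nextA (n : ℕ) (s : K.St) : Σ q : K.P, K.Hom s.1 q :=
  ⟨_, (K.step s.1 (idx n.unpair.2.unpair.1) (s.2 n.unpair.1)
      (ε := 1 / ((n.unpair.2.unpair.2 : ℝ) + 1)) (by positivity)).choose_spec.choose⟩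

lemma nextA_spec (n : ℕ) (s : K.St) (r : K.P) (g : K.Hom (K.nextA idx n s).1 r) :
    K.en (idx n.unpair.2.unpair.1) r (K.pull g (K.pull (K.nextA idx n s).2 (s.2 n.unpair.1)))
      ≤ K.en (idx n.unpair.2.unpair.1) (K.nextA idx n s).1
          (K.pull (K.nextA idx n s).2 (s.2 n.unpair.1))
        + 1 / ((n.unpair.2.unpair.2 : ℝ) + 1) :=
  (K.step s.1 (idx n.unpair.2.unpair.1) (s.2 n.unpair.1)
      (ε := 1 / ((n.unpair.2.unpair.2 : ℝ) + 1)) (by positivity)).choose_spec.choose_spec r g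

/-- the prescribed closure step. -/
noncomputable def nextB (q : K.P) : Σ r : K.P, K.Hom q r :=
  ⟨_, (hQ q).choose_spec.choose⟩

lemma nextB_spec (q : K.P) : Q q (K.nextB Q hQ q).1 (K.nextB Q hQ q).2 :=
  (hQ q).choose_spec.choose_spec

/-- the next state. -/
noncomputable def nextSt (n : ℕ) (s : K.St) : K.St :=
  ⟨(K.nextB Q hQ (K.nextA idx n s).1).1, fun t =>
    if t.unpair.1 ≤ n then
      K.pull (K.comp (K.nextA idx n s).2 (K.nextB Q hQ (K.nextA idx n s).1).2) (s.2 t)
    else denseSeq (K.F _) t.unpair.2⟩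

/-- the chain of states. -/
noncomputable def chain : ℕ → K.St
  | 0 => ⟨p0, fun t => denseSeq (K.F p0) t.unpair.2⟩
  | n + 1 => K.nextSt Q hQ idx n (chain n)

/-- the connecting extensions of the chain. -/
noncomputable def cmap (n : ℕ) :
    K.Hom (K.chain Q hQ p0 idx n).1 (K.chain Q hQ p0 idx (n + 1)).1 :=
  K.comp (K.nextA idx n (K.chain Q hQ p0 idx n)).2
    (K.nextB Q hQ (K.nextA idx n (K.chain Q hQ p0 idx n)).1).2

lemma chain_test_self (n b : ℕ) :
    (K.chain Q hQ p0 idx n).2 (Nat.pair n b) = denseSeq (K.F (K.chain Q hQ p0 idx n).1) b := by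
  cases n with
  | zero =>
    show denseSeq (K.F p0) (Nat.pair 0 b).unpair.2 = _
    rw [Nat.unpair_pair]
    rfl
  | succ n =>
    have h : ¬ (Nat.pair (n + 1) b).unpair.1 ≤ n := by rw [Nat.unpair_pair]; simp
    show (if (Nat.pair (n + 1) b).unpair.1 ≤ n then _ else
      denseSeq (K.F _) (Nat.pair (n + 1) b).unpair.2) = _
    rw [if_neg h, Nat.unpair_pair]
    rfl

lemma chain_test_succ (n t : ℕ) (h : t.unpair.1 ≤ n) :
    (K.chain Q hQ p0 idx (n + 1)).2 t
      = K.pull (K.cmap Q hQ p0 idx n) ((K.chain Q hQ p0 idx n).2 t) := by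
  exact if_pos h

/-- any limit of the chain is sated. -/
lemma sated_of_chain (hidx : Function.Surjective idx) (l : K.P)
    (g : ∀ n, K.Hom (K.chain Q hQ p0 idx n).1 l)
    (hg : ∀ n (x : K.F (K.chain Q hQ p0 idx n).1),
      K.pull (g n) x = K.pull (g (n + 1)) (K.pull (K.cmap Q hQ p0 idx n) x))
    (hd : Dense (⋃ n, Set.range (K.pull (g n)))) : K.Sated l := by
  intro q f i y
  -- the tests
  have key : ∀ a b : ℕ, K.en i q (K.pull f (K.pull (g a)
      (denseSeq (K.F (K.chain Q hQ p0 idx a).1) b)))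
      = K.en i l (K.pull (g a) (denseSeq (K.F (K.chain Q hQ p0 idx a).1) b)) := by
    intro a b
    obtain ⟨m, rfl⟩ := hidx i
    -- transport of the test
    have htr : ∀ n, a ≤ n → K.pull (g n) ((K.chain Q hQ p0 idx n).2 (Nat.pair a b))
        = K.pull (g a) (denseSeq (K.F (K.chain Q hQ p0 idx a).1) b) := by
      intro n hn
      induction n, hn using Nat.le_induction with
      | base => rw [K.chain_test_self]
      | succ n hn ih =>
        rw [K.chain_test_succ Q hQ p0 idx n _ (by simpa using hn), ← hg n, ih]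
    refine le_antisymm ?_ (K.mono _ f _)
    refine le_of_forall_pos_le_add fun ε hε => ?_
    obtain ⟨k, hk⟩ := exists_nat_one_div_lt hε
    set n : ℕ := Nat.pair (Nat.pair a b) (Nat.pair m k) with hn
    have hn1 : n.unpair.1 = Nat.pair a b := by simp [hn]
    have hn2 : n.unpair.2.unpair.1 = m := by simp [hn]
    have hn3 : n.unpair.2.unpair.2 = k := by simp [hn]
    have han : a ≤ n := (Nat.left_le_pair a b).trans (Nat.left_le_pair _ _)
    have hy := htr n han
    rw [← hy]
    set s := K.chain Q hQ p0 idx n with hs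
    have hsp := K.nextA_spec idx n s q
      (K.comp (K.nextB Q hQ (K.nextA idx n s).1).2 (K.comp (g (n + 1)) f))
    have hmo := K.mono (idx m)
      (K.comp (K.nextB Q hQ (K.nextA idx n s).1).2 (g (n + 1)))
      (K.pull (K.nextA idx n s).2 (s.2 (Nat.pair a b)))
    rw [hn1, hn2, hn3] at hsp
    have hgn : K.pull (g n) (s.2 (Nat.pair a b))
        = K.pull (K.comp (K.nextB Q hQ (K.nextA idx n s).1).2 (g (n + 1)))
            (K.pull (K.nextA idx n s).2 (s.2 (Nat.pair a b))) := by
      rw [hg n]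
      have e2 := K.pull_comp (K.nextA idx n s).2 (K.nextB Q hQ (K.nextA idx n s).1).2
        (s.2 (Nat.pair a b))
      have e3 := K.pull_comp (K.nextB Q hQ (K.nextA idx n s).1).2 (g (n + 1))
        (K.pull (K.nextA idx n s).2 (s.2 (Nat.pair a b)))
      exact (congrArg (K.pull (g (n + 1))) e2).trans e3.symm
    rw [hgn]
    have e1 : K.pull f (K.pull (K.comp (K.nextB Q hQ (K.nextA idx n s).1).2 (g (n + 1)))
            (K.pull (K.nextA idx n s).2 (s.2 (Nat.pair a b))))
        = K.pull (K.comp (K.nextB Q hQ (K.nextA idx n s).1).2 (K.comp (g (n + 1)) f))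
            (K.pull (K.nextA idx n s).2 (s.2 (Nat.pair a b))) := by
      have e3 := K.pull_comp (K.nextB Q hQ (K.nextA idx n s).1).2 (g (n + 1))
        (K.pull (K.nextA idx n s).2 (s.2 (Nat.pair a b)))
      have e4 := K.pull_comp (g (n + 1)) f
        (K.pull (K.nextB Q hQ (K.nextA idx n s).1).2
          (K.pull (K.nextA idx n s).2 (s.2 (Nat.pair a b))))
      have e5 := K.pull_comp (K.nextB Q hQ (K.nextA idx n s).1).2 (K.comp (g (n + 1)) f)
        (K.pull (K.nextA idx n s).2 (s.2 (Nat.pair a b)))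
      exact ((congrArg (K.pull f) e3).trans e4.symm).trans e5.symm
    rw [e1]
    linarith
  -- closedness
  have hcl : IsClosed {y : K.F l | K.en i q (K.pull f y) = K.en i l y} :=
    isClosed_eq ((K.en_cont i q).comp (K.pull_cont f)) (K.en_cont i l)
  have hsub : (⋃ n, Set.range (K.pull (g n))) ⊆ {y : K.F l | K.en i q (K.pull f y) = K.en i l y} := by
    intro z hz
    obtain ⟨n, hz⟩ := Set.mem_iUnion.1 hz
    obtain ⟨x, rfl⟩ := hz
    have hcl' : IsClosed {x : K.F (K.chain Q hQ p0 idx n).1 |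
        K.en i q (K.pull f (K.pull (g n) x)) = K.en i l (K.pull (g n) x)} :=
      isClosed_eq ((K.en_cont i q).comp ((K.pull_cont f).comp (K.pull_cont (g n))))
        ((K.en_cont i l).comp (K.pull_cont (g n)))
    have hall : Set.range (denseSeq (K.F (K.chain Q hQ p0 idx n).1)) ⊆
        {x : K.F (K.chain Q hQ p0 idx n).1 |
        K.en i q (K.pull f (K.pull (g n) x)) = K.en i l (K.pull (g n) x)} := by
      rintro _ ⟨b, rfl⟩
      exact key n b
    exact hcl'.closure_subset_iff.2 hall (denseRange_denseSeq _ x)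
  exact hcl.closure_subset_iff.2 hsub (hd y)

end chain

/-- **Existence of sated objects, with a closure step performed infinitely often.** -/
theorem exists_sated_step [Countable I] [Nonempty I]
    (Q : ∀ p q : K.P, K.Hom p q → Prop) (hQ : ∀ p, ∃ (q : K.P) (f : K.Hom p q), Q p q f)
    (p0 : K.P) :
    ∃ (a b : ℕ → K.P) (h : ∀ n, K.Hom (a n) (b n)) (k : ∀ n, K.Hom (b n) (a (n + 1))) (l : K.P)
      (g : ∀ n, K.Hom (a n) l) (g' : ∀ n, K.Hom (b n) l),
      a 0 = p0 ∧ (∀ n, Q (b n) (a (n + 1)) (k n)) ∧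
      (∀ n (x : K.F (a n)), K.pull (g n) x = K.pull (g' n) (K.pull (h n) x)) ∧
      (∀ n (x : K.F (b n)), K.pull (g' n) x = K.pull (g (n + 1)) (K.pull (k n) x)) ∧
      Dense (⋃ n, Set.range (K.pull (g n))) ∧ K.Sated l := by
  obtain ⟨idx, hidx⟩ := exists_surjective_nat I
  obtain ⟨l, g, hg, hd⟩ := K.lim (fun n => (K.chain Q hQ p0 idx n).1) (K.cmap Q hQ p0 idx)
  refine ⟨fun n => (K.chain Q hQ p0 idx n).1,
    fun n => (K.nextA idx n (K.chain Q hQ p0 idx n)).1,
    fun n => (K.nextA idx n (K.chain Q hQ p0 idx n)).2,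
    fun n => (K.nextB Q hQ (K.nextA idx n (K.chain Q hQ p0 idx n)).1).2, l, g,
    fun n => K.comp (K.nextB Q hQ (K.nextA idx n (K.chain Q hQ p0 idx n)).1).2 (g (n + 1)),
    rfl, fun n => K.nextB_spec Q hQ _, fun n x => ?_, fun n x => ?_, hd,
    K.sated_of_chain Q hQ p0 idx hidx l g hg hd⟩
  · rw [hg n x]
    have e2 := K.pull_comp (K.nextA idx n (K.chain Q hQ p0 idx n)).2
      (K.nextB Q hQ (K.nextA idx n (K.chain Q hQ p0 idx n)).1).2 x
    have e3 := K.pull_comp (K.nextB Q hQ (K.nextA idx n (K.chain Q hQ p0 idx n)).1).2 (g (n + 1))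
      (K.pull (K.nextA idx n (K.chain Q hQ p0 idx n)).2 x)
    exact (congrArg (K.pull (g (n + 1))) e2).trans e3.symm
  · exact K.pull_comp _ _ _

/-- **Existence of sated objects.** -/
theorem exists_sated [Countable I] [Nonempty I] (p0 : K.P) :
    ∃ (l : K.P) (_ : K.Hom p0 l), K.Sated l := by
  obtain ⟨a, b, h, k, l, g, g', h0, -, -, -, -, hs⟩ :=
    K.exists_sated_step (fun _ _ _ => True) (fun p => ⟨p, K.idh p, trivial⟩) p0
  subst h0
  exact ⟨l, g 0, hs⟩

end Exh

end Crest.Agent.R069.Sat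
end

-- ▼ part R069/Tower
section

/-!
# Inverse limits of sequences of standard Borel probability spaces (row 69, node TOWER)

`E 0 ← E 1 ← E 2 ← ...` with measure preserving maps `π j : E (j+1) → E j`.  The inverse limit is
realised as a probability measure `ν` on `∀ j, E j` with marginals `μ j` and
`π j (x (j+1)) = x j` almost everywhere (`IsTower μ π ν`).
-/

set_option autoImplicit false
set_option linter.unusedSectionVars false

open MeasureTheory ProbabilityTheory Filter Set
open scoped ENNReal Topology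

namespace Crest.Agent.R069

universe u

section Tower

variable {E : ℕ → Type u} [∀ j, MeasurableSpace (E j)]

/-- `ν` is the law of the inverse limit of the tower `π j : E (j+1) → E j`. -/
structure IsTower (μ : ∀ j, Measure (E j)) (π : ∀ j, E (j + 1) → E j)
    (ν : Measure (∀ j, E j)) : Prop where
  marg : ∀ j, MeasurePreserving (fun x : ∀ j, E j => x j) ν (μ j)
  comp : ∀ j, ∀ᵐ x ∂ν, π j (x (j + 1)) = x j

/-- The subset of `E n` describing the cylinder `{x | ∀ i ≤ n, x i ∈ A i}`. -/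
def cylB (π : ∀ j, E (j + 1) → E j) (A : ∀ j, Set (E j)) : ∀ n, Set (E n)
  | 0 => A 0
  | n + 1 => A (n + 1) ∩ π n ⁻¹' cylB π A n

theorem measurableSet_cylB {π : ∀ j, E (j + 1) → E j} (hπ : ∀ j, Measurable (π j))
    {A : ∀ j, Set (E j)} (hA : ∀ j, MeasurableSet (A j)) (n : ℕ) :
    MeasurableSet (cylB π A n) := by
  induction n with
  | zero => exact hA 0
  | succ n ih => exact (hA _).inter (hπ n ih)

theorem mem_cylB_iff {π : ∀ j, E (j + 1) → E j} {A : ∀ j, Set (E j)} {x : ∀ j, E j}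
    (hx : ∀ j, π j (x (j + 1)) = x j) (n : ℕ) :
    x n ∈ cylB π A n ↔ ∀ i ≤ n, x i ∈ A i := by
  induction n with
  | zero =>
    constructor
    · intro h i hi
      obtain rfl : i = 0 := by omega
      exact h
    · intro h
      exact h 0 le_rfl
  | succ n ih =>
    constructor
    · rintro ⟨h1, h2⟩ i hi
      rw [mem_preimage, hx n] at h2
      rcases Nat.lt_or_ge i (n + 1) with h | h
      · exact (ih.1 h2) i (by omega)
      · obtain rfl : i = n + 1 := by omega
        exact h1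
    · intro h
      refine ⟨h _ le_rfl, ?_⟩
      rw [mem_preimage, hx n]
      exact ih.2 fun i hi => h i (by omega)

variable {μ : ∀ j, Measure (E j)} {π : ∀ j, E (j + 1) → E j} {ν ν' : Measure (∀ j, E j)}

theorem IsTower.ae_comp (h : IsTower μ π ν) : ∀ᵐ x ∂ν, ∀ j, π j (x (j + 1)) = x j :=
  ae_all_iff.2 h.comp

theorem IsTower.isProb [∀ j, IsProbabilityMeasure (μ j)] (h : IsTower μ π ν) :
    IsProbabilityMeasure ν := by
  constructor
  have := (h.marg 0).measure_preimage (s := univ) MeasurableSet.univ.nullMeasurableSet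
  rw [preimage_univ] at this
  rw [this]
  exact measure_univ

/-- A cylinder set in the coordinates `≤ n` is a.e. a set in the coordinate `n`. -/
theorem IsTower.cyl_ae_eq (h : IsTower μ π ν) (A : ∀ j, Set (E j)) (n : ℕ) :
    {x : ∀ j, E j | ∀ i ≤ n, x i ∈ A i} =ᵐ[ν] (fun x : ∀ j, E j => x n) ⁻¹' cylB π A n := by
  filter_upwards [h.ae_comp] with x hx
  exact propext (mem_cylB_iff hx n).symm

theorem IsTower.measure_cyl (h : IsTower μ π ν) (hπ : ∀ j, Measurable (π j))
    {A : ∀ j, Set (E j)} (hA : ∀ j, MeasurableSet (A j)) (n : ℕ) :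
    ν {x | ∀ i ≤ n, x i ∈ A i} = μ n (cylB π A n) := by
  rw [← (h.marg n).measure_preimage (measurableSet_cylB hπ hA n).nullMeasurableSet]
  exact measure_congr (h.cyl_ae_eq A n)

/-- The inverse limit is unique. -/
theorem IsTower.unique [∀ j, IsProbabilityMeasure (μ j)] (hπ : ∀ j, Measurable (π j))
    (h : IsTower μ π ν) (h' : IsTower μ π ν') : ν = ν' := by
  have hp : IsProbabilityMeasure ν := h.isProb
  have hp' : IsProbabilityMeasure ν' := h'.isProb
  refine MeasureTheory.ext_of_generate_finite _ generateFrom_squareCylinders.symm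
    (isPiSystem_squareCylinders (fun _ ↦ MeasurableSpace.isPiSystem_measurableSet) (by simp)) ?_ (by simp)
  rintro s ⟨I, t, ht, rfl⟩
  classical
  let A : ∀ j, Set (E j) := fun j => if j ∈ I then t j else univ
  have hA' : ∀ i, MeasurableSet (A i) := by
    intro i
    by_cases hi : i ∈ I
    · simp only [A, hi, if_true]
      exact ht i (mem_univ i)
    · simp only [A, hi, if_false, MeasurableSet.univ]
  have e : ((I : Set ℕ).pi t : Set (∀ j, E j)) = {x | ∀ i ≤ I.sup id, x i ∈ A i} := by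
    ext x
    simp only [Set.mem_pi, Finset.mem_coe, Set.mem_ofPred_eq, A]
    constructor
    · intro hx i _
      by_cases hi : i ∈ I
      · simp only [hi, if_true]; exact hx i hi
      · simp only [hi, if_false, mem_univ]
    · intro hx i hi
      have := hx i (Finset.le_sup (f := id) hi)
      have hi' : i ∈ I := hi
      simpa only [hi', if_true] using this
  rw [e, h.measure_cyl hπ hA', h'.measure_cyl hπ hA']

/-- Maps of towers: if each `T j` preserves `μ j → μ' j` and commutes a.e. with the projections,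
then the product map sends the tower measure to the tower measure. -/
theorem IsTower.map {E' : ℕ → Type u} [∀ j, MeasurableSpace (E' j)]
    {μ' : ∀ j, Measure (E' j)} {π' : ∀ j, E' (j + 1) → E' j} (hπ : ∀ j, Measurable (π' j))
    [∀ j, MeasurableEq (E' j)]
    (h : IsTower μ π ν) {T : ∀ j, E j → E' j} (hT : ∀ j, MeasurePreserving (T j) (μ j) (μ' j))
    (hc : ∀ j, ∀ᵐ x ∂(μ (j + 1)), π' j (T (j + 1) x) = T j (π j x)) :
    IsTower μ' π' (ν.map (fun x j => T j (x j))) := by
  have hm : Measurable (fun (x : ∀ j, E j) j => T j (x j)) :=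
    measurable_pi_iff.2 fun j => (hT j).measurable.comp (measurable_pi_apply j)
  constructor
  · intro j
    refine ⟨measurable_pi_apply j, ?_⟩
    rw [Measure.map_map (measurable_pi_apply j) hm, ← (hT j).map_eq, ← (h.marg j).map_eq,
      Measure.map_map (hT j).measurable (measurable_pi_apply j)]
    rfl
  · intro j
    rw [ae_map_iff hm.aemeasurable]
    · filter_upwards [h.comp j, (h.marg (j + 1)).quasiMeasurePreserving.ae (hc j)] with x hx hx'
      rw [hx', hx]
    · exact measurableSet_eq_fun ((hπ j).comp (measurable_pi_apply _)) (measurable_pi_apply _)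

/-- A measure preserving automorphism of the tower gives a measure preserving automorphism of
the inverse limit. -/
theorem IsTower.measurePreserving [∀ j, IsProbabilityMeasure (μ j)] [∀ j, MeasurableEq (E j)]
    (hπ : ∀ j, Measurable (π j))
    (h : IsTower μ π ν) {T : ∀ j, E j → E j} (hT : ∀ j, MeasurePreserving (T j) (μ j) (μ j))
    (hc : ∀ j, ∀ᵐ x ∂(μ (j + 1)), π j (T (j + 1) x) = T j (π j x)) :
    MeasurePreserving (fun (x : ∀ j, E j) j => T j (x j)) ν ν := by
  refine ⟨measurable_pi_iff.2 fun j => (hT j).measurable.comp (measurable_pi_apply j), ?_⟩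
  exact (h.map hπ hT hc).unique hπ h

end Tower

section Existence

variable {E : ℕ → Type u} [∀ j, MeasurableSpace (E j)] [∀ j, StandardBorelSpace (E j)]
  (μ : ∀ j, Measure (E j)) [∀ j, IsProbabilityMeasure (μ j)] (π : ∀ j, E (j + 1) → E j)

theorem compProd_comap_map {α β γ : Type*} [MeasurableSpace α] [MeasurableSpace β]
    [MeasurableSpace γ] (ρ : Measure α) [IsFiniteMeasure ρ] (f : α → β) (hf : Measurable f)
    (κ : Kernel β γ) [IsMarkovKernel κ] :
    (ρ ⊗ₘ (κ.comap f hf)).map (Prod.map f id) = (ρ.map f) ⊗ₘ κ := by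
  have : IsFiniteMeasure (ρ.map f) := inferInstance
  ext s hs
  rw [Measure.map_apply (by fun_prop) hs, Measure.compProd_apply (by measurability),
    Measure.compProd_apply hs, lintegral_map (Kernel.measurable_kernel_prodMk_left hs) hf]
  rfl

open ProbabilityTheory.Kernel in
/-- Existence of the inverse limit (Ionescu-Tulcea). -/
theorem exists_isTower (hπ : ∀ j, MeasurePreserving (π j) (μ (j + 1)) (μ j)) :
    ∃ ν : Measure (∀ j, E j), IsProbabilityMeasure ν ∧ IsTower μ π ν := by
  have hne : ∀ j, Nonempty (E j) := fun j => (μ j).nonempty_of_neZero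
  let κ : (n : ℕ) → Kernel (Π i : Finset.Iic n, E i) (E (n + 1)) := fun n =>
    (condDistrib id (π n) (μ (n + 1))).comap (fun x => x ⟨n, by simp⟩) (measurable_pi_apply _)
  let ν := trajMeasure (μ 0) κ
  have hp : IsProbabilityMeasure ν := inferInstance
  have key : ∀ n, ν.map (fun x => (x n, x (n + 1))) =
      (ν.map (fun x => x n)) ⊗ₘ condDistrib id (π n) (μ (n + 1)) := by
    intro n
    have h := map_frestrictLe_trajMeasure_compProd_eq_map_trajMeasure (μ₀ := μ 0) (κ := κ) (a := n)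
    have h2 := congrArg
      (fun m => m.map (Prod.map (fun x : (Π i : Finset.Iic n, E i) => x ⟨n, by simp⟩) id)) h
    simp only at h2
    rw [Measure.map_map (by fun_prop) (by fun_prop)] at h2
    have e1 : (Prod.map (fun x : (Π i : Finset.Iic n, E i) => x ⟨n, by simp⟩) id) ∘
      (fun x : (∀ j, E j) ↦ (Preorder.frestrictLe n x, x (n + 1))) = fun x => (x n, x (n + 1)) := rfl
    rw [e1] at h2
    rw [← h2]
    have h3 := compProd_comap_map (ν.map (Preorder.frestrictLe n))
      (fun x : (Π i : Finset.Iic n, E i) => x ⟨n, by simp⟩) (measurable_pi_apply _)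
      (condDistrib id (π n) (μ (n + 1)))
    rw [Measure.map_map (measurable_pi_apply _) (by fun_prop)] at h3
    exact h3
  have hcd : ∀ n, (μ n) ⊗ₘ condDistrib id (π n) (μ (n + 1)) =
      (μ (n + 1)).map (fun x => (π n x, x)) := by
    intro n
    have := compProd_map_condDistrib (mβ := inferInstance) (μ := μ (n + 1)) (X := π n) (Y := id)
      measurable_id.aemeasurable
    rw [(hπ n).map_eq] at this
    exact this
  have marg : ∀ n, ν.map (fun x => x n) = μ n := by
    intro n
    induction n with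
    | zero =>
      have : ν.map (fun x => x 0) = (ν.map (Preorder.frestrictLe 0)).map
          (fun x : (Π i : Finset.Iic 0, E i) => x ⟨0, by simp⟩) := by
        rw [Measure.map_map (measurable_pi_apply _) (by fun_prop)]
        rfl
      rw [this]
      let e : E 0 → (Π i : Finset.Iic 0, E i) := (MeasurableEquiv.piUnique
        (fun i : Finset.Iic 0 ↦ E i)).symm
      have he : Measurable e := (MeasurableEquiv.piUnique (fun i : Finset.Iic 0 ↦ E i)).symm.measurable
      have hν : ν = (traj κ 0) ∘ₘ ((μ 0).map e) := rfl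
      rw [hν, Measure.map_comp _ _ (by fun_prop), traj_map_frestrictLe, partialTraj_self,
          Measure.id_comp, Measure.map_map (measurable_pi_apply _) he]
      exact Measure.map_id
    | succ n ih =>
      have h1 : ν.map (fun x => x (n + 1)) = (ν.map (fun x => (x n, x (n + 1)))).map Prod.snd := by
        rw [Measure.map_map measurable_snd (by fun_prop)]
        rfl
      have hm : Measurable (fun x => (π n x, x)) := (hπ n).measurable.prodMk measurable_id
      rw [h1, key n, ih, hcd n, Measure.map_map measurable_snd hm]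
      exact Measure.map_id
  refine ⟨ν, hp, fun n => ⟨measurable_pi_apply n, marg n⟩, fun n => ?_⟩
  have h1 := key n
  rw [marg n, hcd n] at h1
  have h2 : ∀ᵐ p ∂(ν.map (fun x => (x n, x (n + 1)))), π n p.2 = p.1 := by
    have hm : Measurable (fun x => (π n x, x)) := (hπ n).measurable.prodMk measurable_id
    rw [h1, ae_map_iff hm.aemeasurable]
    · exact ae_of_all _ fun x => rfl
    · exact measurableSet_eq_fun ((hπ n).measurable.comp measurable_snd) measurable_fst
  rw [ae_map_iff (by fun_prop)] at h2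
  · exact h2
  · exact measurableSet_eq_fun ((hπ n).measurable.comp measurable_snd) measurable_fst

end Existence

end Crest.Agent.R069
end

-- ▼ part R069/SatLim
section

/-!
# Unions of chains of pairs (row 69, node SAT)
-/

set_option autoImplicit false

open MeasureTheory Filter Set ProbabilityTheory
open scoped ENNReal Topology

namespace Crest.Agent.R069

section nul

variable {α : Type*}

theorem nul_le {mα : MeasurableSpace α} {μ : Measure α} : nul μ ≤ mα := fun _ h => h.1


/-- description of the completed sigma-algebra. -/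
theorem measurableSet_sup_nul_iff {m mα : MeasurableSpace α} {μ : Measure α} (hm : m ≤ mα)
    {A : Set α} :
    MeasurableSet[m ⊔ nul μ] A ↔ MeasurableSet A ∧ ∃ B, MeasurableSet[m] B ∧ A =ᵐ[μ] B := by
  constructor
  · intro h
    refine ⟨(sup_le hm nul_le) _ h, ?_⟩
    have h1 : m ⊔ nul μ ≤ eventuallyMeasurableSpace m (ae μ) := by
      refine sup_le (fun B hB => ⟨B, hB, Filter.EventuallyEq.rfl⟩) ?_
      rintro B ⟨hB, hB2⟩
      rcases hB2 with h0 | h0
      · exact ⟨∅, @MeasurableSet.empty _ m, by rwa [ae_eq_empty]⟩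
      · exact ⟨univ, @MeasurableSet.univ _ m, by rwa [ae_eq_univ]⟩
    obtain ⟨B, hB, hAB⟩ := h1 _ h
    exact ⟨B, hB, hAB⟩
  · rintro ⟨hA, B, hB, hAB⟩
    have hBm := hm _ hB
    have e : A = (B \ (B \ A)) ∪ (A \ B) := by
      ext x; simp only [mem_union, Set.mem_diff]; tauto
    have n1 : MeasurableSet[nul μ] (B \ A) :=
      ⟨hBm.diff hA, Or.inl (ae_le_set.1 hAB.symm.le)⟩
    have n2 : MeasurableSet[nul μ] (A \ B) :=
      ⟨hA.diff hBm, Or.inl (ae_le_set.1 hAB.le)⟩
    rw [e]
    have l1 : m ≤ m ⊔ nul μ := le_sup_left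
    have l2 : nul μ ≤ m ⊔ nul μ := le_sup_right
    exact @MeasurableSet.union _ (m ⊔ nul μ) _ _
      (@MeasurableSet.diff _ (m ⊔ nul μ) _ _ (l1 _ hB) (l2 _ n1)) (l2 _ n2)


theorem indep_sup_nul {m1 m2 mα : MeasurableSpace α} {μ : Measure α} (h2 : m2 ≤ mα)
    (h : Indep m1 m2 μ) : Indep m1 (m2 ⊔ nul μ) μ := by
  rw [Indep_iff] at h ⊢
  intro A B hA hB
  obtain ⟨hB1, B', hB', hBB⟩ := (measurableSet_sup_nul_iff h2).1 hB
  have e1 : μ (A ∩ B) = μ (A ∩ B') :=
    measure_congr ((Filter.EventuallyEq.refl _ A).inter hBB)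
  rw [e1, measure_congr hBB, h A B' hA hB']

/-- Independence only depends on sets up to null sets. -/
theorem indep_of_ae_sets {m1 m2 m1' mα : MeasurableSpace α} {μ : Measure α} (h : Indep m1' m2 μ)
    (hsub : ∀ A, MeasurableSet[m1] A → ∃ A', MeasurableSet[m1'] A' ∧ A =ᵐ[μ] A') :
    Indep m1 m2 μ := by
  rw [Indep_iff] at h ⊢
  intro A B hA hB
  obtain ⟨A', hA', hAA⟩ := hsub A hA
  have e1 : μ (A ∩ B) = μ (A' ∩ B) :=
    measure_congr (hAA.inter (Filter.EventuallyEq.refl _ B))
  rw [e1, measure_congr hAA, h A' B hA' hB]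

theorem comap_nul_le {β : Type*} {mα : MeasurableSpace α} {μ : Measure α}
    {mβ : MeasurableSpace β} {ν : Measure β} {f : α → β}
    (hf : MeasurePreserving f μ ν) : (nul ν).comap f ≤ nul μ := by
  rintro _ ⟨A, hA, rfl⟩
  refine ⟨hf.measurable hA.1, ?_⟩
  rw [hf.measure_preimage hA.1.nullMeasurableSet, ← preimage_compl,
    hf.measure_preimage hA.1.compl.nullMeasurableSet]
  exact hA.2

end nul

section lim

variable {X : Sys} (p : ℕ → Pair X) [hsb : ∀ n, StandardBorelSpace (p n).Ω]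
  (f : ∀ n, Ext (p n) (p (n + 1)))

/-- the law of the union of the chain. -/
noncomputable def limMeas : Measure (∀ n, (p n).Ω) :=
  (exists_isTower (fun n => (p n).μ) (fun n => (f n).f) (fun n => (f n).f_mp)).choose

instance limMeas_prob : IsProbabilityMeasure (limMeas p f) :=
  (exists_isTower (fun n => (p n).μ) (fun n => (f n).f) (fun n => (f n).f_mp)).choose_spec.1

theorem limMeas_isTower :
    IsTower (fun n => (p n).μ) (fun n => (f n).f) (limMeas p f) :=
  (exists_isTower (fun n => (p n).μ) (fun n => (f n).f) (fun n => (f n).f_mp)).choose_spec.2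

theorem lim_eval_mp (n : ℕ) :
    MeasurePreserving (fun x : ∀ n, (p n).Ω => x n) (limMeas p f) (p n).μ :=
  (limMeas_isTower p f).marg n

theorem lim_S_mp (a : ℤ) :
    MeasurePreserving (fun (x : ∀ n, (p n).Ω) n => (p n).S a (x n)) (limMeas p f)
      (limMeas p f) :=
  (limMeas_isTower p f).measurePreserving (fun n => (f n).f_mp.measurable)
    (fun n => (p n).S_mp a) (fun n => (f n).f_S a)

theorem lim_π_ae (n : ℕ) :
    (fun x : ∀ n, (p n).Ω => (p 0).π (x 0)) =ᵐ[limMeas p f] fun x => (p n).π (x n) := by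
  induction n with
  | zero => exact Filter.EventuallyEq.rfl
  | succ n ih =>
    have h1 := (lim_eval_mp p f (n + 1)).quasiMeasurePreserving.ae (f n).f_π
    have h2 := (limMeas_isTower p f).comp n
    filter_upwards [ih, h1, h2] with x e1 e2 e3
    rw [e1]
    simp only [Function.comp_apply] at e2
    rw [e2, e3]

/-- the environment of the union at stage `n`. -/
@[implicit_reducible]
noncomputable def limC (n : ℕ) : MeasurableSpace (∀ n, (p n).Ω) :=
  (p n).C.comap (fun x => x n) ⊔ nul (limMeas p f)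

theorem limC_le (n : ℕ) : limC p f n ≤ MeasurableSpace.pi := by
  refine sup_le ?_ nul_le
  rintro _ ⟨A, hA, rfl⟩
  exact measurable_pi_apply n ((p n).C_le _ hA)

theorem comap_eval_C_le (n : ℕ) :
    (p n).C.comap (fun x : ∀ n, (p n).Ω => x n) ≤ MeasurableSpace.pi := by
  rintro _ ⟨A, hA, rfl⟩
  exact measurable_pi_apply n ((p n).C_le _ hA)

theorem limC_mono : Monotone (limC p f) := by
  apply monotone_nat_of_le_succ
  intro n
  refine sup_le ?_ le_sup_right
  rintro _ ⟨A, hA, rfl⟩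
  refine (measurableSet_sup_nul_iff (comap_eval_C_le p (n + 1))).2
    ⟨comap_eval_C_le p n _ ⟨A, hA, rfl⟩, ?_⟩
  refine ⟨(fun x : ∀ n, (p n).Ω => x (n + 1)) ⁻¹' ((f n).f ⁻¹' A),
    ⟨_, (f n).f_C _ ⟨A, hA, rfl⟩, rfl⟩, ?_⟩
  filter_upwards [(limMeas_isTower p f).comp n] with x hx
  show (x n ∈ A) = ((f n).f (x (n + 1)) ∈ A)
  rw [hx]

theorem lim_indep (n : ℕ) :
    Indep (X.ms.comap (fun x : ∀ n, (p n).Ω => (p 0).π (x 0))) (limC p f n)
      (limMeas p f) := by
  apply indep_sup_nul (comap_eval_C_le p n)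
  have h1 : Indep (X.ms.comap (fun x : ∀ n, (p n).Ω => (p n).π (x n)))
      ((p n).C.comap (fun x : ∀ n, (p n).Ω => x n)) (limMeas p f) := by
    rw [Indep_iff]
    rintro _ _ ⟨A, hA, rfl⟩ ⟨B, hB, rfl⟩
    have h := (Indep_iff _ _ _).1 (p n).indep _ B ⟨A, hA, rfl⟩ hB
    have hm : MeasurableSet ((p n).π ⁻¹' A) := (p n).π_mp.measurable hA
    have hB' := (p n).C_le _ hB
    have e1 : (fun x : ∀ n, (p n).Ω => (p n).π (x n)) ⁻¹' A
        = (fun x : ∀ n, (p n).Ω => x n) ⁻¹' ((p n).π ⁻¹' A) := rfl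
    rw [e1, ← preimage_inter,
      (lim_eval_mp p f n).measure_preimage (hm.inter hB').nullMeasurableSet,
      (lim_eval_mp p f n).measure_preimage hm.nullMeasurableSet,
      (lim_eval_mp p f n).measure_preimage hB'.nullMeasurableSet]
    exact h
  refine indep_of_ae_sets h1 ?_
  rintro _ ⟨A, hA, rfl⟩
  refine ⟨_, ⟨A, hA, rfl⟩, ?_⟩
  filter_upwards [lim_π_ae p f n] with x hx
  show ((p 0).π (x 0) ∈ A) = ((p n).π (x n) ∈ A)
  rw [hx]

/-- **The union of a chain of standard Borel pairs.** -/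
noncomputable def limPair : Pair X where
  Ω := ∀ n, (p n).Ω
  ms := MeasurableSpace.pi
  μ := limMeas p f
  pr := limMeas_prob p f
  S a x n := (p n).S a (x n)
  S_zero x := by funext n; exact (p n).S_zero _
  S_add a b x := by funext n; exact (p n).S_add _ _ _
  S_mp a := lim_S_mp p f a
  π x := (p 0).π (x 0)
  π_mp := (p 0).π_mp.comp (lim_eval_mp p f 0)
  π_S a := (lim_eval_mp p f 0).quasiMeasurePreserving.ae ((p 0).π_S a)
  C := ⨆ n, limC p f n
  C_le := iSup_le (limC_le p f)
  C_nul := le_trans le_sup_right (le_iSup (limC p f) 0)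
  C_S a := by
    rw [measurable_iff_comap_le, MeasurableSpace.comap_iSup]
    refine iSup_mono fun n => ?_
    rw [limC, MeasurableSpace.comap_sup]
    refine sup_le_sup ?_ (comap_nul_le (lim_S_mp p f a))
    rintro _ ⟨_, ⟨A, hA, rfl⟩, rfl⟩
    exact ⟨(p n).S a ⁻¹' A, (p n).C_S a hA, rfl⟩
  indep := by
    have h := indep_iSup_of_monotone (μ := limMeas p f)
      (m := limC p f) (m1 := X.ms.comap (fun x : ∀ n, (p n).Ω => (p 0).π (x 0)))
      (fun n => (lim_indep p f n).symm) (limC_le p f) ?_ (limC_mono p f)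
    · exact h.symm
    · rintro _ ⟨A, hA, rfl⟩
      exact ((p 0).π_mp.measurable.comp (measurable_pi_apply 0)) hA

/-- the union extends every member of the chain. -/
noncomputable def limExt (n : ℕ) : Ext (p n) (limPair p f) where
  f := fun x => x n
  f_mp := lim_eval_mp p f n
  f_S a := Filter.EventuallyEq.rfl
  f_π := lim_π_ae p f n
  f_C := le_trans le_sup_left (le_iSup (limC p f) n)

instance limPair_sb : StandardBorelSpace (limPair p f).Ω := by
  change StandardBorelSpace (∀ n, (p n).Ω)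
  infer_instance

end lim

end Crest.Agent.R069
end

-- ▼ part R069/SatDense
section

/-!
# Density of the pulled back `L²` functions in a tower (row 69, node SAT)
-/

set_option autoImplicit false

open MeasureTheory Filter Set ProbabilityTheory
open scoped ENNReal Topology InnerProductSpace

namespace Crest.Agent.R069

universe u

variable {E : ℕ → Type u} [∀ j, MeasurableSpace (E j)]
variable {μ : ∀ j, Measure (E j)} {π : ∀ j, E (j + 1) → E j} {ν : Measure (∀ j, E j)}

/-- pull back of `L²` functions along the coordinate `n` of a tower. -/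
noncomputable def towerPull (h : IsTower μ π ν) (n : ℕ) : Lp ℝ 2 (μ n) →ₗ[ℝ] Lp ℝ 2 ν :=
  Lp.compMeasurePreservingₗ ℝ (fun x : ∀ j, E j => x n) (h.marg n)

theorem towerPull_apply (h : IsTower μ π ν) (n : ℕ) (g : Lp ℝ 2 (μ n)) :
    towerPull h n g = Lp.compMeasurePreserving (fun x : ∀ j, E j => x n) (h.marg n) g := rfl

theorem coeFn_towerPull (h : IsTower μ π ν) (n : ℕ) (g : Lp ℝ 2 (μ n)) :
    towerPull h n g =ᵐ[ν] fun x => g (x n) := Lp.coeFn_compMeasurePreserving g (h.marg n)

theorem towerPull_mono (hπ : ∀ j, MeasurePreserving (π j) (μ (j + 1)) (μ j))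
    (h : IsTower μ π ν) : Monotone (fun n => LinearMap.range (towerPull h n)) := by
  apply monotone_nat_of_le_succ
  rintro n _ ⟨g, rfl⟩
  refine ⟨Lp.compMeasurePreserving (π n) (hπ n) g, ?_⟩
  apply Lp.ext
  have h1 := coeFn_towerPull h n g
  have h2 := coeFn_towerPull h (n + 1) (Lp.compMeasurePreserving (π n) (hπ n) g)
  have h3 := (h.marg (n + 1)).quasiMeasurePreserving.ae
    (Lp.coeFn_compMeasurePreserving g (hπ n))
  filter_upwards [h1, h2, h3, h.comp n] with x e1 e2 e3 e4
  rw [e1, e2, e3, Function.comp_apply, e4]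

/-- **Density.** -/
theorem dense_towerPull [∀ j, IsProbabilityMeasure (μ j)]
    (hπ : ∀ j, MeasurePreserving (π j) (μ (j + 1)) (μ j))
    (h : IsTower μ π ν) : Dense (⋃ n, Set.range (towerPull h n)) := by
  have hp : IsProbabilityMeasure ν := h.isProb
  have hmono := towerPull_mono hπ h
  have hset : (⋃ n, Set.range (towerPull h n)) =
      ((⨆ n, LinearMap.range (towerPull h n) : Submodule ℝ (Lp ℝ 2 ν)) : Set (Lp ℝ 2 ν)) := by
    rw [Submodule.coe_iSup_of_directed _ hmono.directed_le]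
    simp only [LinearMap.coe_range]
  rw [hset, Submodule.dense_iff_topologicalClosure_eq_top, Submodule.topologicalClosure_eq_top_iff,
    Submodule.eq_bot_iff]
  intro g hg
  rw [Submodule.mem_orthogonal] at hg
  have hint : Integrable g ν := (Lp.memLp g).integrable (by norm_num)
  -- integrals over pulled back sets vanish
  have h1 : ∀ (n : ℕ) (A : Set (E n)), MeasurableSet A →
      ∫ x in (fun x : ∀ j, E j => x n) ⁻¹' A, g x ∂ν = 0 := by
    intro n A hA
    have hA' : MeasurableSet ((fun x : ∀ j, E j => x n) ⁻¹' A) := measurable_pi_apply n hA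
    have e := hg (towerPull h n (indicatorConstLp 2 hA (measure_ne_top _ _) (1 : ℝ)))
      (le_iSup (fun n => LinearMap.range (towerPull h n)) n ⟨_, rfl⟩)
    have e2 : towerPull h n (indicatorConstLp 2 hA (measure_ne_top _ _) (1 : ℝ))
        = indicatorConstLp 2 hA' (measure_ne_top _ _) (1 : ℝ) := by
      rw [towerPull_apply]
      exact Lp.indicatorConstLp_compMeasurePreserving hA (measure_ne_top _ _) (1 : ℝ) (h.marg n)
    rw [e2, L2.inner_indicatorConstLp_one] at e
    exact e
  have h2 : ∀ B : Set (∀ j, E j), MeasurableSet B → ∫ x in B, g x ∂ν = 0 := by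
    intro B hB
    induction B, hB using MeasurableSpace.induction_on_inter
      (generateFrom_squareCylinders (α := E)).symm
      (isPiSystem_squareCylinders (fun _ ↦ MeasurableSpace.isPiSystem_measurableSet) (by simp)) with
    | empty => simp
    | basic s hs =>
      obtain ⟨I, t, ht, rfl⟩ := hs
      classical
      let A : ∀ j, Set (E j) := fun j => if j ∈ I then t j else univ
      have hA' : ∀ i, MeasurableSet (A i) := by
        intro i
        by_cases hi : i ∈ I
        · simp only [A, hi, if_true]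
          exact ht i (mem_univ i)
        · simp only [A, hi, if_false, MeasurableSet.univ]
      have e : ((I : Set ℕ).pi t : Set (∀ j, E j)) = {x | ∀ i ≤ I.sup id, x i ∈ A i} := by
        ext x
        simp only [Set.mem_pi, Finset.mem_coe, Set.mem_ofPred_eq, A]
        constructor
        · intro hx i _
          by_cases hi : i ∈ I
          · simp only [hi, if_true]; exact hx i hi
          · simp only [hi, if_false, mem_univ]
        · intro hx i hi
          have := hx i (Finset.le_sup (f := id) hi)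
          have hi' : i ∈ I := hi
          simpa only [hi', if_true] using this
      rw [e, setIntegral_congr_set (h.cyl_ae_eq A (I.sup id))]
      exact h1 _ _ (measurableSet_cylB (fun j => (hπ j).measurable) hA' _)
    | compl s hs ih =>
      have hu := h1 0 univ MeasurableSet.univ
      rw [preimage_univ, setIntegral_univ] at hu
      have := integral_add_compl hs hint
      rw [ih, hu, zero_add] at this
      exact this
    | iUnion s hd hs ih =>
      rw [integral_iUnion hs hd hint.integrableOn]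
      simp [ih]
  have h3 : g =ᵐ[ν] 0 := ae_eq_zero_of_forall_setIntegral_eq_of_sigmaFinite
    (fun s _ _ => hint.integrableOn) (fun s hs _ => h2 s hs)
  exact Lp.eq_zero_iff_ae_eq_zero.2 h3

/-- **Density of sets**: every measurable set of the inverse limit is approximated by sets
pulled back from a coordinate. -/
theorem exists_measure_symmDiff_tower_lt [∀ j, IsProbabilityMeasure (μ j)]
    (hπ : ∀ j, MeasurePreserving (π j) (μ (j + 1)) (μ j))
    (h : IsTower μ π ν) {A : Set (∀ j, E j)} (hA : MeasurableSet A) {ε : ℝ≥0∞} (hε : ε ≠ 0) :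
    ∃ (n : ℕ) (B : Set (E n)), MeasurableSet B ∧
      ν (symmDiff A ((fun x : ∀ j, E j => x n) ⁻¹' B)) < ε := by
  have hp : IsProbabilityMeasure ν := h.isProb
  obtain ⟨δ, hδ0, hδ⟩ : ∃ δ : ℝ, 0 < δ ∧ ENNReal.ofReal (4 * δ ^ 2) < ε := by
    have h1 : Tendsto (fun δ : ℝ => ENNReal.ofReal (4 * δ ^ 2)) (𝓝[>] 0) (𝓝 0) := by
      have : Tendsto (fun δ : ℝ => ENNReal.ofReal (4 * δ ^ 2)) (𝓝 0) (𝓝 0) := by
        have hc : Continuous (fun δ : ℝ => ENNReal.ofReal (4 * δ ^ 2)) :=
          ENNReal.continuous_ofReal.comp (by fun_prop)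
        have := hc.tendsto 0
        simpa using this
      exact this.mono_left nhdsWithin_le_nhds
    have h2 : ∀ᶠ δ : ℝ in 𝓝[>] 0, ENNReal.ofReal (4 * δ ^ 2) < ε :=
      h1.eventually (gt_mem_nhds (pos_iff_ne_zero.2 hε))
    obtain ⟨δ, hd1, hd2⟩ := (h2.and self_mem_nhdsWithin).exists
    exact ⟨δ, hd2, hd1⟩
  let F : Lp ℝ 2 ν := indicatorConstLp 2 hA (measure_ne_top _ _) (1 : ℝ)
  obtain ⟨G, hG, hFG⟩ := (dense_towerPull hπ h).exists_dist_lt F hδ0
  obtain ⟨n, g, rfl⟩ := mem_iUnion.1 hG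
  obtain ⟨g', hg'm, hg'⟩ := (Lp.aestronglyMeasurable g)
  have hg'M : Measurable g' := hg'm.measurable
  refine ⟨n, {x | 1 / 2 < g' x}, measurableSet_lt measurable_const hg'M, ?_⟩
  refine lt_of_le_of_lt ?_ hδ
  -- pointwise
  have e1 : F =ᵐ[ν] A.indicator (fun _ => (1 : ℝ)) := indicatorConstLp_coeFn
  have e2 := coeFn_towerPull h n g
  have e3 := (h.marg n).quasiMeasurePreserving.ae hg'
  have e4 : (⇑(F - towerPull h n g) : (∀ j, E j) → ℝ) =ᵐ[ν]
      fun x => A.indicator (fun _ => (1 : ℝ)) x - g' (x n) := by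
    filter_upwards [Lp.coeFn_sub F (towerPull h n g), e1, e2, e3] with x a1 a2 a3 a4
    rw [a1, Pi.sub_apply, a2, a3, a4]
  have hsub : symmDiff A ((fun x : ∀ j, E j => x n) ⁻¹' {x | 1 / 2 < g' x}) ⊆
      {x | (1 / 2 : ℝ) ≤ |A.indicator (fun _ => (1 : ℝ)) x - g' (x n)|} := by
    intro x hx
    rw [Set.mem_symmDiff] at hx
    simp only [mem_preimage, Set.mem_ofPred_eq] at hx ⊢
    rcases hx with ⟨hx1, hx2⟩ | ⟨hx1, hx2⟩
    · rw [indicator_of_mem hx1]
      have h0 : g' (x n) ≤ 1 / 2 := not_lt.1 hx2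
      exact le_trans (by linarith) (le_abs_self _)
    · rw [indicator_of_notMem hx2, zero_sub, abs_neg]
      exact le_trans hx1.le (le_abs_self _)
  have hms : AEStronglyMeasurable (⇑(F - towerPull h n g) : (∀ j, E j) → ℝ) ν :=
    Lp.aestronglyMeasurable _
  have hch := meas_ge_le_mul_pow_eLpNorm_enorm ν (p := 2) (by norm_num) (by norm_num) hms
    (ε := (1 / 2 : ℝ≥0∞)) (by norm_num) (by simp)
  calc ν (symmDiff A ((fun x : ∀ j, E j => x n) ⁻¹' {x | 1 / 2 < g' x}))
      ≤ ν {x | (1 / 2 : ℝ≥0∞) ≤ ‖(F - towerPull h n g : Lp ℝ 2 ν) x‖ₑ} := by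
        refine measure_mono_ae ?_
        filter_upwards [e4] with x hx hx2
        have := hsub hx2
        simp only [Set.mem_ofPred_eq] at this
        show (1 / 2 : ℝ≥0∞) ≤ _
        rw [hx, Real.enorm_eq_ofReal_abs]
        have e : (1 / 2 : ℝ≥0∞) = ENNReal.ofReal (1 / 2) := by
          rw [ENNReal.ofReal_div_of_pos (by norm_num)]; norm_num
        rw [e]
        exact ENNReal.ofReal_le_ofReal this
    _ ≤ _ := hch
    _ ≤ ENNReal.ofReal (4 * δ ^ 2) := by
        have hd : eLpNorm (⇑(F - towerPull h n g) : (∀ j, E j) → ℝ) 2 ν ≤ ENNReal.ofReal δ := by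
          rw [dist_eq_norm] at hFG
          rw [← Lp.enorm_def]
          rw [← ofReal_norm_eq_enorm]
          exact ENNReal.ofReal_le_ofReal hFG.le
        rw [ENNReal.ofReal_mul (by norm_num), ENNReal.ofReal_pow hδ0.le]
        norm_num
        gcongr
        exact hd

end Crest.Agent.R069
end

-- ▼ part R069/SatEx
section

/-!
# Existence of sated standard Borel pairs (row 69, node SAT)
-/

set_option autoImplicit false

open MeasureTheory Filter Set ProbabilityTheory TopologicalSpace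
open scoped ENNReal Topology symmDiff

namespace Crest.Agent.R069

open SatEn

variable {X : Sys}

/-- The identity extension. -/
def satRefl (P : Pair X) : Ext P P where
  f := id
  f_mp := MeasurePreserving.id _
  f_S _ := Filter.EventuallyEq.rfl
  f_π := Filter.EventuallyEq.rfl
  f_C := by rw [MeasurableSpace.comap_id]

/-- Composition of extensions. -/
def satTrans {P Q R : Pair X} (e : Ext P Q) (e' : Ext Q R) : Ext P R where
  f := e.f ∘ e'.f
  f_mp := e.f_mp.comp e'.f_mp
  f_S n := by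
    have h1 := e'.f_S n
    have h2 := e'.f_mp.quasiMeasurePreserving.ae (e.f_S n)
    filter_upwards [h1, h2] with x a b
    simp only [Function.comp_apply]
    rw [a, b]
  f_π := by
    have h2 := e'.f_mp.quasiMeasurePreserving.ae e.f_π
    filter_upwards [e'.f_π, h2] with x a b
    rw [a]; exact b
  f_C := by
    rw [← MeasurableSpace.comap_comp]
    exact (MeasurableSpace.comap_mono e.f_C).trans e'.f_C

theorem Ext.lb_mp {P Q : Pair X} (e : Ext P Q) : MeasurePreserving (Lb.mp e.f) (lb Q.μ) (lb P.μ) :=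
  measurePreserving_lbmap (fun _ => e.f_mp)

theorem siteA_le (M : Sys) (s : ℕ → ℤ) : siteA M s ≤ LL M.ms := by
  refine MeasurableSpace.generateFrom_le ?_
  rintro _ ⟨A, hA, rfl⟩
  exact measurableSet_intl (fun k => (M.S_mp (s k)).measurable hA)

theorem rest_le {ι : Type} (s : ι → ℕ → ℤ) (i : ι) (P : Pair X) : rest s i P ≤ LL P.ms := by
  refine sup_le (sup_le (iSup_le fun j => iSup_le fun _ => siteA_le _ _) (LL_mono P.C_le)) ?_
  exact nul_le

/-- the site sets of an extension. -/
theorem Ext.site_ae {P Q : Pair X} (e : Ext P Q) (s : ℕ → ℤ) (A : Set P.Ω) :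
    Lb.mp e.f ⁻¹' (intl (fun k => P.S (s k) ⁻¹' A)) =ᵐ[lb Q.μ]
      intl (fun k => Q.S (s k) ⁻¹' (e.f ⁻¹' A)) := by
  have h : ∀ k, (e.f ⁻¹' (P.S (s k) ⁻¹' A) : Set Q.Ω) =ᵐ[Q.μ] Q.S (s k) ⁻¹' (e.f ⁻¹' A) := by
    intro k
    filter_upwards [e.f_S (s k)] with x hx
    show (P.S (s k) (e.f x) ∈ A) = (e.f (Q.S (s k) x) ∈ A)
    rw [hx]
  have e1 := lbmap_preimage (fun _ => e.f) (fun k => P.S (s k) ⁻¹' A)
  have e2 := intl_ae_eq (μ := Q.μ) (A := fun k => e.f ⁻¹' (P.S (s k) ⁻¹' A))
    (B := fun k => Q.S (s k) ⁻¹' (e.f ⁻¹' A)) h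
  rw [← e1] at e2
  exact e2

theorem Ext.aele_site {P Q : Pair X} (e : Ext P Q) (s : ℕ → ℤ) :
    AELe (lb Q.μ) ((siteA P.toSys s).comap (Lb.mp e.f)) (siteA Q.toSys s) := by
  rw [siteA, MeasurableSpace.comap_generateFrom]
  refine AELe.generateFrom ?_
  rintro _ ⟨_, ⟨A, hA, rfl⟩, rfl⟩
  refine ⟨intl (fun k => Q.S (s k) ⁻¹' (e.f ⁻¹' A)), ?_, e.site_ae s A⟩
  exact MeasurableSpace.measurableSet_generateFrom ⟨e.f ⁻¹' A, e.f_mp.measurable hA, rfl⟩

/-- **The rest sigma-algebras grow under extensions** (mod null sets). -/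
theorem Ext.aele_rest {P Q : Pair X} {ι : Type} (e : Ext P Q) (s : ι → ℕ → ℤ) (i : ι) :
    AELe (lb Q.μ) ((rest s i P).comap (Lb.mp e.f)) (rest s i Q) := by
  rw [rest, rest, MeasurableSpace.comap_sup, MeasurableSpace.comap_sup]
  refine AELe.sup_sup (AELe.sup_sup ?_ ?_) ?_
  · rw [MeasurableSpace.comap_iSup]
    refine AELe.iSup fun j => ?_
    rw [MeasurableSpace.comap_iSup]
    refine AELe.iSup fun hj => ?_
    exact (e.aele_site (s j)).trans (AELe.of_le (le_iSup₂_of_le j hj le_rfl))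
  · refine AELe.of_le ?_
    have h1 : (LL P.C).comap (Lb.mp e.f) = LL (P.C.comap e.f) := comap_lbmap_LL e.f
    rw [h1]
    exact LL_mono e.f_C
  · exact AELe.of_le (comap_nul_le e.lb_mp)



theorem en0_mono {P Q : Pair X} (e : Ext P Q) {A : Set P.Ω} (hA : MeasurableSet A) :
    en0 P A ≤ en0 Q (e.f ⁻¹' A) :=
  enS_mono_map e.f_mp P.C_le Q.C_le (AELe.of_le e.f_C) hA

theorem measurableSet_site (P : Pair X) (s : ℕ → ℤ) {A : Set P.Ω} (hA : MeasurableSet A) :
    MeasurableSet (intl (fun k => P.S (s k) ⁻¹' A)) :=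
  measurableSet_intl (fun k => (P.S_mp (s k)).measurable hA)

theorem en1_ext {P Q : Pair X} {ι : Type} (e : Ext P Q) (s : ι → ℕ → ℤ) (i : ι) (A : Set P.Ω) :
    en1 s i Q (e.f ⁻¹' A) =
      enS (lb Q.μ) (rest s i Q) (Lb.mp e.f ⁻¹' (intl (fun k => P.S (s i k) ⁻¹' A))) :=
  enS_congr (e.site_ae (s i) A).symm

theorem en1_mono {P Q : Pair X} {ι : Type} (e : Ext P Q) (s : ι → ℕ → ℤ) (i : ι) {A : Set P.Ω}
    (hA : MeasurableSet A) : en1 s i P A ≤ en1 s i Q (e.f ⁻¹' A) := by
  rw [en1_ext]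
  exact enS_mono_map e.lb_mp (rest_le s i P) (rest_le s i Q) (e.aele_rest s i)
    (measurableSet_site P (s i) hA)

theorem lb_site (P : Pair X) (s : ℕ → ℤ) {A : Set P.Ω} (hA : MeasurableSet A) :
    lb P.μ (intl (fun k => P.S (s k) ⁻¹' A)) = P.μ A := by
  rw [lb_intl P.μ (fun k => (P.S_mp (s k)).measurable hA)]
  apply ulim_eq
  have h : ∀ k, P.μ (P.S (s k) ⁻¹' A) = P.μ A := fun k =>
    (P.S_mp (s k)).measure_preimage hA.nullMeasurableSet
  simp_rw [h]
  exact tendsto_const_nhds

/-- the energies. -/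
noncomputable def enO {ι : Type} (s : ι → ℕ → ℤ) : Option ι → ∀ P : Pair X, Set P.Ω → ℝ
  | none, P, A => en0 P A
  | some i, P, A => en1 s i P A

theorem enO_mono {P Q : Pair X} {ι : Type} (e : Ext P Q) (s : ι → ℕ → ℤ) (i : Option ι)
    {A : Set P.Ω} (hA : MeasurableSet A) : enO s i P A ≤ enO s i Q (e.f ⁻¹' A) := by
  cases i with
  | none => exact en0_mono e hA
  | some i => exact en1_mono e s i hA

theorem enO_le_one {ι : Type} (s : ι → ℕ → ℤ) (i : Option ι) (P : Pair X) {A : Set P.Ω}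
    (hA : MeasurableSet A) : enO s i P A ≤ 1 := by
  cases i with
  | none => exact enS_le_one P.C_le hA
  | some i => exact enS_le_one (rest_le s i P) (measurableSet_site P (s i) hA)

theorem enO_cont {ι : Type} (s : ι → ℕ → ℤ) (i : Option ι) (P : Pair X) :
    Continuous (fun A : MeasuredSets P.μ => enO s i P A) := by
  cases i with
  | none => exact continuous_enS P.C_le (fun A => A) (fun A hA => hA) (fun A B _ _ => le_rfl)
  | some i =>
    refine continuous_enS (μ := P.μ) (μ' := lb P.μ) (rest_le s i P)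
      (fun A => intl (fun k => P.S (s i k) ⁻¹' A))
      (fun A hA => measurableSet_site P (s i) hA) (fun A B hA hB => ?_)
    have e : intl (fun k => P.S (s i k) ⁻¹' A) ∆ intl (fun k => P.S (s i k) ⁻¹' B)
        = intl (fun k => P.S (s i k) ⁻¹' (A ∆ B)) := by
      rw [Set.symmDiff_def, ← intl_diff, ← intl_diff, ← intl_union]
      rfl
    rw [e]
    unfold Measure.real
    rw [lb_site P (s i) (hA.symmDiff hB)]

/-- Standard Borel pairs. -/
def SPair (X : Sys) : Type 1 := {P : Pair X // StandardBorelSpace P.Ω}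

instance (P : SPair X) : StandardBorelSpace P.1.Ω := P.2

/-- tests: measured sets modulo null sets. -/
abbrev Tst (P : Pair X) : Type := SeparationQuotient (MeasuredSets P.μ)

/-- pull-back of tests. -/
noncomputable def Tst.pull {P Q : Pair X} (e : Ext P Q) : Tst P → Tst Q :=
  SeparationQuotient.lift (fun A => SeparationQuotient.mk (pullS e.f_mp A)) (by
    intro A B h
    exact SeparationQuotient.mk_eq_mk.2 (h.map (continuous_pullS e.f_mp)))


theorem Tst.continuous_pull {P Q : Pair X} (e : Ext P Q) : Continuous (Tst.pull e) :=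
  SeparationQuotient.continuous_lift
    (SeparationQuotient.continuous_mk.comp (continuous_pullS e.f_mp))

/-- energies of tests. -/
noncomputable def Tst.en {ι : Type} (s : ι → ℕ → ℤ) (i : Option ι) (P : Pair X) : Tst P → ℝ :=
  SeparationQuotient.lift (fun A => enO s i P A) (by
    intro A B h
    exact (h.map (enO_cont s i P)).eq)


theorem Tst.continuous_en {ι : Type} (s : ι → ℕ → ℤ) (i : Option ι) (P : Pair X) :
    Continuous (Tst.en s i P) :=
  SeparationQuotient.continuous_lift (enO_cont s i P)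

theorem Tst.mk_eq {P : Pair X} {A B : MeasuredSets P.μ} (h : (A : Set P.Ω) =ᵐ[P.μ] (B : Set P.Ω)) :
    (SeparationQuotient.mk A : Tst P) = SeparationQuotient.mk B := by
  refine SeparationQuotient.mk_eq_mk.2 ?_
  rw [EMetric.inseparable_iff, MeasuredSets.edist_def]
  exact measure_symmDiff_eq_zero_iff.2 h

/-- the exhaustion data of standard Borel pairs. -/
noncomputable def satExh (X : Sys) {ι : Type} (s : ι → ℕ → ℤ) : Sat.Exh.{1, 0, 0} (Option ι) where
  P := SPair X
  Hom P Q := Ext P.1 Q.1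
  comp e e' := satTrans e e'
  idh P := satRefl P.1
  F P := Tst P.1
  instF P := inferInstance
  instS P := by
    have : SeparableSpace (MeasuredSets P.1.μ) := separableSpace_measuredSets
    exact SeparationQuotient.surjective_mk.denseRange.separableSpace
      SeparationQuotient.continuous_mk
  instN P := inferInstance
  pull e := Tst.pull e
  pull_cont e := Tst.continuous_pull e
  pull_comp e e' x := by
    obtain ⟨A, rfl⟩ := SeparationQuotient.surjective_mk x
    rfl
  pull_id P x := by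
    obtain ⟨A, rfl⟩ := SeparationQuotient.surjective_mk x
    rfl
  en i P := Tst.en s i P.1
  en_cont i P := Tst.continuous_en s i P.1
  mono i {P Q} e x := by
    obtain ⟨A, rfl⟩ := SeparationQuotient.surjective_mk x
    exact enO_mono e s i A.2
  bdd i {P} x := by
    refine ⟨1, fun Q e => ?_⟩
    obtain ⟨A, rfl⟩ := SeparationQuotient.surjective_mk x
    exact enO_le_one s i Q.1 (e.f_mp.measurable A.2)
  lim p f := by
    have hsb : ∀ n, StandardBorelSpace ((fun n => (p n).1) n).Ω := fun n => (p n).2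
    refine ⟨⟨limPair (fun n => (p n).1) f, limPair_sb _ f⟩, fun n => limExt (fun n => (p n).1) f n,
      fun n x => ?_, ?_⟩
    · obtain ⟨A, rfl⟩ := SeparationQuotient.surjective_mk x
      refine Tst.mk_eq ?_
      filter_upwards [(limMeas_isTower (fun n => (p n).1) f).comp n] with x hx
      show (x n ∈ (A : Set (p n).1.Ω)) = ((f n).f (x (n + 1)) ∈ (A : Set (p n).1.Ω))
      rw [hx]
    · intro x
      obtain ⟨A, rfl⟩ := SeparationQuotient.surjective_mk x
      rw [EMetric.mem_closure_iff]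
      intro ε hε
      obtain ⟨n, B, hB, hlt⟩ := exists_measure_symmDiff_tower_lt
        (fun n => (f n).f_mp) (limMeas_isTower (fun n => (p n).1) f) A.2 hε.ne'
      refine ⟨_, mem_iUnion.2 ⟨n, ⟨SeparationQuotient.mk ⟨B, hB⟩, rfl⟩⟩, ?_⟩
      exact hlt

/-- **Existence of sated standard Borel pairs.** -/
theorem exists_sated_std {ι : Type} [Countable ι] (s : ι → ℕ → ℤ) (P : Pair X)
    [hP : StandardBorelSpace P.Ω] :
    ∃ (Q : Pair X) (_ : Ext P Q), StandardBorelSpace Q.Ω ∧
      Sated s (fun Q => StandardBorelSpace Q.Ω) Q := by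
  obtain ⟨l, e, hl⟩ := (satExh X s).exists_sated ⟨P, hP⟩
  refine ⟨l.1, e, l.2, ?_, ?_⟩
  · intro Q hQ e' A hA
    exact hl ⟨Q, hQ⟩ e' none (SeparationQuotient.mk ⟨A, hA⟩)
  · intro Q hQ e' A hA i
    exact hl ⟨Q, hQ⟩ e' (some i) (SeparationQuotient.mk ⟨A, hA⟩)

end Crest.Agent.R069
end

-- ▼ part R069/SatSite
section

/-!
# Row 69, node SAT: sites on Loeb spaces, energies of site sets, outputs (S1), (S2)

Unbundled: `T k : Ω → Ω` (`T k = S (s k)`), `f : Ω' → Ω` measure preserving and a.e. equivariant.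
-/

set_option autoImplicit false
set_option linter.unusedSectionVars false
set_option linter.unusedVariables false

open MeasureTheory Filter Set
open scoped ENNReal Topology symmDiff

namespace Crest.Agent.R069.SatEn

open Crest.Agent.R069

section induct

variable {Ω : Type*} {mΩ : MeasurableSpace Ω}

/-- Induction principle for bounded measurable functions: indicators, linear combinations,
uniform limits. -/
theorem bdd_induct {P : (Ω → ℝ) → Prop} (h_ind : ∀ A, MeasurableSet A → P (ind A))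
    (h_lin : ∀ (c : ℝ) (f g : Ω → ℝ), BdM mΩ f → BdM mΩ g → P f → P g →
      P (fun x => c * f x + g x))
    (h_lim : ∀ f, BdM mΩ f → (∀ ε > 0, ∃ g, BdM mΩ g ∧ P g ∧ ∀ x, |f x - g x| ≤ ε) → P f) :
    ∀ f, BdM mΩ f → P f := by
  classical
  intro f hf
  refine h_lim f hf fun ε hε => ?_
  obtain ⟨C, hC⟩ := hf.bdd
  obtain ⟨N, hN⟩ := exists_nat_one_div_lt hε
  set n : ℝ := (N : ℝ) + 1 with hn
  have hnpos : 0 < n := by positivity
  obtain ⟨M, hM⟩ := exists_nat_gt (n * C + 1)
  set s : Finset ℤ := Finset.Icc (-(M : ℤ)) (M : ℤ) with hs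
  set A : ℤ → Set Ω := fun j => {x | ⌊n * f x⌋ = j} with hA
  have hAm : ∀ j, MeasurableSet (A j) := by
    intro j
    have h1 : Measurable (fun x => ⌊n * f x⌋) :=
      Int.measurable_floor.comp (hf.meas.const_mul n)
    exact h1 (measurableSet_singleton j)
  have hfl : ∀ x, ⌊n * f x⌋ ∈ s := by
    intro x
    have h1 := hC x
    have h2 : |n * f x| ≤ n * C := by
      rw [abs_mul, abs_of_pos hnpos]
      gcongr
    rw [abs_le] at h2
    rw [hs, Finset.mem_Icc]
    constructor
    · rw [Int.le_floor]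
      push_cast
      linarith [h2.1]
    · have : (⌊n * f x⌋ : ℝ) ≤ M := by
        have := Int.floor_le (n * f x)
        linarith [h2.2]
      exact_mod_cast this
  have hsum : ∀ t : Finset ℤ, BdM mΩ (fun x => ∑ j ∈ t, ((j : ℝ) / n) * ind (A j) x) ∧
      P (fun x => ∑ j ∈ t, ((j : ℝ) / n) * ind (A j) x) := by
    intro t
    induction t using Finset.induction_on with
    | empty =>
      have h0 : (fun x : Ω => ∑ j ∈ (∅ : Finset ℤ), ((j : ℝ) / n) * ind (A j) x)
          = ind (∅ : Set Ω) := by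
        funext x; simp [ind]
      rw [h0]
      exact ⟨bm_ind MeasurableSet.empty, h_ind _ MeasurableSet.empty⟩
    | insert j t hj ih =>
      have h1 : (fun x : Ω => ∑ i ∈ insert j t, ((i : ℝ) / n) * ind (A i) x)
          = fun x => ((j : ℝ) / n) * ind (A j) x + ∑ i ∈ t, ((i : ℝ) / n) * ind (A i) x := by
        funext x; rw [Finset.sum_insert hj]
      rw [h1]
      exact ⟨((bm_ind (hAm j)).const_mul _).add ih.1,
        h_lin _ _ _ (bm_ind (hAm j)) ih.1 (h_ind _ (hAm j)) ih.2⟩
  refine ⟨_, (hsum s).1, (hsum s).2, fun x => ?_⟩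
  have h1 : ∑ j ∈ s, ((j : ℝ) / n) * ind (A j) x = (⌊n * f x⌋ : ℝ) / n := by
    rw [Finset.sum_eq_single_of_mem _ (hfl x)]
    · have : x ∈ A ⌊n * f x⌋ := rfl
      rw [ind, indicator_of_mem this, mul_one]
    · intro j _ hj
      have : x ∉ A j := fun hx => hj (by rw [← hx])
      rw [ind, indicator_of_notMem this, mul_zero]
  show |f x - ∑ j ∈ s, ((j : ℝ) / n) * ind (A j) x| ≤ ε
  rw [h1]
  have h2 := Int.floor_le (n * f x)
  have h3 := Int.lt_floor_add_one (n * f x)
  have h4 : f x - (⌊n * f x⌋ : ℝ) / n = (n * f x - ⌊n * f x⌋) / n := by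
    field_simp
  rw [h4, abs_of_nonneg (div_nonneg (by linarith) hnpos.le)]
  have h5 : (n * f x - ⌊n * f x⌋) / n ≤ 1 / n := by
    gcongr
    linarith
  have h6 : 1 / n < ε := hN
  linarith

/-- If two functions are uniformly close, so are their conditional expectations. -/
theorem condExp_close {Ω : Type*} {m mΩ : MeasurableSpace Ω} {μ : Measure Ω}
    [IsProbabilityMeasure μ] {f g : Ω → ℝ} (hf : Integrable f μ) (hg : Integrable g μ) {ε : ℝ}
    (h : ∀ᵐ x ∂μ, |f x - g x| ≤ ε) : ∀ᵐ x ∂μ, |(μ[f | m]) x - (μ[g | m]) x| ≤ ε := by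
  have h1 : ∀ᵐ x ∂μ, |(f - g) x| ≤ ε := by
    filter_upwards [h] with x hx
    simpa using hx
  have h2 := ae_bdd_abs_condExp_of_ae_bdd_abs (m := m) h1
  filter_upwards [h2, condExp_sub hf hg m] with x hx hy
  rw [hy, Pi.sub_apply] at hx
  exact hx

end induct


theorem ind_congr_ae {Ω : Type*} {mΩ : MeasurableSpace Ω} {μ : Measure Ω} {A B : Set Ω}
    (h : A =ᵐ[μ] B) : ind A =ᵐ[μ] ind B :=
  indicator_ae_eq_of_ae_eq_set h

section transfer

/-- Transfer of conditional expectation identities from sets to bounded functions. -/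
theorem condExp_transfer {Ω Y Y' : Type*} {mΩ : MeasurableSpace Ω} {m₁ mY : MeasurableSpace Y}
    {m₂ mY' : MeasurableSpace Y'} {ν : Measure Y} {ν' : Measure Y'} [IsProbabilityMeasure ν]
    [IsProbabilityMeasure ν'] {F : Y' → Y} (hF : MeasurePreserving F ν' ν)
    (Φ : (Ω → ℝ) → Y → ℝ) (Φ' : (Ω → ℝ) → Y' → ℝ)
    (hint : ∀ {u : Ω → ℝ}, BdM mΩ u → Integrable (Φ u) ν)
    (hint' : ∀ {u : Ω → ℝ}, BdM mΩ u → Integrable (Φ' u) ν')
    (hlin : ∀ (c : ℝ) {u v : Ω → ℝ}, BdM mΩ u → BdM mΩ v →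
      Φ (fun x => c * u x + v x) = c • Φ u + Φ v)
    (hlin' : ∀ (c : ℝ) {u v : Ω → ℝ}, BdM mΩ u → BdM mΩ v →
      Φ' (fun x => c * u x + v x) = c • Φ' u + Φ' v)
    (hlip : ∀ {u v : Ω → ℝ} {ε : ℝ}, BdM mΩ u → BdM mΩ v → (∀ x, |u x - v x| ≤ ε) →
      ∀ y, |Φ u y - Φ v y| ≤ ε)
    (hlip' : ∀ {u v : Ω → ℝ} {ε : ℝ}, BdM mΩ u → BdM mΩ v → (∀ x, |u x - v x| ≤ ε) →
      ∀ y, |Φ' u y - Φ' v y| ≤ ε)
    (hset : ∀ A, MeasurableSet[mΩ] A → ν'[Φ' (ind A) | m₂] =ᵐ[ν'] (ν[Φ (ind A) | m₁]) ∘ F)
    {g : Ω → ℝ} (hg : BdM mΩ g) : ν'[Φ' g | m₂] =ᵐ[ν'] (ν[Φ g | m₁]) ∘ F := by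
  refine bdd_induct (mΩ := mΩ) (P := fun g => ν'[Φ' g | m₂] =ᵐ[ν'] (ν[Φ g | m₁]) ∘ F)
    hset ?_ ?_ g hg
  · intro c u v hu hv h1 h2
    have e1 : ν'[Φ' (fun x => c * u x + v x) | m₂] =ᵐ[ν'] c • ν'[Φ' u | m₂] + ν'[Φ' v | m₂] := by
      rw [hlin' c hu hv]
      exact (condExp_add ((hint' hu).smul c) (hint' hv) m₂).trans
        ((condExp_smul c (Φ' u) m₂).add (EventuallyEq.refl _ _))
    have e2 : ν[Φ (fun x => c * u x + v x) | m₁] =ᵐ[ν] c • ν[Φ u | m₁] + ν[Φ v | m₁] := by
      rw [hlin c hu hv]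
      exact (condExp_add ((hint hu).smul c) (hint hv) m₁).trans
        ((condExp_smul c (Φ u) m₁).add (EventuallyEq.refl _ _))
    have e3 := hF.quasiMeasurePreserving.ae_eq_comp e2
    filter_upwards [e1, e3, h1, h2] with x h3 h4 h5 h6
    rw [h3, h4]
    simp only [Pi.add_apply, Pi.smul_apply, Function.comp, smul_eq_mul] at h5 h6 ⊢
    rw [h5, h6]
  · intro u hu hap
    have hn : ∀ n : ℕ, ∀ᵐ x ∂ν', |(ν'[Φ' u | m₂]) x - ((ν[Φ u | m₁]) ∘ F) x|
        ≤ 2 * (1 / ((n : ℝ) + 1)) := by
      intro n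
      obtain ⟨v, hv, hvP, huv⟩ := hap (1 / ((n : ℝ) + 1)) (by positivity)
      have c1 := condExp_close (m := m₂) (hint' hu) (hint' hv) (ε := 1 / ((n : ℝ) + 1))
        (Eventually.of_forall fun x => hlip' hu hv huv x)
      have c2 := condExp_close (m := m₁) (hint hu) (hint hv) (ε := 1 / ((n : ℝ) + 1))
        (Eventually.of_forall fun x => hlip hu hv huv x)
      have c3 := hF.quasiMeasurePreserving.ae c2
      filter_upwards [c1, c3, hvP] with x h1 h2 h3
      have h3' : (ν'[Φ' v | m₂]) x = (ν[Φ v | m₁]) (F x) := h3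
      have e : (ν'[Φ' u | m₂]) x - (ν[Φ u | m₁]) (F x)
          = ((ν'[Φ' u | m₂]) x - (ν'[Φ' v | m₂]) x)
            + ((ν[Φ v | m₁]) (F x) - (ν[Φ u | m₁]) (F x)) := by
        rw [h3']; ring
      show |(ν'[Φ' u | m₂]) x - (ν[Φ u | m₁]) (F x)| ≤ 2 * (1 / ((n : ℝ) + 1))
      calc |(ν'[Φ' u | m₂]) x - (ν[Φ u | m₁]) (F x)|
          ≤ |(ν'[Φ' u | m₂]) x - (ν'[Φ' v | m₂]) x|
            + |(ν[Φ v | m₁]) (F x) - (ν[Φ u | m₁]) (F x)| := by rw [e]; exact abs_add_le _ _
        _ ≤ 1 / ((n : ℝ) + 1) + 1 / ((n : ℝ) + 1) := by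
            refine add_le_add h1 ?_
            rw [abs_sub_comm]; exact h2
        _ = 2 * (1 / ((n : ℝ) + 1)) := by ring
    have hall := ae_all_iff.2 hn
    filter_upwards [hall] with x hx
    have ht : Tendsto (fun n : ℕ => 2 * (1 / ((n : ℝ) + 1))) atTop (𝓝 (2 * 0)) :=
      tendsto_one_div_add_atTop_nhds_zero_nat.const_mul 2
    rw [mul_zero] at ht
    have h0 : |(ν'[Φ' u | m₂]) x - ((ν[Φ u | m₁]) ∘ F) x| ≤ 0 :=
      ge_of_tendsto' ht hx
    have := abs_nonpos_iff.1 h0
    linarith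

end transfer

section S1

variable {Ω Ω' : Type*} {m mΩ : MeasurableSpace Ω} {m' mΩ' : MeasurableSpace Ω'}
  {μ : Measure Ω} {μ' : Measure Ω'} [IsProbabilityMeasure μ] [IsProbabilityMeasure μ']

/-- **Output (S1)**: if the energies of sets do not increase, conditional expectations of bounded
functions do not change. -/
theorem S1_of_enS {f : Ω' → Ω} (hf : MeasurePreserving f μ' μ) (hm : m ≤ mΩ) (hm' : m' ≤ mΩ')
    (h : AELe μ' (m.comap f) m')
    (hle : ∀ A, MeasurableSet[mΩ] A → enS μ' m' (f ⁻¹' A) ≤ enS μ m A)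
    {g : Ω → ℝ} (hg : BdM mΩ g) : μ'[g ∘ f | m'] =ᵐ[μ'] (μ[g | m]) ∘ f := by
  refine condExp_transfer (mΩ := mΩ) hf (fun u => u) (fun u => u ∘ f)
    (fun hu => hu.integrable le_rfl)
    (fun hu => hf.integrable_comp_of_integrable (hu.integrable le_rfl))
    (fun c u v _ _ => rfl) (fun c u v _ _ => rfl) (fun _ _ h y => h y) (fun _ _ h y => h (f y))
    ?_ hg
  intro A hA
  show μ'[ind A ∘ f | m'] =ᵐ[μ'] (μ[ind A | m]) ∘ f
  rw [← ind_preimage]
  exact condExp_eq_of_enS_map hf hm hm' h hA (hle A hA)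

end S1

section site

variable {Ω Ω' : Type*} {mΩ : MeasurableSpace Ω} {mΩ' : MeasurableSpace Ω'}
  {μ : Measure Ω} {μ' : Measure Ω'}

/-- the sigma-algebra of the standard sets placed by the sequence of maps `T k`. -/
@[implicit_reducible]
def siteT {Ω : Type*} [MeasurableSpace Ω] (T : ℕ → Ω → Ω) : MeasurableSpace (Lb Ω) :=
  MeasurableSpace.generateFrom {B | ∃ A : Set Ω, MeasurableSet A ∧ B = intl (fun k => T k ⁻¹' A)}


theorem measurableSet_siteT (T : ℕ → Ω → Ω) {A : Set Ω} (hA : MeasurableSet A) :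
    MeasurableSet[siteT T] (intl (fun k => T k ⁻¹' A)) :=
  MeasurableSpace.measurableSet_generateFrom ⟨A, hA, rfl⟩

variable [IsProbabilityMeasure μ] [IsProbabilityMeasure μ'] {f : Ω' → Ω}
  {T : ℕ → Ω → Ω} {T' : ℕ → Ω' → Ω'}

theorem intl_site_ae (heq : ∀ k, (fun x => f (T' k x)) =ᵐ[μ'] fun x => T k (f x)) (A : Set Ω) :
    (lbmap (fun _ => f)) ⁻¹' (intl (fun k => T k ⁻¹' A))
      =ᵐ[lb μ'] intl (fun k => T' k ⁻¹' (f ⁻¹' A)) := by
  rw [lbmap_preimage]
  refine intl_ae_eq fun k => ?_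
  filter_upwards [heq k] with x hx
  apply propext
  show T k (f x) ∈ A ↔ f (T' k x) ∈ A
  rw [hx]

theorem aele_siteT (hf : Measurable f)
    (heq : ∀ k, (fun x => f (T' k x)) =ᵐ[μ'] fun x => T k (f x)) :
    AELe (lb μ') ((siteT T).comap (lbmap (fun _ => f))) (siteT T') := by
  unfold siteT
  rw [MeasurableSpace.comap_generateFrom]
  refine AELe.generateFrom ?_
  rintro _ ⟨_, ⟨A, hA, rfl⟩, rfl⟩
  exact ⟨_, measurableSet_siteT T' (hf hA), intl_site_ae heq A⟩

theorem aele_LL_of_aele {Ω : Type*} {m₁ m₂ : MeasurableSpace Ω} [mΩ : MeasurableSpace Ω]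
    {μ : Measure Ω} [IsProbabilityMeasure μ] (h₂ : AELe μ m₁ m₂) :
    AELe (lb μ) (LL m₁) (LL m₂) := by
  refine AELe.generateFrom ?_
  rintro _ ⟨A, hA, rfl⟩
  choose B hB hAB using fun k => h₂ (A k) (hA k)
  exact ⟨intl B, measurableSet_intl hB, intl_ae_eq hAB⟩

theorem aele_comap_LL {Ω Ω' : Type*} {mC : MeasurableSpace Ω} {mC' : MeasurableSpace Ω'}
    [mΩ' : MeasurableSpace Ω'] {μ' : Measure Ω'} [IsProbabilityMeasure μ'] {f : Ω' → Ω}
    (h : AELe μ' (mC.comap f) mC') :
    AELe (lb μ') ((LL mC).comap (lbmap (fun _ => f))) (LL mC') := by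
  rw [comap_lbmap_LL]
  exact aele_LL_of_aele h

/-- everything except the site `i`. -/
@[implicit_reducible]
def restT {Ω : Type*} (mC : MeasurableSpace Ω) [mΩ : MeasurableSpace Ω] {ι : Type*}
    (T : ι → ℕ → Ω → Ω) (i : ι) : MeasurableSpace (Lb Ω) :=
  (⨆ j, ⨆ _ : j ≠ i, siteT (T j)) ⊔ LL mC


theorem aele_restT {Ω Ω' : Type*} {mC : MeasurableSpace Ω} {mC' : MeasurableSpace Ω'}
    [mΩ : MeasurableSpace Ω] [mΩ' : MeasurableSpace Ω'] {μ' : Measure Ω'}
    [IsProbabilityMeasure μ'] {f : Ω' → Ω} {ι : Type*} {T : ι → ℕ → Ω → Ω}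
    {T' : ι → ℕ → Ω' → Ω'} (i : ι) (hf : Measurable f)
    (heq : ∀ j k, (fun x => f (T' j k x)) =ᵐ[μ'] fun x => T j k (f x))
    (h : AELe μ' (mC.comap f) mC') :
    AELe (lb μ') ((restT mC T i).comap (lbmap (fun _ => f))) (restT mC' T' i) := by
  unfold restT
  rw [MeasurableSpace.comap_sup]
  refine AELe.sup_sup ?_ (aele_comap_LL h)
  rw [MeasurableSpace.comap_iSup]
  refine AELe.iSup fun j => ?_
  rw [MeasurableSpace.comap_iSup]
  refine AELe.iSup fun hj => ?_
  have h1 : siteT (T' j) ≤ ⨆ j, ⨆ _ : j ≠ i, siteT (T' j) :=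
    le_iSup_of_le (f := fun j => ⨆ _ : j ≠ i, siteT (T' j)) j
      (le_iSup_of_le (f := fun _ : j ≠ i => siteT (T' j)) hj le_rfl)
  exact (aele_siteT hf (heq j)).trans (AELe.of_le h1)





/-- equal site energies ⟹ equal conditional expectations of site sets. -/
theorem condExp_site_eq (hf : MeasurePreserving f μ' μ) (hT : ∀ k, Measurable (T k))
    (heq : ∀ k, (fun x => f (T' k x)) =ᵐ[μ'] fun x => T k (f x))
    {m₁ : MeasurableSpace (Lb Ω)} {m₂ : MeasurableSpace (Lb Ω')} (h₁ : m₁ ≤ LL mΩ)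
    (h₂ : m₂ ≤ LL mΩ') (h : AELe (lb μ') (m₁.comap (lbmap (fun _ => f))) m₂) {A : Set Ω}
    (hA : MeasurableSet A)
    (hle : enS (lb μ') m₂ (intl (fun k => T' k ⁻¹' (f ⁻¹' A)))
      ≤ enS (lb μ) m₁ (intl (fun k => T k ⁻¹' A))) :
    (lb μ')[ind (intl (fun k => T' k ⁻¹' (f ⁻¹' A))) | m₂] =ᵐ[lb μ']
      ((lb μ)[ind (intl (fun k => T k ⁻¹' A)) | m₁]) ∘ lbmap (fun _ => f) := by
  rw [← enS_congr (m := m₂) (intl_site_ae heq A)] at hle
  have h3 := condExp_eq_of_enS_map (measurePreserving_lbmap fun _ => hf) h₁ h₂ h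
    (measurableSet_intl fun k => hT k hA) hle
  exact (condExp_congr_ae (ind_congr_ae (intl_site_ae heq A).symm)).trans h3

end site

section S2

variable {Ω Ω' : Type*} {mΩ : MeasurableSpace Ω} {mΩ' : MeasurableSpace Ω'}
  {μ : Measure Ω} {μ' : Measure Ω'} [IsProbabilityMeasure μ] [IsProbabilityMeasure μ']
  {f : Ω' → Ω} {T : ℕ → Ω → Ω} {T' : ℕ → Ω' → Ω'}

theorem bm_site {g : Ω → ℝ} (hg : BdM mΩ g) (hT : ∀ k, Measurable (T k)) :
    ∃ C, BM mΩ (fun k x => g (T k x)) C := by
  obtain ⟨C, hC⟩ := hg.bdd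
  exact ⟨C, fun k => hg.meas.comp (hT k), fun k x => hC _⟩

theorem integrable_st_site {g : Ω → ℝ} (hg : BdM mΩ g) (hT : ∀ k, Measurable (T k)) :
    Integrable (st (fun k x => g (T k x))) (lb μ) := by
  obtain ⟨C, hC⟩ := bm_site (T := T) hg hT
  exact hC.integrable_st le_rfl

theorem st_ind_site (T : ℕ → Ω → Ω) (A : Set Ω) :
    st (fun k x => ind A (T k x)) = ind (intl (fun k => T k ⁻¹' A)) := by
  have h1 : (fun (k : ℕ) (x : Ω) => ind A (T k x))
      = fun k => (T k ⁻¹' A).indicator (fun _ => (1 : ℝ)) := by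
    funext k
    exact (ind_preimage (T k) A).symm
  rw [h1, st_indicator (fun k => T k ⁻¹' A) (f := fun _ _ => (1 : ℝ))
    (stOK_of_bdd (C := 1) (by simp)), st_const]

theorem st_site_lin (hT : ∀ k, Measurable (T k)) (c : ℝ) {u v : Ω → ℝ} (hu : BdM mΩ u)
    (hv : BdM mΩ v) :
    st (fun k x => c * u (T k x) + v (T k x))
      = c • st (fun k x => u (T k x)) + st (fun k x => v (T k x)) := by
  obtain ⟨C, hC⟩ := bm_site (T := T) hu hT
  obtain ⟨D, hD⟩ := bm_site (T := T) hv hT
  funext x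
  exact st_eq (((hC.ok x).const_mul c).add (hD.ok x))

theorem st_site_lip (hT : ∀ k, Measurable (T k)) {u v : Ω → ℝ} (hu : BdM mΩ u)
    (hv : BdM mΩ v) {ε : ℝ} (h : ∀ x, |u x - v x| ≤ ε) (y : Lb Ω) :
    |st (fun k x => u (T k x)) y - st (fun k x => v (T k x)) y| ≤ ε := by
  obtain ⟨C, hC⟩ := bm_site (T := T) hu hT
  obtain ⟨D, hD⟩ := bm_site (T := T) hv hT
  exact norm_st_sub_le hC.ok hD.ok (Eventually.of_forall fun k => h _)

/-- **Output (S2)**: if the site energies of sets do not increase, the conditional expectations of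
bounded functions at the site do not change. -/
theorem S2_of_enS (hf : MeasurePreserving f μ' μ) (hT : ∀ k, Measurable (T k))
    (hT' : ∀ k, Measurable (T' k))
    (heq : ∀ k, (fun x => f (T' k x)) =ᵐ[μ'] fun x => T k (f x))
    {m₁ : MeasurableSpace (Lb Ω)} {m₂ : MeasurableSpace (Lb Ω')} (h₁ : m₁ ≤ LL mΩ)
    (h₂ : m₂ ≤ LL mΩ') (h : AELe (lb μ') (m₁.comap (lbmap (fun _ => f))) m₂)
    (hle : ∀ A, MeasurableSet[mΩ] A → enS (lb μ') m₂ (intl (fun k => T' k ⁻¹' (f ⁻¹' A)))
      ≤ enS (lb μ) m₁ (intl (fun k => T k ⁻¹' A)))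
    {g : Ω → ℝ} (hg : BdM mΩ g) :
    (lb μ')[st (fun k x => g (f (T' k x))) | m₂] =ᵐ[lb μ']
      ((lb μ)[st (fun k x => g (T k x)) | m₁]) ∘ lbmap (fun _ => f) := by
  have hcf : ∀ {u : Ω → ℝ}, BdM mΩ u → BdM mΩ' (u ∘ f) := fun hu =>
    ⟨hu.meas.comp hf.measurable, hu.bdd.imp fun C hC x => hC _⟩
  have a1 : ∀ {u : Ω → ℝ}, BdM mΩ u → Integrable (st (fun k x => u (f (T' k x)))) (lb μ') :=
    fun {u} hu => integrable_st_site (g := u ∘ f) (hcf hu) hT'
  have a2 : ∀ (c : ℝ) {u v : Ω → ℝ}, BdM mΩ u → BdM mΩ v →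
      st (fun k x => c * u (f (T' k x)) + v (f (T' k x)))
        = c • st (fun k x => u (f (T' k x))) + st (fun k x => v (f (T' k x))) :=
    fun c {u v} hu hv => st_site_lin (T := T') (u := u ∘ f) (v := v ∘ f) hT' c (hcf hu) (hcf hv)
  have a3 : ∀ {u v : Ω → ℝ} {ε : ℝ}, BdM mΩ u → BdM mΩ v → (∀ x, |u x - v x| ≤ ε) →
      ∀ y, |st (fun k x => u (f (T' k x))) y - st (fun k x => v (f (T' k x))) y| ≤ ε :=
    fun {u v ε} hu hv h => st_site_lip (T := T') (u := u ∘ f) (v := v ∘ f) hT' (hcf hu) (hcf hv)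
      (fun x => h (f x))
  refine condExp_transfer (mΩ := mΩ) (measurePreserving_lbmap fun _ => hf)
    (fun u => st (fun k x => u (T k x))) (fun u => st (fun k x => u (f (T' k x))))
    (fun hu => integrable_st_site hu hT) a1
    (fun c u v hu hv => st_site_lin hT c hu hv) a2
    (fun hu hv h => st_site_lip hT hu hv h) a3 ?_ hg
  · intro A hA
    have e1 : st (fun k x => ind A (f (T' k x))) = ind (intl (fun k => T' k ⁻¹' (f ⁻¹' A))) := by
      have : (fun (k : ℕ) (x : Ω') => ind A (f (T' k x))) = fun k x => ind (f ⁻¹' A) (T' k x) := by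
        funext k x
        rw [ind_preimage]
        rfl
      rw [this]
      exact st_ind_site T' (f ⁻¹' A)
    show (lb μ')[st (fun k x => ind A (f (T' k x))) | m₂] =ᵐ[lb μ']
      ((lb μ)[st (fun k x => ind A (T k x)) | m₁]) ∘ lbmap (fun _ => f)
    rw [e1, st_ind_site T A]
    exact condExp_site_eq hf hT heq h₁ h₂ h hA (hle A hA)

end S2

end Crest.Agent.R069.SatEn
end

-- ▼ part R069/SatOut
section

/-!
# Row 69, node SAT: from constant energies to (S1) and (S2) (frozen definitions)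
-/

set_option autoImplicit false

open MeasureTheory Filter Set
open scoped ENNReal Topology symmDiff

namespace Crest.Agent.R069.SatEn

open Crest.Agent.R069

/-- null and co-null sets pull back to null and co-null sets. -/
theorem comap_nul_le {α β : Type*} [mα : MeasurableSpace α] [mβ : MeasurableSpace β]
    {μ : Measure α} {ν : Measure β} {f : α → β} (hf : MeasurePreserving f μ ν) :
    (nul ν).comap f ≤ nul μ := by
  rintro _ ⟨A, ⟨hA, h⟩, rfl⟩
  refine ⟨hf.measurable hA, ?_⟩
  rcases h with h | h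
  · left; rw [hf.measure_preimage hA.nullMeasurableSet]; exact h
  · right
    rw [← preimage_compl, hf.measure_preimage hA.compl.nullMeasurableSet]; exact h

variable {X : Sys}

/-- the complete rest sigma-algebras increase along extensions (modulo null sets). -/
theorem aele_rest {ι : Type} (s : ι → ℕ → ℤ) (i : ι) {P Q : Pair X} (e : Ext P Q) :
    AELe (lb Q.μ) ((rest s i P).comap (Lb.mp e.f)) (rest s i Q) := by
  unfold rest
  rw [MeasurableSpace.comap_sup]
  refine AELe.sup_sup ?_ (AELe.of_le (comap_nul_le (measurePreserving_lbmap fun _ => e.f_mp)))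
  exact aele_restT (mC := P.C) (mC' := Q.C) (T := fun j k => P.S (s j k))
    (T' := fun j k => Q.S (s j k)) i e.f_mp.measurable (fun j k => e.f_S (s j k))
    (AELe.of_le e.f_C)

theorem rest_le_LL {ι : Type} (s : ι → ℕ → ℤ) (i : ι) (P : Pair X) : rest s i P ≤ LL P.ms :=
  restM_le s i P.toSys le_rfl P.C_le

/-- (S1) from constant energies. -/
theorem S1At_of_en {P Q : Pair X} (e : Ext P Q)
    (h : ∀ A : Set P.Ω, MeasurableSet A → en0 Q (e.f ⁻¹' A) ≤ en0 P A) : S1At P Q e := by
  intro f hf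
  exact S1_of_enS e.f_mp P.C_le Q.C_le (AELe.of_le e.f_C) h ⟨hf.1, hf.2⟩

/-- (S2) from constant energies. -/
theorem S2At_of_en {ι : Type} {s : ι → ℕ → ℤ} {P Q : Pair X} (e : Ext P Q)
    (h : ∀ A : Set P.Ω, MeasurableSet A → ∀ i, en1 s i Q (e.f ⁻¹' A) ≤ en1 s i P A) :
    S2At s P Q e := by
  intro i f hf
  exact S2_of_enS (T := fun k => P.S (s i k)) (T' := fun k => Q.S (s i k)) e.f_mp
    (fun k => (P.S_mp _).measurable) (fun k => (Q.S_mp _).measurable) (fun k => e.f_S _)
    (rest_le_LL s i P) (rest_le_LL s i Q) (aele_rest s i e) (fun A hA => h A hA i) ⟨hf.1, hf.2⟩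

/-- (S1), (S2) against the extensions in the class `K`. -/
theorem Sated.out {ι : Type} {s : ι → ℕ → ℤ} {K : Pair X → Prop} {P : Pair X} (h : Sated s K P)
    (Q : Pair X) (hQ : K Q) (e : Ext P Q) : S1At P Q e ∧ S2At s P Q e :=
  ⟨S1At_of_en e fun A hA => (h.sated0 Q hQ e A hA).le,
    S2At_of_en e fun A hA i => (h.sated1 Q hQ e A hA i).le⟩

end Crest.Agent.R069.SatEn
end

-- ▼ part R069/Std
section

/-!
# Row 69, node STD, part 2: a pair which is sated with respect to standard Borel extensions is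
# sated with respect to all extensions; conditional expectation form of satedness.
-/

set_option autoImplicit false

open MeasureTheory Filter Set ProbabilityTheory
open scoped ENNReal Topology

namespace Crest.Agent.R069.Std

section basic

variable {X : Sys} {ι : Type} (s : ι → ℕ → ℤ) (i : ι)

/-- the set `A` placed at the site `i` -/
def sset (M : Sys) (σ : ℕ → ℤ) (A : Set M.Ω) : Set (Lb M.Ω) := intl (fun k => M.S (σ k) ⁻¹' A)

theorem measurableSet_sset {M : Sys} {σ : ℕ → ℤ} {A : Set M.Ω} (hA : MeasurableSet A) :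
    MeasurableSet (sset M σ A) :=
  measurableSet_intl (fun k => (M.S_mp (σ k)).measurable hA)

theorem siteA_le (M : Sys) (σ : ℕ → ℤ) : siteA M σ ≤ (instMSLb : MeasurableSpace (Lb M.Ω)) := by
  refine MeasurableSpace.generateFrom_le ?_
  rintro _ ⟨A, hA, rfl⟩
  exact measurableSet_sset hA

/-- the incomplete version of `rest`. -/
@[implicit_reducible]
noncomputable def rest0 (P : Pair X) : MeasurableSpace (Lb P.Ω) :=
  (⨆ j, ⨆ _ : j ≠ i, siteA P.toSys (s j)) ⊔ LL P.C


theorem rest0_le_rest (P : Pair X) : rest0 s i P ≤ rest s i P := le_sup_left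

theorem nul_le_rest (P : Pair X) : nul (lb P.μ) ≤ rest s i P := le_sup_right

theorem rest0_le (P : Pair X) : rest0 s i P ≤ (instMSLb : MeasurableSpace (Lb P.Ω)) := by
  refine sup_le (iSup_le fun j => iSup_le fun _ => siteA_le _ _) ?_
  exact LL_mono P.C_le

theorem rest_le (P : Pair X) : rest s i P ≤ (instMSLb : MeasurableSpace (Lb P.Ω)) :=
  sup_le (rest0_le s i P) nul_le

theorem aele_nul {α : Type*} {mα : MeasurableSpace α} (μ : Measure α) (m : MeasurableSpace α) :
    AELe μ (@nul α mα μ) m := by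
  rintro A ⟨hA, h | h⟩
  · exact ⟨∅, @MeasurableSet.empty _ m, by rwa [ae_eq_empty]⟩
  · exact ⟨univ, @MeasurableSet.univ _ m, by rwa [ae_eq_univ]⟩

theorem aele_rest (P : Pair X) : AELe (lb P.μ) (rest s i P) (rest0 s i P) :=
  AELe.sup AELe.refl (aele_nul _ _)

variable {P Q R : Pair X}

/-- the map of Loeb spaces preserves the measure -/
theorem mp_Lb (e : Ext P Q) : MeasurePreserving (Lb.mp e.f) (lb Q.μ) (lb P.μ) :=
  measurePreserving_lbmap (f := fun _ => e.f) (fun _ => e.f_mp)

/-- pull back of the sets at a site -/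
theorem preimage_sset (e : Ext P Q) (σ : ℕ → ℤ) (A : Set P.Ω) :
    Lb.mp e.f ⁻¹' (sset P.toSys σ A) =ᵐ[lb Q.μ] sset Q.toSys σ (e.f ⁻¹' A) := by
  have key : intl (fun k => e.f ⁻¹' (P.S (σ k) ⁻¹' A)) =ᵐ[lb Q.μ]
      intl (fun k => Q.S (σ k) ⁻¹' (e.f ⁻¹' A)) := by
    refine intl_ae_eq (μ := Q.μ) (fun k => ?_)
    filter_upwards [e.f_S (σ k)] with x hx
    apply propext
    show P.S (σ k) (e.f x) ∈ A ↔ e.f (Q.S (σ k) x) ∈ A
    rw [hx]
  exact key

theorem preimage_intl (e : Ext P Q) (A : ℕ → Set P.Ω) :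
    Lb.mp e.f ⁻¹' (intl A) = intl (fun k => e.f ⁻¹' (A k)) := rfl

theorem comap_rest_le (e : Ext P Q) : (rest s i P).comap (Lb.mp e.f) ≤ rest s i Q := by
  have hmp := mp_Lb e
  unfold rest
  rw [MeasurableSpace.comap_sup, MeasurableSpace.comap_sup]
  refine sup_le (sup_le ?_ ?_) ?_
  · rw [MeasurableSpace.comap_iSup]
    refine iSup_le fun j => ?_
    rw [MeasurableSpace.comap_iSup]
    refine iSup_le fun hj => ?_
    unfold siteA
    rw [MeasurableSpace.comap_generateFrom]
    refine MeasurableSpace.generateFrom_le ?_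
    rintro _ ⟨_, ⟨A, hA, rfl⟩, rfl⟩
    refine measurableSet_of_nul_le (rest_le s i Q) (nul_le_rest s i Q)
      (s := sset Q.toSys (s j) (e.f ⁻¹' A)) ?_ ?_ (preimage_sset e (s j) A)
    · have h1 : siteA Q.toSys (s j) ≤ rest s i Q :=
        ((le_iSup₂ (f := fun j (_ : j ≠ i) => siteA Q.toSys (s j)) j hj).trans
          le_sup_left).trans le_sup_left
      exact h1 _ (MeasurableSpace.measurableSet_generateFrom ⟨_, e.f_mp.measurable hA, rfl⟩)
    · exact hmp.measurable (measurableSet_sset hA)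
  · have h1 : LL Q.C ≤ rest s i Q := le_sup_right.trans le_sup_left
    refine le_trans ?_ h1
    have h2 := comap_lbmap_LL (mβ := P.C) e.f
    have h3 : (LL P.C).comap (Lb.mp e.f) = LL (P.C.comap e.f) := h2
    rw [h3]
    exact LL_mono e.f_C
  · exact (comap_nul_le hmp).trans (nul_le_rest s i Q)

end basic

section energy

variable {X : Sys} {ι : Type} (s : ι → ℕ → ℤ) (i : ι) {P Q R : Pair X}

/-- from energies to conditional expectations, (S1) for sets -/
theorem s1set_of_en0 (e : Ext P Q) {A : Set P.Ω} (hA : MeasurableSet A)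
    (h : en0 Q (e.f ⁻¹' A) = en0 P A) :
    Q.μ[(e.f ⁻¹' A).indicator (fun _ => (1 : ℝ)) | Q.C] =ᵐ[Q.μ]
      P.μ[A.indicator (fun _ => (1 : ℝ)) | P.C] ∘ e.f := by
  have h1 := condExp_comp_mp e.f_mp P.C_le
    ((BdM.indicator (m := P.ms) hA).integrable (μ := P.μ) le_rfl)
  have h2 : (A.indicator (fun _ => (1 : ℝ))) ∘ e.f = (e.f ⁻¹' A).indicator (fun _ => (1 : ℝ)) :=
    rfl
  rw [h2] at h1
  refine (condExp_eq_of_sq e.f_C Q.C_le
    (BdM.indicator (m := Q.ms) (e.f_mp.measurable hA)) ?_).trans h1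
  have h3 : ∫ x, (Q.μ[(e.f ⁻¹' A).indicator (fun _ => (1 : ℝ)) | P.C.comap e.f] x) ^ 2 ∂Q.μ
      = en0 P A := by
    unfold en0
    rw [← integral_comp_mp e.f_mp (F := fun x => (P.μ[A.indicator (fun _ => (1 : ℝ)) | P.C] x) ^ 2)
      ((stronglyMeasurable_condExp.mono P.C_le).aestronglyMeasurable.pow 2)]
    refine integral_congr_ae ?_
    filter_upwards [h1] with x hx
    rw [hx]
    rfl
  rw [h3, ← h]
  exact le_rfl

/-- from energies to conditional expectations, (S2) for sets -/
theorem s2set_of_en1 (e : Ext P Q) {A : Set P.Ω} (hA : MeasurableSet A)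
    (h : en1 s i Q (e.f ⁻¹' A) = en1 s i P A) :
    (lb Q.μ)[(sset P.toSys (s i) A).indicator (fun _ => (1 : ℝ)) ∘ Lb.mp e.f | rest s i Q]
      =ᵐ[lb Q.μ] (lb P.μ)[(sset P.toSys (s i) A).indicator (fun _ => (1 : ℝ)) | rest s i P]
        ∘ Lb.mp e.f := by
  have hmp := mp_Lb e
  have hm := measurableSet_sset (M := P.toSys) (σ := s i) hA
  have h1 := condExp_comp_mp hmp (rest_le s i P)
    ((BdM.indicator (m := instMSLb) hm).integrable (μ := lb P.μ) le_rfl)
  have hset : (sset P.toSys (s i) A).indicator (fun _ => (1 : ℝ)) ∘ Lb.mp e.f =ᵐ[lb Q.μ]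
      (sset Q.toSys (s i) (e.f ⁻¹' A)).indicator (fun _ => (1 : ℝ)) := by
    have h2 : (sset P.toSys (s i) A).indicator (fun _ => (1 : ℝ)) ∘ Lb.mp e.f
        = (Lb.mp e.f ⁻¹' (sset P.toSys (s i) A)).indicator (fun _ => (1 : ℝ)) := rfl
    rw [h2]
    exact indicator_ae_eq_of_ae_eq_set (preimage_sset e (s i) A)
  have hbd : BdM (instMSLb : MeasurableSpace (Lb Q.Ω))
      ((sset P.toSys (s i) A).indicator (fun _ => (1 : ℝ)) ∘ Lb.mp e.f) := by
    have h2 : (sset P.toSys (s i) A).indicator (fun _ => (1 : ℝ)) ∘ Lb.mp e.f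
        = (Lb.mp e.f ⁻¹' (sset P.toSys (s i) A)).indicator (fun _ => (1 : ℝ)) := rfl
    rw [h2]
    exact BdM.indicator (hmp.measurable hm)
  refine (condExp_eq_of_sq (comap_rest_le s i e) (rest_le s i Q) hbd ?_).trans h1
  have h3 : ∫ x, ((lb Q.μ)[(sset P.toSys (s i) A).indicator (fun _ => (1 : ℝ)) ∘ Lb.mp e.f |
      (rest s i P).comap (Lb.mp e.f)] x) ^ 2 ∂(lb Q.μ) = en1 s i P A := by
    unfold en1
    have h4 := integral_comp_mp hmp
      (F := fun x => ((lb P.μ)[(sset P.toSys (s i) A).indicator (fun _ => (1 : ℝ)) |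
        rest s i P] x) ^ 2)
      ((stronglyMeasurable_condExp.mono (rest_le s i P)).aestronglyMeasurable.pow 2)
    refine Eq.trans ?_ h4
    refine integral_congr_ae ?_
    filter_upwards [h1] with x hx
    rw [hx]
    rfl
  have h5 : ∫ x, ((lb Q.μ)[(sset P.toSys (s i) A).indicator (fun _ => (1 : ℝ)) ∘ Lb.mp e.f |
      rest s i Q] x) ^ 2 ∂(lb Q.μ) = en1 s i Q (e.f ⁻¹' A) := by
    unfold en1
    refine integral_congr_ae ?_
    filter_upwards [condExp_congr_ae (m := rest s i Q) hset] with x hx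
    rw [hx]
    rfl
  rw [h3, h5, h]

end energy

section transfer

variable {X : Sys} {ι : Type} (s : ι → ℕ → ℤ) (i : ι) {P Q R : Pair X}

/-- (S1) for a set -/
def S1set (e : Ext P Q) (A : Set P.Ω) : Prop :=
  Q.μ[(e.f ⁻¹' A).indicator (fun _ => (1 : ℝ)) | Q.C] =ᵐ[Q.μ]
    P.μ[A.indicator (fun _ => (1 : ℝ)) | P.C] ∘ e.f

/-- (S2) for a set at the site `i` -/
def S2set (e : Ext P Q) (A : Set P.Ω) : Prop :=
  (lb Q.μ)[(sset P.toSys (s i) A).indicator (fun _ => (1 : ℝ)) ∘ Lb.mp e.f | rest s i Q]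
    =ᵐ[lb Q.μ] (lb P.μ)[(sset P.toSys (s i) A).indicator (fun _ => (1 : ℝ)) | rest s i P]
      ∘ Lb.mp e.f

theorem setIntegral_comp_mp {Ω Ω' : Type*} {mΩ : MeasurableSpace Ω} {mΩ' : MeasurableSpace Ω'}
    {μ : Measure Ω} {μ' : Measure Ω'} {φ : Ω' → Ω} (hφ : MeasurePreserving φ μ' μ)
    {B : Set Ω} (hB : MeasurableSet B) {F : Ω → ℝ} (hF : AEStronglyMeasurable F μ) :
    ∫ x in φ ⁻¹' B, F (φ x) ∂μ' = ∫ x in B, F x ∂μ := by
  rw [← setIntegral_map hB (by rw [hφ.map_eq]; exact hF) hφ.measurable.aemeasurable, hφ.map_eq]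

theorem s1set_transfer [StandardBorelSpace P.Ω]
    (hK : ∀ R : Pair X, StandardBorelSpace R.Ω → ∀ (e0 : Ext P R) (A : Set P.Ω),
      MeasurableSet A → S1set e0 A) (e : Ext P Q) {A : Set P.Ω} (hA : MeasurableSet A) :
    S1set e A := by
  unfold S1set
  have hgP : AEStronglyMeasurable (P.μ[A.indicator (fun _ => (1 : ℝ)) | P.C]) P.μ :=
    (stronglyMeasurable_condExp.mono P.C_le).aestronglyMeasurable
  refine condExp_eq_of_integral Q.C_le
    ((BdM.indicator (m := Q.ms) (e.f_mp.measurable hA)).integrable le_rfl)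
    (e.f_mp.integrable_comp_of_integrable integrable_condExp) ?_ (fun B hB => ?_)
  · have h1 : StronglyMeasurable[P.C.comap e.f] (P.μ[A.indicator (fun _ => (1 : ℝ)) | P.C] ∘ e.f) :=
      stronglyMeasurable_condExp.comp_measurable (comap_measurable e.f)
    exact (h1.mono e.f_C).aestronglyMeasurable
  obtain ⟨R, hR, e0, e1, A0, B0, h01, -, hA0, hB0, hAe, hBe⟩ := exists_std_factor e
    (A := fun _ => ∅) (B := fun _ => B) (fun _ => MeasurableSet.empty) (fun _ => hB)
  have key := hK R hR e0 A hA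
  have hB0' : MeasurableSet[R.ms] (B0 0) := R.C_le _ (hB0 0)
  have hBe' : e1.f ⁻¹' (B0 0) = B := hBe 0
  have hgR : AEStronglyMeasurable (P.μ[A.indicator (fun _ => (1 : ℝ)) | P.C] ∘ e0.f) R.μ :=
    hgP.comp_measurePreserving e0.f_mp
  have e1a : ∫ x in B, (P.μ[A.indicator (fun _ => (1 : ℝ)) | P.C] ∘ e.f) x ∂Q.μ
      = ∫ x in B0 0, (P.μ[A.indicator (fun _ => (1 : ℝ)) | P.C] ∘ e0.f) x ∂(R.μ) := by
    rw [← hBe', ← setIntegral_comp_mp e1.f_mp hB0' hgR]
    congr 1
    funext x
    show _ = (P.μ[A.indicator (fun _ => (1 : ℝ)) | P.C]) (e0.f (e1.f x))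
    rw [h01]
    rfl
  have e2a : ∫ x in B, (e.f ⁻¹' A).indicator (fun _ => (1 : ℝ)) x ∂Q.μ
      = ∫ x in B0 0, (e0.f ⁻¹' A).indicator (fun _ => (1 : ℝ)) x ∂(R.μ) := by
    rw [← hBe', ← setIntegral_comp_mp e1.f_mp hB0'
      ((BdM.indicator (m := R.ms) (e0.f_mp.measurable hA)).integrable
        (μ := R.μ) le_rfl).aestronglyMeasurable]
    congr 1
    funext x
    show _ = (A.indicator (fun _ => (1 : ℝ))) (e0.f (e1.f x))
    rw [h01]
    rfl
  rw [e1a, e2a, ← setIntegral_condExp R.C_le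
    ((BdM.indicator (m := R.ms) (e0.f_mp.measurable hA)).integrable le_rfl) (hB0 0)]
  refine setIntegral_congr_ae hB0' ?_
  filter_upwards [key] with x hx _
  exact hx.symm

/-- the `π`-system generating `rest0`. -/
def tests (Q : Pair X) : Set (Set (Lb Q.Ω)) :=
  {G | ∃ (A : ι → Set Q.Ω) (B : ℕ → Set Q.Ω), (∀ j, MeasurableSet (A j)) ∧
    (∀ k, MeasurableSet[Q.C] (B k)) ∧
    G = (⋂ j, ⋂ (_ : j ≠ i), sset Q.toSys (s j) (A j)) ∩ intl B}

theorem sset_univ (M : Sys) (σ : ℕ → ℤ) : sset M σ univ = univ := by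
  unfold sset
  simp

theorem sset_inter (M : Sys) (σ : ℕ → ℤ) (A B : Set M.Ω) :
    sset M σ (A ∩ B) = sset M σ A ∩ sset M σ B := by
  unfold sset
  rw [← intl_inter]
  rfl

theorem isPiSystem_tests (Q : Pair X) : IsPiSystem (tests s i Q) := by
  rintro _ ⟨A, B, hA, hB, rfl⟩ _ ⟨A', B', hA', hB', rfl⟩ _
  refine ⟨fun j => A j ∩ A' j, fun k => B k ∩ B' k, fun j => (hA j).inter (hA' j),
    fun k => MeasurableSet.inter (hB k) (hB' k), ?_⟩
  rw [intl_inter]
  ext x
  simp only [mem_inter_iff, mem_iInter, sset_inter]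
  constructor
  · rintro ⟨⟨h1, h2⟩, h3, h4⟩
    exact ⟨fun j hj => ⟨h1 j hj, h3 j hj⟩, h2, h4⟩
  · rintro ⟨h1, h2, h4⟩
    exact ⟨⟨fun j hj => (h1 j hj).1, h2⟩, fun j hj => (h1 j hj).2, h4⟩

theorem rest0_eq_generateFrom [Finite ι] (Q : Pair X) :
    rest0 s i Q = MeasurableSpace.generateFrom (tests s i Q) := by
  classical
  apply le_antisymm
  · refine sup_le (iSup_le fun j => iSup_le fun hj => ?_) ?_
    · refine MeasurableSpace.generateFrom_le ?_
      rintro _ ⟨A, hA, rfl⟩
      refine MeasurableSpace.measurableSet_generateFrom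
        ⟨fun j' => if j' = j then A else univ, fun _ => univ, ?_, fun _ => @MeasurableSet.univ _ Q.C,
          ?_⟩
      · intro j'
        by_cases h : j' = j
        · simp only [h, if_true]; exact hA
        · simp only [h, if_false]; exact MeasurableSet.univ
      · rw [intl_univ, inter_univ]
        ext x
        simp only [mem_iInter]
        constructor
        · intro hx j' _
          by_cases h : j' = j
          · subst h; simp only [if_true]; exact hx
          · simp only [h, if_false]; rw [sset_univ]; trivial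
        · intro hx
          have := hx j hj
          simp only [if_true] at this
          exact this
    · refine MeasurableSpace.generateFrom_le ?_
      rintro _ ⟨B, hB, rfl⟩
      refine MeasurableSpace.measurableSet_generateFrom
        ⟨fun _ => univ, B, fun _ => MeasurableSet.univ, hB, ?_⟩
      simp only [sset_univ, iInter_univ, univ_inter]
  · refine MeasurableSpace.generateFrom_le ?_
    rintro _ ⟨A, B, hA, hB, rfl⟩
    refine MeasurableSet.inter (MeasurableSet.iInter fun j => MeasurableSet.iInter fun hj => ?_) ?_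
    · have h1 : siteA Q.toSys (s j) ≤ rest0 s i Q :=
        (le_iSup₂ (f := fun j (_ : j ≠ i) => siteA Q.toSys (s j)) j hj).trans le_sup_left
      exact h1 _ (MeasurableSpace.measurableSet_generateFrom ⟨_, hA j, rfl⟩)
    · have h1 : LL Q.C ≤ rest0 s i Q := le_sup_right
      exact h1 _ (measurableSet_intl hB)

theorem s2set_transfer [Finite ι] [StandardBorelSpace P.Ω]
    (hK : ∀ R : Pair X, StandardBorelSpace R.Ω → ∀ (e0 : Ext P R) (A : Set P.Ω),
      MeasurableSet A → S2set s i e0 A) (e : Ext P Q) {A : Set P.Ω} (hA : MeasurableSet A) :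
    S2set s i e A := by
  classical
  unfold S2set
  have hmp := mp_Lb e
  have hm := measurableSet_sset (M := P.toSys) (σ := s i) hA
  set u : Lb P.Ω → ℝ := (sset P.toSys (s i) A).indicator (fun _ => (1 : ℝ)) with hu
  have hub : BdM (instMSLb : MeasurableSpace (Lb P.Ω)) u := BdM.indicator hm
  set g : Lb P.Ω → ℝ := (lb P.μ)[u | rest s i P] with hg
  have hgm : AEStronglyMeasurable g (lb P.μ) :=
    (stronglyMeasurable_condExp.mono (rest_le s i P)).aestronglyMeasurable
  have hgi : Integrable g (lb P.μ) := integrable_condExp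
  have hum : AEStronglyMeasurable u (lb P.μ) := (hub.integrable le_rfl).aestronglyMeasurable
  have hubQ : BdM (instMSLb : MeasurableSpace (Lb Q.Ω)) (u ∘ Lb.mp e.f) :=
    ⟨hub.meas.comp hmp.measurable, hub.bdd.imp (fun C hC x => hC _)⟩
  -- the conditional expectation with respect to `rest` is the one w.r.t. `rest0`
  have hr : (lb Q.μ)[u ∘ Lb.mp e.f | rest s i Q] =ᵐ[lb Q.μ]
      (lb Q.μ)[u ∘ Lb.mp e.f | rest0 s i Q] :=
    condExp_eq_of_aele (rest_le s i Q) (rest0_le s i Q) (aele_rest s i Q)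
      (AELe.of_le (rest0_le_rest s i Q)) hubQ
  refine hr.trans ?_
  -- a bounded `rest s i P`-measurable version of `g`
  obtain ⟨G, hG, hgG⟩ := hub.condExp_bm (μ := lb P.μ) (rest_le s i P)
  have hgG' : g ∘ Lb.mp e.f =ᵐ[lb Q.μ] G ∘ Lb.mp e.f := hmp.quasiMeasurePreserving.ae_eq_comp hgG
  have hGQ : BdM (rest s i Q) (G ∘ Lb.mp e.f) :=
    ⟨hG.comp.meas.mono (comap_rest_le s i e) le_rfl, hG.comp.bdd⟩
  have hGQ0 : AEStronglyMeasurable[rest0 s i Q] (g ∘ Lb.mp e.f) (lb Q.μ) := by
    obtain ⟨G', hG', hGG'⟩ := AELe.exists_bm (rest_le s i Q) (rest0_le s i Q) (aele_rest s i Q) hGQ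
    exact ⟨G', hG'.meas.stronglyMeasurable, hgG'.trans hGG'⟩
  have step : ∀ T ∈ tests s i Q, ∫ x in T, (g ∘ Lb.mp e.f) x ∂(lb Q.μ)
      = ∫ x in T, (u ∘ Lb.mp e.f) x ∂(lb Q.μ) := by
    rintro _ ⟨A', B', hA', hB', rfl⟩
    obtain ⟨enc⟩ : Nonempty (Encodable ι) := ⟨Encodable.ofCountable ι⟩
    set A'' : ℕ → Set Q.Ω := fun n => match Encodable.decode (α := ι) n with
      | some j => A' j
      | none => univ with hA''
    have hA''m : ∀ n, MeasurableSet (A'' n) := by
      intro n
      simp only [hA'']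
      cases Encodable.decode (α := ι) n with
      | none => exact MeasurableSet.univ
      | some j => exact hA' j
    have hA''e : ∀ j, A'' (Encodable.encode j) = A' j := by
      intro j
      simp only [hA'', Encodable.encodek]
    obtain ⟨R, hR, e0, e1, A0, B0, h01, -, hA0, hB0, hAe, hBe⟩ := exists_std_factor e
      (A := A'') (B := B') hA''m hB'
    have key : (lb R.μ)[u ∘ Lb.mp e0.f | rest s i R] =ᵐ[lb R.μ] g ∘ Lb.mp e0.f :=
      hK R hR e0 A hA
    have hmp0 := mp_Lb e0
    have hmp1 := mp_Lb e1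
    set T0 : Set (Lb R.Ω) := (⋂ j, ⋂ (_ : j ≠ i), sset R.toSys (s j) (A0 (Encodable.encode j)))
      ∩ intl B0 with hT0
    have hT0mem : T0 ∈ tests s i R := ⟨fun j => A0 (Encodable.encode j), B0,
      fun j => hA0 _, hB0, rfl⟩
    have hT0r : MeasurableSet[rest0 s i R] T0 := by
      rw [rest0_eq_generateFrom]
      exact MeasurableSpace.measurableSet_generateFrom hT0mem
    have hT0m : MeasurableSet[instMSLb] T0 := rest0_le s i R _ hT0r
    have hT : ((⋂ j, ⋂ (_ : j ≠ i), sset Q.toSys (s j) (A' j)) ∩ intl B' : Set (Lb Q.Ω))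
        =ᵐ[lb Q.μ] Lb.mp e1.f ⁻¹' T0 := by
      have h1 : ∀ j, sset Q.toSys (s j) (A' j) =ᵐ[lb Q.μ]
          Lb.mp e1.f ⁻¹' (sset R.toSys (s j) (A0 (Encodable.encode j))) := by
        intro j
        have := preimage_sset e1 (s j) (A0 (Encodable.encode j))
        rw [hAe, hA''e] at this
        exact this.symm
      have h2 : (intl B' : Set (Lb Q.Ω)) = Lb.mp e1.f ⁻¹' (intl B0) := by
        rw [preimage_intl]
        congr 1
        funext k
        exact (hBe k).symm
      rw [hT0, preimage_inter, ← h2]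
      simp only [preimage_iInter]
      refine EventuallyEq.inter ?_ EventuallyEq.rfl
      have h3 : ∀ᵐ x ∂(lb Q.μ), ∀ j, (x ∈ sset Q.toSys (s j) (A' j)) =
          (x ∈ Lb.mp e1.f ⁻¹' (sset R.toSys (s j) (A0 (Encodable.encode j)))) := by
        rw [ae_all_iff]
        intro j
        exact h1 j
      filter_upwards [h3] with x hx
      have h4 : x ∈ (⋂ j, ⋂ (_ : j ≠ i), sset Q.toSys (s j) (A' j)) ↔
          x ∈ ⋂ j, ⋂ (_ : j ≠ i),
            Lb.mp e1.f ⁻¹' (sset R.toSys (s j) (A0 (Encodable.encode j))) := by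
        simp only [mem_iInter]
        constructor
        · intro h j hj
          rw [← hx j]; exact h j hj
        · intro h j hj
          rw [hx j]; exact h j hj
      exact propext h4
    have hcomp : Lb.mp e.f = Lb.mp e0.f ∘ Lb.mp e1.f := by
      funext x
      funext k
      exact (h01 (x k)).symm
    have hgen : ∀ v : Lb P.Ω → ℝ, AEStronglyMeasurable v (lb P.μ) →
        ∫ x in Lb.mp e1.f ⁻¹' T0, (v ∘ Lb.mp e.f) x ∂(lb Q.μ)
          = ∫ x in T0, (v ∘ Lb.mp e0.f) x ∂(lb R.μ) := by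
      intro v hv
      rw [← setIntegral_comp_mp hmp1 hT0m (hv.comp_measurePreserving hmp0), hcomp]
      rfl
    rw [setIntegral_congr_set hT, setIntegral_congr_set hT, hgen g hgm, hgen u hum]
    have hi : Integrable (u ∘ Lb.mp e0.f) (lb R.μ) :=
      hmp0.integrable_comp_of_integrable (hub.integrable le_rfl)
    rw [← setIntegral_condExp (rest_le s i R) hi (rest0_le_rest s i R _ hT0r)]
    refine setIntegral_congr_ae hT0m ?_
    filter_upwards [key] with x hx _
    exact hx.symm
  refine condExp_eq_of_piSystem (rest0_le s i Q) (rest0_eq_generateFrom s i Q)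
    (isPiSystem_tests s i Q) (hubQ.integrable le_rfl)
    (hmp.integrable_comp_of_integrable hgi) hGQ0 ?_ step
  have huniv : (univ : Set (Lb Q.Ω)) ∈ tests s i Q := by
    refine ⟨fun _ => univ, fun _ => univ, fun _ => MeasurableSet.univ,
      fun _ => @MeasurableSet.univ _ Q.C, ?_⟩
    simp only [sset_univ, iInter_univ, univ_inter, intl_univ]
  have := step _ huniv
  simpa using this

end transfer

section final


variable {X : Sys} {ι : Type} {s : ι → ℕ → ℤ} {P Q : Pair X}

/-- the class of standard Borel pairs -/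
def StdB (Q : Pair X) : Prop := StandardBorelSpace Q.Ω

theorem s1set_of_sated [StandardBorelSpace P.Ω] (h : Sated s StdB P) (e : Ext P Q)
    {A : Set P.Ω} (hA : MeasurableSet A) : S1set e A :=
  s1set_transfer (fun R hR e0 A hA => s1set_of_en0 e0 hA (h.sated0 R hR e0 A hA)) e hA

theorem s2set_of_sated [Finite ι] [StandardBorelSpace P.Ω] (h : Sated s StdB P) (e : Ext P Q)
    (i : ι) {A : Set P.Ω} (hA : MeasurableSet A) : S2set s i e A :=
  s2set_transfer s i
    (fun R hR e0 A hA => s2set_of_en1 s i e0 hA (h.sated1 R hR e0 A hA i)) e hA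

/-- **STD**: satedness with respect to standard Borel extensions implies satedness with respect
to all extensions. -/
theorem Sated.all [Finite ι] [StandardBorelSpace P.Ω] (h : Sated s StdB P) :
    Sated s (fun _ => True) P := by
  refine ⟨fun Q _ e A hA => ?_, fun Q _ e A hA i => ?_⟩
  · have h1 := s1set_of_sated h e hA
    unfold S1set at h1
    unfold en0
    rw [← integral_comp_mp e.f_mp (F := fun x => (P.μ[A.indicator (fun _ => (1 : ℝ)) | P.C] x) ^ 2)
      ((stronglyMeasurable_condExp.mono P.C_le).aestronglyMeasurable.pow 2)]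
    refine integral_congr_ae ?_
    filter_upwards [h1] with x hx
    rw [hx]
    rfl
  · have h1 := s2set_of_sated h e i hA
    unfold S2set at h1
    have hset : (sset P.toSys (s i) A).indicator (fun _ => (1 : ℝ)) ∘ Lb.mp e.f =ᵐ[lb Q.μ]
        (sset Q.toSys (s i) (e.f ⁻¹' A)).indicator (fun _ => (1 : ℝ)) := by
      have h2 : (sset P.toSys (s i) A).indicator (fun _ => (1 : ℝ)) ∘ Lb.mp e.f
          = (Lb.mp e.f ⁻¹' (sset P.toSys (s i) A)).indicator (fun _ => (1 : ℝ)) := rfl
      rw [h2]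
      exact indicator_ae_eq_of_ae_eq_set (preimage_sset e (s i) A)
    unfold en1
    have h4 := integral_comp_mp (mp_Lb e)
      (F := fun x => ((lb P.μ)[(sset P.toSys (s i) A).indicator (fun _ => (1 : ℝ)) |
        rest s i P] x) ^ 2)
      ((stronglyMeasurable_condExp.mono (rest_le s i P)).aestronglyMeasurable.pow 2)
    refine Eq.trans ?_ h4
    refine integral_congr_ae ?_
    filter_upwards [h1, condExp_congr_ae (m := rest s i Q) hset] with x hx hx'
    have h5 : ((lb Q.μ)[(intl (fun k => Q.S (s i k) ⁻¹' (e.f ⁻¹' A))).indicator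
        (fun _ => (1 : ℝ)) | rest s i Q]) x
        = ((lb Q.μ)[(sset P.toSys (s i) A).indicator (fun _ => (1 : ℝ)) ∘ Lb.mp e.f |
          rest s i Q]) x := hx'.symm
    rw [h5, hx]
    rfl





end final

end Crest.Agent.R069.Std
end

-- ▼ part R069/SatTop

/-!
# Row 69, node SAT: N_SAT from the existence of pairs sated against standard Borel extensions
-/

set_option autoImplicit false

open MeasureTheory Filter Set
open scoped ENNReal Topology

namespace Crest.Agent.R069.SatTop

open Crest.Agent.R069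

/-- (S1) and (S2) against all extensions from satedness against standard Borel ones. -/
theorem out_of_std {X : Sys} {ι : Type} [Finite ι] {s : ι → ℕ → ℤ} {P : Pair X}
    [StandardBorelSpace P.Ω] (h : Sated s Std.StdB P) : S1 P ∧ S2 s P := by
  have h2 : Sated s (fun _ => True) P := Std.Sated.all h
  exact ⟨fun Q e => (SatEn.Sated.out h2 Q trivial e).1,
    fun Q e => (SatEn.Sated.out h2 Q trivial e).2⟩

/-- N_SAT from the existence of pairs sated against the standard Borel extensions. -/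
theorem n_sat_of (h : ∀ (X : Sys), StandardBorelSpace X.Ω → ∀ (P : Pair X),
    StandardBorelSpace P.Ω → ∀ (ι : Type) [Fintype ι] (s : ι → ℕ → ℤ),
      ∃ (Q : Pair X) (_ : Ext P Q), Std.StdB Q ∧ Sated s Std.StdB Q) : N_SAT := by
  intro X hX P hP ι _ s
  obtain ⟨Q, e, hQ, hs⟩ := h X hX P hP ι s
  have : StandardBorelSpace Q.Ω := hQ
  exact ⟨Q, e, hQ, (out_of_std hs).1, (out_of_std hs).2⟩

end Crest.Agent.R069.SatTop
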