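import Crest.Agent.R069.RuleLev
import Crest.Agent.R069.CI
import Crest.Agent.R069.RLevDefs
import Crest.Agent.R069.RuleA
import Crest.Agent.R069.LoebCE
import Mathlib

-- ▼ part R069/RuleDic
section

/-!
# Row 69, node RULE: dictionary between the abstract spectral step (334's `SpecX`) and `N_RULE`

`φ i := P.π ∘ co s P i : Lb P.Ω → X.Ω`, `SS i := rest s i P`, `mY = P.visX s`.
-/

set_option autoImplicit false
set_option linter.unusedSectionVars false

open MeasureTheory Filter Set ProbabilityTheory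
open scoped ENNReal Topology

namespace Crest.Agent.R069.RuleDic

open Crest.Agent.R069 Crest.Agent.R069.RuleLev

variable {X : Sys} {ι : Type} [Fintype ι] [DecidableEq ι] (s : ι → ℕ → ℤ) (P : Pair X)
  [StandardBorelSpace P.Ω] [Nonempty P.Ω]

/-- the base coordinate at the site `i` -/
noncomputable def φ (i : ι) : Lb P.Ω → X.Ω := fun y => P.π (co s P i y)

theorem φ_mp (i : ι) : MeasurePreserving (φ s P i) (lb P.μ) X.μ :=
  P.π_mp.comp (co_mp s P i)

theorem restLe (i : ι) : rest s i P ≤ LL P.ms := restM_le s i P.toSys le_rfl P.C_le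

theorem nulL_le_rest (i : ι) : nulL P.toSys ≤ rest s i P := le_sup_right

theorem siteA_le_rest {i j : ι} (h : j ≠ i) : siteA P.toSys (s j) ≤ rest s i P :=
  ((le_iSup₂ (f := fun j (_ : j ≠ i) => siteA P.toSys (s j)) j h).trans le_sup_left).trans
    le_sup_left

/-- `co j` is `rest i`-measurable for `j ≠ i` -/
theorem co_measurable {i j : ι} (h : j ≠ i) : Measurable[rest s i P, P.ms] (co s P j) := by
  intro A hA
  refine measurableSet_of_ae_nul (mα := LL P.ms) (restLe s P i) (nulL_le_rest s P i)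
    ((co_mp s P j).measurable hA) ?_ (co_preimage_ae s P j hA)
  exact siteA_le_rest s P h _ (MeasurableSpace.measurableSet_generateFrom ⟨A, hA, rfl⟩)

theorem φ_measurable {i j : ι} (h : j ≠ i) : Measurable[rest s i P, X.ms] (φ s P j) :=
  P.π_mp.measurable.comp (co_measurable s P h)

/-- functions of the base coordinate -/
theorem comp_φ (i : ι) {G : X.Ω → ℝ} (hG : Measurable G) :
    G ∘ φ s P i =ᵐ[lb P.μ] sitef P.toSys (s i) (G ∘ P.π) :=
  comp_co_ae s P i (f := G ∘ P.π) (hG.comp P.π_mp.measurable)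

/-- `tau` on `Lb P.Ω` -/
theorem tau_eq {f : ι → X.Ω → ℝ} (hf : ∀ i, Bd X.ms (f i)) :
    tau X s f = ∫ y, ∏ i, f i (φ s P i y) ∂(lb P.μ) :=
  (integral_prod_co s P Finset.univ hf).symm

theorem φ_preimage_ae (i : ι) {A : Set X.Ω} (hA : MeasurableSet A) :
    φ s P i ⁻¹' A =ᵐ[lb P.μ] intl (fun k => P.S (s i k) ⁻¹' (P.π ⁻¹' A)) :=
  have h : φ s P i ⁻¹' A = co s P i ⁻¹' (P.π ⁻¹' A) := rfl
  h ▸ co_preimage_ae s P i (A := P.π ⁻¹' A) (P.π_mp.measurable hA)

/-- **`mY = visX`** -/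
theorem visX_iff {A : Set X.Ω} : MeasurableSet[P.visX s] A ↔
    MeasurableSet[X.ms] A ∧ ∀ i, ∃ B, MeasurableSet[rest s i P] B ∧
      φ s P i ⁻¹' A =ᵐ[lb P.μ] B := by
  constructor
  · rintro ⟨hA, -, h⟩
    exact ⟨hA, fun i => ⟨_, h i, φ_preimage_ae s P i hA⟩⟩
  · rintro ⟨hA, h⟩
    refine ⟨hA, P.π_mp.measurable hA, fun i => ?_⟩
    obtain ⟨B, hB, hAB⟩ := h i
    exact measurableSet_of_ae_nul (mα := LL P.ms) (restLe s P i) (nulL_le_rest s P i)
      (P.toSys.measurableSet_site (s i) (P.π_mp.measurable hA)) hB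
      ((φ_preimage_ae s P i hA).symm.trans hAB)


end Crest.Agent.R069.RuleDic
end

-- ▼ part R069/RuleCore
section

/-!
# The rule `a` in one slot = `a` in all the other slots (row 69, node N-RULE, abstract core)

helper212.  No Loeb spaces, no systems: two probability spaces, finitely many coordinates.
-/

set_option autoImplicit false
set_option linter.unusedSectionVars false
set_option linter.unusedVariables false

open MeasureTheory Filter Set ProbabilityTheory
open scoped ENNReal Topology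

namespace Crest.Agent.R069

namespace RuleCore

/-! ### Abstract peeling -/

section peel

variable {Ω : Type*} {mΩ : MeasurableSpace Ω} {P : Measure Ω} [IsProbabilityMeasure P]
  {ι : Type*} [DecidableEq ι]

/-- **Peeling**: if `E[U j | R A'] = V j` for all `A' ∌ j`, where `R A' ⊇ R` makes the `U j'`,
`j' ∈ A'`, measurable, then `E[∏ U j | R] = ∏ V j`. -/
theorem peel {R : MeasurableSpace Ω} (hR : R ≤ mΩ) {U V : ι → Ω → ℝ} {A : Finset ι}
    (hU : ∀ j ∈ A, BdM mΩ (U j)) (hV : ∀ j ∈ A, ∃ V', BdM R V' ∧ V j =ᵐ[P] V')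
    (h : ∀ j ∈ A, ∀ A' ⊆ A, j ∉ A' → ∃ m : MeasurableSpace Ω, R ≤ m ∧ m ≤ mΩ ∧
      (∀ j' ∈ A', ∃ U', BdM m U' ∧ U j' =ᵐ[P] U') ∧ P[U j | m] =ᵐ[P] V j) :
    P[fun ω => ∏ j ∈ A, U j ω | R] =ᵐ[P] fun ω => ∏ j ∈ A, V j ω := by
  classical
  induction A using Finset.induction_on with
  | empty =>
    simp only [Finset.prod_empty]
    exact (condExp_of_bm hR BdM.one).eventuallyEq
  | insert a s ha ih =>
    have ih' := ih (fun j hj => hU j (Finset.mem_insert_of_mem hj))
      (fun j hj => hV j (Finset.mem_insert_of_mem hj))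
      (fun j hj A' hA' hjA' => h j (Finset.mem_insert_of_mem hj) A'
        (hA'.trans (Finset.subset_insert a s)) hjA')
    obtain ⟨m, hRm, hm, hUm, hce⟩ := h a (Finset.mem_insert_self a s) s (Finset.subset_insert a s) ha
    obtain ⟨V', hV', hVV'⟩ := hV a (Finset.mem_insert_self a s)
    -- bounded versions of the factors in `s`
    choose! W hW hUW using hUm
    have hprodU : (fun ω => ∏ j ∈ s, U j ω) =ᵐ[P] fun ω => ∏ j ∈ s, W j ω := by
      have : ∀ᵐ ω ∂P, ∀ j ∈ s, U j ω = W j ω := by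
        rw [Filter.eventually_all_finset]
        exact fun j hj => hUW j hj
      filter_upwards [this] with ω hω
      exact Finset.prod_congr rfl hω
    have hWs : BdM m (fun ω => ∏ j ∈ s, W j ω) := BdM.prod hW
    have hUa := hU a (Finset.mem_insert_self a s)
    have hUai := hUa.integrable (μ := P) le_rfl
    have e0 : (fun ω => ∏ j ∈ insert a s, U j ω) =ᵐ[P]
        (fun ω => U a ω) * (fun ω => ∏ j ∈ s, W j ω) := by
      filter_upwards [hprodU] with ω hω
      simp only [Pi.mul_apply]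
      rw [Finset.prod_insert ha, hω]
    have hint : Integrable ((fun ω => U a ω) * (fun ω => ∏ j ∈ s, W j ω)) P := by
      have := (hUa.mul (hWs.mono hm)).integrable (μ := P) le_rfl
      exact this
    have e1 : P[(fun ω => U a ω) * (fun ω => ∏ j ∈ s, W j ω) | m] =ᵐ[P]
        P[fun ω => U a ω | m] * (fun ω => ∏ j ∈ s, W j ω) :=
      condExp_mul_of_stronglyMeasurable_right hWs.meas.stronglyMeasurable hint hUai
    have e2 : P[(fun ω => U a ω) * (fun ω => ∏ j ∈ s, W j ω) | m] =ᵐ[P]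
        (fun ω => ∏ j ∈ s, U j ω) * V' := by
      filter_upwards [e1, hce, hVV', hprodU] with ω h1 h2 h3 h4
      rw [h1]
      simp only [Pi.mul_apply]
      rw [h2, h3, ← h4, mul_comm]
    have hUs : BdM mΩ (fun ω => ∏ j ∈ s, U j ω) :=
      BdM.prod (fun j hj => hU j (Finset.mem_insert_of_mem hj))
    have hint2 : Integrable ((fun ω => ∏ j ∈ s, U j ω) * V') P :=
      (hUs.mul (hV'.mono hR)).integrable (μ := P) le_rfl
    calc P[fun ω => ∏ j ∈ insert a s, U j ω | R]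
        =ᵐ[P] P[(fun ω => U a ω) * (fun ω => ∏ j ∈ s, W j ω) | R] := condExp_congr_ae e0
      _ =ᵐ[P] P[P[(fun ω => U a ω) * (fun ω => ∏ j ∈ s, W j ω) | m] | R] :=
          (condExp_condExp hRm hm).symm
      _ =ᵐ[P] P[(fun ω => ∏ j ∈ s, U j ω) * V' | R] := condExp_congr_ae e2
      _ =ᵐ[P] P[fun ω => ∏ j ∈ s, U j ω | R] * V' :=
          condExp_mul_of_stronglyMeasurable_right hV'.meas.stronglyMeasurable hint2
            (hUs.integrable le_rfl)
      _ =ᵐ[P] fun ω => ∏ j ∈ insert a s, V j ω := by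
          filter_upwards [ih', hVV'] with ω h1 h2
          simp only [Pi.mul_apply]
          rw [h1, ← h2, Finset.prod_insert ha, mul_comm]

end peel

/-! ### The core -/

section core

variable {X : Type*} [mX : MeasurableSpace X] {μX : Measure X} [IsProbabilityMeasure μX]
  {ι : Type*} [Fintype ι] [DecidableEq ι]
  {Ω : Type*} {L : ι → MeasurableSpace Ω} {LA L0 R : MeasurableSpace Ω}
  {mΩ : MeasurableSpace Ω} {P : Measure Ω} [IsProbabilityMeasure P]

/-- The sigma-algebra of the coordinates in `A`. -/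
@[implicit_reducible]
def cor (X : Type*) [mX : MeasurableSpace X] {ι : Type*} (A : Finset ι) :
    MeasurableSpace (ι → X) := ⨆ j ∈ A, mX.comap (fun x => x j)



/-- Independence in functional form. -/
def Ind (P : Measure Ω) (L : ι → MeasurableSpace Ω) (A : Finset ι) : Prop :=
  ∀ h : ι → Ω → ℝ, (∀ j ∈ A, BdM (L j) (h j)) →
    ∫ ω, ∏ j ∈ A, h j ω ∂P = ∏ j ∈ A, ∫ ω, h j ω ∂P

/-- Versions: the same with a.e. versions. -/
theorem Ind.ae {A : Finset ι} (hI : Ind P L A) {h : ι → Ω → ℝ}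
    (hh : ∀ j ∈ A, ∃ h', BdM (L j) h' ∧ h j =ᵐ[P] h') :
    ∫ ω, ∏ j ∈ A, h j ω ∂P = ∏ j ∈ A, ∫ ω, h j ω ∂P := by
  choose! W hW hhW using hh
  have e1 : (fun ω => ∏ j ∈ A, h j ω) =ᵐ[P] fun ω => ∏ j ∈ A, W j ω := by
    have : ∀ᵐ ω ∂P, ∀ j ∈ A, h j ω = W j ω := by
      rw [Filter.eventually_all_finset]
      exact fun j hj => hhW j hj
    filter_upwards [this] with ω hω
    exact Finset.prod_congr rfl hω
  rw [integral_congr_ae e1, hI W hW]
  exact Finset.prod_congr rfl fun j hj => (integral_congr_ae (hhW j hj)).symm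

theorem prod_ind (A : Finset ι) (v : ι → Ω → ℝ) (B : ι → Set Ω) (ω : Ω) :
    (⋂ j ∈ A, B j).indicator (fun ω => ∏ j ∈ A, v j ω) ω =
      ∏ j ∈ A, (v j ω * (B j).indicator (fun _ => (1 : ℝ)) ω) := by
  classical
  rw [Finset.prod_mul_distrib]
  by_cases h : ω ∈ ⋂ j ∈ A, B j
  · rw [indicator_of_mem h]
    have : ∏ j ∈ A, (B j).indicator (fun _ => (1 : ℝ)) ω = 1 := by
      apply Finset.prod_eq_one
      intro j hj
      have : ω ∈ B j := by simp only [mem_iInter] at h; exact h j hj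
      rw [indicator_of_mem this]
    rw [this, mul_one]
  · rw [indicator_of_notMem h]
    simp only [mem_iInter, not_forall] at h
    obtain ⟨j, hj, hjB⟩ := h
    have : ∏ j ∈ A, (B j).indicator (fun _ => (1 : ℝ)) ω = 0 :=
      Finset.prod_eq_zero hj (indicator_of_notMem hjB _)
    rw [this, mul_zero]

variable {lam : Measure (ι → X)} [IsProbabilityMeasure lam] {y : Ω → ι → X}



end core

end RuleCore

end Crest.Agent.R069
end

-- ▼ part R069/RulePeel
section

/-!
# Row 69, node RULE, R2: peeling on the Loeb space of the level system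
-/

set_option autoImplicit false
set_option linter.unusedSectionVars false

open MeasureTheory Filter Set ProbabilityTheory
open scoped ENNReal Topology

namespace Crest.Agent.R069.Rule

open Crest.Agent.R069

/-! ### small facts -/

theorem Bd.toM {α : Type*} {m : MeasurableSpace α} {f : α → ℝ} (h : Bd m f) : BdM m f :=
  ⟨h.1, h.2⟩

theorem bd_of_M {α : Type*} {m : MeasurableSpace α} {f : α → ℝ} (h : BdM m f) : Bd m f :=
  ⟨h.meas, h.bdd⟩

theorem bd_comp {α β : Type*} {m : MeasurableSpace α} {m' : MeasurableSpace β} {f : α → ℝ}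
    (h : Bd m f) {φ : β → α} (hφ : Measurable[m', m] φ) : Bd m' (f ∘ φ) :=
  ⟨h.1.comp hφ, h.2.imp fun _ hC x => hC (φ x)⟩

theorem S_neg (M : Sys) (n : ℤ) (x : M.Ω) : M.S (-n) (M.S n x) = x := by
  rw [← M.S_add, neg_add_cancel, M.S_zero]


/-- functions at a site and equivariant maps. -/
theorem sitef_comp {M N : Sys} {f : M.Ω → N.Ω}
    (hf_S : ∀ n, (fun x => f (M.S n x)) =ᵐ[M.μ] fun x => N.S n (f x)) (t : ℕ → ℤ)
    (g : N.Ω → ℝ) : sitef M t (g ∘ f) =ᵐ[lb M.μ] sitef N t g ∘ Lb.mp f := by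
  have h1 : sitef M t (g ∘ f) =ᵐ[lb M.μ] st (fun k x => g (N.S (t k) (f x))) := by
    refine RuleA.st_congr_ae fun k => ?_
    filter_upwards [hf_S (t k)] with x hx
    exact congrArg g hx
  exact h1

theorem mp_of {M N : Sys} {f : M.Ω → N.Ω} (hf_mp : MeasurePreserving f M.μ N.μ) :
    MeasurePreserving (Lb.mp f) (lb M.μ) (lb N.μ) :=
  measurePreserving_lbmap (f := fun _ => f) (fun _ => hf_mp)

theorem mp_site_ae {M N : Sys} {f : M.Ω → N.Ω}
    (hf_S : ∀ n, (fun x => f (M.S n x)) =ᵐ[M.μ] fun x => N.S n (f x)) (t : ℕ → ℤ)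
    (A : Set N.Ω) : Lb.mp f ⁻¹' (intl (fun k => N.S (t k) ⁻¹' A)) =ᵐ[lb M.μ]
      intl (fun k => M.S (t k) ⁻¹' (f ⁻¹' A)) := by
  have h1 : Lb.mp f ⁻¹' (intl (fun k => N.S (t k) ⁻¹' A)) =
      intl (fun k => f ⁻¹' (N.S (t k) ⁻¹' A)) := rfl
  rw [h1]
  refine intl_ae_eq fun k => ?_
  filter_upwards [hf_S (t k)] with x hx
  show (N.S (t k) (f x) ∈ A) = (f (M.S (t k) x) ∈ A)
  have hx' : f (M.S (t k) x) = N.S (t k) (f x) := hx
  rw [hx']

theorem nul_comap_le {α β : Type*} {mα : MeasurableSpace α} {mβ : MeasurableSpace β}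
    {μ : Measure α} {ν : Measure β} {f : α → β} (hf : MeasurePreserving f μ ν) :
    (nul ν).comap f ≤ nul μ := by
  rintro _ ⟨B, hB, rfl⟩
  refine ⟨hf.measurable hB.1, ?_⟩
  rcases hB.2 with h | h
  · left; rw [hf.measure_preimage hB.1.nullMeasurableSet, h]
  · right; rw [← preimage_compl, hf.measure_preimage hB.1.compl.nullMeasurableSet, h]

section
variable {X : Sys} {ι : Type} {s : ι → ℕ → ℤ} {P : Pair X}

theorem preimage_site_meas {M : Sys} {f : M.Ω → P.Ω} (hf_mp : MeasurePreserving f M.μ P.μ)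
    (t : ℕ → ℤ) {A : Set P.Ω} (hA : MeasurableSet A) :
    MeasurableSet[LL M.ms] (Lb.mp f ⁻¹' (intl (fun k => P.S (t k) ⁻¹' A))) :=
  (mp_of (M := M) (N := P.toSys) hf_mp).measurable (P.toSys.measurableSet_site t hA)

theorem meas_of_mp {M : Sys} {f : M.Ω → P.Ω} (hf_mp : MeasurePreserving f M.μ P.μ) :
    Measurable[M.ms, P.ms] f := hf_mp.measurable

theorem site_mem {M : Sys} {f : M.Ω → P.Ω} (hf_mp : MeasurePreserving f M.μ P.μ)
    (hf_S : ∀ n, (fun x => f (M.S n x)) =ᵐ[M.μ] fun x => P.S n (f x)) (t : ℕ → ℤ) {A : Set P.Ω}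
    (hA : MeasurableSet A) (m : MeasurableSpace (Lb M.Ω)) (hm : m ≤ LL M.ms) (hn : nulL M ≤ m)
    (h : MeasurableSet[m] (intl (fun k => M.S (t k) ⁻¹' (f ⁻¹' A)))) :
    MeasurableSet[m] (Lb.mp f ⁻¹' (intl (fun k => P.S (t k) ⁻¹' A))) :=
  @measurableSet_of_ae_nul _ m (LL M.ms) (@lb _ M.ms M.μ) hm hn _ _
    (preimage_site_meas hf_mp t hA) h (mp_site_ae (M := M) (N := P.toSys) hf_S t A)

theorem nul_mp_le {M : Sys} {f : M.Ω → P.Ω} (hf_mp : MeasurePreserving f M.μ P.μ) :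
    (nul (lb P.μ)).comap (Lb.mp f) ≤ nulL M :=
  nul_comap_le (mp_of (M := M) (N := P.toSys) hf_mp)

/-- `rest` pulled back along an equivariant map. -/
theorem comap_rest_le {M : Sys} {f : M.Ω → P.Ω} (hf_mp : MeasurePreserving f M.μ P.μ)
    (hf_S : ∀ n, (fun x => f (M.S n x)) =ᵐ[M.μ] fun x => P.S n (f x))
    (C : MeasurableSpace M.Ω) (hC : C ≤ M.ms) (hf_C : P.C.comap f ≤ C) (i : ι) :
    (rest s i P).comap (Lb.mp f) ≤ restM s i M M.ms C := by
  unfold rest
  rw [MeasurableSpace.comap_sup, MeasurableSpace.comap_sup, MeasurableSpace.comap_iSup]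
  refine sup_le (sup_le (iSup_le fun j => ?_) ?_) ?_
  · rw [MeasurableSpace.comap_iSup]
    refine iSup_le fun hj => ?_
    unfold siteA
    rw [MeasurableSpace.comap_generateFrom]
    refine MeasurableSpace.generateFrom_le ?_
    rintro _ ⟨_, ⟨A, hA, rfl⟩, rfl⟩
    refine site_mem hf_mp hf_S (s j) hA _ (restM_le s i M le_rfl hC) le_sup_right ?_
    have h2 : siteM M (s j) M.ms ≤ restM s i M M.ms C :=
      le_sup_of_le_left (le_sup_of_le_left (le_iSup₂_of_le j hj le_rfl))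
    exact h2 _ (MeasurableSpace.measurableSet_generateFrom
      ⟨f ⁻¹' A, meas_of_mp hf_mp hA, rfl⟩)
  · refine le_trans ?_ (le_sup_right.trans le_sup_left : LL C ≤ restM s i M M.ms C)
    have : (LL P.C).comap (Lb.mp f) = LL (P.C.comap f) := comap_lbmap_LL f
    rw [this]
    exact LL_mono hf_C
  · exact (nul_mp_le hf_mp).trans le_sup_right

end

section
variable {X : Sys} {ι : Type} [Fintype ι] [DecidableEq ι] {s : ι → ℕ → ℤ} {P : Pair X}

namespace RLev

variable (L : RLev s P)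

/-- the environment algebra enlarged by the coordinates in `A` -/
@[implicit_reducible]
def DA (A : Finset ι) : MeasurableSpace L.J.Ω := (⨆ j' ∈ A, P.ms.comap (L.co j')) ⊔ L.D

theorem DA_le (A : Finset ι) : L.DA A ≤ L.J.ms :=
  sup_le (iSup₂_le fun j _ => (L.co_mp j).measurable.comap_le) L.D_le

theorem D_le_DA (A : Finset ι) : L.D ≤ L.DA A := le_sup_right

theorem nul_le_DA (A : Finset ι) : @nul _ L.J.ms L.J.μ ≤ L.DA A := L.D_nul.trans (L.D_le_DA A)

theorem comap_le_DA {A : Finset ι} {j : ι} (hj : j ∈ A) : P.ms.comap (L.co j) ≤ L.DA A :=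
  le_sup_of_le_left (le_iSup₂_of_le j hj le_rfl)

theorem DA_S (A : Finset ι) (n : ℤ) : Measurable[L.DA A, L.DA A] (L.J.S n) := by
  rw [measurable_iff_comap_le]
  unfold DA
  rw [MeasurableSpace.comap_sup]
  refine sup_le ?_ ((measurable_iff_comap_le.1 (L.D_S n)).trans le_sup_right)
  simp only [MeasurableSpace.comap_iSup]
  refine iSup₂_le fun j hj => ?_
  rintro _ ⟨_, ⟨B, hB, rfl⟩, rfl⟩
  have h1 : MeasurableSet[L.DA A] (L.co j ⁻¹' (P.S n ⁻¹' B)) :=
    L.comap_le_DA hj _ ⟨_, (P.S_mp n).measurable hB, rfl⟩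
  refine measurableSet_of_ae_nul (L.DA_le A) (L.nul_le_DA A)
    ((L.J.S_mp n).measurable ((L.co_mp j).measurable hB)) h1 ?_
  filter_upwards [L.co_S j n] with x hx
  show (L.co j (L.J.S n x) ∈ B) = (P.S n (L.co j x) ∈ B)
  have hx' : L.co j (L.J.S n x) = P.S n (L.co j x) := hx
  rw [hx']

/-- the base coordinate -/
def xc (j : ι) (z : L.J.Ω) : X.Ω := P.π (L.co j z)

theorem xc_mp (j : ι) : MeasurePreserving (L.xc j) L.J.μ X.μ := P.π_mp.comp (L.co_mp j)

theorem xc_S (j : ι) (n : ℤ) :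
    (fun z => L.xc j (L.J.S n z)) =ᵐ[L.J.μ] fun z => X.S n (L.xc j z) := by
  filter_upwards [L.co_S j n, (L.co_mp j).quasiMeasurePreserving.ae (P.π_S n)] with z h1 h2
  have h1' : L.co j (L.J.S n z) = P.S n (L.co j z) := h1
  show P.π (L.co j (L.J.S n z)) = X.S n (P.π (L.co j z))
  rw [h1']
  exact h2

/-- the pair `(J, D_A)` through the coordinate `j` -/
def pair (A : Finset ι) (j : ι) (hj : j ∉ A) (hA : insert j A ≠ Finset.univ) : Pair X where
  toSys := L.J
  π := L.xc j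
  π_mp := L.xc_mp j
  π_S := L.xc_S j
  C := L.DA A
  C_le := L.DA_le A
  C_nul := L.nul_le_DA A
  C_S := L.DA_S A
  indep := L.indep A j hj hA

/-- the coordinate `j` as an extension -/
def ext (A : Finset ι) (j : ι) (hj : j ∉ A) (hA : insert j A ≠ Finset.univ) :
    Ext P (L.pair A j hj hA) where
  f := L.co j
  f_mp := L.co_mp j
  f_S := L.co_S j
  f_π := EventuallyEq.rfl
  f_C := (L.C_le j).trans (L.D_le_DA A)

end RLev

/-- `P_i f`. -/
noncomputable def PF (s : ι → ℕ → ℤ) (i : ι) (P : Pair X) (f : P.Ω → ℝ) : Lb P.Ω → ℝ :=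
  (lb P.μ)[sitef P.toSys (s i) f | rest s i P]

theorem rest_le' (i : ι) (P : Pair X) : rest s i P ≤ LL P.ms := RuleA.rest_le s i P

theorem PF_version (i : ι) (P : Pair X) {f : P.Ω → ℝ} (hf : Bd P.ms f) :
    ∃ G, BdM (rest s i P) G ∧ PF s i P f =ᵐ[lb P.μ] G :=
  BdM.condExp_bm (μ := lb P.μ) (rest_le' i P) (RuleA.sitef_BdM P.toSys (s i) hf)

namespace RLev
variable (L : RLev s P)

/-- the sigma-algebra `S_i(J, D)` on the Loeb space of `J`. -/
@[implicit_reducible]
noncomputable def R0 (i : ι) : MeasurableSpace (Lb L.J.Ω) := restM s i L.J L.J.ms L.D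

theorem R0_le (i : ι) : L.R0 i ≤ LL L.J.ms := restM_le s i L.J le_rfl L.D_le

theorem R0_le_DA (i : ι) (A : Finset ι) : L.R0 i ≤ restM s i L.J L.J.ms (L.DA A) :=
  sup_le_sup_right (sup_le_sup_left (LL_mono (L.D_le_DA A)) _) _

/-- the function `f` on `P` in coordinate `j` at the site `i`. -/
noncomputable def U (i : ι) (j : ι) (f : P.Ω → ℝ) : Lb L.J.Ω → ℝ :=
  sitef L.J (s i) (f ∘ L.co j)

/-- `P_i f` in coordinate `j`. -/
noncomputable def V (i : ι) (j : ι) (f : P.Ω → ℝ) : Lb L.J.Ω → ℝ :=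
  fun z => PF s i P f (Lb.mp (L.co j) z)

theorem U_BdM (i j : ι) {f : P.Ω → ℝ} (hf : Bd P.ms f) : BdM (LL L.J.ms) (L.U i j f) :=
  RuleA.sitef_BdM L.J (s i) (bd_comp hf (L.co_mp j).measurable)

theorem V_version (i j : ι) {f : P.Ω → ℝ} (hf : Bd P.ms f) :
    ∃ G, BdM (L.R0 i) G ∧ L.V i j f =ᵐ[lb L.J.μ] G := by
  obtain ⟨G, hG, hGe⟩ := PF_version (s := s) i P hf
  refine ⟨G ∘ Lb.mp (L.co j), ?_, ?_⟩
  · have h1 := hG.comp (φ := Lb.mp (L.co j))
    exact h1.mono (comap_rest_le (L.co_mp j) (L.co_S j) L.D L.D_le (L.C_le j) i)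
  · exact (mp_of (M := L.J) (N := P.toSys) (L.co_mp j)).quasiMeasurePreserving.ae_eq_comp hGe

theorem U_LL (i : ι) {A : Finset ι} {j : ι} (hj : j ∈ A) {f : P.Ω → ℝ} (hf : Bd P.ms f) :
    BdM (LL (L.DA A)) (L.U i j f) := by
  obtain ⟨hm, C, hC⟩ := hf
  have h : BM (L.DA A) (fun k x => (f ∘ L.co j) (L.J.S (s i k) x)) C := by
    refine ⟨fun k => ?_, fun k x => hC _⟩
    have h1 : Measurable[L.DA A] (f ∘ L.co j) :=
      (hm.comp (comap_measurable (L.co j))).mono (L.comap_le_DA hj) le_rfl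
    exact h1.comp (L.DA_S A (s i k))
  exact ⟨h.meas_st, C, h.st_le⟩

/-- **R2 (peeling).** -/
theorem peel (hS2 : S2 s P) (i : ι) {A : Finset ι} (hA : A ≠ Finset.univ) {F : ι → P.Ω → ℝ}
    (hF : ∀ j, Bd P.ms (F j)) :
    (lb L.J.μ)[fun z => ∏ j ∈ A, L.U i j (F j) z | L.R0 i] =ᵐ[lb L.J.μ]
      fun z => ∏ j ∈ A, L.V i j (F j) z := by
  refine RuleCore.peel (P := lb L.J.μ) (L.R0_le i) (U := fun j => L.U i j (F j))
    (V := fun j => L.V i j (F j)) (A := A) (fun j _ => L.U_BdM i j (hF j))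
    (fun j _ => L.V_version i j (hF j)) ?_
  intro j hj A' hA' hjA'
  have hins : insert j A' ≠ Finset.univ := by
    intro h
    apply hA
    refine Finset.eq_univ_iff_forall.2 fun x => ?_
    have : x ∈ insert j A' := by rw [h]; exact Finset.mem_univ x
    rcases Finset.mem_insert.1 this with rfl | hx
    · exact hj
    · exact hA' hx
  refine ⟨restM s i L.J L.J.ms (L.DA A'), L.R0_le_DA i A', restM_le s i L.J le_rfl (L.DA_le A'),
    ?_, ?_⟩
  · intro j' hj'
    refine ⟨L.U i j' (F j'), (L.U_LL i hj' (hF j')).mono ?_, EventuallyEq.rfl⟩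
    exact le_sup_right.trans le_sup_left
  · exact hS2 (L.pair A' j hjA' hins) (L.ext A' j hjA' hins) i (F j) (hF j)

/-- the two sides of the rule, on the Loeb space of the level system. -/
theorem star (hS2 : S2 s P) (i j0 : ι) (hc : 2 ≤ Fintype.card ι) {F : ι → P.Ω → ℝ}
    (hF : ∀ j, Bd P.ms (F j)) :
    ∫ z, (∏ j ∈ Finset.univ.erase j0, L.U i j (F j) z) * L.V i j0 (F j0) z ∂(lb L.J.μ) =
      ∫ z, (∏ j ∈ Finset.univ.erase j0, L.V i j (F j) z) * L.U i j0 (F j0) z ∂(lb L.J.μ) := by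
  classical
  have h1 : (Finset.univ.erase j0 : Finset ι) ≠ Finset.univ := by
    intro h
    have h3 := Finset.mem_univ j0
    rw [← h] at h3
    exact Finset.notMem_erase j0 _ h3
  have h2 : ({j0} : Finset ι) ≠ Finset.univ := by
    intro h
    have := congrArg Finset.card h
    rw [Finset.card_singleton, Finset.card_univ] at this
    omega
  have p1 := L.peel hS2 i h1 hF
  have p2 := L.peel hS2 i h2 hF
  simp only [Finset.prod_singleton] at p2
  have hR := L.R0_le i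
  obtain ⟨G0, hG0, hG0e⟩ := L.V_version i j0 (hF j0)
  choose G hG hGe using fun j => L.V_version i j (hF j)
  have hprod : (fun z => ∏ j ∈ Finset.univ.erase j0, L.V i j (F j) z) =ᵐ[lb L.J.μ]
      fun z => ∏ j ∈ Finset.univ.erase j0, G j z := by
    have : ∀ᵐ z ∂(lb L.J.μ), ∀ j ∈ (Finset.univ.erase j0 : Finset ι), L.V i j (F j) z = G j z := by
      rw [Filter.eventually_all_finset]
      exact fun j _ => hGe j
    filter_upwards [this] with z hz
    exact Finset.prod_congr rfl hz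
  have hGp : BdM (L.R0 i) (fun z => ∏ j ∈ Finset.univ.erase j0, G j z) :=
    BdM.prod fun j _ => hG j
  have hUp : BdM (LL L.J.ms) (fun z => ∏ j ∈ Finset.univ.erase j0, L.U i j (F j) z) :=
    BdM.prod fun j _ => L.U_BdM i j (hF j)
  have e1 : ∫ z, (∏ j ∈ Finset.univ.erase j0, L.U i j (F j) z) * L.V i j0 (F j0) z ∂(lb L.J.μ) =
      ∫ z, (∏ j ∈ Finset.univ.erase j0, L.V i j (F j) z) * L.V i j0 (F j0) z ∂(lb L.J.μ) := by
    calc ∫ z, (∏ j ∈ Finset.univ.erase j0, L.U i j (F j) z) * L.V i j0 (F j0) z ∂(lb L.J.μ)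
        = ∫ z, (∏ j ∈ Finset.univ.erase j0, L.U i j (F j) z) * G0 z ∂(lb L.J.μ) :=
          integral_congr_ae (hG0e.mono fun z hz => by simp only [hz])
      _ = ∫ z, ((lb L.J.μ)[fun z => ∏ j ∈ Finset.univ.erase j0, L.U i j (F j) z | L.R0 i]) z *
            G0 z ∂(lb L.J.μ) :=
          (integral_condExp_mul hR (hUp.integrable le_rfl) hG0).symm
      _ = ∫ z, (∏ j ∈ Finset.univ.erase j0, L.V i j (F j) z) * L.V i j0 (F j0) z ∂(lb L.J.μ) :=
          integral_congr_ae (by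
            filter_upwards [p1, hG0e] with z hz1 hz2
            rw [hz1, hz2])
  have e2 : ∫ z, (∏ j ∈ Finset.univ.erase j0, L.V i j (F j) z) * L.U i j0 (F j0) z ∂(lb L.J.μ) =
      ∫ z, (∏ j ∈ Finset.univ.erase j0, L.V i j (F j) z) * L.V i j0 (F j0) z ∂(lb L.J.μ) := by
    calc ∫ z, (∏ j ∈ Finset.univ.erase j0, L.V i j (F j) z) * L.U i j0 (F j0) z ∂(lb L.J.μ)
        = ∫ z, (∏ j ∈ Finset.univ.erase j0, G j z) * L.U i j0 (F j0) z ∂(lb L.J.μ) :=
          integral_congr_ae (hprod.mono fun z hz => by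
            have hz' : ∏ j ∈ Finset.univ.erase j0, L.V i j (F j) z =
              ∏ j ∈ Finset.univ.erase j0, G j z := hz
            simp only [hz'])
      _ = ∫ z, (∏ j ∈ Finset.univ.erase j0, G j z) *
            ((lb L.J.μ)[L.U i j0 (F j0) | L.R0 i]) z ∂(lb L.J.μ) :=
          (integral_mul_condExp hR ((L.U_BdM i j0 (hF j0)).integrable le_rfl) hGp).symm
      _ = ∫ z, (∏ j ∈ Finset.univ.erase j0, L.V i j (F j) z) * L.V i j0 (F j0) z ∂(lb L.J.μ) :=
          integral_congr_ae (by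
            filter_upwards [p2, hprod] with z hz1 hz2
            have hz1' : ((lb L.J.μ)[L.U i j0 (F j0) | L.R0 i]) z = L.V i j0 (F j0) z := hz1
            rw [hz1', hz2])
  rw [e1, e2]

end RLev

end

end Crest.Agent.R069.Rule
end

-- ▼ part R069/RuleWeak
section

/-!
# Row 69, node RULE: weak convergence tested on a π-system
-/

set_option autoImplicit false

open MeasureTheory Filter Set
open scoped ENNReal Topology

namespace Crest.Agent.R069.Rule

variable {Ω : Type*} {mΩ : MeasurableSpace Ω} {μ : Measure Ω} [IsFiniteMeasure μ]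
  {m : MeasurableSpace Ω} {l : Filter ℕ} {w : ℕ → Ω → ℝ} {C : ℝ}

theorem weak_sets (hm : m ≤ mΩ) {S : Set (Set Ω)} (hS : m = MeasurableSpace.generateFrom S)
    (hpi : IsPiSystem S) (hw : ∀ k, Measurable[mΩ] (w k)) (hb : ∀ k x, |w k x| ≤ C)
    (huniv : Tendsto (fun k => ∫ x, w k x ∂μ) l (𝓝 0))
    (hA : ∀ A ∈ S, Tendsto (fun k => ∫ x in A, w k x ∂μ) l (𝓝 0)) :
    ∀ A, MeasurableSet[m] A → Tendsto (fun k => ∫ x in A, w k x ∂μ) l (𝓝 0) := by
  have hi : ∀ k, Integrable (w k) μ := fun k =>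
    (BdM.mk (hw k) ⟨C, hb k⟩ : BdM mΩ (w k)).integrable le_rfl
  intro A hAm
  induction A, hAm using MeasurableSpace.induction_on_inter hS hpi with
  | empty => simpa using tendsto_const_nhds
  | basic A hAS => exact hA A hAS
  | compl A hAm ih =>
    have e : (fun k => ∫ x in Aᶜ, w k x ∂μ) =
        fun k => ∫ x, w k x ∂μ - ∫ x in A, w k x ∂μ := by
      funext k
      exact setIntegral_compl (hm A hAm) (hi k)
    rw [e]
    simpa using huniv.sub ih
  | iUnion F hd hF ih =>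
    have e : (fun k => ∫ x in ⋃ i, F i, w k x ∂μ) = fun k => ∑' i, ∫ x in F i, w k x ∂μ := by
      funext k
      exact integral_iUnion (fun i => hm _ (hF i)) hd (hi k).integrableOn
    rw [e]
    have hs : Summable fun i => C * μ.real (F i) := by
      refine Summable.mul_left _ ?_
      have h1 : ∑' i, μ (F i) ≠ ∞ := by
        rw [← measure_iUnion hd (fun i => hm _ (hF i))]
        exact measure_ne_top _ _
      exact ENNReal.summable_toReal h1
    have h2 : Tendsto (fun k => ∑' i, ∫ x in F i, w k x ∂μ) l (𝓝 (∑' _ : ℕ, (0 : ℝ))) := by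
      refine tendsto_tsum_of_dominated_convergence hs (fun i => ih i) ?_
      refine Eventually.of_forall fun k i => ?_
      have := norm_setIntegral_le_of_norm_le_const (μ := μ) (s := F i) (f := w k) (C := C)
        (measure_lt_top μ (F i)) (fun x _ => by simpa [Real.norm_eq_abs] using hb k x)
      simpa [measureReal_def] using this
    simpa using h2

theorem weak_bdd (hm : m ≤ mΩ) (hC : 0 ≤ C) (hw : ∀ k, Measurable[m] (w k))
    (hb : ∀ k x, |w k x| ≤ C)
    (hA : ∀ A, MeasurableSet[m] A → Tendsto (fun k => ∫ x in A, w k x ∂μ) l (𝓝 0))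
    {U : Ω → ℝ} (hU : BdM mΩ U) : Tendsto (fun k => ∫ x, U x * w k x ∂μ) l (𝓝 0) := by
  have hwb : ∀ k, BdM m (w k) := fun k => ⟨hw k, C, hb k⟩
  obtain ⟨F, hF, hFe⟩ := hU.condExp_bm (μ := μ) hm
  have e1 : (fun k => ∫ x, U x * w k x ∂μ) = fun k => ∫ x, F x * w k x ∂μ := by
    funext k
    rw [← integral_condExp_mul hm (hU.integrable le_rfl) (hwb k)]
    exact integral_congr_ae (hFe.mono fun x hx => by simp only [hx])
  rw [e1]
  obtain ⟨K, hK⟩ := hF.bdd
  have hFs : StronglyMeasurable[m] F := hF.meas.stronglyMeasurable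
  -- simple functions
  have hsimple : ∀ g : @SimpleFunc Ω m ℝ, Tendsto (fun k => ∫ x, g x * w k x ∂μ) l (𝓝 0) := by
    intro g
    have hgsum : ∀ k, ∫ x, g x * w k x ∂μ =
        ∑ c ∈ (@SimpleFunc.range Ω ℝ m g), c * ∫ x in g ⁻¹' {c}, w k x ∂μ := by
      intro k
      have h1 : ∀ x, g x * w k x = ∑ c ∈ (@SimpleFunc.range Ω ℝ m g),
          c * (g ⁻¹' {c}).indicator (w k) x := by
        intro x
        rw [Finset.sum_eq_single (g x)]
        · simp
        · intro c _ hc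
          have : x ∉ g ⁻¹' {c} := fun h => hc (by simpa using h.symm)
          simp [this]
        · intro h
          exact absurd (@SimpleFunc.mem_range_self Ω ℝ m g x) h
      have hms : ∀ c : ℝ, MeasurableSet[mΩ] (g ⁻¹' {c}) := fun c =>
        hm _ (@SimpleFunc.measurableSet_fiber Ω ℝ m g c)
      simp only [h1]
      rw [integral_finsetSum]
      · refine Finset.sum_congr rfl fun c _ => ?_
        rw [integral_const_mul, integral_indicator (hms c)]
      · intro c _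
        exact (((hwb k).integrable hm).indicator (hms c)).const_mul c
    simp only [hgsum]
    have : Tendsto (fun k => ∑ c ∈ (@SimpleFunc.range Ω ℝ m g), c * ∫ x in g ⁻¹' {c}, w k x ∂μ) l
        (𝓝 (∑ c ∈ (@SimpleFunc.range Ω ℝ m g), c * 0)) :=
      tendsto_finsetSum _ fun c _ =>
        (hA _ (@SimpleFunc.measurableSet_fiber Ω ℝ m g c)).const_mul c
    simpa using this
  set g : ℕ → @SimpleFunc Ω m ℝ := fun n => hFs.approxBounded K n with hg
  have hK0 : ∀ x : Ω, 0 ≤ K := fun x => (abs_nonneg _).trans (hK x)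
  rcases isEmpty_or_nonempty Ω with hemp | ⟨⟨x0⟩⟩
  · have : μ = 0 := Measure.eq_zero_of_isEmpty μ
    simpa [this] using tendsto_const_nhds
  have hlim : Tendsto (fun n => ∫ x, |F x - g n x| ∂μ) atTop (𝓝 0) := by
    have h0 : Tendsto (fun n => ∫ x, |F x - g n x| ∂μ) atTop (𝓝 (∫ _, (0 : ℝ) ∂μ)) := by
      refine tendsto_integral_of_dominated_convergence (fun _ => 2 * K) ?_ (integrable_const _) ?_ ?_
      · intro n
        have hgm : Measurable[m] (g n) := @SimpleFunc.measurable Ω ℝ m _ (g n)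
        have h1 : Measurable[mΩ] (fun x => F x - g n x) :=
          (hF.meas.mono hm le_rfl).sub (hgm.mono hm le_rfl)
        exact (measurable_norm.comp h1).aestronglyMeasurable
      · intro n
        refine Eventually.of_forall fun x => ?_
        have h1 : ‖g n x‖ ≤ K := hFs.norm_approxBounded_le (hK0 x0) n x
        have h2 := hK x
        rw [Real.norm_eq_abs, abs_abs]
        rw [Real.norm_eq_abs] at h1
        calc |F x - g n x| ≤ |F x| + |g n x| := abs_sub _ _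
          _ ≤ 2 * K := by linarith
      · refine Eventually.of_forall fun x => ?_
        have h1 : Tendsto (fun n => g n x) atTop (𝓝 (F x)) :=
          hFs.tendsto_approxBounded_of_norm_le (by simpa [Real.norm_eq_abs] using hK x)
        have h2 : Tendsto (fun n => |F x - g n x|) atTop (𝓝 |F x - F x|) :=
          (tendsto_const_nhds.sub h1).abs
        simpa using h2
    simpa using h0
  rw [Metric.tendsto_nhds]
  intro ε hε
  have h2 : ∀ᶠ n in atTop, ∫ x, |F x - g n x| ∂μ < ε / (2 * (C + 1)) :=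
    hlim.eventually (gt_mem_nhds (by positivity))
  obtain ⟨n, hn⟩ := h2.exists
  have h3 := (Metric.tendsto_nhds.1 (hsimple (g n))) (ε / 2) (by positivity)
  filter_upwards [h3] with k hk
  rw [Real.dist_eq, sub_zero] at hk ⊢
  have hgB : BdM m (g n) := ⟨@SimpleFunc.measurable Ω ℝ m _ (g n), K, fun x => by
    simpa [Real.norm_eq_abs] using hFs.norm_approxBounded_le (hK0 x0) n x⟩
  have h4 : ∫ x, F x * w k x ∂μ = ∫ x, g n x * w k x ∂μ + ∫ x, (F x - g n x) * w k x ∂μ := by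
    rw [← integral_add ((hgB.mul (hwb k)).integrable hm) (((hF.sub hgB).mul (hwb k)).integrable hm)]
    congr 1
    funext x
    ring
  have h5 : |∫ x, (F x - g n x) * w k x ∂μ| ≤ C * ∫ x, |F x - g n x| ∂μ := by
    calc |∫ x, (F x - g n x) * w k x ∂μ| ≤ ∫ x, |(F x - g n x) * w k x| ∂μ :=
          abs_integral_le_integral_abs
      _ ≤ ∫ x, C * |F x - g n x| ∂μ := by
          refine integral_mono ?_ ?_ fun x => ?_
          · exact (((hF.sub hgB).mul (hwb k)).integrable hm).abs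
          · exact ((hF.sub hgB).integrable hm).abs.const_mul C
          · simp only [abs_mul]
            rw [mul_comm]
            exact mul_le_mul_of_nonneg_right (hb k x) (abs_nonneg _)
      _ = C * ∫ x, |F x - g n x| ∂μ := integral_const_mul _ _
  have h6 : C * ∫ x, |F x - g n x| ∂μ ≤ ε / 2 := by
    have h7 : 0 ≤ ∫ x, |F x - g n x| ∂μ := integral_nonneg fun _ => abs_nonneg _
    calc C * ∫ x, |F x - g n x| ∂μ ≤ (C + 1) * ∫ x, |F x - g n x| ∂μ :=
          mul_le_mul_of_nonneg_right (by linarith) h7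
      _ ≤ (C + 1) * (ε / (2 * (C + 1))) := mul_le_mul_of_nonneg_left hn.le (by linarith)
      _ = ε / 2 := by field_simp
  rw [h4]
  calc |∫ x, g n x * w k x ∂μ + ∫ x, (F x - g n x) * w k x ∂μ|
      ≤ |∫ x, g n x * w k x ∂μ| + |∫ x, (F x - g n x) * w k x ∂μ| := abs_add_le _ _
    _ < ε / 2 + ε / 2 := by linarith
    _ = ε := by ring

/-- The form used in the rule: `∫ U u_k → ∫ U u`. -/
theorem weak_tendsto (hm : m ≤ mΩ) {S : Set (Set Ω)} (hS : m = MeasurableSpace.generateFrom S)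
    (hpi : IsPiSystem S) {u : ℕ → Ω → ℝ} {v : Ω → ℝ} {K : ℝ} (hK : 0 ≤ K)
    (hu : ∀ k, Measurable[m] (u k)) (hub : ∀ k x, |u k x| ≤ K) (hv : Measurable[m] v)
    (hvb : ∀ x, |v x| ≤ K)
    (huniv : Tendsto (fun k => ∫ x, u k x ∂μ) l (𝓝 (∫ x, v x ∂μ)))
    (hA : ∀ A ∈ S, Tendsto (fun k => ∫ x in A, u k x ∂μ) l (𝓝 (∫ x in A, v x ∂μ)))
    {U : Ω → ℝ} (hU : BdM mΩ U) :
    Tendsto (fun k => ∫ x, U x * u k x ∂μ) l (𝓝 (∫ x, U x * v x ∂μ)) := by
  have hub' : ∀ k, BdM m (u k) := fun k => ⟨hu k, K, hub k⟩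
  have hvb' : BdM m v := ⟨hv, K, hvb⟩
  have hui : ∀ k, Integrable (u k) μ := fun k => (hub' k).integrable hm
  have hvi : Integrable v μ := hvb'.integrable hm
  have hw : ∀ k, Measurable[m] (fun x => u k x - v x) := fun k => (hu k).sub hv
  have hwb : ∀ k x, |(fun x => u k x - v x) x| ≤ 2 * K := fun k x => by
    calc |u k x - v x| ≤ |u k x| + |v x| := abs_sub _ _
      _ ≤ 2 * K := by linarith [hub k x, hvb x]
  have h1 := weak_sets (μ := μ) (l := l) hm hS hpi (w := fun k x => u k x - v x)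
    (fun k => (hw k).mono hm le_rfl) hwb
    (by
      have e : (fun k => ∫ x, (u k x - v x) ∂μ) = fun k => ∫ x, u k x ∂μ - ∫ x, v x ∂μ := by
        funext k
        exact integral_sub (hui k) hvi
      rw [e]
      simpa using huniv.sub_const (∫ x, v x ∂μ))
    (by
      intro A hAS
      have e : (fun k => ∫ x in A, (u k x - v x) ∂μ) =
          fun k => ∫ x in A, u k x ∂μ - ∫ x in A, v x ∂μ := by
        funext k
        exact integral_sub (hui k).integrableOn hvi.integrableOn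
      rw [e]
      simpa using (hA A hAS).sub_const (∫ x in A, v x ∂μ))
  have h2 := weak_bdd (μ := μ) (l := l) hm (by linarith : (0 : ℝ) ≤ 2 * K) hw hwb h1 hU
  have e : (fun k => ∫ x, U x * u k x ∂μ) =
      fun k => ∫ x, U x * (u k x - v x) ∂μ + ∫ x, U x * v x ∂μ := by
    funext k
    rw [← integral_add]
    · congr 1
      funext x
      ring
    · exact (hU.mul (((hub' k).sub hvb').mono hm)).integrable le_rfl
    · exact (hU.mul (hvb'.mono hm)).integrable le_rfl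
  rw [e]
  simpa using h2.add_const (∫ x, U x * v x ∂μ)

end Crest.Agent.R069.Rule
end

-- ▼ part R069/RuleEq
section

/-!
# Row 69, node RULE, R4: the rule `a` in slot `j0` = `a` in all the other slots

Both sides of `RLev.star` are limits of integrals on the level system `J`.
-/

set_option autoImplicit false
set_option linter.unusedSectionVars false

open MeasureTheory Filter Set ProbabilityTheory
open scoped ENNReal Topology

namespace Crest.Agent.R069.Rule

open Crest.Agent.R069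

section
variable {X : Sys} {ι : Type} [Fintype ι] [DecidableEq ι] {s : ι → ℕ → ℤ} {P : Pair X}

/-- internal description of `P_i (f ∘ π)` -/
theorem PF_internal (i : ι) {f : X.Ω → ℝ} (hf : Bd X.ms f)
    (hR1 : (lb P.μ)[PF s i P (f ∘ P.π) | LL (X.ms.comap P.π)] =ᵐ[lb P.μ] PF s i P (f ∘ P.π)) :
    ∃ (q : ℕ → X.Ω → ℝ) (K : ℝ), BM X.ms q K ∧
      PF s i P (f ∘ P.π) =ᵐ[lb P.μ] fun y => st q (Lb.mp P.π y) := by
  have hfπ : Bd P.ms (f ∘ P.π) := bd_comp hf P.π_mp.measurable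
  obtain ⟨G, hG, hGe⟩ := PF_version (s := s) i P hfπ
  have hGL : BdM (LL P.ms) G := hG.mono (rest_le' i P)
  have hle : LL (X.ms.comap P.π) ≤ LL P.ms := LL_mono P.π_mp.measurable.comap_le
  obtain ⟨H, hH, hHe⟩ := hGL.condExp_bm (μ := lb P.μ) hle
  have h1 : PF s i P (f ∘ P.π) =ᵐ[lb P.μ] H :=
    hR1.symm.trans ((condExp_congr_ae hGe).trans hHe)
  rw [← comap_lbmap_LL] at hH
  obtain ⟨h, hh, rfl⟩ := hH.factors
  obtain ⟨C, hC⟩ := hh.bdd
  obtain ⟨q, hq, hhq⟩ := funLift_of_measurable (μ := X.μ) le_rfl hh.meas hC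
  have h2 : (h ∘ Lb.mp P.π) =ᵐ[lb P.μ] (st q ∘ Lb.mp P.π) :=
    (mp_of (M := P.toSys) (N := X) P.π_mp).quasiMeasurePreserving.ae_eq_comp hhq
  exact ⟨q, C, hq, h1.trans h2⟩

/-- weak convergence on the base -/
theorem weakX (i : ι) {f g : X.Ω → ℝ} {q : ℕ → X.Ω → ℝ} {K : ℝ} (hq : BM X.ms q K)
    (hPF : PF s i P (f ∘ P.π) =ᵐ[lb P.μ] fun y => st q (Lb.mp P.π y))
    (hfg : ∀ G, Bd X.ms G → ∫ x, g x * G x ∂X.μ =
      ∫ y, PF s i P (f ∘ P.π) y * sitef P.toSys (s i) (G ∘ P.π) y ∂(lb P.μ))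
    {h : X.Ω → ℝ} (hh : Bd X.ms h) :
    Tendsto (fun k => ∫ x, h x * q k (X.S (-(s i k)) x) ∂X.μ) (UU : Filter ℕ)
      (𝓝 (∫ x, g x * h x ∂X.μ)) := by
  obtain ⟨hhm, C, hC⟩ := hh
  have e1 : ∀ k, ∫ x, h x * q k (X.S (-(s i k)) x) ∂X.μ =
      ∫ x, h (X.S (s i k) x) * q k x ∂X.μ := by
    intro k
    have h1 := integral_comp_mp (μ := X.μ) (μ' := X.μ) (X.S_mp (s i k))
      (F := fun x => h x * q k (X.S (-(s i k)) x))
      ((hhm.mul ((hq.meas k).comp (X.S_mp (-(s i k))).measurable)).aestronglyMeasurable)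
    simp only [S_neg] at h1
    exact h1.symm
  have hb : ∀ k x, |h (X.S (s i k) x) * q k x| ≤ C * K := by
    intro k x
    rw [abs_mul]
    exact mul_le_mul (hC _) (hq.bdd k x) (abs_nonneg _) ((abs_nonneg _).trans (hC x))
  have hBM : BM X.ms (fun k x => h (X.S (s i k) x) * q k x) (C * K) :=
    ⟨fun k => (hhm.comp (X.S_mp (s i k)).measurable).mul (hq.meas k), hb⟩
  have h2 := tendsto_integral_st (μ := X.μ) hBM
  have hokh : StOK (fun k x => h (X.S (s i k) x)) :=
    (BM.ok (m := X.ms) (C := C) ⟨fun k => hhm.comp (X.S_mp (s i k)).measurable, fun k x => hC _⟩)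
  have e2 : st (fun k x => h (X.S (s i k) x) * q k x) = fun x => sitef X (s i) h x * st q x :=
    st_mul hokh hq.ok
  have e3 : ∫ x, st (fun k x => h (X.S (s i k) x) * q k x) x ∂(lb X.μ) = ∫ x, g x * h x ∂X.μ := by
    rw [e2, hfg h ⟨hhm, C, hC⟩]
    have hm1 : Measurable[LL X.ms] (fun x => sitef X (s i) h x * st q x) := by
      have := (RuleA.sitef_BdM X (s i) (f := h) ⟨hhm, C, hC⟩).meas.mul hq.meas_st
      exact this
    have h3 := integral_comp_mp (μ := lb X.μ) (μ' := lb P.μ)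
      (mp_of (M := P.toSys) (N := X) P.π_mp) (F := fun x => sitef X (s i) h x * st q x)
      hm1.aestronglyMeasurable
    rw [← h3]
    refine integral_congr_ae ?_
    filter_upwards [hPF, sitef_comp (M := P.toSys) (N := X) P.π_S (s i) h] with y h4 h5
    have h5' : sitef P.toSys (s i) (h ∘ P.π) y = sitef X (s i) h (Lb.mp P.π y) := h5
    rw [h4, h5', mul_comm]
  rw [e3] at h2
  refine h2.congr fun k => ?_
  rw [e1 k]

namespace RLev

variable (L : RLev s P)

/-- independence of all but one base coordinate -/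
theorem ind_prod (hX : XIndP X s) (j0 : ι) {f : ι → X.Ω → ℝ} (hf : ∀ j, Bd X.ms (f j)) :
    ∫ z, ∏ j ∈ Finset.univ.erase j0, f j (L.xc j z) ∂L.J.μ =
      ∏ j ∈ Finset.univ.erase j0, ∫ x, f j x ∂X.μ := by
  have hne : (Finset.univ.erase j0 : Finset ι) ≠ Finset.univ := by
    intro h
    have h3 := Finset.mem_univ j0
    rw [← h] at h3
    exact Finset.notMem_erase j0 _ h3
  set f' : ι → X.Ω → ℝ := fun j => if j = j0 then fun _ => 1 else f j with hf'
  have hf'b : ∀ j, Bd X.ms (f' j) := by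
    intro j
    by_cases hj : j = j0
    · simp only [hf', hj, if_true]; exact ⟨measurable_const, 1, by simp⟩
    · simp only [hf', hj, if_false]; exact hf j
  have hf'e : ∀ j ∈ (Finset.univ.erase j0 : Finset ι), f' j = f j := by
    intro j hj
    simp only [hf', Finset.ne_of_mem_erase hj, if_false]
  have hf'0 : f' j0 = fun _ => 1 := by simp [hf']
  have h1 := L.tau_eq f' hf'b
  have h2 := hX _ hne f' hf'b
  have e1 : ∀ z : L.J.Ω, ∏ i, f' i (P.π (L.co i z)) =
      ∏ j ∈ Finset.univ.erase j0, f j (L.xc j z) := by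
    intro z
    rw [← Finset.mul_prod_erase Finset.univ _ (Finset.mem_univ j0), hf'0, one_mul]
    exact Finset.prod_congr rfl fun j hj => by rw [hf'e j hj]; rfl
  have e2 : tau X s f' = ∫ x, ∏ i ∈ Finset.univ.erase j0, sitef X (s i) (f' i) x ∂(lb X.μ) := by
    unfold tau
    congr 1
    funext x
    rw [← Finset.mul_prod_erase Finset.univ _ (Finset.mem_univ j0), hf'0]
    have : sitef X (s j0) (fun _ => (1 : ℝ)) x = 1 := st_eq (by exact tendsto_const_nhds)
    rw [this, one_mul]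
  simp only [e1] at h1
  rw [h1, e2, h2]
  exact Finset.prod_congr rfl fun j hj => by rw [hf'e j hj]

/-- representation of a bounded function on the base coordinate `j0` -/
theorem exists_rep (j0 : ι) {Φ : L.J.Ω → ℝ} (hΦ : BdM L.J.ms Φ) :
    ∃ v : X.Ω → ℝ, Bd X.ms v ∧ ∀ h : X.Ω → ℝ, Bd X.ms h →
      ∫ z, Φ z * h (L.xc j0 z) ∂L.J.μ = ∫ x, v x * h x ∂X.μ := by
  have hle : X.ms.comap (L.xc j0) ≤ L.J.ms := (L.xc_mp j0).measurable.comap_le
  obtain ⟨G, hG, hGe⟩ := hΦ.condExp_bm (μ := L.J.μ) hle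
  obtain ⟨v, hv, rfl⟩ := hG.factors
  refine ⟨v, ⟨hv.meas, hv.bdd⟩, fun h hh => ?_⟩
  have hh' : BdM X.ms h := ⟨hh.1, hh.2⟩
  have h1 := integral_condExp_mul (μ := L.J.μ) hle (hΦ.integrable le_rfl)
    (hh'.comp (φ := L.xc j0))
  have h2 := integral_comp_mp (μ := X.μ) (μ' := L.J.μ) (L.xc_mp j0)
    (F := fun x => v x * h x) ((hv.mul hh').aemeas le_rfl)
  rw [← h2]
  refine Eq.trans h1.symm ?_
  exact integral_congr_ae (hGe.mono fun z hz => by simp only [hz, Function.comp])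

theorem V_internal (i j : ι) {f : X.Ω → ℝ} {q : ℕ → X.Ω → ℝ}
    (hPF : PF s i P (f ∘ P.π) =ᵐ[lb P.μ] fun y => st q (Lb.mp P.π y)) :
    L.V i j (f ∘ P.π) =ᵐ[lb L.J.μ] st (fun k z => q k (L.xc j z)) := by
  have h2 := (mp_of (M := L.J) (N := P.toSys) (L.co_mp j)).quasiMeasurePreserving.ae_eq_comp hPF
  filter_upwards [h2] with z hz
  exact hz

/-- moving the shift on the level system -/
theorem shift_int (n : ℤ) {Φ Ψ : L.J.Ω → ℝ} (hΦ : Measurable Φ) (hΨ : Measurable Ψ) :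
    ∫ z, Φ (L.J.S n z) * Ψ z ∂L.J.μ = ∫ z, Φ z * Ψ (L.J.S (-n) z) ∂L.J.μ := by
  have h1 := integral_comp_mp (μ := L.J.μ) (μ' := L.J.μ) (L.J.S_mp n)
    (F := fun z => Φ z * Ψ (L.J.S (-n) z))
    ((hΦ.mul (hΨ.comp (L.J.S_mp (-n)).measurable)).aestronglyMeasurable)
  simp only [S_neg] at h1
  exact h1

theorem lhs (i j0 : ι) {F g : ι → X.Ω → ℝ}
    (hF : ∀ j, Bd X.ms (F j)) (hg : ∀ j, Bd X.ms (g j)) {q : ℕ → X.Ω → ℝ} {K : ℝ}
    (hq : BM X.ms q K)
    (hPF : PF s i P (F j0 ∘ P.π) =ᵐ[lb P.μ] fun y => st q (Lb.mp P.π y))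
    (hFg : ∀ G, Bd X.ms G → ∫ x, g j0 x * G x ∂X.μ =
      ∫ y, PF s i P (F j0 ∘ P.π) y * sitef P.toSys (s i) (G ∘ P.π) y ∂(lb P.μ)) :
    ∫ z, (∏ j ∈ Finset.univ.erase j0, L.U i j (F j ∘ P.π) z) * L.V i j0 (F j0 ∘ P.π) z
        ∂(lb L.J.μ) =
      ∫ z, (∏ j ∈ Finset.univ.erase j0, F j (L.xc j z)) * g j0 (L.xc j0 z) ∂L.J.μ := by
  classical
  set Φ : L.J.Ω → ℝ := fun z => ∏ j ∈ Finset.univ.erase j0, F j (L.xc j z) with hΦdef
  have hΦj : ∀ j, BdM L.J.ms (fun z => F j (L.xc j z)) := fun j =>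
    ⟨(hF j).1.comp (L.xc_mp j).measurable, (hF j).2.imp fun C hC z => hC _⟩
  have hΦ : BdM L.J.ms Φ := BdM.prod fun j _ => hΦj j
  obtain ⟨v, hv, hvr⟩ := L.exists_rep j0 hΦ
  obtain ⟨C, hC⟩ := hΦ.bdd
  have hBM : BM L.J.ms (fun k z => Φ (L.J.S (s i k) z) * q k (L.xc j0 z)) (C * K) := by
    refine ⟨fun k => (hΦ.meas.comp (L.J.S_mp (s i k)).measurable).mul
      ((hq.meas k).comp (L.xc_mp j0).measurable), fun k z => ?_⟩
    rw [abs_mul]
    exact mul_le_mul (hC _) (hq.bdd k _) (abs_nonneg _) ((abs_nonneg _).trans (hC z))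
  have h1 := tendsto_integral_st (μ := L.J.μ) hBM
  have hokΦ : StOK (fun k z => Φ (L.J.S (s i k) z)) :=
    BM.ok (m := L.J.ms) (C := C) ⟨fun k => hΦ.meas.comp (L.J.S_mp (s i k)).measurable,
      fun k z => hC _⟩
  have hokq : StOK (fun k z => q k (L.xc j0 z)) :=
    BM.ok (m := L.J.ms) (C := K) ⟨fun k => (hq.meas k).comp (L.xc_mp j0).measurable,
      fun k z => hq.bdd k _⟩
  have e1 : st (fun k z => Φ (L.J.S (s i k) z) * q k (L.xc j0 z)) = fun z =>
      (∏ j ∈ Finset.univ.erase j0, L.U i j (F j ∘ P.π) z) * st (fun k z => q k (L.xc j0 z)) z := by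
    have e2 : st (fun k z => Φ (L.J.S (s i k) z)) = fun z =>
        ∏ j ∈ Finset.univ.erase j0, L.U i j (F j ∘ P.π) z := by
      refine st_prod (Finset.univ.erase j0) (f := fun j k z => F j (L.xc j (L.J.S (s i k) z))) ?_
      intro j _
      obtain ⟨hm, D, hD⟩ := hF j
      exact BM.ok (m := L.J.ms) (C := D) ⟨fun k => (hm.comp (L.xc_mp j).measurable).comp
        (L.J.S_mp (s i k)).measurable, fun k z => hD _⟩
    rw [st_mul hokΦ hokq, e2]
  have e3 : ∫ z, st (fun k z => Φ (L.J.S (s i k) z) * q k (L.xc j0 z)) z ∂(lb L.J.μ) =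
      ∫ z, (∏ j ∈ Finset.univ.erase j0, L.U i j (F j ∘ P.π) z) * L.V i j0 (F j0 ∘ P.π) z
        ∂(lb L.J.μ) := by
    rw [e1]
    exact integral_congr_ae ((L.V_internal i j0 hPF).mono fun z hz => by simp only [hz])
  have h2 := weakX (P := P) i hq hPF hFg hv
  have e4 : ∀ k, ∫ z, Φ (L.J.S (s i k) z) * q k (L.xc j0 z) ∂L.J.μ =
      ∫ x, v x * q k (X.S (-(s i k)) x) ∂X.μ := by
    intro k
    have h5 := L.shift_int (s i k) hΦ.meas (Ψ := fun z => q k (L.xc j0 z))
      ((hq.meas k).comp (L.xc_mp j0).measurable)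
    rw [h5, ← hvr (fun x => q k (X.S (-(s i k)) x)) ⟨(hq.meas k).comp (X.S_mp _).measurable, K,
      fun x => hq.bdd k _⟩]
    refine integral_congr_ae ?_
    filter_upwards [L.xc_S j0 (-(s i k))] with z hz
    have hz' : L.xc j0 (L.J.S (-(s i k)) z) = X.S (-(s i k)) (L.xc j0 z) := hz
    simp only [hz']
  have h3 : Tendsto (fun k => ∫ x, v x * q k (X.S (-(s i k)) x) ∂X.μ) (UU : Filter ℕ)
      (𝓝 (∫ z, (∏ j ∈ Finset.univ.erase j0, L.U i j (F j ∘ P.π) z) *
        L.V i j0 (F j0 ∘ P.π) z ∂(lb L.J.μ))) := by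
    rw [← e3]
    exact h1.congr e4
  rw [tendsto_nhds_unique h3 h2, hvr (g j0) (hg j0)]
  congr 1
  funext x
  ring

/-- the sigma-algebra of the base coordinates different from `j0` -/
@[implicit_reducible]
def mW (j0 : ι) : MeasurableSpace L.J.Ω :=
  ⨆ j ∈ (Finset.univ.erase j0 : Finset ι), X.ms.comap (L.xc j)

theorem rhs (hX : XIndP X s) (i j0 : ι) {F g : ι → X.Ω → ℝ}
    (hF : ∀ j, Bd X.ms (F j)) (hg : ∀ j, Bd X.ms (g j)) {q : ι → ℕ → X.Ω → ℝ} {K : ι → ℝ}
    (hq : ∀ j, BM X.ms (q j) (K j))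
    (hPF : ∀ j, PF s i P (F j ∘ P.π) =ᵐ[lb P.μ] fun y => st (q j) (Lb.mp P.π y))
    (hFg : ∀ j, ∀ G, Bd X.ms G → ∫ x, g j x * G x ∂X.μ =
      ∫ y, PF s i P (F j ∘ P.π) y * sitef P.toSys (s i) (G ∘ P.π) y ∂(lb P.μ)) :
    ∫ z, (∏ j ∈ Finset.univ.erase j0, L.V i j (F j ∘ P.π) z) * L.U i j0 (F j0 ∘ P.π) z
        ∂(lb L.J.μ) =
      ∫ z, (∏ j ∈ Finset.univ.erase j0, g j (L.xc j z)) * F j0 (L.xc j0 z) ∂L.J.μ := by
  classical
  -- bounds
  obtain ⟨hF0m, C, hC⟩ := hF j0
  choose hgm D hD using hg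
  have hne : Nonempty L.J.Ω := by
    have : L.J.μ univ ≠ 0 := by simp
    exact (nonempty_of_measure_ne_zero this).to_type
  obtain ⟨z0⟩ := hne
  have hK0 : ∀ j, 0 ≤ K j := fun j => (abs_nonneg _).trans ((hq j).bdd 0 (L.xc j z0))
  have hD0 : ∀ j, 0 ≤ D j := fun j => (abs_nonneg _).trans (hD j (L.xc j z0))
  have hC0 : 0 ≤ C := (abs_nonneg _).trans (hC (L.xc j0 z0))
  set Ψ : L.J.Ω → ℝ := fun z => F j0 (L.xc j0 z) with hΨdef
  have hΨ : BdM L.J.ms Ψ := ⟨hF0m.comp (L.xc_mp j0).measurable, C, fun z => hC _⟩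
  set Θ : ℕ → L.J.Ω → ℝ := fun k z => ∏ j ∈ Finset.univ.erase j0, q j k (L.xc j z) with hΘdef
  have hΘm : ∀ k, Measurable (Θ k) := fun k =>
    Finset.measurable_prod _ fun j _ => ((hq j).meas k).comp (L.xc_mp j).measurable
  have hΘb : ∀ k z, |Θ k z| ≤ ∏ j ∈ Finset.univ.erase j0, K j := by
    intro k z
    rw [hΘdef]
    simp only [Finset.abs_prod]
    exact Finset.prod_le_prod (fun j _ => abs_nonneg _) (fun j _ => (hq j).bdd k _)
  have hBM : BM L.J.ms (fun k z => Θ k z * Ψ (L.J.S (s i k) z))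
      ((∏ j ∈ Finset.univ.erase j0, K j) * C) := by
    refine ⟨fun k => (hΘm k).mul (hΨ.meas.comp (L.J.S_mp (s i k)).measurable), fun k z => ?_⟩
    rw [abs_mul]
    exact mul_le_mul (hΘb k z) (hC _) (abs_nonneg _)
      (Finset.prod_nonneg fun j _ => hK0 j)
  have h1 := tendsto_integral_st (μ := L.J.μ) hBM
  have hokΘ : StOK Θ := BM.ok (m := L.J.ms) (C := ∏ j ∈ Finset.univ.erase j0, K j) ⟨hΘm, hΘb⟩
  have hokΨ : StOK (fun k z => Ψ (L.J.S (s i k) z)) :=
    BM.ok (m := L.J.ms) (C := C) ⟨fun k => hΨ.meas.comp (L.J.S_mp (s i k)).measurable,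
      fun k z => hC _⟩
  have e1 : st (fun k z => Θ k z * Ψ (L.J.S (s i k) z)) = fun z =>
      (∏ j ∈ Finset.univ.erase j0, st (fun k z => q j k (L.xc j z)) z) *
        L.U i j0 (F j0 ∘ P.π) z := by
    have e2 : st Θ = fun z => ∏ j ∈ Finset.univ.erase j0, st (fun k z => q j k (L.xc j z)) z := by
      refine st_prod (Finset.univ.erase j0) (f := fun j k z => q j k (L.xc j z)) ?_
      intro j _
      exact BM.ok (m := L.J.ms) (C := K j) ⟨fun k => ((hq j).meas k).comp (L.xc_mp j).measurable,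
        fun k z => (hq j).bdd k _⟩
    rw [st_mul hokΘ hokΨ, e2]
    rfl
  have e3 : ∫ z, st (fun k z => Θ k z * Ψ (L.J.S (s i k) z)) z ∂(lb L.J.μ) =
      ∫ z, (∏ j ∈ Finset.univ.erase j0, L.V i j (F j ∘ P.π) z) * L.U i j0 (F j0 ∘ P.π) z
        ∂(lb L.J.μ) := by
    rw [e1]
    have hall : ∀ᵐ z ∂(lb L.J.μ), ∀ j ∈ (Finset.univ.erase j0 : Finset ι),
        L.V i j (F j ∘ P.π) z = st (fun k z => q j k (L.xc j z)) z := by
      rw [Filter.eventually_all_finset]
      exact fun j _ => L.V_internal i j (hPF j)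
    refine integral_congr_ae (hall.mono fun z hz => ?_)
    have : ∏ j ∈ Finset.univ.erase j0, L.V i j (F j ∘ P.π) z =
        ∏ j ∈ Finset.univ.erase j0, st (fun k z => q j k (L.xc j z)) z :=
      Finset.prod_congr rfl hz
    simp only [this]
  -- the finite level integrals
  set u : ℕ → L.J.Ω → ℝ := fun k z =>
    ∏ j ∈ Finset.univ.erase j0, q j k (X.S (-(s i k)) (L.xc j z)) with hudef
  have e4 : ∀ k, ∫ z, Θ k z * Ψ (L.J.S (s i k) z) ∂L.J.μ = ∫ z, Ψ z * u k z ∂L.J.μ := by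
    intro k
    have h5 := L.shift_int (s i k) hΨ.meas (hΘm k)
    have e5 : ∫ z, Θ k z * Ψ (L.J.S (s i k) z) ∂L.J.μ =
        ∫ z, Ψ (L.J.S (s i k) z) * Θ k z ∂L.J.μ := by
      congr 1; funext z; ring
    rw [e5, h5]
    refine integral_congr_ae ?_
    have hall : ∀ᵐ z ∂L.J.μ, ∀ j ∈ (Finset.univ.erase j0 : Finset ι),
        L.xc j (L.J.S (-(s i k)) z) = X.S (-(s i k)) (L.xc j z) := by
      rw [Filter.eventually_all_finset]
      exact fun j _ => L.xc_S j (-(s i k))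
    refine hall.mono fun z hz => ?_
    have : Θ k (L.J.S (-(s i k)) z) = u k z :=
      Finset.prod_congr rfl fun j hj => by rw [hz j hj]
    simp only [this]
  -- weak convergence
  have hm : L.mW j0 ≤ L.J.ms := iSup₂_le fun j _ => (L.xc_mp j).measurable.comap_le
  have hmj : ∀ j ∈ (Finset.univ.erase j0 : Finset ι), X.ms.comap (L.xc j) ≤ L.mW j0 := fun j hj =>
    le_iSup₂_of_le j hj le_rfl
  have hgen : L.mW j0 = MeasurableSpace.generateFrom
      (piiUnionInter (fun j => {A | MeasurableSet[X.ms.comap (L.xc j)] A})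
        ((Finset.univ.erase j0 : Finset ι) : Set ι)) := by
    have := generateFrom_piiUnionInter_measurableSet (fun j => X.ms.comap (L.xc j))
      ((Finset.univ.erase j0 : Finset ι) : Set ι)
    rw [this]
    rfl
  have hpi : IsPiSystem (piiUnionInter (fun j => {A | MeasurableSet[X.ms.comap (L.xc j)] A})
        ((Finset.univ.erase j0 : Finset ι) : Set ι)) :=
    isPiSystem_piiUnionInter _
      (fun j => @MeasurableSpace.isPiSystem_measurableSet L.J.Ω (X.ms.comap (L.xc j))) _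
  have hum : ∀ k, Measurable[L.mW j0] (u k) := fun k =>
    (BdM.prod (m := L.mW j0) (s := (Finset.univ.erase j0 : Finset ι))
      (F := fun j z => q j k (X.S (-(s i k)) (L.xc j z))) fun j hj =>
      ((BdM.comp (m := X.ms) (φ := L.xc j) (f := fun x => q j k (X.S (-(s i k)) x))
        ⟨((hq j).meas k).comp (X.S_mp _).measurable, K j, fun x => (hq j).bdd k _⟩).mono
        (hmj j hj))).meas
  have hub : ∀ k z, |u k z| ≤ ∏ j ∈ Finset.univ.erase j0, K j := by
    intro k z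
    rw [hudef]
    simp only [Finset.abs_prod]
    exact Finset.prod_le_prod (fun j _ => abs_nonneg _) (fun j _ => (hq j).bdd k _)
  set w : L.J.Ω → ℝ := fun z => ∏ j ∈ Finset.univ.erase j0, g j (L.xc j z) with hwdef
  have hwm : Measurable[L.mW j0] w :=
    (BdM.prod (m := L.mW j0) (s := (Finset.univ.erase j0 : Finset ι))
      (F := fun j z => g j (L.xc j z)) fun j hj =>
      ((BdM.comp (m := X.ms) (φ := L.xc j) (f := g j) ⟨hgm j, D j, hD j⟩).mono
        (hmj j hj))).meas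
  have hwb : ∀ z, |w z| ≤ ∏ j ∈ Finset.univ.erase j0, D j := by
    intro z
    rw [hwdef]
    simp only [Finset.abs_prod]
    exact Finset.prod_le_prod (fun j _ => abs_nonneg _) (fun j _ => hD j _)
  -- rectangles
  have hrect : ∀ B : ι → Set X.Ω, (∀ j, MeasurableSet (B j)) →
      Tendsto (fun k => ∫ z in ⋂ j ∈ (Finset.univ.erase j0 : Finset ι), L.xc j ⁻¹' (B j),
        u k z ∂L.J.μ) (UU : Filter ℕ)
        (𝓝 (∫ z in ⋂ j ∈ (Finset.univ.erase j0 : Finset ι), L.xc j ⁻¹' (B j), w z ∂L.J.μ)) := by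
    intro B hB
    have hms : MeasurableSet (⋂ j ∈ (Finset.univ.erase j0 : Finset ι), L.xc j ⁻¹' (B j)) :=
      Finset.measurableSet_biInter _ fun j _ => (L.xc_mp j).measurable (hB j)
    have hb : ∀ j, Bd X.ms ((B j).indicator (fun _ => (1 : ℝ))) := fun j =>
      bd_of_M (BdM.indicator (hB j))
    have eG : ∀ h : ι → X.Ω → ℝ, (∀ j, Bd X.ms (h j)) →
        ∫ z in ⋂ j ∈ (Finset.univ.erase j0 : Finset ι), L.xc j ⁻¹' (B j),
          ∏ j ∈ Finset.univ.erase j0, h j (L.xc j z) ∂L.J.μ =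
        ∏ j ∈ Finset.univ.erase j0, ∫ x, h j x * (B j).indicator (fun _ => (1 : ℝ)) x ∂X.μ := by
      intro h hh
      rw [← integral_indicator hms]
      have e6 : ∀ z, (⋂ j ∈ (Finset.univ.erase j0 : Finset ι), L.xc j ⁻¹' (B j)).indicator
          (fun z => ∏ j ∈ Finset.univ.erase j0, h j (L.xc j z)) z =
          ∏ j ∈ Finset.univ.erase j0,
            (fun x => h j x * (B j).indicator (fun _ => (1 : ℝ)) x) (L.xc j z) := by
        intro z
        rw [RuleCore.prod_ind (Finset.univ.erase j0) (fun j z => h j (L.xc j z))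
          (fun j => L.xc j ⁻¹' (B j)) z]
        rfl
      simp only [e6]
      exact L.ind_prod hX j0 (f := fun j x => h j x * (B j).indicator (fun _ => (1 : ℝ)) x)
        fun j => bd_of_M ((Bd.toM (hh j)).mul (BdM.indicator (hB j)))
    have e7 : ∀ k, ∫ z in ⋂ j ∈ (Finset.univ.erase j0 : Finset ι), L.xc j ⁻¹' (B j),
        u k z ∂L.J.μ = ∏ j ∈ Finset.univ.erase j0,
          ∫ x, q j k (X.S (-(s i k)) x) * (B j).indicator (fun _ => (1 : ℝ)) x ∂X.μ := fun k =>
      eG (fun j x => q j k (X.S (-(s i k)) x)) fun j =>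
        ⟨((hq j).meas k).comp (X.S_mp _).measurable, K j, fun x => (hq j).bdd k _⟩
    have e8 : ∫ z in ⋂ j ∈ (Finset.univ.erase j0 : Finset ι), L.xc j ⁻¹' (B j), w z ∂L.J.μ =
        ∏ j ∈ Finset.univ.erase j0,
          ∫ x, g j x * (B j).indicator (fun _ => (1 : ℝ)) x ∂X.μ :=
      eG g fun j => ⟨hgm j, D j, hD j⟩
    rw [e8]
    refine Tendsto.congr (fun k => (e7 k).symm) ?_
    refine tendsto_finsetProd _ fun j _ => ?_
    have h9 := weakX (P := P) i (hq j) (hPF j) (hFg j) (hb j)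
    refine h9.congr fun k => ?_
    congr 1
    funext x
    ring
  have huniv : Tendsto (fun k => ∫ z, u k z ∂L.J.μ) (UU : Filter ℕ) (𝓝 (∫ z, w z ∂L.J.μ)) := by
    have := hrect (fun _ => univ) fun _ => MeasurableSet.univ
    simpa using this
  have hA : ∀ A ∈ piiUnionInter (fun j => {A | MeasurableSet[X.ms.comap (L.xc j)] A})
        ((Finset.univ.erase j0 : Finset ι) : Set ι),
      Tendsto (fun k => ∫ z in A, u k z ∂L.J.μ) (UU : Filter ℕ) (𝓝 (∫ z in A, w z ∂L.J.μ)) := by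
    rintro A ⟨t, htA, f, hf, rfl⟩
    have hf' : ∀ j : ι, ∃ B : Set X.Ω, MeasurableSet B ∧ (j ∈ t → L.xc j ⁻¹' B = f j) ∧
        (j ∉ t → B = univ) := by
      intro j
      by_cases hj : j ∈ t
      · obtain ⟨B, hB, hBf⟩ := hf j hj
        exact ⟨B, hB, fun _ => hBf, fun h => absurd hj h⟩
      · exact ⟨univ, MeasurableSet.univ, fun h => absurd h hj, fun _ => rfl⟩
    choose B hB hBf hBu using hf'
    have e : (⋂ x ∈ t, f x) = ⋂ j ∈ (Finset.univ.erase j0 : Finset ι), L.xc j ⁻¹' (B j) := by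
      ext z
      simp only [mem_iInter]
      constructor
      · intro h j hj
        by_cases hjt : j ∈ t
        · rw [hBf j hjt]; exact h j hjt
        · rw [hBu j hjt]; exact mem_univ _
      · intro h j hj
        rw [← hBf j hj]
        exact h j (htA hj)
    rw [e]
    exact hrect B hB
  have hKK : 0 ≤ ∏ j ∈ Finset.univ.erase j0, K j := Finset.prod_nonneg fun j _ => hK0 j
  have hDD : 0 ≤ ∏ j ∈ Finset.univ.erase j0, D j := Finset.prod_nonneg fun j _ => hD0 j
  have h2 := weak_tendsto (μ := L.J.μ) (l := (UU : Filter ℕ)) hm hgen hpi (u := u) (v := w)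
    (K := (∏ j ∈ Finset.univ.erase j0, K j) + ∏ j ∈ Finset.univ.erase j0, D j)
    (by linarith) hum (fun k z => (hub k z).trans (by linarith)) hwm
    (fun z => (hwb z).trans (by linarith)) huniv hA hΨ
  have h3 : Tendsto (fun k => ∫ z, Ψ z * u k z ∂L.J.μ) (UU : Filter ℕ)
      (𝓝 (∫ z, (∏ j ∈ Finset.univ.erase j0, L.V i j (F j ∘ P.π) z) * L.U i j0 (F j0 ∘ P.π) z
        ∂(lb L.J.μ))) := by
    rw [← e3]
    exact h1.congr e4
  rw [tendsto_nhds_unique h3 h2]
  congr 1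
  funext z
  ring

end RLev

/-- **THE RULE** (R4): `a` in slot `j0` = `a` in all the other slots. -/
theorem rule_eq (L : RLev s P) (hS2 : S2 s P) (hX : XIndP X s) (hc : 2 ≤ Fintype.card ι)
    (hR1 : ∀ (i : ι) (f : X.Ω → ℝ), Bd X.ms f →
      (lb P.μ)[PF s i P (f ∘ P.π) | LL (X.ms.comap P.π)] =ᵐ[lb P.μ] PF s i P (f ∘ P.π))
    (i j0 : ι) {F g : ι → X.Ω → ℝ} (hF : ∀ j, Bd X.ms (F j)) (hg : ∀ j, Bd X.ms (g j))
    (hFg : ∀ j, ∀ G, Bd X.ms G → ∫ x, g j x * G x ∂X.μ =
      ∫ y, PF s i P (F j ∘ P.π) y * sitef P.toSys (s i) (G ∘ P.π) y ∂(lb P.μ)) :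
    ∫ z, (∏ j ∈ Finset.univ.erase j0, F j (L.xc j z)) * g j0 (L.xc j0 z) ∂L.J.μ =
      ∫ z, (∏ j ∈ Finset.univ.erase j0, g j (L.xc j z)) * F j0 (L.xc j0 z) ∂L.J.μ := by
  choose q K hq hPF using fun j => PF_internal (s := s) (P := P) i (hF j) (hR1 i (F j) (hF j))
  have h1 := L.star hS2 i j0 hc (F := fun j => F j ∘ P.π)
    (fun j => bd_comp (hF j) P.π_mp.measurable)
  rw [L.lhs i j0 hF hg (hq j0) (hPF j0) (hFg j0), L.rhs hX i j0 hF hg hq hPF hFg] at h1
  exact h1

end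

end Crest.Agent.R069.Rule
end

-- ▼ part R069/Spec
section

/-!
# Row 69, node SPEC = step (3c)

Abstract Hilbert space lemma (no functional calculus).
-/

set_option autoImplicit false
set_option linter.unusedSectionVars false

open Filter Topology RCLike ContinuousLinearMap
open scoped InnerProductSpace

namespace Crest.Agent.R069.Spec

variable {𝕜 : Type*} [RCLike 𝕜]
variable {H : Type*} [NormedAddCommGroup H] [InnerProductSpace 𝕜 H] [CompleteSpace H]
variable {K : Type*} [NormedAddCommGroup K] [InnerProductSpace 𝕜 K] [CompleteSpace K]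

/-- powers of a contraction are contractions, pointwise -/
lemma norm_pow_apply_le {a : H →L[𝕜] H} (h1 : ‖a‖ ≤ 1) (n : ℕ) (x : H) : ‖(a ^ n) x‖ ≤ ‖x‖ := by
  induction n with
  | zero => simp
  | succ n ih =>
    rw [pow_succ']
    calc ‖(a * a ^ n) x‖ = ‖a ((a ^ n) x)‖ := rfl
      _ ≤ ‖a‖ * ‖(a ^ n) x‖ := a.le_opNorm _
      _ ≤ 1 * ‖x‖ := by gcongr
      _ = ‖x‖ := one_mul _

lemma inner_pow_left {a : H →L[𝕜] H} (ha : IsSelfAdjoint a) (n : ℕ) (x y : H) :
    ⟪(a ^ n) x, y⟫_𝕜 = ⟪x, (a ^ n) y⟫_𝕜 := by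
  have h : IsSelfAdjoint (a ^ n) := ha.pow n
  rw [← ContinuousLinearMap.adjoint_inner_right]
  rw [ContinuousLinearMap.isSelfAdjoint_iff'.mp h]

/-- a positive contraction: if `a (a y) = y` then `a y = y` -/
lemma fix_of_sq {a : H →L[𝕜] H} (h0 : ∀ h, 0 ≤ re ⟪a h, h⟫_𝕜) {y : H} (hy : a (a y) = y) :
    a y = y := by
  set z := y - a y with hz
  have h2 : a z = - z := by
    rw [hz, map_sub, hy]; abel
  have h3 := h0 z
  rw [h2, inner_neg_left, map_neg] at h3
  have h4 : re ⟪z, z⟫_𝕜 = ‖z‖ ^ 2 := by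
    rw [inner_self_eq_norm_sq]
  rw [h4] at h3
  have h5 : z = 0 := by
    have : ‖z‖ ^ 2 = 0 := le_antisymm (by linarith) (by positivity)
    simpa using this
  rw [hz, sub_eq_zero] at h5
  exact h5.symm

/-- powers of a positive contraction converge strongly to a fixed vector -/
lemma exists_tendsto_pow {a : H →L[𝕜] H} (ha : IsSelfAdjoint a)
    (h0 : ∀ h, 0 ≤ re ⟪a h, h⟫_𝕜) (h1 : ‖a‖ ≤ 1) (x : H) :
    ∃ y, a y = y ∧ Tendsto (fun n : ℕ => (a ^ n) x) atTop (𝓝 y) := by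
  -- t m = ‖a^m x‖²
  set t : ℕ → ℝ := fun m => ‖(a ^ m) x‖ ^ 2 with ht
  have hanti : Antitone t := by
    refine antitone_nat_of_succ_le fun m => ?_
    have : ‖(a ^ (m + 1)) x‖ ≤ ‖(a ^ m) x‖ := by
      have := norm_pow_apply_le h1 1 ((a ^ m) x)
      rw [pow_succ']
      simpa using this
    exact pow_le_pow_left₀ (norm_nonneg _) this 2
  have hbdd : BddBelow (Set.range t) := ⟨0, by rintro _ ⟨m, rfl⟩; positivity⟩
  obtain ⟨L, hL⟩ : ∃ L, Tendsto t atTop (𝓝 L) := ⟨_, tendsto_atTop_ciInf hanti hbdd⟩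
  have hLt : ∀ m, L ≤ t m := fun m => hanti.le_of_tendsto hL m
  -- inner product of even powers
  have hin : ∀ k l : ℕ, re ⟪(a ^ (2 * k)) x, (a ^ (2 * l)) x⟫_𝕜 = t (k + l) := by
    intro k l
    have e1 : (a ^ (2 * k)) x = (a ^ k) ((a ^ k) x) := by
      rw [two_mul, pow_add]; rfl
    have e2 : (a ^ k) ((a ^ (2 * l)) x) = (a ^ l) ((a ^ (k + l)) x) := by
      rw [← mul_apply_eq_comp, ← mul_apply_eq_comp, ← pow_add, ← pow_add]
      congr 2; ring
    rw [e1, inner_pow_left ha, e2, ← inner_pow_left ha, ← mul_apply_eq_comp, ← pow_add,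
      add_comm l k, inner_self_eq_norm_sq]
  have hdist : ∀ k l : ℕ, ‖(a ^ (2 * k)) x - (a ^ (2 * l)) x‖ ^ 2
      = t (k + k) - 2 * t (k + l) + t (l + l) := by
    intro k l
    rw [@norm_sub_sq 𝕜, hin, ← hin k k, ← hin l l, inner_self_eq_norm_sq, inner_self_eq_norm_sq]
  have hcau : CauchySeq (fun k : ℕ => (a ^ (2 * k)) x) := by
    rw [Metric.cauchySeq_iff]
    intro ε hε
    have hev : ∀ᶠ m in atTop, t m < L + ε ^ 2 / 4 :=
      hL.eventually (gt_mem_nhds (by have : 0 < ε ^ 2 := by positivity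
                                     linarith))
    obtain ⟨M, hM⟩ := eventually_atTop.mp hev
    refine ⟨M, fun k hk l hl => ?_⟩
    rw [dist_eq_norm]
    have h2 : ‖(a ^ (2 * k)) x - (a ^ (2 * l)) x‖ ^ 2 < ε ^ 2 := by
      rw [hdist]
      have h3 := hM (k + k) (by omega)
      have h4 := hM (l + l) (by omega)
      have h5 := hLt (k + l)
      nlinarith [sq_nonneg ε, sq_pos_of_pos hε]
    exact lt_of_pow_lt_pow_left₀ 2 hε.le h2
  obtain ⟨y, hy⟩ := cauchySeq_tendsto_of_complete hcau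
  have hsq : a (a y) = y := by
    have h3 : Tendsto (fun k : ℕ => a (a ((a ^ (2 * k)) x))) atTop (𝓝 (a (a y))) :=
      (a.continuous.tendsto _).comp ((a.continuous.tendsto _).comp hy)
    have h4 : Tendsto (fun k : ℕ => (a ^ (2 * (k + 1))) x) atTop (𝓝 y) :=
      hy.comp (tendsto_add_atTop_nat 1)
    have h5 : (fun k : ℕ => (a ^ (2 * (k + 1))) x) = fun k : ℕ => a (a ((a ^ (2 * k)) x)) := by
      funext k
      rw [show 2 * (k + 1) = 2 * k + 1 + 1 by ring, pow_succ', pow_succ']; rfl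
    rw [h5] at h4
    exact tendsto_nhds_unique h3 h4
  have hfix : a y = y := fix_of_sq h0 hsq
  refine ⟨y, hfix, ?_⟩
  -- combine even and odd powers: norm of difference is antitone
  rw [Metric.tendsto_atTop] at hy ⊢
  intro ε hε
  obtain ⟨M, hM⟩ := hy ε hε
  refine ⟨2 * M, fun n hn => ?_⟩
  have h6 := hM M le_rfl
  rw [dist_eq_norm] at h6 ⊢
  have hpy : ∀ m : ℕ, (a ^ m) y = y := by
    intro m
    induction m with
    | zero => simp
    | succ m ih => rw [pow_succ']; change a ((a ^ m) y) = y; rw [ih, hfix]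
  have h7 : (a ^ n) x - y = (a ^ (n - 2 * M)) ((a ^ (2 * M)) x - y) := by
    rw [map_sub, hpy, ← mul_apply_eq_comp, ← pow_add]
    congr 3; omega
  rw [h7]
  exact lt_of_le_of_lt (norm_pow_apply_le h1 _ _) h6

/-- The space of fixed vectors of `a`. -/
def fixSp (a : H →L[𝕜] H) : Submodule 𝕜 H where
  carrier := {x | a x = x}
  add_mem' := by intro x y hx hy; simp only [Set.mem_ofPred_eq] at *; rw [map_add, hx, hy]
  zero_mem' := by simp
  smul_mem' := by intro c x hx; simp only [Set.mem_ofPred_eq] at *; rw [map_smul, hx]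

@[simp] lemma mem_fixSp {a : H →L[𝕜] H} {x : H} : x ∈ fixSp a ↔ a x = x := Iff.rfl

lemma isClosed_fixSp (a : H →L[𝕜] H) : IsClosed (fixSp a : Set H) :=
  isClosed_eq a.continuous continuous_id

instance (a : H →L[𝕜] H) : CompleteSpace (fixSp a) := (isClosed_fixSp a).completeSpace_coe

/-- The orthogonal projection of `H` onto the fixed vectors of `a`. -/
noncomputable def proj (a : H →L[𝕜] H) : H →L[𝕜] H := (fixSp a).starProjection

lemma proj_fix (a : H →L[𝕜] H) (x : H) : a (proj a x) = proj a x :=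
  (fixSp a).starProjection_apply_mem x

lemma proj_of_fix {a : H →L[𝕜] H} {x : H} (hx : a x = x) : proj a x = x :=
  Submodule.starProjection_eq_self_iff.mpr hx

/-- `a ^ n x → proj x` on the fixed space. -/
theorem tendsto_pow {a : H →L[𝕜] H} (ha : IsSelfAdjoint a)
    (h0 : ∀ h, 0 ≤ re ⟪a h, h⟫_𝕜) (h1 : ‖a‖ ≤ 1) (x : H) :
    Tendsto (fun n : ℕ => (a ^ n) x) atTop (𝓝 (proj a x)) := by
  obtain ⟨y, hy, hlim⟩ := exists_tendsto_pow ha h0 h1 x
  have hpz : ∀ z, a z = z → ∀ m : ℕ, (a ^ m) z = z := by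
    intro z hz m
    induction m with
    | zero => simp
    | succ m ih => rw [pow_succ']; change a ((a ^ m) z) = z; rw [ih, hz]
  have : proj a x = y := by
    refine Submodule.eq_starProjection_of_mem_of_inner_eq_zero hy ?_
    intro z hz
    have h2 : Tendsto (fun n : ℕ => ⟪(a ^ n) x, z⟫_𝕜) atTop (𝓝 ⟪y, z⟫_𝕜) :=
      hlim.inner tendsto_const_nhds
    have h3 : (fun n : ℕ => ⟪(a ^ n) x, z⟫_𝕜) = fun _ => ⟪x, z⟫_𝕜 := by
      funext n; rw [inner_pow_left ha, hpz z hz]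
    rw [h3] at h2
    have h4 := tendsto_nhds_unique h2 tendsto_const_nhds
    rw [inner_sub_left, h4, sub_self]
  rw [this]; exact hlim

lemma norm_sub_apply_sq_le {a : H →L[𝕜] H}
    (hdom : ∀ h, ‖a h‖ ^ 2 ≤ re ⟪a h, h⟫_𝕜) (x : H) : ‖x - a x‖ ≤ ‖x‖ := by
  have h2 := @norm_sub_sq 𝕜 H _ _ _ x (a x)
  have h3 := hdom x
  rw [← inner_conj_symm, conj_re] at h3
  have h4 : ‖x - a x‖ ^ 2 ≤ ‖x‖ ^ 2 := by nlinarith [sq_nonneg ‖a x‖]
  exact (pow_le_pow_iff_left₀ (norm_nonneg _) (norm_nonneg _) two_ne_zero).mp h4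

/-- `‖a h‖² ≤ ⟨a h, h⟩` for a positive contraction. -/
lemma norm_sq_le_re_inner {a : H →L[𝕜] H} (ha : IsSelfAdjoint a)
    (h0 : ∀ h, 0 ≤ re ⟪a h, h⟫_𝕜) (h1 : ‖a‖ ≤ 1) (h : H) : ‖a h‖ ^ 2 ≤ re ⟪a h, h⟫_𝕜 := by
  -- positivity on `h - t a h`
  have sa : ∀ x y, ⟪a x, y⟫_𝕜 = ⟪x, a y⟫_𝕜 := fun x y => by simpa using inner_pow_left ha 1 x y
  have key : ∀ t : ℝ, 0 ≤ re ⟪a h, h⟫_𝕜 - 2 * t * ‖a h‖ ^ 2 + t ^ 2 * re ⟪a (a h), a h⟫_𝕜 := by
    intro t
    have h2 := h0 (h - (t : 𝕜) • a h)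
    have e1 : re ⟪a (h - (t : 𝕜) • a h), h - (t : 𝕜) • a h⟫_𝕜
        = re ⟪a h, h⟫_𝕜 - 2 * t * ‖a h‖ ^ 2 + t ^ 2 * re ⟪a (a h), a h⟫_𝕜 := by
      rw [map_sub, map_smul, inner_sub_left, inner_sub_right, inner_sub_right, inner_smul_left,
        inner_smul_left, inner_smul_right, inner_smul_right, sa (a h) h]
      have e2 : ⟪a h, a h⟫_𝕜 = ((‖a h‖ ^ 2 : ℝ) : 𝕜) := by
        rw [inner_self_eq_norm_sq_to_K]; push_cast; rfl
      rw [e2, conj_ofReal]
      simp only [map_sub, re_ofReal_mul, ofReal_re]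
      ring
    rw [e1] at h2; exact h2
  have h3 : re ⟪a (a h), a h⟫_𝕜 ≤ ‖a h‖ ^ 2 := by
    calc re ⟪a (a h), a h⟫_𝕜 ≤ ‖a (a h)‖ * ‖a h‖ := re_inner_le_norm _ _
      _ ≤ (‖a‖ * ‖a h‖) * ‖a h‖ := by gcongr; exact a.le_opNorm _
      _ ≤ (1 * ‖a h‖) * ‖a h‖ := by gcongr
      _ = ‖a h‖ ^ 2 := by ring
  have h4 := key 1
  nlinarith


/-- SPEC, one operator: `P a^(N+1) = P a` and `‖P h‖² ≤ C ⟨a h, h⟩` force `P = P ∘ proj`. -/
theorem spec_one {a : H →L[𝕜] H} (ha : IsSelfAdjoint a)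
    (h0 : ∀ h, 0 ≤ re ⟪a h, h⟫_𝕜) (h1 : ‖a‖ ≤ 1)
    (P : H →L[𝕜] K) (C : ℝ) (N : ℕ) (hN : 1 ≤ N) (hP : ∀ h, P ((a ^ (N + 1)) h) = P (a h))
    (hdom : ∀ h, ‖P h‖ ^ 2 ≤ C * re ⟪a h, h⟫_𝕜) (h : H) : P h = P (proj a h) := by
  -- Step 1: the operator `c = 1 - a`
  set c : H →L[𝕜] H := 1 - a with hc
  have hca : ∀ x, c x = x - a x := fun x => rfl
  have hcs : IsSelfAdjoint c := (IsSelfAdjoint.one _).sub ha
  have hc1 : ‖c‖ ≤ 1 := by
    refine c.opNorm_le_bound zero_le_one fun x => ?_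
    rw [one_mul]
    exact norm_sub_apply_sq_le (norm_sq_le_re_inner ha h0 h1) x
  have hc0 : ∀ x, 0 ≤ re ⟪c x, x⟫_𝕜 := by
    intro x
    rw [hca, inner_sub_left, map_sub, inner_self_eq_norm_sq]
    have : re ⟪a x, x⟫_𝕜 ≤ ‖x‖ ^ 2 := by
      calc re ⟪a x, x⟫_𝕜 ≤ ‖a x‖ * ‖x‖ := re_inner_le_norm _ _
        _ ≤ (‖a‖ * ‖x‖) * ‖x‖ := by gcongr; exact a.le_opNorm _
        _ ≤ (1 * ‖x‖) * ‖x‖ := by gcongr
        _ = ‖x‖ ^ 2 := by ring
    linarith
  -- Step 2: if `P (a^(k+1) x) = 0` for all `k` then `P x = 0`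
  have step2 : ∀ x, (∀ k : ℕ, P ((a ^ (k + 1)) x) = 0) → P x = 0 := by
    intro x hx
    obtain ⟨y, hy, hlim⟩ := exists_tendsto_pow hcs hc0 hc1 x
    have hay : a y = 0 := by
      rw [hca] at hy
      have := sub_eq_self.mp hy
      exact this
    -- P (c^n x) = P x and P (a^(k+1) (c^n x)) = 0
    have hPn : ∀ n : ℕ, P ((c ^ n) x) = P x ∧ ∀ k : ℕ, P ((a ^ (k + 1)) ((c ^ n) x)) = 0 := by
      intro n
      induction n with
      | zero => exact ⟨by simp, by simpa using hx⟩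
      | succ n ih =>
        obtain ⟨ih1, ih2⟩ := ih
        have e : (c ^ (n + 1)) x = (c ^ n) x - a ((c ^ n) x) := by rw [pow_succ']; rfl
        refine ⟨?_, fun k => ?_⟩
        · rw [e, map_sub, ih1]
          have := ih2 0
          rw [zero_add, pow_one] at this
          rw [this, sub_zero]
        · rw [e, map_sub, map_sub, ih2]
          have h5 : (a ^ (k + 1)) (a ((c ^ n) x)) = (a ^ (k + 1 + 1)) ((c ^ n) x) := by
            rw [pow_succ a (k + 1)]; rfl
          rw [h5, ih2, sub_zero]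
    have hlim2 : Tendsto (fun n : ℕ => C * re ⟪a ((c ^ n) x), (c ^ n) x⟫_𝕜) atTop
        (𝓝 (C * re ⟪a y, y⟫_𝕜)) := by
      refine Tendsto.const_mul _ ?_
      exact (RCLike.continuous_re.tendsto _).comp (((a.continuous.tendsto _).comp hlim).inner hlim)
    rw [hay, inner_zero_left, map_zero, mul_zero] at hlim2
    have h6 : ‖P x‖ ^ 2 ≤ 0 := by
      refine ge_of_tendsto hlim2 (Eventually.of_forall fun n => ?_)
      have h7 := hdom ((c ^ n) x)
      rwa [(hPn n).1] at h7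
    have h8 : ‖P x‖ ^ 2 = 0 := le_antisymm h6 (by positivity)
    simpa using h8
  -- Step 3: `P h = P (a^N h)`
  have step3 : ∀ x, P ((a ^ N) x) = P x := by
    intro x
    have h9 : P (x - (a ^ N) x) = 0 := by
      refine step2 _ fun k => ?_
      rw [map_sub, map_sub]
      have e1 : (a ^ (k + 1)) ((a ^ N) x) = (a ^ (N + 1)) ((a ^ k) x) := by
        rw [← mul_apply_eq_comp, ← mul_apply_eq_comp, ← pow_add, ← pow_add]
        congr 2; ring
      have e2 : (a ^ (k + 1)) x = a ((a ^ k) x) := by rw [pow_succ']; rfl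
      rw [e1, hP, e2, sub_self]
    rw [map_sub, sub_eq_zero] at h9
    exact h9.symm
  have step4 : ∀ m : ℕ, P ((a ^ (N * m)) h) = P h := by
    intro m
    induction m with
    | zero => simp
    | succ m ih =>
      have e1 : (a ^ (N * (m + 1))) h = (a ^ N) ((a ^ (N * m)) h) := by
        rw [← mul_apply_eq_comp, ← pow_add]; congr 2; ring
      rw [e1, step3, ih]
  have hlim3 : Tendsto (fun m : ℕ => P ((a ^ (N * m)) h)) atTop (𝓝 (P (proj a h))) :=
    (P.continuous.tendsto _).comp ((tendsto_pow ha h0 h1 h).comp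
      (tendsto_id.const_mul_atTop' (by omega)))
  have hlim4 : Tendsto (fun m : ℕ => P ((a ^ (N * m)) h)) atTop (𝓝 (P h)) := by
    simp only [step4]; exact tendsto_const_nhds
  exact tendsto_nhds_unique hlim4 hlim3


lemma proj_mem_of_isClosed {a : H →L[𝕜] H} (ha : IsSelfAdjoint a)
    (h0 : ∀ h, 0 ≤ re ⟪a h, h⟫_𝕜) (h1 : ‖a‖ ≤ 1) {B : Set H} (hB : IsClosed B)
    (hBa : ∀ x ∈ B, a x ∈ B) {x : H} (hx : x ∈ B) : proj a x ∈ B := by
  refine hB.mem_of_tendsto (tendsto_pow ha h0 h1 x) (Eventually.of_forall fun n => ?_)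
  induction n with
  | zero => simpa using hx
  | succ n ih => rw [pow_succ']; exact hBa _ ih

lemma pow_mem {a : H →L[𝕜] H} {B : Set H} (hBa : ∀ x ∈ B, a x ∈ B) {x : H} (hx : x ∈ B) (n : ℕ) :
    (a ^ n) x ∈ B := by
  induction n with
  | zero => simpa using hx
  | succ n ih => rw [pow_succ']; exact hBa _ ih

open Function in
/-- **SPEC, multilinear form** (= (A) of the satedness route). `B` is the set of "bounded"
vectors (e.g. `{f : |f| ≤ 1 a.e.}` in `L²`), `τ` a form which is linear and contractive in every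
slot when the other slots are in `B`; `a` in one slot equals `a` in all the other slots, and the
domination holds for ONE slot `i0`.  Then `τ F = τ (proj a ∘ F)`. -/
theorem spec_multi {ι : Type*} [Fintype ι] [DecidableEq ι] (hι : 3 ≤ Fintype.card ι) (i0 : ι)
    {a : H →L[𝕜] H} (ha : IsSelfAdjoint a) (h0 : ∀ h, 0 ≤ re ⟪a h, h⟫_𝕜) (h1 : ‖a‖ ≤ 1)
    (B : Set H) (hBc : IsClosed B) (hBa : ∀ x ∈ B, a x ∈ B)
    (hBd : Dense (Submodule.span 𝕜 B : Set H))
    (τ : (ι → H) → 𝕜)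
    (hadd : ∀ (F : ι → H) (j : ι) (x y : H), (∀ i, i ≠ j → F i ∈ B) →
      τ (update F j (x + y)) = τ (update F j x) + τ (update F j y))
    (hsmul : ∀ (F : ι → H) (j : ι) (c : 𝕜) (x : H), (∀ i, i ≠ j → F i ∈ B) →
      τ (update F j (c • x)) = c * τ (update F j x))
    (hbd : ∀ (F : ι → H) (j : ι), (∀ i, i ≠ j → F i ∈ B) → ‖τ F‖ ≤ ‖F j‖)
    (hR : ∀ (F : ι → H) (j : ι), (∀ i, F i ∈ B) →
      τ (update F j (a (F j))) = τ (update (fun i => a (F i)) j (F j)))
    (hdom : ∀ (F : ι → H), (∀ i, i ≠ i0 → F i ∈ B) → ‖τ F‖ ^ 2 ≤ re ⟪a (F i0), F i0⟫_𝕜)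
    (F : ι → H) (hF : ∀ i, F i ∈ B) : τ F = τ (fun i => proj a (F i)) := by
  classical
  -- (1)
  have S1 : ∀ (F : ι → H) (j : ι), (∀ i, F i ∈ B) →
      τ (update F j (a (a (F j)))) = τ (fun i => a (F i)) := by
    intro F j hF
    have h2 := hR (update F j (a (F j))) j (by
      intro i
      by_cases hij : i = j
      · subst hij; simpa using hBa _ (hF i)
      · simpa [hij] using hF i)
    simp only [update_self, update_idem] at h2
    rw [h2]
    congr 1
    funext i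
    by_cases hij : i = j
    · subst hij; simp
    · simp [hij]
  -- (2)
  have S2 : ∀ (F : ι → H) (j j' : ι), (∀ i, F i ∈ B) →
      τ (update F j (a (a (F j)))) = τ (update F j' (a (a (F j')))) := by
    intro F j j' hF
    rw [S1 F j hF, S1 F j' hF]
  -- (3)
  have S3 : ∀ (s : Finset ι), i0 ∉ s → ∀ (F : ι → H), (∀ i, F i ∈ B) →
      τ (fun i => if i ∈ s then a (a (F i)) else F i)
        = τ (update F i0 ((a ^ (2 * s.card)) (F i0))) := by
    intro s
    induction s using Finset.induction_on with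
    | empty => intro _ F hF; simp
    | insert j s hjs ih =>
      intro hi0 F hF
      have hi0s : i0 ∉ s := fun h => hi0 (Finset.mem_insert_of_mem h)
      have hi0j : i0 ≠ j := fun h => hi0 (h ▸ Finset.mem_insert_self _ _)
      set G : ι → H := fun i => if i ∈ s then a (a (F i)) else F i with hG
      have hGB : ∀ i, G i ∈ B := by
        intro i
        simp only [hG]
        split_ifs
        · exact hBa _ (hBa _ (hF i))
        · exact hF i
      have e1 : (fun i => if i ∈ insert j s then a (a (F i)) else F i)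
          = update G j (a (a (G j))) := by
        funext i
        by_cases hij : i = j
        · subst hij; simp [hG, hjs]
        · simp [hG, hij]
      rw [e1, S2 G j i0 hGB]
      have e2 : update G i0 (a (a (G i0)))
          = fun i => if i ∈ s then a (a ((update F i0 (a (a (F i0)))) i))
            else (update F i0 (a (a (F i0)))) i := by
        funext i
        by_cases hij : i = i0
        · subst hij; simp [hG, hi0s]
        · simp [hG, hij]
      rw [e2, ih hi0s (update F i0 (a (a (F i0)))) (by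
        intro i
        by_cases hij : i = i0
        · subst hij; simpa using hBa _ (hBa _ (hF i))
        · simpa [hij] using hF i)]
      rw [update_idem, update_self, Finset.card_insert_of_notMem hjs]
      congr 2
  -- the exponent
  obtain ⟨j1, hj1⟩ : ∃ j1 : ι, j1 ≠ i0 := by
    by_contra hcon
    push Not at hcon
    have : Fintype.card ι ≤ 1 := Fintype.card_le_one_iff.mpr fun x y => by rw [hcon x, hcon y]
    omega
  set s : Finset ι := (Finset.univ.erase i0).erase j1 with hs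
  have hscard : s.card = Fintype.card ι - 2 := by
    rw [hs, Finset.card_erase_of_mem (by simp [hj1]), Finset.card_erase_of_mem (Finset.mem_univ _),
      Finset.card_univ]
    omega
  have hi0s : i0 ∉ s := by simp [hs]
  have hj1s : j1 ∉ s := by simp [hs]
  have S4 : ∀ (F : ι → H), (∀ i, F i ∈ B) →
      τ (update F i0 ((a ^ (2 * s.card + 1)) (F i0))) = τ (update F i0 (a (F i0))) := by
    intro F hF
    rw [hR F i0 hF]
    -- G' : slot j1 has F j1
    set G' : ι → H := update (update (fun i => a (F i)) i0 (F i0)) j1 (F j1) with hG'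
    have hG'B : ∀ i, G' i ∈ B := by
      intro i
      by_cases hij : i = j1
      · subst hij; simpa [hG'] using hF i
      · by_cases hi : i = i0
        · subst hi; simpa [hG', hij] using hF i
        · simpa [hG', hij, hi] using hBa _ (hF i)
    have e1 : update (fun i => a (F i)) i0 (F i0) = update G' j1 (a (G' j1)) := by
      funext i
      by_cases hij : i = j1
      · subst hij; simp [hG', hj1]
      · simp [hG', hij]
    rw [e1, hR G' j1 hG'B]
    have e2 : update (fun i => a (G' i)) j1 (G' j1)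
        = fun i => if i ∈ s then a (a ((update F i0 (a (F i0))) i))
          else (update F i0 (a (F i0))) i := by
      funext i
      by_cases hij : i = j1
      · subst hij; simp [hG', hj1s, hj1]
      · by_cases hi : i = i0
        · subst hi; simp [hG', hij, hi0s]
        · have his : i ∈ s := by simp [hs, hij, hi]
          simp [hG', hij, hi, his]
    rw [e2, S3 s hi0s (update F i0 (a (F i0))) (by
        intro i
        by_cases hij : i = i0
        · subst hij; simpa using hBa _ (hF i)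
        · simpa [hij] using hF i)]
    rw [update_idem, update_self]
    congr 2
  -- (5) the functional
  have S5 : ∀ (F : ι → H), (∀ i, F i ∈ B) → τ F = τ (update F i0 (proj a (F i0))) := by
    intro F hF
    let P₀ : H →ₗ[𝕜] 𝕜 :=
      { toFun := fun h => τ (update F i0 h)
        map_add' := fun x y => hadd F i0 x y fun i _ => hF i
        map_smul' := fun c x => hsmul F i0 c x fun i _ => hF i }
    have hP₀ : ∀ x, ‖P₀ x‖ ≤ 1 * ‖x‖ := by
      intro x
      rw [one_mul]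
      have := hbd (update F i0 x) i0 (fun i hi => by simpa [hi] using hF i)
      rw [update_self] at this
      exact this
    let P : H →L[𝕜] 𝕜 := P₀.mkContinuous 1 hP₀
    have hPapp : ∀ h, P h = τ (update F i0 h) := fun h => rfl
    have hPow : P.comp (a ^ (2 * s.card + 1)) = P.comp a := by
      refine ContinuousLinearMap.ext_on hBd fun h hh => ?_
      change P ((a ^ (2 * s.card + 1)) h) = P (a h)
      have h3 := S4 (update F i0 h) (by
        intro i
        by_cases hij : i = i0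
        · subst hij; simpa using hh
        · simpa [hij] using hF i)
      simp only [update_idem, update_self] at h3
      exact h3
    have h4 := spec_one ha h0 h1 P 1 (2 * s.card) (by omega)
      (fun h => by
        have := congrArg (fun Q : H →L[𝕜] 𝕜 => Q h) hPow
        exact this)
      (fun h => by
        rw [one_mul, hPapp]
        have := hdom (update F i0 h) (fun i hi => by simpa [hi] using hF i)
        simpa using this) (F i0)
    rw [hPapp, hPapp, update_eq_self] at h4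
    exact h4
  -- (7)
  have S7 : ∀ (m : ℕ) (F : ι → H), (∀ i, F i ∈ B) → a (F i0) = F i0 →
      τ F = τ (fun i => (a ^ m) (F i)) := by
    intro m
    induction m with
    | zero => intro F _ _; simp
    | succ m ih =>
      intro F hF hfix
      have h5 := hR F i0 hF
      rw [hfix, update_eq_self] at h5
      have h6 : update (fun i => a (F i)) i0 (F i0) = fun i => a (F i) := by
        funext i
        by_cases hij : i = i0
        · subst hij; simp [hfix]
        · simp [hij]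
      rw [h6] at h5
      rw [h5, ih (fun i => a (F i)) (fun i => hBa _ (hF i)) (by simp [hfix])]
      congr 1
  -- (8) continuity
  have S8 : ∀ (F G : ι → H), (∀ i, F i ∈ B) → (∀ i, G i ∈ B) → ∀ s : Finset ι,
      ‖τ F - τ (s.piecewise G F)‖ ≤ ∑ i ∈ s, ‖F i - G i‖ := by
    intro F G hF hG s
    induction s using Finset.induction_on with
    | empty => simp
    | insert j s hjs ih =>
      rw [Finset.sum_insert hjs, Finset.piecewise_insert]
      have hW : ∀ i, s.piecewise G F i ∈ B := by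
        intro i
        by_cases his : i ∈ s
        · simpa [his] using hG i
        · simpa [his] using hF i
      have e1 : s.piecewise G F = update (s.piecewise G F) j (F j) := by
        funext i
        by_cases hij : i = j
        · subst hij; simp [hjs]
        · simp [hij]
      have e2 : τ (s.piecewise G F) - τ (update (s.piecewise G F) j (G j))
          = τ (update (s.piecewise G F) j (F j - G j)) := by
        conv_lhs => rw [e1]
        rw [update_idem]
        have h7 := hadd (s.piecewise G F) j (F j - G j) (G j) (fun i _ => hW i)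
        rw [sub_add_cancel] at h7
        rw [h7]; ring
      have h8 : ‖τ (s.piecewise G F) - τ (update (s.piecewise G F) j (G j))‖ ≤ ‖F j - G j‖ := by
        rw [e2]
        have := hbd (update (s.piecewise G F) j (F j - G j)) j
          (fun i hi => by simpa [hi] using hW i)
        simpa using this
      calc ‖τ F - τ (update (s.piecewise G F) j (G j))‖
          ≤ ‖τ F - τ (s.piecewise G F)‖ + ‖τ (s.piecewise G F) - τ (update (s.piecewise G F) j (G j))‖ :=
            norm_sub_le_norm_sub_add_norm_sub _ _ _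
        _ ≤ ∑ i ∈ s, ‖F i - G i‖ + ‖F j - G j‖ := add_le_add ih h8
        _ = ‖F j - G j‖ + ∑ i ∈ s, ‖F i - G i‖ := add_comm _ _
  have S8' : ∀ (F G : ι → H), (∀ i, F i ∈ B) → (∀ i, G i ∈ B) →
      ‖τ F - τ G‖ ≤ ∑ i, ‖F i - G i‖ := by
    intro F G hF hG
    simpa using S8 F G hF hG Finset.univ
  -- conclusion
  have hpB : ∀ i, proj a (F i) ∈ B := fun i => proj_mem_of_isClosed ha h0 h1 hBc hBa (hF i)
  set F' : ι → H := update F i0 (proj a (F i0)) with hF'
  have hF'B : ∀ i, F' i ∈ B := by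
    intro i
    by_cases hij : i = i0
    · subst hij; simpa [hF'] using hpB i
    · simpa [hF', hij] using hF i
  have hF'fix : a (F' i0) = F' i0 := by simp [hF', proj_fix]
  have e3 : (fun i => proj a (F' i)) = fun i => proj a (F i) := by
    funext i
    by_cases hij : i = i0
    · subst hij; simp only [hF', update_self]; exact proj_of_fix (proj_fix a _)
    · simp [hF', hij]
  rw [S5 F hF, ← e3, ← sub_eq_zero, ← norm_eq_zero]
  have hlim : Tendsto (fun m : ℕ => ∑ i, ‖(a ^ m) (F' i) - proj a (F' i)‖) atTop (𝓝 0) := by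
    rw [show (0 : ℝ) = ∑ _i : ι, (0 : ℝ) by simp]
    refine tendsto_finsetSum _ fun i _ => ?_
    have := (tendsto_pow ha h0 h1 (F' i)).sub_const (proj a (F' i))
    rw [sub_self] at this
    simpa using this.norm
  refine le_antisymm (ge_of_tendsto hlim (Eventually.of_forall fun m => ?_)) (norm_nonneg _)
  rw [S7 m F' hF'B hF'fix]
  exact S8' _ _ (fun i => pow_mem hBa (hF'B i) m)
    (fun i => proj_mem_of_isClosed ha h0 h1 hBc hBa (hF'B i))

open Function in
/-- Slotwise form: under the conclusion of `spec_multi`, `proj a` may be inserted in one slot. -/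
lemma slot_of_all {ι : Type*} [Fintype ι] [DecidableEq ι] {p : H →L[𝕜] H}
    {B : Set H} (hpB : ∀ x ∈ B, p x ∈ B) (hpp : ∀ x, p (p x) = p x) {τ : (ι → H) → 𝕜}
    (hτ : ∀ F : ι → H, (∀ i, F i ∈ B) → τ F = τ (fun i => p (F i)))
    (F : ι → H) (hF : ∀ i, F i ∈ B) (j : ι) : τ (update F j (p (F j))) = τ F := by
  rw [hτ F hF, hτ (update F j (p (F j))) (by
    intro i
    by_cases hij : i = j
    · subst hij; simpa using hpB _ (hF i)
    · simpa [hij] using hF i)]
  congr 1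
  funext i
  by_cases hij : i = j
  · subst hij; simp [hpp]
  · simp [hij]

/-- The average of the operators `a i`. -/
noncomputable def avg {ι : Type*} [Fintype ι] (a : ι → H →L[𝕜] H) : H →L[𝕜] H :=
  ((Fintype.card ι : 𝕜)⁻¹) • ∑ i, a i

section avg
variable {ι : Type*} [Fintype ι] [Nonempty ι] {a : ι → H →L[𝕜] H}

lemma card_ne : (Fintype.card ι : ℝ) ≠ 0 := by
  have : Fintype.card ι ≠ 0 := Fintype.card_ne_zero
  exact_mod_cast this

lemma avg_apply (a : ι → H →L[𝕜] H) (x : H) :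
    avg a x = ((Fintype.card ι : 𝕜)⁻¹) • ∑ i, a i x := by
  rw [avg, smul_apply, sum_apply]

lemma card_inv_eq : ((Fintype.card ι : 𝕜)⁻¹) = (((Fintype.card ι : ℝ)⁻¹ : ℝ) : 𝕜) := by
  push_cast; rfl

lemma card_ne' : (Fintype.card ι : 𝕜) ≠ 0 := by
  have : Fintype.card ι ≠ 0 := Fintype.card_ne_zero
  exact_mod_cast this

lemma avg_inner (a : ι → H →L[𝕜] H) (x : H) :
    re ⟪avg a x, x⟫_𝕜 = (Fintype.card ι : ℝ)⁻¹ * ∑ i, re ⟪a i x, x⟫_𝕜 := by
  rw [avg_apply, card_inv_eq, inner_smul_left, sum_inner, conj_ofReal,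
    re_ofReal_mul, map_sum]

lemma re_inner_le_sq {b : H →L[𝕜] H} (h1 : ‖b‖ ≤ 1) (x : H) : re ⟪b x, x⟫_𝕜 ≤ ‖x‖ ^ 2 := by
  calc re ⟪b x, x⟫_𝕜 ≤ ‖b x‖ * ‖x‖ := re_inner_le_norm _ _
    _ ≤ (‖b‖ * ‖x‖) * ‖x‖ := by gcongr; exact b.le_opNorm _
    _ ≤ (1 * ‖x‖) * ‖x‖ := by gcongr
    _ = ‖x‖ ^ 2 := by ring

lemma avg_selfAdjoint (ha : ∀ i, IsSelfAdjoint (a i)) : IsSelfAdjoint (avg a) := by
  unfold avg
  refine IsSelfAdjoint.smul ?_ (isSelfAdjoint_sum _ fun i _ => ha i)
  rw [card_inv_eq]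
  exact conj_ofReal _

lemma avg_nonneg (h0 : ∀ i h, 0 ≤ re ⟪a i h, h⟫_𝕜) (x : H) : 0 ≤ re ⟪avg a x, x⟫_𝕜 := by
  rw [avg_inner]
  exact mul_nonneg (by positivity) (Finset.sum_nonneg fun i _ => h0 i x)

lemma avg_norm_le (h1 : ∀ i, ‖a i‖ ≤ 1) : ‖avg a‖ ≤ 1 := by
  refine (avg a).opNorm_le_bound zero_le_one fun x => ?_
  rw [avg_apply, one_mul, norm_smul, card_inv_eq, norm_ofReal, abs_of_nonneg (by positivity)]
  have h2 : ‖∑ i, a i x‖ ≤ ∑ _i : ι, ‖x‖ := by
    refine (norm_sum_le _ _).trans (Finset.sum_le_sum fun i _ => ?_)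
    calc ‖a i x‖ ≤ ‖a i‖ * ‖x‖ := (a i).le_opNorm _
      _ ≤ 1 * ‖x‖ := by gcongr; exact h1 i
      _ = ‖x‖ := one_mul _
  rw [Finset.sum_const, Finset.card_univ, nsmul_eq_mul] at h2
  calc (Fintype.card ι : ℝ)⁻¹ * ‖∑ i, a i x‖ ≤ (Fintype.card ι : ℝ)⁻¹ * (Fintype.card ι * ‖x‖) := by
        gcongr
    _ = ‖x‖ := by rw [← mul_assoc, inv_mul_cancel₀ (card_ne), one_mul]

/-- a vector fixed by the average is fixed by all the operators -/
lemma fix_of_avg_fix (ha : ∀ i, IsSelfAdjoint (a i)) (h0 : ∀ i h, 0 ≤ re ⟪a i h, h⟫_𝕜)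
    (h1 : ∀ i, ‖a i‖ ≤ 1) {x : H} (hx : avg a x = x) (i : ι) : a i x = x := by
  have h2 := avg_inner a x
  rw [hx, inner_self_eq_norm_sq] at h2
  have h3 : ∑ j, (‖x‖ ^ 2 - re ⟪a j x, x⟫_𝕜) = 0 := by
    rw [Finset.sum_sub_distrib, Finset.sum_const, Finset.card_univ, nsmul_eq_mul, sub_eq_zero, h2,
      ← mul_assoc, mul_inv_cancel₀ card_ne, one_mul]
  have h4 := (Finset.sum_eq_zero_iff_of_nonneg (fun j _ => by
    have := re_inner_le_sq (h1 j) x; linarith)).mp h3 i (Finset.mem_univ _)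
  -- ‖x - a x‖² = ‖x‖² - 2 re + ‖a x‖² ≤ 0
  have h5 := @norm_sub_sq 𝕜 H _ _ _ x (a i x)
  rw [← inner_conj_symm, conj_re] at h5
  have h6 := norm_sq_le_re_inner (ha i) (h0 i) (h1 i) x
  have h7 : ‖x - a i x‖ ^ 2 = 0 := le_antisymm (by nlinarith) (by positivity)
  have h8 : x - a i x = 0 := by simpa using h7
  exact (sub_eq_zero.mp h8).symm

lemma avg_fix_of_fix {x : H} (hx : ∀ i, a i x = x) : avg a x = x := by
  rw [avg_apply]
  simp only [hx, Finset.sum_const, Finset.card_univ, ← Nat.cast_smul_eq_nsmul 𝕜, ← mul_smul]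
  rw [inv_mul_cancel₀ card_ne', one_smul]

end avg

open Function in
/-- **N-SPEC** (step (A) of the satedness route, all roles): one operator `a i` for every role
`i`, "`a i` in one slot = `a i` in all the other slots" (`hR`), domination in the slot `i`
(`hdom`).  Then `τ F = τ (p ∘ F)`, `p` the projection onto the common fixed vectors
`{x | ∀ i, a i x = x}`; moreover `p` maps `B` to `B`. -/
theorem spec_all {ι : Type*} [Fintype ι] [DecidableEq ι] (hι : 3 ≤ Fintype.card ι)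
    {a : ι → H →L[𝕜] H} (ha : ∀ i, IsSelfAdjoint (a i)) (h0 : ∀ i h, 0 ≤ re ⟪a i h, h⟫_𝕜)
    (h1 : ∀ i, ‖a i‖ ≤ 1)
    (B : Set H) (hBc : IsClosed B)
    (hBavg : ∀ f : ι → H, (∀ i, f i ∈ B) → ((Fintype.card ι : 𝕜)⁻¹) • ∑ i, f i ∈ B)
    (hBa : ∀ i, ∀ x ∈ B, a i x ∈ B)
    (hBd : Dense (Submodule.span 𝕜 B : Set H))
    (τ : (ι → H) → 𝕜)
    (hadd : ∀ (F : ι → H) (j : ι) (x y : H), (∀ i, i ≠ j → F i ∈ B) →
      τ (update F j (x + y)) = τ (update F j x) + τ (update F j y))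
    (hsmul : ∀ (F : ι → H) (j : ι) (c : 𝕜) (x : H), (∀ i, i ≠ j → F i ∈ B) →
      τ (update F j (c • x)) = c * τ (update F j x))
    (hbd : ∀ (F : ι → H) (j : ι), (∀ i, i ≠ j → F i ∈ B) → ‖τ F‖ ≤ ‖F j‖)
    (hR : ∀ (i : ι) (F : ι → H) (j : ι), (∀ i, F i ∈ B) →
      τ (update F j (a i (F j))) = τ (update (fun l => a i (F l)) j (F j)))
    (hdom : ∀ (i : ι) (F : ι → H), (∀ l, l ≠ i → F l ∈ B) → ‖τ F‖ ^ 2 ≤ re ⟪a i (F i), F i⟫_𝕜) :
    (∀ x, (∀ i, a i x = x) ↔ avg a x = x) ∧ (∀ x ∈ B, proj (avg a) x ∈ B) ∧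
      ∀ F : ι → H, (∀ i, F i ∈ B) → τ F = τ (fun i => proj (avg a) (F i)) := by
  classical
  have : Nonempty ι := Fintype.card_pos_iff.mp (by omega)
  have hfix : ∀ x, (∀ i, a i x = x) ↔ avg a x = x :=
    fun x => ⟨fun h => avg_fix_of_fix h, fun h i => fix_of_avg_fix ha h0 h1 h i⟩
  have hpB : ∀ x ∈ B, proj (avg a) x ∈ B := fun x hx =>
    proj_mem_of_isClosed (avg_selfAdjoint ha) (avg_nonneg h0) (avg_norm_le h1) hBc
      (fun y hy => by rw [avg_apply]; exact hBavg _ fun i => hBa i y hy) hx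
  refine ⟨hfix, hpB, ?_⟩
  have hone : ∀ i, ∀ F : ι → H, (∀ l, F l ∈ B) → τ F = τ (fun l => proj (a i) (F l)) :=
    fun i F hF => spec_multi hι i (ha i) (h0 i) (h1 i) B hBc (hBa i) hBd τ hadd hsmul hbd
      (hR i) (hdom i) F hF
  -- one slot
  have hslot : ∀ F : ι → H, (∀ l, F l ∈ B) → ∀ j, τ (update F j (proj (avg a) (F j))) = τ F := by
    intro F hF j
    let P₀ : H →ₗ[𝕜] 𝕜 :=
      { toFun := fun h => τ (update F j h)
        map_add' := fun x y => hadd F j x y fun i _ => hF i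
        map_smul' := fun c x => hsmul F j c x fun i _ => hF i }
    have hP₀ : ∀ x, ‖P₀ x‖ ≤ 1 * ‖x‖ := by
      intro x
      rw [one_mul]
      have := hbd (update F j x) j (fun i hi => by simpa [hi] using hF i)
      rw [update_self] at this
      exact this
    let P : H →L[𝕜] 𝕜 := P₀.mkContinuous 1 hP₀
    have hPapp : ∀ h, P h = τ (update F j h) := fun h => rfl
    -- P ∘ proj (a i) = P
    have hPi : ∀ i, P.comp (proj (a i)) = P := by
      intro i
      refine ContinuousLinearMap.ext_on hBd fun h hh => ?_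
      change P (proj (a i) h) = P h
      rw [hPapp, hPapp]
      have h3 := slot_of_all (p := proj (a i))
        (fun x hx => proj_mem_of_isClosed (ha i) (h0 i) (h1 i) hBc (hBa i) hx)
        (fun x => proj_of_fix (proj_fix (a i) x)) (hone i) (update F j h) (by
          intro l
          by_cases hij : l = j
          · subst hij; simpa using hh
          · simpa [hij] using hF l) j
      simp only [update_idem, update_self] at h3
      exact h3
    -- the Riesz vector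
    let v : H := (InnerProductSpace.toDual 𝕜 H).symm P
    have hv : ∀ h, ⟪v, h⟫_𝕜 = P h := fun h => by
      simp [v]
    have hvi : ∀ i, a i v = v := by
      intro i
      have h4 : proj (a i) v = v := by
        refine ext_inner_right 𝕜 fun h => ?_
        have h5 : ⟪proj (a i) v, h⟫_𝕜 = ⟪v, proj (a i) h⟫_𝕜 :=
          Submodule.inner_starProjection_left_eq_right _ _ _
        rw [h5, hv, hv]
        exact congrArg (fun Q : H →L[𝕜] 𝕜 => Q h) (hPi i)
      rw [← h4]; exact proj_fix _ _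
    have hvb : proj (avg a) v = v := proj_of_fix ((hfix v).mp hvi)
    rw [← hPapp, ← hv]
    have h5 : ⟪proj (avg a) v, F j⟫_𝕜 = ⟪v, proj (avg a) (F j)⟫_𝕜 :=
      Submodule.inner_starProjection_left_eq_right _ _ _
    rw [← h5, hvb, hv, hPapp, update_eq_self]
  intro F hF
  have hall : ∀ s : Finset ι, τ (s.piecewise (fun i => proj (avg a) (F i)) F) = τ F := by
    intro s
    induction s using Finset.induction_on with
    | empty => simp
    | insert j s hjs ih =>
      rw [Finset.piecewise_insert]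
      have h6 := hslot (s.piecewise (fun i => proj (avg a) (F i)) F) (by
        intro i
        by_cases his : i ∈ s
        · simpa [his] using hpB _ (hF i)
        · simpa [his] using hF i) j
      have h7 : s.piecewise (fun i => proj (avg a) (F i)) F j = F j := by simp [hjs]
      rw [h7] at h6
      rw [h6, ih]
  have := hall Finset.univ
  simpa using this.symm

end Crest.Agent.R069.Spec
end

-- ▼ part R069/SpecX

/-!
# Row 69, node R5 = RULE ⟹ visible sub-sigma-algebra (abstract part)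

`(X, μ)`, `(Λ, P)` probability spaces, `J i` = "the function at the site `i`" (a homomorphism from
bounded functions on `X` to bounded functions on `Λ`), `SS i` sub-sigma-algebras of `Λ`.
-/

set_option autoImplicit false
set_option linter.unusedSectionVars false

open MeasureTheory Filter Topology Function Set
open scoped InnerProductSpace ENNReal

namespace Crest.Agent.R069.SpecX

open Crest.Agent.R069.Spec

variable {X Λ : Type*} {mY mX : MeasurableSpace X} {m mΛ : MeasurableSpace Λ} {μ : Measure X}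
  {P : Measure Λ}

/-! ### one site -/

section one

variable (I : Lp ℝ 2 μ →ₗᵢ[ℝ] Lp ℝ 2 P) (hm : m ≤ mΛ)

/-- conditional expectation on `L²` -/
noncomputable def EE (hm : m ≤ mΛ) : Lp ℝ 2 P →L[ℝ] Lp ℝ 2 P :=
  (lpMeas ℝ ℝ m 2 P).subtypeL ∘L (condExpL2 ℝ ℝ hm)

/-- the operator `a = I* E I` -/
noncomputable def op : Lp ℝ 2 μ →L[ℝ] Lp ℝ 2 μ :=
  ContinuousLinearMap.adjoint I.toContinuousLinearMap ∘L EE (P := P) hm ∘L
    I.toContinuousLinearMap

lemma EE_symm (f g : Lp ℝ 2 P) : ⟪EE hm f, g⟫_ℝ = ⟪f, EE hm g⟫_ℝ :=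
  inner_condExpL2_left_eq_right hm

lemma EE_meas (f : Lp ℝ 2 P) : AEStronglyMeasurable[m] (EE hm f) P :=
  aestronglyMeasurable_condExpL2 hm f

lemma EE_of_meas {f : Lp ℝ 2 P} (hf : AEStronglyMeasurable[m] f P) : EE hm f = f := by
  have : Fact (m ≤ mΛ) := ⟨hm⟩
  have h1 : f ∈ lpMeas ℝ ℝ m 2 P := mem_lpMeas_iff_aestronglyMeasurable.mpr hf
  exact Submodule.starProjection_eq_self_iff.mpr h1

lemma inner_EE_EE (f g : Lp ℝ 2 P) : ⟪EE hm f, EE hm g⟫_ℝ = ⟪EE hm f, g⟫_ℝ := by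
  rw [← EE_symm, EE_of_meas hm (EE_meas hm f)]

lemma norm_EE_le (f : Lp ℝ 2 P) : ‖EE hm f‖ ≤ ‖f‖ := norm_condExpL2_coe_le hm f

lemma EE_ae [IsFiniteMeasure P] {f : Λ → ℝ} (hf : MemLp f 2 P) :
    EE hm (hf.toLp f) =ᵐ[P] P[f|m] := hf.condExpL2_ae_eq_condExp hm

lemma EE_ae' [IsFiniteMeasure P] (f : Lp ℝ 2 P) : EE hm f =ᵐ[P] P[f|m] := by
  have h := EE_ae hm (Lp.memLp f)
  rwa [Lp.toLp_coeFn] at h

lemma inner_op (x y : Lp ℝ 2 μ) : ⟪op I hm x, y⟫_ℝ = ⟪EE hm (I x), I y⟫_ℝ := by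
  unfold op
  rw [ContinuousLinearMap.comp_apply, ContinuousLinearMap.comp_apply,
    ContinuousLinearMap.adjoint_inner_left]
  rfl

lemma op_symm (x y : Lp ℝ 2 μ) : ⟪op I hm x, y⟫_ℝ = ⟪x, op I hm y⟫_ℝ := by
  rw [inner_op, EE_symm, real_inner_comm, ← inner_op, real_inner_comm]

lemma op_selfAdjoint : IsSelfAdjoint (op I hm) := by
  rw [ContinuousLinearMap.isSelfAdjoint_iff_isSymmetric]
  exact fun x y => op_symm I hm x y

lemma inner_op_self (x : Lp ℝ 2 μ) : ⟪op I hm x, x⟫_ℝ = ‖EE hm (I x)‖ ^ 2 := by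
  rw [inner_op, ← inner_EE_EE, real_inner_self_eq_norm_sq]

lemma op_nonneg (x : Lp ℝ 2 μ) : 0 ≤ RCLike.re ⟪op I hm x, x⟫_ℝ := by
  rw [inner_op_self]; simp

lemma norm_op_le : ‖op I hm‖ ≤ 1 := by
  refine (op I hm).opNorm_le_bound zero_le_one fun x => ?_
  rw [one_mul]
  have h1 : ‖op I hm x‖ ^ 2 ≤ ‖op I hm x‖ * ‖x‖ := by
    calc ‖op I hm x‖ ^ 2 = ⟪op I hm x, op I hm x⟫_ℝ := (real_inner_self_eq_norm_sq _).symm
      _ = ⟪EE hm (I x), I (op I hm x)⟫_ℝ := inner_op I hm _ _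
      _ ≤ ‖EE hm (I x)‖ * ‖I (op I hm x)‖ := real_inner_le_norm _ _
      _ ≤ ‖x‖ * ‖op I hm x‖ := by
          rw [I.norm_map]
          gcongr
          exact (norm_EE_le hm _).trans (I.norm_map x).le
      _ = ‖op I hm x‖ * ‖x‖ := mul_comm _ _
  by_cases h0 : ‖op I hm x‖ = 0
  · rw [h0]; exact norm_nonneg _
  · have h2 : 0 < ‖op I hm x‖ := lt_of_le_of_ne (norm_nonneg _) (Ne.symm h0)
    nlinarith

/-- fixed vectors of `a`: `x` at the site is `m`-measurable -/
lemma op_fix_iff (x : Lp ℝ 2 μ) : op I hm x = x ↔ AEStronglyMeasurable[m] (I x) P := by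
  constructor
  · intro h
    have h1 : ‖EE hm (I x)‖ ^ 2 = ‖I x‖ ^ 2 := by
      rw [← inner_op_self, h, I.norm_map, real_inner_self_eq_norm_sq]
    have h2 : EE hm (I x) = I x := by
      have h3 := @norm_sub_sq_real _ _ _ (I x) (EE hm (I x))
      have h4 : ⟪I x, EE hm (I x)⟫_ℝ = ‖EE hm (I x)‖ ^ 2 := by
        rw [real_inner_comm, ← inner_EE_EE, real_inner_self_eq_norm_sq]
      have h5 : ‖I x - EE hm (I x)‖ ^ 2 = 0 := by rw [h3, h4, h1]; ring
      have h6 : I x - EE hm (I x) = 0 := by simpa using h5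
      exact (sub_eq_zero.mp h6).symm
    rw [← h2]; exact EE_meas hm _
  · intro h
    refine ext_inner_right ℝ fun y => ?_
    rw [inner_op, EE_of_meas hm h, I.inner_map_map]

end one

lemma inner_Lp (x y : Lp ℝ 2 μ) : ⟪x, y⟫_ℝ = ∫ a, x a * y a ∂μ := by
  rw [L2.inner_def]
  refine integral_congr_ae (Eventually.of_forall fun a => ?_)
  simp [mul_comm]

/-! ### the bounded functions -/

section bounded

/-- The set of (classes of) functions bounded by one. -/
def Ball (μ : Measure X) [IsFiniteMeasure μ] : Set (Lp ℝ 2 μ) :=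
  Set.Icc (-(Lp.const 2 μ (1 : ℝ))) (Lp.const 2 μ (1 : ℝ))

variable [IsFiniteMeasure μ]

lemma isClosed_Ball : IsClosed (Ball μ) := isClosed_Icc

lemma mem_Ball_iff {f : Lp ℝ 2 μ} : f ∈ Ball μ ↔ ∀ᵐ x ∂μ, |f x| ≤ 1 := by
  unfold Ball
  rw [Set.mem_Icc, ← Lp.coeFn_le, ← Lp.coeFn_le]
  have h1 := Lp.coeFn_const (p := 2) (μ := μ) (1 : ℝ)
  have h2 := Lp.coeFn_neg (Lp.const 2 μ (1 : ℝ))
  constructor
  · rintro ⟨h3, h4⟩
    filter_upwards [h1, h2, h3, h4] with x h1 h2 h3 h4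
    rw [h2] at h3
    simp only [Pi.neg_apply] at h3
    rw [h1] at h3 h4
    exact abs_le.mpr ⟨h3, h4⟩
  · intro h
    constructor
    · filter_upwards [h1, h2, h] with x h1 h2 h
      rw [h2]
      simp only [Pi.neg_apply]
      rw [h1]
      exact (abs_le.mp h).1
    · filter_upwards [h1, h] with x h1 h
      rw [h1]
      exact (abs_le.mp h).2

lemma toLp_mem_Ball {f : X → ℝ} (hf : MemLp f 2 μ) (hb : ∀ᵐ x ∂μ, |f x| ≤ 1) :
    hf.toLp f ∈ Ball μ := by
  rw [mem_Ball_iff]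
  filter_upwards [hf.coeFn_toLp, hb] with x h1 h2
  rwa [h1]

lemma Ball_avg {ι : Type*} [Fintype ι] [Nonempty ι] (f : ι → Lp ℝ 2 μ)
    (hf : ∀ i, f i ∈ Ball μ) : ((Fintype.card ι : ℝ)⁻¹) • ∑ i, f i ∈ Ball μ := by
  rw [mem_Ball_iff]
  have h1 : ∀ᵐ x ∂μ, ∀ i, |f i x| ≤ 1 := ae_all_iff.mpr fun i => mem_Ball_iff.mp (hf i)
  filter_upwards [h1, Lp.coeFn_smul ((Fintype.card ι : ℝ)⁻¹) (∑ i, f i),
    Lp.coeFn_finsetSum Finset.univ f] with x h1 h2 h3
  rw [h2, Pi.smul_apply, h3, Finset.sum_apply, smul_eq_mul, abs_mul, abs_of_nonneg (by positivity)]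
  have h4 : |∑ i, (f i : X → ℝ) x| ≤ ∑ _i : ι, (1 : ℝ) :=
    (Finset.abs_sum_le_sum_abs _ _).trans (Finset.sum_le_sum fun i _ => h1 i)
  rw [Finset.sum_const, Finset.card_univ, nsmul_eq_mul, mul_one] at h4
  calc (Fintype.card ι : ℝ)⁻¹ * |∑ i, (f i : X → ℝ) x| ≤ (Fintype.card ι : ℝ)⁻¹ * Fintype.card ι := by
        gcongr
    _ = 1 := inv_mul_cancel₀ card_ne

/-- a bounded measurable representative -/
lemma exists_rep {f : Lp ℝ 2 μ} (hf : f ∈ Ball μ) :
    ∃ g : X → ℝ, Measurable g ∧ (∀ x, |g x| ≤ 1) ∧ f =ᵐ[μ] g := by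
  rw [mem_Ball_iff] at hf
  set g₀ := (Lp.aestronglyMeasurable f).mk f with hg₀
  have hg₀m : Measurable g₀ := (Lp.aestronglyMeasurable f).stronglyMeasurable_mk.measurable
  have hg₀e : f =ᵐ[μ] g₀ := (Lp.aestronglyMeasurable f).ae_eq_mk
  refine ⟨fun x => max (-1) (min 1 (g₀ x)), measurable_const.max (measurable_const.min hg₀m),
    fun x => abs_le.mpr ⟨le_max_left _ _, max_le (by norm_num) (min_le_left _ _)⟩, ?_⟩
  filter_upwards [hf, hg₀e] with x h1 h2
  rw [← h2, min_eq_right (abs_le.mp h1).2, max_eq_right (abs_le.mp h1).1]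

lemma dense_span_Ball : Dense (Submodule.span ℝ (Ball μ) : Set (Lp ℝ 2 μ)) := by
  rw [Submodule.dense_iff_topologicalClosure_eq_top, eq_top_iff]
  rintro f -
  refine Lp.induction (by norm_num) (fun f => f ∈ (Submodule.span ℝ (Ball μ)).topologicalClosure)
    ?_ ?_ ?_ f
  · intro c s hs hμs
    refine Submodule.le_topologicalClosure _ ?_
    have h1 : ((Lp.simpleFunc.indicatorConst 2 hs hμs.ne c : Lp.simpleFunc ℝ 2 μ) : Lp ℝ 2 μ)
        = c • indicatorConstLp 2 hs hμs.ne (1 : ℝ) := by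
      rw [Lp.simpleFunc.coe_indicatorConst]
      refine Lp.ext ?_
      filter_upwards [indicatorConstLp_coeFn (p := 2) (hs := hs) (hμs := hμs.ne) (c := (1:ℝ)),
        indicatorConstLp_coeFn (p := 2) (hs := hs) (hμs := hμs.ne) (c := c),
        Lp.coeFn_smul c (indicatorConstLp 2 hs hμs.ne (1 : ℝ))] with x h1 h2 h3
      rw [h2, h3, Pi.smul_apply, h1]
      by_cases hxs : x ∈ s
      · simp [hxs]
      · simp [hxs]
    rw [h1]
    refine Submodule.smul_mem _ _ (Submodule.subset_span ?_)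
    rw [mem_Ball_iff]
    filter_upwards [indicatorConstLp_coeFn (p := 2) (hs := hs) (hμs := hμs.ne) (c := (1:ℝ))]
      with x hx
    rw [hx]
    by_cases hxs : x ∈ s
    · simp [hxs]
    · simp [hxs]
  · intro f g hf hg _ h1 h2
    exact Submodule.add_mem _ h1 h2
  · exact (Submodule.span ℝ (Ball μ)).isClosed_topologicalClosure

end bounded

/-! ### site homomorphisms -/

/-- bounded measurable -/
def bdf {Y : Type*} [MeasurableSpace Y] (f : Y → ℝ) : Prop := Measurable f ∧ ∃ K : ℝ, ∀ x, |f x| ≤ K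

section bdf
variable {f g : X → ℝ}

lemma bdf.add (hf : bdf f) (hg : bdf g) : bdf (f + g) := by
  obtain ⟨hf1, K, hK⟩ := hf
  obtain ⟨hg1, L, hL⟩ := hg
  exact ⟨hf1.add hg1, K + L, fun x => (abs_add_le _ _).trans (add_le_add (hK x) (hL x))⟩

lemma bdf.smul (c : ℝ) (hf : bdf f) : bdf (c • f) := by
  obtain ⟨hf1, K, hK⟩ := hf
  refine ⟨hf1.const_smul c, |c| * K, fun x => ?_⟩
  rw [Pi.smul_apply, smul_eq_mul, abs_mul]
  exact mul_le_mul_of_nonneg_left (hK x) (abs_nonneg _)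

lemma bdf.mul (hf : bdf f) (hg : bdf g) : bdf (f * g) := by
  obtain ⟨hf1, K, hK⟩ := hf
  obtain ⟨hg1, L, hL⟩ := hg
  refine ⟨hf1.mul hg1, |K| * |L|, fun x => ?_⟩
  rw [Pi.mul_apply, abs_mul]
  exact mul_le_mul ((hK x).trans (le_abs_self _)) ((hL x).trans (le_abs_self _)) (abs_nonneg _)
    (abs_nonneg _)

lemma bdf.comp (hf : bdf f) {h : ℝ → ℝ} (hh : Continuous h) : bdf (fun x => h (f x)) := by
  obtain ⟨hf1, K, hK⟩ := hf
  obtain ⟨L, hL⟩ := (isCompact_Icc (a := -K) (b := K)).exists_bound_of_continuousOn hh.continuousOn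
  exact ⟨hh.measurable.comp hf1, L, fun x => hL _ (abs_le.mp (hK x))⟩

lemma bdf.sub (hf : bdf f) (hg : bdf g) : bdf (f - g) := by
  rw [sub_eq_add_neg, ← neg_one_smul ℝ g]
  exact hf.add (hg.smul _)

lemma bdf_const (c : ℝ) : bdf (fun _ : X => c) := ⟨measurable_const, |c|, fun _ => le_rfl⟩

lemma bdf.memLp [IsFiniteMeasure μ] (hf : bdf f) (p : ℝ≥0∞) : MemLp f p μ := by
  obtain ⟨hf1, K, hK⟩ := hf
  exact MemLp.of_bound hf1.aestronglyMeasurable K (Eventually.of_forall hK)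

lemma bdf.integrable [IsFiniteMeasure μ] (hf : bdf f) : Integrable f μ :=
  memLp_one_iff_integrable.mp (hf.memLp 1)

end bdf

/-- `J` is the "function at the site" homomorphism. -/
structure Hom (μ : Measure X) (P : Measure Λ) (J : (X → ℝ) → (Λ → ℝ)) : Prop where
  meas : ∀ f, bdf f → Measurable (J f)
  bdd : ∀ f C, Measurable f → (∀ x, |f x| ≤ C) → ∀ y, |J f y| ≤ C
  add : ∀ f g, bdf f → bdf g → J (f + g) =ᵐ[P] J f + J g
  smul : ∀ (c : ℝ) f, bdf f → J (c • f) =ᵐ[P] c • J f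
  mul : ∀ f g, bdf f → bdf g → J (f * g) =ᵐ[P] J f * J g
  comp : ∀ f, bdf f → ∀ h : ℝ → ℝ, Continuous h → J (fun x => h (f x)) =ᵐ[P] fun y => h (J f y)
  int : ∀ f, bdf f → ∫ y, J f y ∂P = ∫ x, f x ∂μ

/-- the space of bounded measurable functions -/
def BF (X : Type*) [MeasurableSpace X] : Submodule ℝ (X → ℝ) where
  carrier := {f | bdf f}
  add_mem' hf hg := bdf.add hf hg
  zero_mem' := bdf_const 0
  smul_mem' c _ hf := bdf.smul c hf

/-- the class of a bounded function -/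
noncomputable def toL (μ : Measure X) [IsFiniteMeasure μ] : BF X →ₗ[ℝ] Lp ℝ 2 μ where
  toFun f := (bdf.memLp (μ := μ) f.2 2).toLp f.1
  map_add' _ _ := rfl
  map_smul' _ _ := rfl

lemma toL_ae [IsFiniteMeasure μ] (f : BF X) : toL μ f =ᵐ[μ] f.1 :=
  (bdf.memLp (μ := μ) f.2 2).coeFn_toLp

lemma exists_toL [IsFiniteMeasure μ] {x : Lp ℝ 2 μ} (hx : x ∈ Ball μ) :
    ∃ g : BF X, (∀ y, |g.1 y| ≤ 1) ∧ toL μ g = x := by
  obtain ⟨g, hg, hg1, hxg⟩ := exists_rep hx
  refine ⟨⟨g, hg, 1, hg1⟩, hg1, ?_⟩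
  refine Lp.ext ((toL_ae _).trans hxg.symm)

lemma denseRange_toL [IsFiniteMeasure μ] : DenseRange (toL μ) := by
  have h1 : (Submodule.span ℝ (Ball μ) : Set (Lp ℝ 2 μ)) ⊆ Set.range (toL μ) := by
    have h2 : Submodule.span ℝ (Ball μ) ≤ LinearMap.range (toL μ) := by
      rw [Submodule.span_le]
      intro x hx
      obtain ⟨g, _, hg⟩ := exists_toL hx
      exact ⟨g, hg⟩
    intro x hx
    exact h2 hx
  exact dense_span_Ball.mono h1

namespace Hom

variable [IsFiniteMeasure μ] [IsFiniteMeasure P] {J : (X → ℝ) → (Λ → ℝ)} (hJ : Hom μ P J)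

include hJ

lemma bdf' {f : X → ℝ} (hf : bdf f) : bdf (J f) := by
  obtain ⟨hf1, K, hK⟩ := id hf
  exact ⟨hJ.meas f hf, K, hJ.bdd f K hf1 hK⟩

/-- class of a bounded function -/
lemma norm_toLp {f : X → ℝ} (hf : bdf f) :
    ‖((hJ.bdf' hf).memLp (μ := P) 2).toLp (J f)‖ = ‖(hf.memLp (μ := μ) 2).toLp f‖ := by
  have h1 : ‖((hJ.bdf' hf).memLp (μ := P) 2).toLp (J f)‖ ^ 2
      = ‖(hf.memLp (μ := μ) 2).toLp f‖ ^ 2 := by
    rw [← real_inner_self_eq_norm_sq, ← real_inner_self_eq_norm_sq, L2.inner_def, L2.inner_def]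
    have e1 : ∫ a, ⟪(((hJ.bdf' hf).memLp (μ := P) 2).toLp (J f) : Λ → ℝ) a,
        (((hJ.bdf' hf).memLp (μ := P) 2).toLp (J f) : Λ → ℝ) a⟫_ℝ ∂P = ∫ y, J (f * f) y ∂P := by
      refine integral_congr_ae ?_
      filter_upwards [((hJ.bdf' hf).memLp (μ := P) 2).coeFn_toLp, hJ.mul f f hf hf] with y h2 h3
      rw [h2, h3]
      simp [sq]
    have e2 : ∫ a, ⟪((hf.memLp (μ := μ) 2).toLp f : X → ℝ) a,
        ((hf.memLp (μ := μ) 2).toLp f : X → ℝ) a⟫_ℝ ∂μ = ∫ x, (f * f) x ∂μ := by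
      refine integral_congr_ae ?_
      filter_upwards [(hf.memLp (μ := μ) 2).coeFn_toLp] with y h2
      rw [h2]
      simp [sq]
    rw [e1, e2, hJ.int _ (hf.mul hf)]
  exact (pow_left_inj₀ (norm_nonneg _) (norm_nonneg _) two_ne_zero).mp h1

/-- `J` on classes of bounded functions -/
noncomputable def JL : BF X →ₗ[ℝ] Lp ℝ 2 P where
  toFun f := ((hJ.bdf' f.2).memLp (μ := P) 2).toLp (J f.1)
  map_add' f g := by
    refine Lp.ext ?_
    refine (MemLp.coeFn_toLp _).trans ((hJ.add _ _ f.2 g.2).trans ?_)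
    refine EventuallyEq.trans ?_ (Lp.coeFn_add _ _).symm
    exact (MemLp.coeFn_toLp _).symm.add (MemLp.coeFn_toLp _).symm
  map_smul' c f := by
    refine Lp.ext ?_
    refine (MemLp.coeFn_toLp _).trans ((hJ.smul c _ f.2).trans ?_)
    refine EventuallyEq.trans ?_ (Lp.coeFn_smul _ _).symm
    exact (MemLp.coeFn_toLp _).symm.const_smul c

/-- the isometry of `L²` spaces extending `J` -/
noncomputable def iso : Lp ℝ 2 μ →ₗᵢ[ℝ] Lp ℝ 2 P where
  toLinearMap := ((hJ.JL).extendOfNorm (toL μ)).toLinearMap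
  norm_map' x := by
    have hn : ∀ f : BF X, ‖hJ.JL f‖ = ‖toL μ f‖ := fun f => hJ.norm_toLp f.2
    have hcl : IsClosed {x : Lp ℝ 2 μ | ‖(hJ.JL).extendOfNorm (toL μ) x‖ = ‖x‖} :=
      isClosed_eq ((ContinuousLinearMap.continuous _).norm) continuous_norm
    have hsub : Set.range (toL μ) ⊆ {x : Lp ℝ 2 μ | ‖(hJ.JL).extendOfNorm (toL μ) x‖ = ‖x‖} := by
      rintro _ ⟨f, rfl⟩
      change ‖(hJ.JL).extendOfNorm (toL μ) (toL μ f)‖ = ‖toL μ f‖
      rw [LinearMap.extendOfNorm_eq denseRange_toL ⟨1, fun x => by rw [one_mul, hn]⟩, hn]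
    exact (hcl.closure_subset_iff.mpr hsub) (denseRange_toL x)

lemma iso_toL (f : BF X) : hJ.iso (toL μ f) = hJ.JL f := by
  have hn : ∀ f : BF X, ‖hJ.JL f‖ = ‖toL μ f‖ := fun f => hJ.norm_toLp f.2
  exact LinearMap.extendOfNorm_eq denseRange_toL ⟨1, fun x => by rw [one_mul, hn]⟩ f

lemma iso_toL_ae (f : BF X) : hJ.iso (toL μ f) =ᵐ[P] J f.1 := by
  rw [iso_toL]
  exact ((hJ.bdf' f.2).memLp (μ := P) 2).coeFn_toLp

lemma iso_Ball {x : Lp ℝ 2 μ} (hx : x ∈ Ball μ) : hJ.iso x ∈ Ball P := by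
  obtain ⟨g, hg, rfl⟩ := exists_toL hx
  rw [mem_Ball_iff]
  filter_upwards [hJ.iso_toL_ae g] with y hy
  rw [hy]
  exact hJ.bdd g.1 1 g.2.1 hg y

lemma ae_nonneg_ind {A : Set X} (hA : MeasurableSet A) :
    ∀ᵐ y ∂P, 0 ≤ J (A.indicator fun _ => (1 : ℝ)) y := by
  have hb : bdf (A.indicator fun _ => (1 : ℝ)) :=
    ⟨measurable_const.indicator hA, 1, fun x => by by_cases h : x ∈ A <;> simp [h]⟩
  have h1 : (A.indicator fun _ => (1 : ℝ)) * (A.indicator fun _ => (1 : ℝ))
      = A.indicator fun _ => (1 : ℝ) := by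
    funext x
    by_cases h : x ∈ A <;> simp [h]
  filter_upwards [hJ.mul _ _ hb hb] with y hy
  rw [h1] at hy
  rw [hy]
  exact mul_self_nonneg _

omit hJ in
lemma bdf_ind {A : Set X} (hA : MeasurableSet A) : bdf (A.indicator fun _ => (1 : ℝ)) :=
  ⟨measurable_const.indicator hA, 1, fun x => by by_cases h : x ∈ A <;> simp [h]⟩

omit hJ in
lemma inner_toL (f : BF X) (x : Lp ℝ 2 μ) : ⟪x, toL μ f⟫_ℝ = ∫ a, x a * f.1 a ∂μ := by
  rw [inner_Lp]
  refine integral_congr_ae ?_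
  filter_upwards [toL_ae (μ := μ) f] with a ha
  rw [ha]

omit hJ in
lemma inner_ind {A : Set X} (hA : MeasurableSet A) (x : Lp ℝ 2 μ) :
    ⟪x, toL μ ⟨_, bdf_ind hA⟩⟫_ℝ = ∫ a in A, x a ∂μ := by
  rw [inner_toL, ← integral_indicator hA]
  refine integral_congr_ae (Eventually.of_forall fun a => ?_)
  by_cases h : a ∈ A <;> simp [h]

lemma op_le_one (hm : m ≤ mΛ) {x : Lp ℝ 2 μ} (hx : x ∈ Ball μ) :
    ∀ᵐ a ∂μ, op hJ.iso hm x a ≤ 1 := by
  have hw : ∀ᵐ y ∂P, |EE hm (hJ.iso x) y| ≤ 1 := by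
    have h1 := mem_Ball_iff.mp (hJ.iso_Ball hx)
    have h2 := ae_bdd_abs_condExp_of_ae_bdd_abs (m := m) (R := (1 : ℝ)) h1
    filter_upwards [h2, EE_ae' hm (hJ.iso x)] with y h3 h4
    rw [h4]
    exact h3
  have hint : Integrable (op hJ.iso hm x) μ := (Lp.memLp _).integrable (by norm_num)
  refine ae_le_of_forall_setIntegral_le hint (integrable_const (1 : ℝ)) fun A hA _ => ?_
  rw [← inner_ind hA, inner_op]
  have h3 : ⟪EE hm (hJ.iso x), hJ.iso (toL μ ⟨_, bdf_ind hA⟩)⟫_ℝ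
      = ∫ y, EE hm (hJ.iso x) y * J (A.indicator fun _ => (1 : ℝ)) y ∂P := by
    rw [inner_Lp]
    refine integral_congr_ae ?_
    filter_upwards [hJ.iso_toL_ae ⟨_, bdf_ind hA⟩] with y hy
    rw [hy]
  rw [h3]
  have h4 : ∫ x in A, (1 : ℝ) ∂μ = ∫ y, J (A.indicator fun _ => (1 : ℝ)) y ∂P := by
    rw [hJ.int _ (bdf_ind hA), integral_indicator hA]
  rw [h4]
  have hJi : Integrable (J (A.indicator fun _ => (1 : ℝ))) P := (hJ.bdf' (bdf_ind hA)).integrable
  refine integral_mono_ae ?_ hJi ?_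
  · refine hJi.bdd_mul (c := 1) (Lp.aestronglyMeasurable _) ?_
    filter_upwards [hw] with y hy
    simpa using hy
  · filter_upwards [hw, hJ.ae_nonneg_ind hA] with y h5 h6
    calc EE hm (hJ.iso x) y * J (A.indicator fun _ => (1 : ℝ)) y
        ≤ 1 * J (A.indicator fun _ => (1 : ℝ)) y :=
          mul_le_mul_of_nonneg_right ((le_abs_self _).trans h5) h6
      _ = J (A.indicator fun _ => (1 : ℝ)) y := one_mul _

lemma op_Ball (hm : m ≤ mΛ) {x : Lp ℝ 2 μ} (hx : x ∈ Ball μ) : op hJ.iso hm x ∈ Ball μ := by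
  have hnx : -x ∈ Ball μ := by
    rw [mem_Ball_iff] at hx ⊢
    filter_upwards [hx, Lp.coeFn_neg x] with a h1 h2
    rw [h2, Pi.neg_apply, abs_neg]
    exact h1
  rw [mem_Ball_iff]
  filter_upwards [hJ.op_le_one hm hx, hJ.op_le_one hm hnx, Lp.coeFn_neg (op hJ.iso hm x)]
    with a h1 h2 h3
  rw [map_neg, h3, Pi.neg_apply] at h2
  exact abs_le.mpr ⟨by linarith, h1⟩

end Hom

/-! ### the forms -/

section main

variable [IsProbabilityMeasure μ] [IsProbabilityMeasure P] {ι : Type*} [Fintype ι] [DecidableEq ι]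
  {J : ι → (X → ℝ) → Λ → ℝ} (hJ : ∀ i, Hom μ P (J i))

/-- the multilinear form on bounded functions -/
noncomputable def tauJ (P : Measure Λ) (J : ι → (X → ℝ) → Λ → ℝ) (f : ι → X → ℝ) : ℝ :=
  ∫ y, ∏ j, J j (f j) y ∂P

/-- the multilinear form on classes -/
noncomputable def tauL (F : ι → Lp ℝ 2 μ) : ℝ := ∫ y, ∏ j, (hJ j).iso (F j) y ∂P

/-- product over the other sites -/
noncomputable def prodE (F : ι → Lp ℝ 2 μ) (j : ι) : Λ → ℝ :=
  fun y => ∏ i ∈ Finset.univ.erase j, (hJ i).iso (F i) y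

lemma prodE_update (F : ι → Lp ℝ 2 μ) (j : ι) (x : Lp ℝ 2 μ) :
    prodE hJ (update F j x) j = prodE hJ F j := by
  funext y
  refine Finset.prod_congr rfl fun i hi => ?_
  rw [update_of_ne (Finset.ne_of_mem_erase hi)]

lemma prodE_bdd {F : ι → Lp ℝ 2 μ} {j : ι} (hF : ∀ i, i ≠ j → F i ∈ Ball μ) :
    ∀ᵐ y ∂P, |prodE hJ F j y| ≤ 1 := by
  have h1 : ∀ᵐ y ∂P, ∀ i, i ≠ j → |(hJ i).iso (F i) y| ≤ 1 := by
    rw [ae_all_iff]
    intro i
    by_cases hi : i = j
    · exact Eventually.of_forall fun _ h => absurd hi h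
    · filter_upwards [mem_Ball_iff.mp ((hJ i).iso_Ball (hF i hi))] with y hy _ using hy
  filter_upwards [h1] with y hy
  unfold prodE
  rw [Finset.abs_prod]
  exact Finset.prod_le_one (fun i _ => abs_nonneg _) fun i hi => hy i (Finset.ne_of_mem_erase hi)

lemma prodE_memLp {F : ι → Lp ℝ 2 μ} {j : ι} (hF : ∀ i, i ≠ j → F i ∈ Ball μ) :
    MemLp (prodE hJ F j) 2 P := by
  refine MemLp.of_bound (Finset.aestronglyMeasurable_fun_prod _ fun i _ =>
    Lp.aestronglyMeasurable _) 1 ?_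
  filter_upwards [prodE_bdd hJ hF] with y hy
  simpa using hy

lemma norm_le_one_of_Ball {x : Lp ℝ 2 P} (hx : x ∈ Ball P) : ‖x‖ ≤ 1 := by
  have h := Lp.norm_le_of_ae_bound (f := x) zero_le_one (by simpa using mem_Ball_iff.mp hx)
  simpa [measureUnivNNReal] using h

lemma tauL_inner {F : ι → Lp ℝ 2 μ} {j : ι} (hF : ∀ i, i ≠ j → F i ∈ Ball μ) :
    tauL hJ F = ⟪(hJ j).iso (F j), (prodE_memLp hJ hF).toLp⟫_ℝ := by
  rw [inner_Lp]
  refine integral_congr_ae ?_
  filter_upwards [(prodE_memLp hJ hF).coeFn_toLp] with y hy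
  rw [hy]
  exact (Finset.mul_prod_erase Finset.univ (fun i => (hJ i).iso (F i) y) (Finset.mem_univ j)).symm

lemma tauL_update {F : ι → Lp ℝ 2 μ} {j : ι} (hF : ∀ i, i ≠ j → F i ∈ Ball μ) (x : Lp ℝ 2 μ) :
    tauL hJ (update F j x) = ⟪(hJ j).iso x, (prodE_memLp hJ hF).toLp⟫_ℝ := by
  have hF' : ∀ i, i ≠ j → update F j x i ∈ Ball μ := fun i hi => by
    rw [update_of_ne hi]; exact hF i hi
  rw [tauL_inner hJ hF', update_self]
  congr 1
  exact MemLp.toLp_congr _ _ (by rw [prodE_update])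

lemma tauL_congr {F : ι → Lp ℝ 2 μ} {f : ι → X → ℝ} (hf : ∀ j, bdf (f j))
    (hFf : ∀ j, F j = toL μ ⟨f j, hf j⟩) : tauL hJ F = tauJ P J f := by
  refine integral_congr_ae ?_
  have h1 : ∀ᵐ y ∂P, ∀ j, (hJ j).iso (F j) y = J j (f j) y := by
    rw [ae_all_iff]
    intro j
    rw [hFf j]
    exact (hJ j).iso_toL_ae _
  filter_upwards [h1] with y hy
  exact Finset.prod_congr rfl fun j _ => hy j

variable {SS : ι → MeasurableSpace Λ} (hSS : ∀ i, SS i ≤ mΛ)
  (hvis : ∀ i j, j ≠ i → ∀ f, bdf f → AEStronglyMeasurable[SS i] (J j f) P)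

/-- the operators `a i` -/
noncomputable def aop (i : ι) : Lp ℝ 2 μ →L[ℝ] Lp ℝ 2 μ := op (hJ i).iso (hSS i)

/-- The RULE, tested on bounded measurable functions. -/
def RuleHyp (μ : Measure X) (P : Measure Λ) (J : ι → (X → ℝ) → Λ → ℝ)
    (SS : ι → MeasurableSpace Λ) : Prop :=
  ∀ (i : ι) (F g : ι → X → ℝ), (∀ j, bdf (F j)) → (∀ j, bdf (g j)) →
    (∀ j, ∀ G, bdf G → ∫ x, g j x * G x ∂μ = ∫ y, (P[J i (F j) | SS i]) y * J i G y ∂P) →
    ∀ j0, tauJ P J (update F j0 (g j0)) = tauJ P J (update g j0 (F j0))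

omit [IsProbabilityMeasure P] in
lemma aesm_prod {κ : Type*} [DecidableEq κ] (t : Finset κ) (f : κ → Λ → ℝ)
    (hf : ∀ i ∈ t, AEStronglyMeasurable[m] (f i) P) :
    AEStronglyMeasurable[m] (fun y => ∏ i ∈ t, f i y) P := by
  induction t using Finset.induction_on with
  | empty =>
    simp only [Finset.prod_empty]
    exact aestronglyMeasurable_const
  | insert a t ha ih =>
    simp only [Finset.prod_insert ha]
    exact (hf a (Finset.mem_insert_self _ _)).mul
      (ih fun i hi => hf i (Finset.mem_insert_of_mem hi))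

include hvis in
lemma prodE_meas {F : ι → Lp ℝ 2 μ} {i : ι} (hF : ∀ l, l ≠ i → F l ∈ Ball μ) :
    AEStronglyMeasurable[SS i] (prodE hJ F i) P := by
  refine aesm_prod _ _ fun l hl => ?_
  have hl' := Finset.ne_of_mem_erase hl
  obtain ⟨g, _, hg⟩ := exists_toL (hF l hl')
  rw [← hg]
  exact (hvis i l hl' g.1 g.2).congr ((hJ l).iso_toL_ae g).symm

include hvis in
lemma tauL_dom {F : ι → Lp ℝ 2 μ} {i : ι} (hF : ∀ l, l ≠ i → F l ∈ Ball μ) :
    ‖tauL hJ F‖ ^ 2 ≤ RCLike.re ⟪aop hJ hSS i (F i), F i⟫_ℝ := by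
  have h1 : EE (hSS i) ((prodE_memLp hJ hF).toLp) = (prodE_memLp hJ hF).toLp :=
    EE_of_meas (hSS i) ((prodE_meas (SS := SS) hJ hvis hF).congr
      (prodE_memLp hJ hF).coeFn_toLp.symm)
  have h2 : ‖(prodE_memLp hJ hF).toLp‖ ≤ 1 := by
    refine norm_le_one_of_Ball (toLp_mem_Ball _ (prodE_bdd hJ hF))
  have h3 : ‖tauL hJ F‖ ≤ ‖EE (hSS i) ((hJ i).iso (F i))‖ := by
    rw [tauL_inner hJ hF, ← h1, ← EE_symm]
    calc ‖⟪EE (hSS i) ((hJ i).iso (F i)), (prodE_memLp hJ hF).toLp⟫_ℝ‖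
        ≤ ‖EE (hSS i) ((hJ i).iso (F i))‖ * ‖(prodE_memLp hJ hF).toLp‖ := norm_inner_le_norm _ _
      _ ≤ ‖EE (hSS i) ((hJ i).iso (F i))‖ * 1 := by gcongr
      _ = _ := mul_one _
  calc ‖tauL hJ F‖ ^ 2 ≤ ‖EE (hSS i) ((hJ i).iso (F i))‖ ^ 2 := by gcongr
    _ = RCLike.re ⟪aop hJ hSS i (F i), F i⟫_ℝ := by
        unfold aop
        rw [inner_op_self]; simp

lemma tauL_bd {F : ι → Lp ℝ 2 μ} {i : ι} (hF : ∀ l, l ≠ i → F l ∈ Ball μ) :
    ‖tauL hJ F‖ ≤ ‖F i‖ := by
  have h2 : ‖(prodE_memLp hJ hF).toLp‖ ≤ 1 := by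
    refine norm_le_one_of_Ball (toLp_mem_Ball _ (prodE_bdd hJ hF))
  rw [tauL_inner hJ hF]
  calc ‖⟪(hJ i).iso (F i), (prodE_memLp hJ hF).toLp⟫_ℝ‖
      ≤ ‖(hJ i).iso (F i)‖ * ‖(prodE_memLp hJ hF).toLp‖ := norm_inner_le_norm _ _
    _ ≤ ‖(hJ i).iso (F i)‖ * 1 := by gcongr
    _ = ‖F i‖ := by rw [mul_one, LinearIsometry.norm_map]

lemma tauL_rule (hrule : RuleHyp μ P J SS) (i : ι) (F : ι → Lp ℝ 2 μ) (j0 : ι)
    (hF : ∀ l, F l ∈ Ball μ) :
    tauL hJ (update F j0 (aop hJ hSS i (F j0)))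
      = tauL hJ (update (fun l => aop hJ hSS i (F l)) j0 (F j0)) := by
  choose F' hF'1 hF' using fun l => exists_toL (hF l)
  choose g hg1 hg using fun l => exists_toL ((hJ i).op_Ball (hSS i) (hF l))
  have hkey := hrule i (fun l => (F' l).1) (fun l => (g l).1) (fun l => (F' l).2)
    (fun l => (g l).2) (fun j G hG => by
      have h1 : ⟪aop hJ hSS i (F j), toL μ ⟨G, hG⟩⟫_ℝ = ∫ x, (g j).1 x * G x ∂μ := by
        have : aop hJ hSS i (F j) = toL μ (g j) := (hg j).symm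
        rw [this, Hom.inner_toL]
        refine integral_congr_ae ?_
        filter_upwards [toL_ae (μ := μ) (g j)] with x hx
        rw [hx]
      rw [← h1]
      unfold aop
      rw [inner_op, inner_Lp]
      refine integral_congr_ae ?_
      have h2 : P[(hJ i).iso (F j)|SS i] =ᵐ[P] P[J i (F' j).1|SS i] := by
        refine condExp_congr_ae ?_
        rw [← hF' j]
        exact (hJ i).iso_toL_ae _
      filter_upwards [EE_ae' (hSS i) ((hJ i).iso (F j)), (hJ i).iso_toL_ae ⟨G, hG⟩, h2]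
        with y h3 h4 h5
      rw [h3, h4, h5]) j0
  rw [tauL_congr hJ (f := update (fun l => (F' l).1) j0 (g j0).1)
      (fun j => by
        by_cases hj : j = j0
        · subst hj; rw [update_self]; exact (g j).2
        · rw [update_of_ne hj]; exact (F' j).2)
      (fun j => by
        by_cases hj : j = j0
        · subst hj; simp only [update_self]; exact (hg j).symm
        · simp only [update_of_ne hj]; exact (hF' j).symm),
    tauL_congr hJ (f := update (fun l => (g l).1) j0 (F' j0).1)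
      (fun j => by
        by_cases hj : j = j0
        · subst hj; rw [update_self]; exact (F' j).2
        · rw [update_of_ne hj]; exact (g j).2)
      (fun j => by
        by_cases hj : j = j0
        · subst hj; simp only [update_self]; exact (hF' j).symm
        · simp only [update_of_ne hj]; exact (hg j).symm)]
  exact hkey

/-! ### the visible sub-sigma-algebra -/

section visible

variable (hY : ∀ A, MeasurableSet[mY] A ↔ MeasurableSet A ∧
  ∀ i, AEStronglyMeasurable[SS i] (J i (A.indicator fun _ => (1 : ℝ))) P)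

open Hom

include hY

lemma aop_ind {A : Set X} (hA : MeasurableSet A) (hA' : MeasurableSet[mY] A) (i : ι) :
    aop hJ hSS i (toL μ ⟨_, bdf_ind hA⟩) = toL μ ⟨_, bdf_ind hA⟩ := by
  unfold aop
  rw [op_fix_iff]
  exact (((hY A).mp hA').2 i).congr ((hJ i).iso_toL_ae ⟨_, bdf_ind hA⟩).symm

include hJ hSS in
lemma meas_of_fix (g : BF X)
    (hfix : ∀ i, AEStronglyMeasurable[SS i] (J i g.1) P) : Measurable[mY] g.1 := by
  have hgoal : ∀ t, MeasurableSet[mY] (g.1 ⁻¹' Ioi t) := ?_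
  · exact measurable_of_Ioi hgoal
  intro t
  have hA : MeasurableSet (g.1 ⁻¹' Ioi t) := g.2.1 measurableSet_Ioi
  rw [hY]
  refine ⟨hA, fun i => ?_⟩
  -- approximating functions
  let h : ℕ → ℝ → ℝ := fun n u => min 1 (n * max (u - t) 0)
  have hcont : ∀ n, Continuous (h n) := fun n =>
    continuous_const.min (continuous_const.mul ((continuous_id.sub continuous_const).max
      continuous_const))
  let f : ℕ → BF X := fun n => ⟨fun x => h n (g.1 x), g.2.comp (hcont n)⟩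
  have h01 : ∀ n u, 0 ≤ h n u ∧ h n u ≤ 1 := fun n u =>
    ⟨le_min zero_le_one (mul_nonneg (Nat.cast_nonneg n) (le_max_right _ _)), min_le_left _ _⟩
  have hlim : ∀ x, Tendsto (fun n => h n (g.1 x)) atTop
      (𝓝 ((g.1 ⁻¹' Ioi t).indicator (fun _ => (1 : ℝ)) x)) := by
    intro x
    by_cases hx : t < g.1 x
    · have hx' : x ∈ g.1 ⁻¹' Ioi t := hx
      rw [indicator_of_mem hx']
      have hpos : 0 < max (g.1 x - t) 0 := lt_max_of_lt_left (by linarith)
      obtain ⟨N, hN⟩ := exists_nat_gt (1 / max (g.1 x - t) 0)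
      refine tendsto_atTop_of_eventually_const (i₀ := N) fun n hn => ?_
      have h2 : 1 ≤ (n : ℝ) * max (g.1 x - t) 0 := by
        have h3 : 1 / max (g.1 x - t) 0 < n := lt_of_lt_of_le hN (by exact_mod_cast hn)
        have := (div_lt_iff₀ hpos).mp h3
        exact this.le
      exact min_eq_left h2
    · have hx' : x ∉ g.1 ⁻¹' Ioi t := hx
      rw [indicator_of_notMem hx']
      have h2 : max (g.1 x - t) 0 = 0 := max_eq_right (by linarith [not_lt.mp hx])
      simp [h, h2]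
  have hL2 : Tendsto (fun n => toL μ (f n)) atTop (𝓝 (toL μ ⟨_, bdf_ind hA⟩)) := by
    rw [tendsto_iff_norm_sub_tendsto_zero]
    have h3 : Tendsto (fun n => ‖toL μ (f n) - toL μ ⟨_, bdf_ind hA⟩‖ ^ 2) atTop (𝓝 0) := by
      have h4 : ∀ n, ‖toL μ (f n) - toL μ ⟨_, bdf_ind hA⟩‖ ^ 2
          = ∫ x, (h n (g.1 x) - (g.1 ⁻¹' Ioi t).indicator (fun _ => (1 : ℝ)) x) ^ 2 ∂μ := by
        intro n
        rw [← map_sub, ← real_inner_self_eq_norm_sq, inner_Lp]
        refine integral_congr_ae ?_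
        filter_upwards [toL_ae (μ := μ) (f n - ⟨_, bdf_ind hA⟩)] with x hx
        rw [hx, sq]
        rfl
      simp_rw [h4]
      have h5 := tendsto_integral_of_dominated_convergence (μ := μ)
        (F := fun n x => (h n (g.1 x) - (g.1 ⁻¹' Ioi t).indicator (fun _ => (1 : ℝ)) x) ^ 2)
        (f := fun _ => (0 : ℝ)) (fun _ => (1 : ℝ))
        (fun n => ((((hcont n).measurable.comp g.2.1).sub
          (measurable_const.indicator hA)).pow_const 2).aestronglyMeasurable)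
        (integrable_const _)
        (fun n => Eventually.of_forall fun x => by
          have h6 := h01 n (g.1 x)
          have h7 : 0 ≤ (g.1 ⁻¹' Ioi t).indicator (fun _ => (1 : ℝ)) x ∧
              (g.1 ⁻¹' Ioi t).indicator (fun _ => (1 : ℝ)) x ≤ 1 := by
            by_cases hx : x ∈ g.1 ⁻¹' Ioi t
            · rw [indicator_of_mem hx]; norm_num
            · rw [indicator_of_notMem hx]; norm_num
          rw [Real.norm_eq_abs, abs_of_nonneg (sq_nonneg _), sq_le_one_iff_abs_le_one, abs_le]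
          constructor <;> linarith [h6.1, h6.2, h7.1, h7.2])
        (Eventually.of_forall fun x => by
          have := ((hlim x).sub_const ((g.1 ⁻¹' Ioi t).indicator (fun _ => (1 : ℝ)) x)).pow 2
          simpa using this)
      simpa using h5
    have h8 := h3.sqrt
    simpa [Real.sqrt_sq (norm_nonneg _)] using h8
  have hclosed : IsClosed {x : Lp ℝ 2 P | AEStronglyMeasurable[SS i] x P} :=
    isClosed_aestronglyMeasurable (hSS i)
  have hmem : (hJ i).iso (toL μ ⟨_, bdf_ind hA⟩) ∈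
      {x : Lp ℝ 2 P | AEStronglyMeasurable[SS i] x P} := by
    refine hclosed.mem_of_tendsto (((hJ i).iso.continuous.tendsto _).comp hL2)
      (Eventually.of_forall fun n => ?_)
    have h9 : AEStronglyMeasurable[SS i] (fun y => h n (J i g.1 y)) P :=
      (hcont n).comp_aestronglyMeasurable (hfix i)
    refine h9.congr ?_
    exact (((hJ i).iso_toL_ae (f n)).trans ((hJ i).comp g.1 g.2 (h n) (hcont n))).symm
  exact AEStronglyMeasurable.congr hmem ((hJ i).iso_toL_ae _)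

/-- the projection onto the common fixed vectors is the conditional expectation on `mY` -/
lemma proj_eq_condExp [Nonempty ι] (hYX : mY ≤ mX)
    (hfixall : ∀ x, (∀ i, aop hJ hSS i x = x) ↔ avg (aop hJ hSS) x = x)
    (hpB : ∀ x ∈ Ball μ, proj (avg (aop hJ hSS)) x ∈ Ball μ) {x : Lp ℝ 2 μ} (hx : x ∈ Ball μ) :
    proj (avg (aop hJ hSS)) x =ᵐ[μ] μ[x|mY] := by
  set p := proj (avg (aop hJ hSS)) with hp
  have hint : ∀ z : Lp ℝ 2 μ, Integrable z μ := fun z => (Lp.memLp z).integrable (by norm_num)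
  refine ae_eq_condExp_of_forall_setIntegral_eq hYX (hint x)
    (fun A _ _ => (hint _).integrableOn) (fun A hA _ => ?_) ?_
  · have hAX : MeasurableSet A := hYX A hA
    rw [← Hom.inner_ind hAX, ← Hom.inner_ind hAX]
    have h1 : p (toL μ ⟨_, Hom.bdf_ind hAX⟩) = toL μ ⟨_, Hom.bdf_ind hAX⟩ :=
      proj_of_fix ((hfixall _).mp fun i => aop_ind hJ hSS hY hAX hA i)
    have h2 : ⟪p x, toL μ ⟨_, Hom.bdf_ind hAX⟩⟫_ℝ = ⟪x, p (toL μ ⟨_, Hom.bdf_ind hAX⟩)⟫_ℝ :=
      Submodule.inner_starProjection_left_eq_right _ _ _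
    rw [h2, h1]
  · obtain ⟨g, _, hg⟩ := exists_toL (hpB x hx)
    have hfix : ∀ i, aop hJ hSS i (toL μ g) = toL μ g := by
      rw [hfixall, hg]
      exact proj_fix _ _
    have hmeas : Measurable[mY] g.1 := by
      refine meas_of_fix hJ hSS hY g fun i => ?_
      have h3 := (op_fix_iff (hJ i).iso (hSS i) (toL μ g)).mp (hfix i)
      exact h3.congr ((hJ i).iso_toL_ae g)
    have h4 : AEStronglyMeasurable[mY] g.1 μ := hmeas.stronglyMeasurable.aestronglyMeasurable
    rw [← hg]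
    exact h4.congr (toL_ae g).symm

include hJ hSS hvis in
/-- **N-SPEC**: RULE ⟹ functions orthogonal to the visible sub-sigma-algebra do not contribute. -/
theorem specX (hι : 3 ≤ Fintype.card ι) (hYX : mY ≤ mX) (hrule : RuleHyp μ P J SS)
    (f : ι → X → ℝ) (hf : ∀ i, bdf (f i)) (i0 : ι) (hi0 : μ[f i0 | mY] =ᵐ[μ] 0) :
    tauJ P J f = 0 := by
  have hne : Nonempty ι := Fintype.card_pos_iff.mp (by omega)
  have hspec := spec_all hι (a := aop hJ hSS) (fun i => op_selfAdjoint _ _)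
    (fun i x => op_nonneg _ _ x) (fun i => norm_op_le _ _) (Ball μ) isClosed_Ball
    (fun f hf => Ball_avg f hf) (fun i x hx => (hJ i).op_Ball (hSS i) hx) dense_span_Ball
    (tauL hJ)
    (fun F j x y hF => by
      rw [tauL_update hJ hF, tauL_update hJ hF, tauL_update hJ hF, map_add, inner_add_left])
    (fun F j c x hF => by
      rw [tauL_update hJ hF, tauL_update hJ hF, map_smul, inner_smul_left]
      simp)
    (fun F j hF => tauL_bd hJ hF)
    (fun i F j hF => tauL_rule hJ hSS hrule i F j hF)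
    (fun i F hF => tauL_dom hJ hSS hvis hF)
  obtain ⟨hfixall, hpB, hτ⟩ := hspec
  -- scaling
  choose K hK using fun i => (hf i).2
  set C : ℝ := 1 + ∑ i, |K i| with hC
  have hCpos : 0 < C := by positivity
  have hKC : ∀ i x, |(C⁻¹ • f i) x| ≤ 1 := by
    intro i x
    rw [Pi.smul_apply, smul_eq_mul, abs_mul, abs_of_pos (inv_pos.mpr hCpos),
      inv_mul_le_iff₀ hCpos, mul_one]
    calc |f i x| ≤ K i := hK i x
      _ ≤ |K i| := le_abs_self _
      _ ≤ ∑ i, |K i| := Finset.single_le_sum (f := fun i => |K i|) (fun i _ => abs_nonneg _)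
            (Finset.mem_univ i)
      _ ≤ C := by rw [hC]; linarith
  have hf' : ∀ i, bdf (C⁻¹ • f i) := fun i => (hf i).smul _
  have h1 : tauJ P J (fun i => C⁻¹ • f i) = (C⁻¹) ^ Fintype.card ι * tauJ P J f := by
    unfold tauJ
    rw [← integral_const_mul]
    refine integral_congr_ae ?_
    have h2 : ∀ᵐ y ∂P, ∀ j, J j (C⁻¹ • f j) y = C⁻¹ * J j (f j) y := by
      rw [ae_all_iff]
      intro j
      filter_upwards [(hJ j).smul C⁻¹ (f j) (hf j)] with y hy
      rw [hy]; rfl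
    filter_upwards [h2] with y hy
    simp only [hy, Finset.prod_mul_distrib, Finset.prod_const, Finset.card_univ]
  have h2 : tauJ P J (fun i => C⁻¹ • f i) = 0 := by
    set F : ι → Lp ℝ 2 μ := fun i => toL μ ⟨_, hf' i⟩ with hF
    have hFB : ∀ i, F i ∈ Ball μ := fun i => by
      rw [mem_Ball_iff]
      filter_upwards [toL_ae (μ := μ) ⟨_, hf' i⟩] with x hx
      rw [hx]
      exact hKC i x
    rw [← tauL_congr hJ (F := F) hf' (fun j => rfl), hτ F hFB]
    have h3 : proj (avg (aop hJ hSS)) (F i0) = 0 := by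
      refine Lp.ext ?_
      refine (proj_eq_condExp hJ hSS hY hYX hfixall hpB (hFB i0)).trans ?_
      have h4 : μ[(F i0 : X → ℝ)|mY] =ᵐ[μ] μ[C⁻¹ • f i0|mY] :=
        condExp_congr_ae (toL_ae ⟨_, hf' i0⟩)
      refine h4.trans ((condExp_smul C⁻¹ (f i0) mY).trans ?_)
      filter_upwards [hi0, Lp.coeFn_zero ℝ 2 μ] with x hx hx0
      rw [hx0, Pi.smul_apply, hx]
      simp
    unfold tauL
    have h5 : ∀ᵐ y ∂P, ∏ j, (hJ j).iso (proj (avg (aop hJ hSS)) (F j)) y = 0 := by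
      have h6 : (hJ i0).iso (proj (avg (aop hJ hSS)) (F i0)) = 0 := by rw [h3, map_zero]
      filter_upwards [Lp.coeFn_zero ℝ 2 P] with y hy
      refine Finset.prod_eq_zero (Finset.mem_univ i0) ?_
      rw [h6, hy]; rfl
    rw [integral_congr_ae h5]
    simp
  rw [h1] at h2
  exact (mul_eq_zero.mp h2).resolve_left (pow_ne_zero _ (inv_ne_zero hCpos.ne'))

end visible

end main

end Crest.Agent.R069.SpecX
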