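import Crest.Agent.R069.SatTop_Mg
import Crest.Agent.R069.Static1
import Mathlib
import Crest.Agent.R069.Iface

-- ▼ part R069/SatFin
section

/-!
# Row 69: N_SAT
-/

set_option autoImplicit false

open MeasureTheory Filter Set

namespace Crest.Agent.R069

/-- **N_SAT**: existence of sated pairs. -/
theorem n_sat : N_SAT :=
  SatTop.n_sat_of fun _ _ P hP _ _ s => @exists_sated_std _ _ _ s P hP

end Crest.Agent.R069
end

-- ▼ part R069/Static2
section

/-!
# Row 69, node STATIC, part 2: one side (rows or columns) of the array, single-entry moves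
-/

open MeasureTheory ProbabilityTheory Function
open scoped ENNReal

set_option linter.unusedSectionVars false

namespace Crest.Agent.R069.Static

noncomputable section

variable {P : Type*} [Fintype P] [DecidableEq P] {J : Type*} [Fintype J] [DecidableEq J]
  {I : Type*} [Fintype I] [DecidableEq I]
  {E : Type*} [MeasurableSpace E]

/-- One side of a static array: the block variables `ξ : P → E` are independent with laws `μ p`;
`v j` is the output of line `j`, a function of the entries `ξ p` with `b p = j`; `Ψ` computes the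
corner from the outputs of the lines. -/
structure Side (μ : P → Measure E) (b : P → J) (β : J → Measure E) (v : J → (P → E) → E)
    (Ψ : (J → E) → E) (μY : Measure E) : Prop where
  pμ : ∀ p, IsProbabilityMeasure (μ p)
  pβ : ∀ j, IsProbabilityMeasure (β j)
  pY : IsProbabilityMeasure μY
  mv : ∀ j, Measurable (v j)
  mΨ : Measurable Ψ
  dep : ∀ j ξ p t, b p ≠ j → v j (update ξ p t) = v j ξ
  law : MeasurePreserving (fun ξ j => v j ξ) (Measure.pi μ) (Measure.pi β)
  fib : ∀ p, ∀ᵐ ξ ∂(Measure.pi μ), (μ p).map (fun t => v (b p) (update ξ p t)) = β (b p)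
  fibΨ : ∀ j, ∀ᵐ w ∂(Measure.pi β), (β j).map (fun t => Ψ (update w j t)) = μY
  inv : ∀ j, ∃ g : (J → E) → E, Measurable g ∧ ∀ᵐ w ∂(Measure.pi β), w j = g (update w j (Ψ w))

/-- The corner as a function of the block. -/
def cor (v : J → (P → E) → E) (Ψ : (J → E) → E) (ξ : P → E) : E := Ψ (fun j => v j ξ)

namespace Side

variable {μ : P → Measure E} {b : P → J} {β : J → Measure E} {v : J → (P → E) → E}
    {Ψ : (J → E) → E} {μY : Measure E} (S : Side μ b β v Ψ μY)

include S

theorem measurable_v : Measurable (fun ξ j => v j ξ) := measurable_pi_lambda _ S.mv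

theorem measurable_cor : Measurable (cor v Ψ) := S.mΨ.comp S.measurable_v

/-- Updating one entry changes only the output of its line. -/
theorem v_update (ξ : P → E) (p : P) (t : E) :
    (fun j => v j (update ξ p t)) = update (fun j => v j ξ) (b p) (v (b p) (update ξ p t)) := by
  funext j
  by_cases h : j = b p
  · subst h; simp
  · rw [update_of_ne h, S.dep j ξ p t (Ne.symm h)]

theorem cor_update (ξ : P → E) (p : P) (t : E) :
    cor v Ψ (update ξ p t) =
      Ψ (update (fun j => v j ξ) (b p) (v (b p) (update ξ p t))) := by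
  unfold cor
  rw [S.v_update]


/-- The fibre law of the corner in one entry. -/
theorem fib_cor (p : P) :
    ∀ᵐ ξ ∂(Measure.pi μ), (μ p).map (fun t => cor v Ψ (update ξ p t)) = μY := by
  have := S.pμ
  have := S.pβ
  have h1 := S.fib p
  have h2 := S.law.quasiMeasurePreserving.ae (S.fibΨ (b p))
  filter_upwards [h1, h2] with ξ h1 h2
  have e : (fun t => cor v Ψ (update ξ p t)) =
      (fun s => Ψ (update (fun j => v j ξ) (b p) s)) ∘ (fun t => v (b p) (update ξ p t)) := by
    funext t
    exact S.cor_update ξ p t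
  rw [e, ← Measure.map_map, h1, h2]
  · exact S.mΨ.comp (measurable_update _)
  · exact (S.mv _).comp (measurable_update _)

theorem mp_cor [Nonempty P] : MeasurePreserving (cor v Ψ) (Measure.pi μ) μY := by
  have := S.pμ
  have := S.pY
  obtain ⟨p⟩ := ‹Nonempty P›
  have h1 : MeasurePreserving (fun x : (P → E) × E => (x.1, cor v Ψ (update x.1 p x.2)))
      ((Measure.pi μ).prod (μ p)) ((Measure.pi μ).prod μY) :=
    (MeasurePreserving.id _).skew_product
      (g := fun ξ t => cor v Ψ (update ξ p t))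
      (S.measurable_cor.comp (measurable_update_prod' p)) (S.fib_cor p)
  have h2 : MeasurePreserving (fun x : (P → E) × E => cor v Ψ (update x.1 p x.2))
      ((Measure.pi μ).prod (μ p)) μY := measurePreserving_snd.comp h1
  have h3 : MeasurePreserving (fun x : (P → E) × E => update x.1 p x.2)
      ((Measure.pi μ).prod (μ p)) (Measure.pi μ) :=
    measurePreserving_fst.comp (mp_update' μ p)
  refine ⟨S.measurable_cor, ?_⟩
  have h4 := h2.map_eq
  have e : (fun x : (P → E) × E => cor v Ψ (update x.1 p x.2)) =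
      cor v Ψ ∘ (fun x : (P → E) × E => update x.1 p x.2) := rfl
  rw [e, ← Measure.map_map S.measurable_cor h3.measurable, h3.map_eq] at h4
  exact h4

/-- **Transfer lemma.** After resampling the entries in `s`, the corner is independent of
everything which does not involve the entry `q ∉ s` of the first copy. -/
theorem transfer (s : Finset P) (q : P) (hq : q ∉ s) {Z : Type*} [MeasurableSpace Z]
    (κ : ((P → E) × (P → E)) × E → Z) (hκ : Measurable κ)
    (hinv : ∀ x t, κ ((update x.1.1 q t, x.1.2), x.2) = κ x) :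
    ((Measure.pi μ).prod (Measure.pi μ)).map
        (fun x => κ (x, cor v Ψ (s.piecewise x.2 x.1))) =
      (((Measure.pi μ).prod (Measure.pi μ)).prod μY).map κ := by
  have := S.pμ
  have := S.pY
  set PP := (Measure.pi μ).prod (Measure.pi μ) with hPP
  -- the map `A`
  have hA : MeasurePreserving
      (fun x : ((P → E) × (P → E)) × E => ((update x.1.1 q x.2, x.1.2) : (P → E) × (P → E)))
      (PP.prod (μ q)) PP := by
    have h1 : MeasurePreserving (fun x : (P → E) × E => update x.1 q x.2)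
        ((Measure.pi μ).prod (μ q)) (Measure.pi μ) :=
      measurePreserving_fst.comp (mp_update' μ q)
    -- reorganise `((ξ, η), t)` as `(η, (ξ, t))`
    have h2 : MeasurePreserving (fun x : (P → E) × ((P → E) × E) => (x.1, update x.2.1 q x.2.2))
        ((Measure.pi μ).prod ((Measure.pi μ).prod (μ q)))
        ((Measure.pi μ).prod (Measure.pi μ)) := (MeasurePreserving.id _).prod h1
    have h3 : MeasurePreserving
        (fun x : ((P → E) × (P → E)) × E => (x.1.2, (x.1.1, x.2)))
        (PP.prod (μ q)) ((Measure.pi μ).prod ((Measure.pi μ).prod (μ q))) := by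
      have h4 : MeasurePreserving (fun x : ((P → E) × (P → E)) × E => (x.1.swap, x.2))
          (PP.prod (μ q)) (PP.prod (μ q)) :=
        (Measure.measurePreserving_swap).prod (MeasurePreserving.id _)
      have h5 := measurePreserving_prodAssoc (Measure.pi μ) (Measure.pi μ) (μ q)
      exact h5.comp h4
    have h6 := (Measure.measurePreserving_swap).comp (h2.comp h3)
    exact h6
  have hM : MeasurePreserving
      (fun x : ((P → E) × (P → E)) × E =>
        (x.1, cor v Ψ (update (s.piecewise x.1.2 x.1.1) q x.2)))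
      (PP.prod (μ q)) (PP.prod μY) := by
    refine (MeasurePreserving.id _).skew_product
      (g := fun (y : (P → E) × (P → E)) (t : E) =>
        cor v Ψ (update (s.piecewise y.2 y.1) q t)) ?_ ?_
    · have h7 : Measurable (fun x : ((P → E) × (P → E)) × E =>
          (s.piecewise x.1.2 x.1.1, x.2)) :=
        ((measurable_piecewise_prod s).comp measurable_fst).prodMk measurable_snd
      exact S.measurable_cor.comp ((measurable_update_prod' q).comp h7)
    · exact (mp_piecewise μ s).quasiMeasurePreserving.ae (S.fib_cor q)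
  have hm : Measurable (fun x : (P → E) × (P → E) => κ (x, cor v Ψ (s.piecewise x.2 x.1))) :=
    hκ.comp (measurable_id.prodMk (S.measurable_cor.comp (measurable_piecewise_prod s)))
  rw [← hM.map_eq, Measure.map_map hκ hM.measurable]
  conv_lhs => rw [← hA.map_eq]
  rw [Measure.map_map hm hA.measurable]
  congr 1
  funext x
  obtain ⟨⟨ξ, η⟩, t⟩ := x
  simp only [comp_apply]
  have e1 : s.piecewise η (update ξ q t) = update (s.piecewise η ξ) q t := by
    rw [← Finset.update_piecewise_of_notMem _ _ _ hq]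
  rw [e1]
  exact hinv ((ξ, η), cor v Ψ (update (s.piecewise η ξ) q t)) t

/-- a.e. form of the transfer lemma. -/
theorem transfer_ae (s : Finset P) (q : P) (hq : q ∉ s)
    (Q : Set (((P → E) × (P → E)) × E)) (hQ : MeasurableSet Q)
    (hinv : ∀ x t, ((update x.1.1 q t, x.1.2), x.2) ∈ Q ↔ x ∈ Q) :
    (∀ᵐ x ∂((Measure.pi μ).prod (Measure.pi μ)), (x, cor v Ψ (s.piecewise x.2 x.1)) ∈ Q) ↔
      ∀ᵐ x ∂(((Measure.pi μ).prod (Measure.pi μ)).prod μY), x ∈ Q := by
  have hm : Measurable (fun x : (P → E) × (P → E) => (x, cor v Ψ (s.piecewise x.2 x.1))) :=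
    measurable_id.prodMk (S.measurable_cor.comp (measurable_piecewise_prod s))
  have hκ : Measurable (fun x : ((P → E) × (P → E)) × E => (x ∈ Q : Prop)) :=
    measurable_mem.2 hQ
  have h := S.transfer s q hq (fun x => (x ∈ Q : Prop)) hκ
    (fun x t => propext (hinv x t))
  have hs : MeasurableSet {a : Prop | a} := MeasurableSpace.measurableSet_top
  have h1 : (∀ᵐ a ∂((Measure.pi μ).prod (Measure.pi μ)).map
      (fun x => ((x, cor v Ψ (s.piecewise x.2 x.1)) ∈ Q : Prop)), a) ↔
      (∀ᵐ a ∂(((Measure.pi μ).prod (Measure.pi μ)).prod μY).map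
      (fun x => (x ∈ Q : Prop)), a) := by
    rw [h]
  have hm' : Measurable (fun x : (P → E) × (P → E) =>
      ((x, cor v Ψ (s.piecewise x.2 x.1)) ∈ Q : Prop)) := hκ.comp hm
  rw [ae_map_iff hm'.aemeasurable hs, ae_map_iff hκ.aemeasurable hs] at h1
  exact h1

end Side

end

end Crest.Agent.R069.Static
end

-- ▼ part R069/Static3
section

/-!
# Row 69, node STATIC, part 3: the single-entry move `y = G (d, d', y')`
-/

open MeasureTheory ProbabilityTheory Function
open scoped ENNReal

set_option linter.unusedSectionVars false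

namespace Crest.Agent.R069.Static

noncomputable section

variable {P : Type*} [Fintype P] [DecidableEq P] {J : Type*} [Fintype J] [DecidableEq J]
  {I : Type*} [Fintype I] [DecidableEq I]
  {E : Type*} [MeasurableSpace E]

/-- The corner reconstructed from the moved corner `x.2`, without the entries of line `j`. -/
def KK (v : J → (P → E) → E) (Ψ : (J → E) → E) (p : P) (j : J) (g : (J → E) → E)
    (x : ((P → E) × (P → E)) × E) : E :=
  Ψ (update (fun k => v k x.1.1) j
    (g (update (fun k => v k (update x.1.1 p (x.1.2 p))) j x.2)))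

namespace Side

variable {μ : P → Measure E} {b : P → J} {β : J → Measure E} {v : J → (P → E) → E}
    {Ψ : (J → E) → E} {μY : Measure E} (S : Side μ b β v Ψ μY)

include S

theorem measurable_update_pi (j : J) : Measurable (fun x : (J → E) × E => update x.1 j x.2) :=
  measurable_update_prod' j

theorem measurable_KK (p : P) (j : J) {g : (J → E) → E} (hg : Measurable g) :
    Measurable (KK v Ψ p j g) := by
  have h1 : Measurable (fun x : ((P → E) × (P → E)) × E => (fun k => v k x.1.1)) :=
    S.measurable_v.comp (measurable_fst.comp measurable_fst)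
  have h2 : Measurable (fun x : ((P → E) × (P → E)) × E =>
      (fun k => v k (update x.1.1 p (x.1.2 p)))) :=
    S.measurable_v.comp ((measurable_update_prod p).comp measurable_fst)
  have h3 : Measurable (fun x : ((P → E) × (P → E)) × E =>
      g (update (fun k => v k (update x.1.1 p (x.1.2 p))) j x.2)) :=
    hg.comp ((S.measurable_update_pi j).comp (h2.prodMk measurable_snd))
  exact S.mΨ.comp ((S.measurable_update_pi j).comp (h1.prodMk h3))

theorem v_update_line (ξ : P → E) (q : P) (t : E) (j : J) (hq : b q = j) (e : E) :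
    update (fun k => v k (update ξ q t)) j e = update (fun k => v k ξ) j e := by
  rw [S.v_update, hq, update_idem]

theorem KK_inv (p : P) (j : J) (hj : b p ≠ j) (g : (J → E) → E) (q : P) (hq : b q = j)
    (x : ((P → E) × (P → E)) × E) (t : E) :
    KK v Ψ p j g ((update x.1.1 q t, x.1.2), x.2) = KK v Ψ p j g x := by
  have hpq : p ≠ q := fun h => hj (h ▸ hq)
  unfold KK
  simp only
  rw [S.v_update_line _ q t j hq, update_comm hpq.symm, S.v_update_line _ q t j hq]

theorem KK_eta (p : P) (j : J) (g : (J → E) → E) (ξ η η' : P → E) (z : E) (h : η p = η' p) :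
    KK v Ψ p j g ((ξ, η), z) = KK v Ψ p j g ((ξ, η'), z) := by
  unfold KK
  simp only [h]

theorem KK_eq (p : P) (j : J) (hj : b p ≠ j) {g : (J → E) → E}
    (hg : ∀ᵐ w ∂(Measure.pi β), w j = g (update w j (Ψ w))) :
    ∀ᵐ x ∂((Measure.pi μ).prod (Measure.pi μ)),
      KK v Ψ p j g (x, cor v Ψ (update x.1 p (x.2 p))) = cor v Ψ x.1 := by
  have := S.pμ
  have h1 := ((S.law.comp (mp_update μ p)).quasiMeasurePreserving.ae hg)
  filter_upwards [h1] with x hx
  simp only [comp_apply] at hx
  unfold KK cor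
  simp only
  rw [← hx, S.dep j _ p _ hj, update_eq_self]

end Side

/-- Two sides (rows and columns) of the same array. -/
structure Arr (μ : P → Measure E) (b : P → J) (β : J → Measure E) (v : J → (P → E) → E)
    (Ψ : (J → E) → E) (a : P → I) (α : I → Measure E) (u : I → (P → E) → E) (Φ : (I → E) → E)
    (μY : Measure E) : Prop where
  col : Side μ b β v Ψ μY
  row : Side μ a α u Φ μY
  eqF : cor v Ψ =ᵐ[Measure.pi μ] cor u Φ
  surj : ∀ j i, ∃ p, b p = j ∧ a p = i
  inj : ∀ p q, b p = b q → a p = a q → p = q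
  nt : ∀ j : J, ∃ j', j ≠ j'
  nt' : ∀ i : I, ∃ i', i ≠ i'

namespace Arr

variable {μ : P → Measure E} {b : P → J} {β : J → Measure E} {v : J → (P → E) → E}
    {Ψ : (J → E) → E} {a : P → I} {α : I → Measure E} {u : I → (P → E) → E}
    {Φ : (I → E) → E} {μY : Measure E} 

theorem symm (A : Arr μ b β v Ψ a α u Φ μY) : Arr μ a α u Φ b β v Ψ μY where
  col := A.row
  row := A.col
  eqF := A.eqF.symm
  surj := fun i j => by obtain ⟨p, h1, h2⟩ := A.surj j i; exact ⟨p, h2, h1⟩
  inj := fun p q h1 h2 => A.inj p q h2 h1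
  nt := A.nt'
  nt' := A.nt

variable (A : Arr μ b β v Ψ a α u Φ μY)

include A

/-- The corner after resampling one entry, two descriptions. -/
theorem eqF_update (p : P) : ∀ᵐ x ∂((Measure.pi μ).prod (Measure.pi μ)),
    cor v Ψ (update x.1 p (x.2 p)) = cor u Φ (update x.1 p (x.2 p)) := by
  have := A.col.pμ
  exact (mp_update μ p).quasiMeasurePreserving.ae A.eqF

theorem eqF_fst : ∀ᵐ x ∂((Measure.pi μ).prod (Measure.pi μ)), cor v Ψ x.1 = cor u Φ x.1 := by
  have := A.col.pμ
  exact (measurePreserving_fst (μ := Measure.pi μ) (ν := Measure.pi μ)).quasiMeasurePreserving.ae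
    A.eqF

/-- The two reconstructions agree on the free product space. -/
theorem KK_agree [StandardBorelSpace E] (p : P) (j : J) (hj : b p ≠ j) (i : I) (hi : a p ≠ i)
    {g : (J → E) → E} (hgm : Measurable g)
    (hg : ∀ᵐ w ∂(Measure.pi β), w j = g (update w j (Ψ w)))
    {h : (I → E) → E} (hhm : Measurable h)
    (hh : ∀ᵐ w ∂(Measure.pi α), w i = h (update w i (Φ w))) :
    ∀ᵐ x ∂(((Measure.pi μ).prod (Measure.pi μ)).prod μY),
      KK v Ψ p j g x = KK u Φ p i h x := by
  obtain ⟨q, hq1, hq2⟩ := A.surj j i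
  have hqp : q ∉ ({p} : Finset P) := by
    rw [Finset.mem_singleton]; rintro rfl; exact hj hq1
  have hQ : MeasurableSet {x : ((P → E) × (P → E)) × E | KK v Ψ p j g x = KK u Φ p i h x} :=
    measurableSet_eq_fun (A.col.measurable_KK p j hgm) (A.row.measurable_KK p i hhm)
  have ht := (A.col.transfer_ae {p} q hqp _ hQ (fun x t => by
    simp only [Set.mem_ofPred_eq]
    rw [A.col.KK_inv p j hj g q hq1, A.row.KK_inv p i hi h q hq2])).1
  refine ht ?_
  filter_upwards [A.col.KK_eq p j hj hg, A.row.KK_eq p i hi hh, A.eqF_update p, A.eqF_fst]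
    with x h1 h2 h3 h4
  simp only [Finset.piecewise_singleton]
  show KK v Ψ p j g (x, cor v Ψ (update x.1 p (x.2 p))) =
    KK u Φ p i h (x, cor v Ψ (update x.1 p (x.2 p)))
  rw [h1, h3, h2, h4]

/-- **Single-entry moves.** -/
theorem exists_G [StandardBorelSpace E] (p : P) :
    ∃ G : E × E × E → E, Measurable G ∧
      ∀ᵐ x ∂((Measure.pi μ).prod (Measure.pi μ)),
        cor v Ψ x.1 = G (x.1 p, x.2 p, cor v Ψ (update x.1 p (x.2 p))) := by
  classical
  have := A.col.pμ
  have := A.col.pY
  obtain ⟨j0, hj0⟩ := A.nt (b p)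
  obtain ⟨i0, hi0⟩ := A.nt' (a p)
  choose g hgm hg using A.col.inv
  choose h hhm hh using A.row.inv
  -- the function `K`
  set K := KK v Ψ p j0 (g j0) with hK
  have hKm : Measurable K := A.col.measurable_KK p j0 (hgm j0)
  -- all the other reconstructions agree with `K`
  have e1 : ∀ i, a p ≠ i → ∀ᵐ x ∂(((Measure.pi μ).prod (Measure.pi μ)).prod μY),
      K x = KK u Φ p i (h i) x := fun i hi =>
    A.KK_agree p j0 hj0 i hi (hgm j0) (hg j0) (hhm i) (hh i)
  have e2 : ∀ j, b p ≠ j → ∀ᵐ x ∂(((Measure.pi μ).prod (Measure.pi μ)).prod μY),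
      K x = KK v Ψ p j (g j) x := fun j hj => by
    filter_upwards [e1 i0 hi0, A.KK_agree p j hj i0 hi0 (hgm j) (hg j) (hhm i0) (hh i0)]
      with x h1 h2
    rw [h1, h2]
  -- invariance under resampling of every entry different from `p`
  let W := (P → E) × E
  let ω : Measure W := (Measure.pi μ).prod μY
  -- the space `((ξ, ξ'), (η, z))` and the two maps to `((ξ, η), z)`
  let hf : (P → E) × W → E := fun x => K ((x.1, x.2.1), x.2.2)
  -- `(ξ, (η, z)) ↦ ((ξ, η), z)` is measure preserving
  have hassoc : MeasurePreserving (fun x : (P → E) × W => ((x.1, x.2.1), x.2.2))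
      ((Measure.pi μ).prod ω) (((Measure.pi μ).prod (Measure.pi μ)).prod μY) :=
    (measurePreserving_prodAssoc (Measure.pi μ) (Measure.pi μ) μY).symm
      MeasurableEquiv.prodAssoc
  have hfst : MeasurePreserving (fun x : ((P → E) × (P → E)) × W => (x.1.1, x.2))
      (((Measure.pi μ).prod (Measure.pi μ)).prod ω) ((Measure.pi μ).prod ω) :=
    (measurePreserving_fst).prod (MeasurePreserving.id _)
  have hupd : ∀ q, MeasurePreserving
      (fun x : ((P → E) × (P → E)) × W => (update x.1.1 q (x.1.2 q), x.2))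
      (((Measure.pi μ).prod (Measure.pi μ)).prod ω) ((Measure.pi μ).prod ω) := fun q =>
    (mp_update μ q).prod (MeasurePreserving.id _)
  have hinv : ∀ q ∈ Finset.univ.erase p,
      ∀ᵐ x ∂(((Measure.pi μ).prod (Measure.pi μ)).prod ω),
        hf (update x.1.1 q (x.1.2 q), x.2) = hf (x.1.1, x.2) := by
    intro q hq
    have hqp : q ≠ p := Finset.ne_of_mem_erase hq
    by_cases hb : b p = b q
    · -- then `a p ≠ a q`
      have ha : a p ≠ a q := fun ha => hqp (A.inj p q hb ha).symm
      have h1 := (hassoc.comp hfst).quasiMeasurePreserving.ae (e1 _ ha)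
      have h2 := (hassoc.comp (hupd q)).quasiMeasurePreserving.ae (e1 _ ha)
      filter_upwards [h1, h2] with x h1 h2
      simp only [comp_apply] at h1 h2
      show K ((update x.1.1 q (x.1.2 q), x.2.1), x.2.2) = K ((x.1.1, x.2.1), x.2.2)
      rw [h1, h2]
      exact A.row.KK_inv p (a q) ha (h (a q)) q rfl ((x.1.1, x.2.1), x.2.2) (x.1.2 q)
    · have h1 := (hassoc.comp hfst).quasiMeasurePreserving.ae (e2 _ hb)
      have h2 := (hassoc.comp (hupd q)).quasiMeasurePreserving.ae (e2 _ hb)
      filter_upwards [h1, h2] with x h1 h2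
      simp only [comp_apply] at h1 h2
      show K ((update x.1.1 q (x.1.2 q), x.2.1), x.2.2) = K ((x.1.1, x.2.1), x.2.2)
      rw [h1, h2]
      exact A.col.KK_inv p (b q) hb (g (b q)) q rfl ((x.1.1, x.2.1), x.2.2) (x.1.2 q)
  have hpw := ae_piecewise_of_update μ ω hf (Finset.univ.erase p) hinv
  -- fix a generic second copy
  have hpw2 : ∀ᵐ ξ' ∂(Measure.pi μ), ∀ᵐ y ∂((Measure.pi μ).prod ω),
      hf ((Finset.univ.erase p).piecewise ξ' y.1, y.2) = hf (y.1, y.2) := by
    have hre : MeasurePreserving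
        (fun x : (P → E) × ((P → E) × W) => ((x.2.1, x.1), x.2.2))
        ((Measure.pi μ).prod ((Measure.pi μ).prod ω))
        (((Measure.pi μ).prod (Measure.pi μ)).prod ω) := by
      have h1 := (measurePreserving_prodAssoc (Measure.pi μ) (Measure.pi μ) ω).symm
        MeasurableEquiv.prodAssoc
      have h2 : MeasurePreserving (fun x : ((P → E) × (P → E)) × W => (x.1.swap, x.2))
          (((Measure.pi μ).prod (Measure.pi μ)).prod ω)
          (((Measure.pi μ).prod (Measure.pi μ)).prod ω) :=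
        (Measure.measurePreserving_swap).prod (MeasurePreserving.id _)
      exact h2.comp h1
    exact Measure.ae_ae_of_ae_prod (hre.quasiMeasurePreserving.ae hpw)
  obtain ⟨ξs, hξs⟩ := hpw2.exists
  let G : E × E × E → E := fun y => K ((update ξs p y.1, update ξs p y.2.1), y.2.2)
  have hGm : Measurable G := by
    refine hKm.comp ?_
    have h1 : Measurable (fun t : E => update ξs p t) := measurable_update ξs
    exact ((h1.comp measurable_fst).prodMk (h1.comp (measurable_fst.comp measurable_snd))).prodMk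
      (measurable_snd.comp measurable_snd)
  have hKG : ∀ᵐ x ∂(((Measure.pi μ).prod (Measure.pi μ)).prod μY),
      K x = G (x.1.1 p, x.1.2 p, x.2) := by
    have h1 := (hassoc.symm (e := MeasurableEquiv.prodAssoc.symm)).quasiMeasurePreserving.ae hξs
    filter_upwards [h1] with x hx
    have e3 : (Finset.univ.erase p).piecewise ξs x.1.1 = update ξs p (x.1.1 p) := by
      funext q
      by_cases hq : q = p
      · subst hq; simp
      · simp [hq]
    have hx' : K (((Finset.univ.erase p).piecewise ξs x.1.1, x.1.2), x.2) = K x := hx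
    rw [← hx', e3]
    show K ((update ξs p (x.1.1 p), x.1.2), x.2) =
      K ((update ξs p (x.1.1 p), update ξs p (x.1.2 p)), x.2)
    exact A.col.KK_eta p j0 (g j0) _ _ _ _ (by simp)
  refine ⟨G, hGm, ?_⟩
  -- transfer back
  obtain ⟨q, hq1, -⟩ := A.surj j0 i0
  have hqp : q ≠ p := by rintro rfl; exact hj0 hq1
  have hqp' : q ∉ ({p} : Finset P) := by simpa using hqp
  have hQ : MeasurableSet {x : ((P → E) × (P → E)) × E | K x = G (x.1.1 p, x.1.2 p, x.2)} := by
    refine measurableSet_eq_fun hKm (hGm.comp ?_)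
    exact ((measurable_pi_apply p).comp (measurable_fst.comp measurable_fst)).prodMk
      (((measurable_pi_apply p).comp (measurable_snd.comp measurable_fst)).prodMk measurable_snd)
  have hKi : ∀ (x : ((P → E) × (P → E)) × E) (t : E),
      K ((update x.1.1 q t, x.1.2), x.2) = K x := fun x t =>
    A.col.KK_inv p j0 hj0 (g j0) q hq1 x t
  have ht := (A.col.transfer_ae {p} q hqp' _ hQ (fun x t => by
    simp only [Set.mem_ofPred_eq]
    rw [hKi, update_of_ne hqp.symm])).2 hKG
  filter_upwards [ht, A.col.KK_eq p j0 hj0 (hg j0)] with x h1 h2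
  have h1' : K (x, cor v Ψ (({p} : Finset P).piecewise x.2 x.1)) =
      G (x.1 p, x.2 p, cor v Ψ (({p} : Finset P).piecewise x.2 x.1)) := h1
  rw [Finset.piecewise_singleton] at h1'
  rw [← h2, ← h1']

end Arr

end

end Crest.Agent.R069.Static
end

-- ▼ part R069/StaticModel
section

/-!
# Row 69, node STATIC: the product model of a static array

From the raw hypotheses of a static array (independence of the blocks missing a row and a column,
closedness of rows and columns) to the structure `Arr` of `Static3`.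
-/

open MeasureTheory ProbabilityTheory Function
open scoped ENNReal

set_option linter.unusedSectionVars false

namespace Crest.Agent.R069.StaticModel

open Crest.Agent.R069.Static

noncomputable section

variable {E : Type*} [MeasurableSpace E]

section fibre

variable {P : Type*} [Fintype P] [DecidableEq P]

/-- `((ζ, e), s) ↦ (update ζ p s, e)` preserves the product measures. -/
theorem mp_update_snd (μ : P → Measure E) [∀ p, IsProbabilityMeasure (μ p)] (p : P)
    (lam : Measure E) [IsProbabilityMeasure lam] :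
    MeasurePreserving (fun x : ((P → E) × E) × E => (update x.1.1 p x.2, x.1.2))
      (((Measure.pi μ).prod lam).prod (μ p)) ((Measure.pi μ).prod lam) := by
  have h1 : MeasurePreserving (fun x : (P → E) × E => update x.1 p x.2)
      ((Measure.pi μ).prod (μ p)) (Measure.pi μ) :=
    measurePreserving_fst.comp (mp_update' μ p)
  have h2 : MeasurePreserving (fun x : E × ((P → E) × E) => (x.1, update x.2.1 p x.2.2))
      (lam.prod ((Measure.pi μ).prod (μ p)))
      (lam.prod (Measure.pi μ)) := (MeasurePreserving.id _).prod h1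
  have h3 : MeasurePreserving
      (fun x : ((P → E) × E) × E => (x.1.2, (x.1.1, x.2)))
      (((Measure.pi μ).prod lam).prod (μ p)) (lam.prod ((Measure.pi μ).prod (μ p))) := by
    have h4 : MeasurePreserving (fun x : ((P → E) × E) × E => (x.1.swap, x.2))
        (((Measure.pi μ).prod lam).prod (μ p)) ((lam.prod (Measure.pi μ)).prod (μ p)) :=
      (Measure.measurePreserving_swap).prod (MeasurePreserving.id _)
    have h5 := measurePreserving_prodAssoc lam (Measure.pi μ) (μ p)
    exact h5.comp h4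
  have h6 := (Measure.measurePreserving_swap).comp (h2.comp h3)
  exact h6

/-- **Fibre lemma.**  If the output `F ξ` is independent of the coordinates different from `p`,
then for a.e. values of these coordinates its conditional law is constant. -/
theorem fibre [MeasurableSpace.CountablyGenerated E] (μ : P → Measure E)
    [∀ p, IsProbabilityMeasure (μ p)] (p : P)
    {F : (P → E) → E} (hF : Measurable F) (lam : Measure E) [IsProbabilityMeasure lam]
    (h : (Measure.pi μ).map (fun ξ => ((fun q : {q // q ≠ p} => ξ q), F ξ)) =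
      ((Measure.pi μ).map (fun ξ (q : {q // q ≠ p}) => ξ q)).prod lam) :
    ∀ᵐ ξ ∂Measure.pi μ, (μ p).map (fun t => F (update ξ p t)) = lam := by
  have hFu : Measurable (fun x : (P → E) × E => F (update x.1 p x.2)) :=
    hF.comp (measurable_update_prod' p)
  have hrestr : Measurable (fun (ξ : P → E) (q : {q // q ≠ p}) => ξ q) :=
    measurable_pi_lambda _ fun q => measurable_pi_apply q.1
  -- joint law
  have hjoint : ((Measure.pi μ).prod (μ p)).map (fun x => (x.1, F (update x.1 p x.2))) =
      (Measure.pi μ).prod lam := by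
    let A : (P → E) × E → (P → E) × E := fun x => (update x.1 p x.2, F x.1)
    let ext : (({q // q ≠ p} → E) × E) × E → (P → E) × E := fun x =>
      ((fun q => if hq : q = p then x.2 else x.1.1 ⟨q, hq⟩), x.1.2)
    have hA : Measurable A :=
      (measurable_update_prod' p).prodMk (hF.comp measurable_fst)
    have hext : Measurable ext := by
      refine Measurable.prodMk (measurable_pi_lambda _ fun q => ?_)
        (measurable_snd.comp measurable_fst)
      by_cases hq : q = p
      · simp only [hq, dite_true]; exact measurable_snd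
      · simp only [hq, dite_false]
        exact (measurable_pi_apply _).comp (measurable_fst.comp measurable_fst)
    have e1 : (fun x : (P → E) × E => (x.1, F (update x.1 p x.2))) =
        A ∘ (fun x : (P → E) × E => (update x.1 p x.2, x.1 p)) := by
      funext x
      simp [A]
    have e2 : A = ext ∘ (Prod.map (fun ξ : P → E => ((fun q : {q // q ≠ p} => ξ q), F ξ)) id) := by
      funext x
      refine Prod.ext ?_ rfl
      funext q
      by_cases hq : q = p
      · subst hq; simp [A, ext]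
      · simp [A, ext, hq]
    rw [e1, ← Measure.map_map hA (mp_update' μ p).measurable, (mp_update' μ p).map_eq, e2,
      ← Measure.map_map hext ((hrestr.prodMk hF).prodMap measurable_id)]
    rw [← Measure.map_prod_map _ _ (hrestr.prodMk hF) measurable_id, h, Measure.map_id]
    have e3 : ((Measure.pi μ).map (fun (ξ : P → E) (q : {q // q ≠ p}) => ξ q)).prod lam =
        ((Measure.pi μ).prod lam).map
          (Prod.map (fun (ξ : P → E) (q : {q // q ≠ p}) => ξ q) id) := by
      rw [← Measure.map_prod_map _ _ hrestr measurable_id, Measure.map_id]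
    have e4 : (((Measure.pi μ).map (fun (ξ : P → E) (q : {q // q ≠ p}) => ξ q)).prod lam).prod
        (μ p) = (((Measure.pi μ).prod lam).prod (μ p)).map
          (Prod.map (Prod.map (fun (ξ : P → E) (q : {q // q ≠ p}) => ξ q) id) id) := by
      rw [← Measure.map_prod_map _ _ (hrestr.prodMap measurable_id) measurable_id, Measure.map_id,
        e3]
    rw [e4, Measure.map_map hext ((hrestr.prodMap measurable_id).prodMap measurable_id)]
    refine Eq.trans ?_ (mp_update_snd μ p lam).map_eq
    congr 1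
    funext x
    refine Prod.ext ?_ rfl
    funext q
    by_cases hq : q = p
    · subst hq; simp [ext]
    · simp [ext, hq]
  let κ : Kernel (P → E) E :=
    ((Kernel.deterministic id measurable_id) ×ₖ (Kernel.const (P → E) (μ p))).map
      (fun x : (P → E) × E => F (update x.1 p x.2))
  have hκ : ∀ ξ, κ ξ = (μ p).map (fun t => F (update ξ p t)) := by
    intro ξ
    simp only [κ]
    rw [Kernel.map_apply _ hFu, Kernel.prod_apply, Kernel.deterministic_apply,
      Kernel.const_apply, Measure.dirac_prod, Measure.map_map hFu measurable_prodMk_left]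
    rfl
  have : IsMarkovKernel κ := Kernel.IsMarkovKernel.map _ hFu
  have hc : (Measure.pi μ) ⊗ₘ κ = (Measure.pi μ) ⊗ₘ (Kernel.const (P → E) lam) := by
    rw [Measure.compProd_const, ← hjoint]
    ext s hs
    have hm : Measurable (fun x : (P → E) × E => (x.1, F (update x.1 p x.2))) :=
      measurable_fst.prodMk hFu
    rw [Measure.compProd_apply hs, Measure.map_apply hm hs,
      Measure.prod_apply (hm hs)]
    refine lintegral_congr fun ξ => ?_
    have hFξ : Measurable (fun t => F (update ξ p t)) := hFu.comp measurable_prodMk_left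
    rw [hκ, Measure.map_apply hFξ (measurable_prodMk_left hs)]
    rfl
  filter_upwards [Kernel.ae_eq_of_compProd_eq hc] with ξ hξ
  rw [← hκ, hξ, Kernel.const_apply]

end fibre

section line

variable {R : Type*} [Fintype R] [DecidableEq R] {Ω : Type*} [MeasurableSpace Ω]
  {ρ : Measure Ω} [IsProbabilityMeasure ρ] {L : R → Ω → E}

theorem line_law (hL : ∀ i, Measurable (L i))
    (hind : ∀ k, iIndepFun (fun i : {i // i ≠ k} => L i.1) ρ) (i0 : R) :
    ρ.map (fun ω (i : {i // i ≠ i0}) => L i ω) =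
      Measure.pi (fun i : {i // i ≠ i0} => ρ.map (L i)) :=
  (iIndepFun_iff_map_fun_eq_pi_map (fun i => (hL _).aemeasurable)).1 (hind i0)

theorem line_indep (hL : ∀ i, Measurable (L i))
    (hind : ∀ k, iIndepFun (fun i : {i // i ≠ k} => L i.1) ρ) (i0 : R) (p : {i // i ≠ i0}) :
    IndepFun (fun ω (q : {q : {i // i ≠ i0} // q ≠ p}) => L q.1.1 ω) (L i0) ρ := by
  have h0 : i0 ≠ p.1 := fun h => p.2 h.symm
  have h := (hind p.1).indepFun_finset (Finset.univ.erase ⟨i0, h0⟩) {⟨i0, h0⟩}
    (by simp) (fun _ => hL _)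
  have hφ : Measurable (fun (r : (Finset.univ.erase (⟨i0, h0⟩ : {i // i ≠ p.1})) → E)
      (q : {q : {i // i ≠ i0} // q ≠ p}) =>
      r ⟨⟨q.1.1, fun hq => q.2 (Subtype.ext hq)⟩, by
        simp only [Finset.mem_erase, Finset.mem_univ, and_true, ne_eq, Subtype.mk.injEq]
        exact q.1.2⟩) :=
    measurable_pi_lambda _ fun q => measurable_pi_apply _
  have hψ : Measurable (fun (r : ({⟨i0, h0⟩} : Finset {i // i ≠ p.1}) → E) =>
      r ⟨⟨i0, h0⟩, Finset.mem_singleton_self _⟩) := measurable_pi_apply _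
  exact h.comp hφ hψ

theorem line_fib [MeasurableSpace.CountablyGenerated E] (hL : ∀ i, Measurable (L i))
    (hind : ∀ k, iIndepFun (fun i : {i // i ≠ k} => L i.1) ρ) (i0 : R)
    {g : ({i // i ≠ i0} → E) → E} (hg : Measurable g)
    (hgL : ∀ᵐ ω ∂ρ, L i0 ω = g (fun i => L i ω)) (p : {i // i ≠ i0}) :
    ∀ᵐ ξ ∂(Measure.pi (fun i : {i // i ≠ i0} => ρ.map (L i))),
      (ρ.map (L p)).map (fun t => g (update ξ p t)) = ρ.map (L i0) := by
  have hpr : ∀ i, IsProbabilityMeasure (ρ.map (L i)) := fun i =>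
    Measure.isProbabilityMeasure_map (hL i).aemeasurable
  have hLL : Measurable (fun ω (i : {i // i ≠ i0}) => L i ω) :=
    measurable_pi_lambda _ fun i => hL i
  have hrestr : Measurable (fun (ξ : {i // i ≠ i0} → E) (q : {q // q ≠ p}) => ξ q) :=
    measurable_pi_lambda _ fun q => measurable_pi_apply q.1
  refine fibre (fun i : {i // i ≠ i0} => ρ.map (L i)) p hg (ρ.map (L i0)) ?_
  rw [← line_law hL hind i0, Measure.map_map (hrestr.prodMk hg) hLL, Measure.map_map hrestr hLL]
  have h1 : ρ.map ((fun ξ : {i // i ≠ i0} → E => ((fun q : {q // q ≠ p} => ξ q), g ξ)) ∘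
      fun ω (i : {i // i ≠ i0}) => L i ω) =
      ρ.map (fun ω => ((fun q : {q : {i // i ≠ i0} // q ≠ p} => L q.1.1 ω), L i0 ω)) := by
    refine Measure.map_congr ?_
    filter_upwards [hgL] with ω hω
    simp only [comp_apply]
    rw [hω]
  rw [h1]
  refine (indepFun_iff_map_prod_eq_prod_map_map ?_ (hL i0).aemeasurable).1
    (line_indep hL hind i0 p)
  exact (measurable_pi_lambda _ fun q => hL _).aemeasurable

theorem line_inv (hL : ∀ i, Measurable (L i))
    (hind : ∀ k, iIndepFun (fun i : {i // i ≠ k} => L i.1) ρ) (i0 : R)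
    {g : ({i // i ≠ i0} → E) → E} (hg : Measurable g)
    (hgL : ∀ᵐ ω ∂ρ, L i0 ω = g (fun i => L i ω)) (p : {i // i ≠ i0})
    (hsing : MeasurableSet {x : E × E | x.1 = x.2})
    {g' : ({i // i ≠ p.1} → E) → E} (hg' : Measurable g')
    (hgL' : ∀ᵐ ω ∂ρ, L p ω = g' (fun i => L i ω)) :
    ∃ g'' : ({i // i ≠ i0} → E) → E, Measurable g'' ∧
      ∀ᵐ ξ ∂(Measure.pi (fun i : {i // i ≠ i0} => ρ.map (L i))), ξ p = g'' (update ξ p (g ξ)) := by
  have hLL : Measurable (fun ω (i : {i // i ≠ i0}) => L i ω) :=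
    measurable_pi_lambda _ fun i => hL i
  let r : ({i // i ≠ i0} → E) → ({i // i ≠ p.1} → E) := fun ζ l =>
    if hl : l.1 = i0 then ζ p else ζ ⟨l.1, hl⟩
  have hr : Measurable r := by
    refine measurable_pi_lambda _ fun l => ?_
    by_cases hl : l.1 = i0
    · simp only [r, hl, dite_true]; exact measurable_pi_apply _
    · simp only [r, hl, dite_false]; exact measurable_pi_apply _
  refine ⟨fun ζ => g' (r ζ), hg'.comp hr, ?_⟩
  have hup : Measurable (fun ξ : {i // i ≠ i0} → E => update ξ p (g ξ)) := by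
    have := (measurable_update_prod' (E := E) p).comp (measurable_id.prodMk hg)
    exact this
  have hm : Measurable (fun ξ : {i // i ≠ i0} → E => (ξ p, g' (r (update ξ p (g ξ))))) :=
    (measurable_pi_apply p).prodMk (hg'.comp (hr.comp hup))
  have hS : MeasurableSet {ξ : {i // i ≠ i0} → E | ξ p = g' (r (update ξ p (g ξ)))} :=
    hm hsing
  rw [← line_law hL hind i0, ae_map_iff hLL.aemeasurable hS]
  filter_upwards [hgL, hgL'] with ω h1 h2
  rw [← h1, h2]
  congr 1
  funext l
  by_cases hl : l.1 = i0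
  · simp [r, hl]
  · have : (⟨l.1, hl⟩ : {i // i ≠ i0}) ≠ p := fun h => l.2 (congrArg Subtype.val h)
    simp [r, hl, this]

end line

section side

variable {Ω : Type*} [MeasurableSpace Ω] {ρ : Measure Ω} [IsProbabilityMeasure ρ]

theorem side_mk [StandardBorelSpace E]
    {R R' : Type*} [Fintype R] [DecidableEq R] [Fintype R'] [DecidableEq R']
    {X : R → R' → Ω → E} (hX : ∀ i j, Measurable (X i j)) (i0 : R) (j0 : R')
    (hblock : iIndepFun (fun (p : {i // i ≠ i0} × {j // j ≠ j0}) => X p.1.1 p.2.1) ρ)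
    (hcol : ∀ j k, iIndepFun (fun i : {i // i ≠ k} => X i.1 j) ρ)
    (hrow : ∀ k, iIndepFun (fun j : {j // j ≠ k} => X i0 j.1) ρ)
    {g : {j // j ≠ j0} → ({i // i ≠ i0} → E) → E} (hg : ∀ j, Measurable (g j))
    (hgX : ∀ j : {j // j ≠ j0}, ∀ᵐ ω ∂ρ, X i0 j ω = g j (fun i => X i j ω))
    {Ψ : ({j // j ≠ j0} → E) → E} (hΨ : Measurable Ψ)
    (hΨX : ∀ᵐ ω ∂ρ, X i0 j0 ω = Ψ (fun j => X i0 j ω))
    (hinv : ∀ j : {j // j ≠ j0}, ∃ g' : ({l // l ≠ j.1} → E) → E, Measurable g' ∧
      ∀ᵐ ω ∂ρ, X i0 j ω = g' (fun l => X i0 l ω))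
    {P : Type*} [Fintype P] [DecidableEq P] (e : P ≃ {i // i ≠ i0} × {j // j ≠ j0}) :
    Side (fun p => ρ.map (X (e p).1 (e p).2)) (fun p => (e p).2)
      (fun j : {j // j ≠ j0} => ρ.map (X i0 j))
      (fun j ξ => g j (fun i => ξ (e.symm (i, j)))) Ψ (ρ.map (X i0 j0)) := by
  have hpr : ∀ i j, IsProbabilityMeasure (ρ.map (X i j)) := fun i j =>
    Measure.isProbabilityMeasure_map (hX i j).aemeasurable
  have hmv : ∀ j, Measurable (fun ξ : P → E => g j (fun i => ξ (e.symm (i, j)))) := fun j =>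
    (hg j).comp (measurable_pi_lambda _ fun i => measurable_pi_apply _)
  -- the law of the block
  have hB : ρ.map (fun ω (p : P) => X (e p).1 (e p).2 ω) =
      Measure.pi (fun p => ρ.map (X (e p).1 (e p).2)) := by
    have h := hblock.precomp e.injective
    exact (iIndepFun_iff_map_fun_eq_pi_map (fun p => (hX _ _).aemeasurable)).1 h
  have hBm : Measurable (fun ω (p : P) => X (e p).1 (e p).2 ω) :=
    measurable_pi_lambda _ fun p => hX _ _
  have hrowL := line_law (L := fun j => X i0 j) (fun j => hX i0 j) hrow j0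
  refine
    { pμ := fun p => hpr _ _
      pβ := fun j => hpr _ _
      pY := hpr _ _
      mv := hmv
      mΨ := hΨ
      dep := ?_
      law := ?_
      fib := ?_
      fibΨ := ?_
      inv := ?_ }
  · intro j ξ p t hp
    congr 1
    funext i
    rw [update_of_ne]
    rintro rfl
    exact hp (by simp)
  · refine ⟨measurable_pi_lambda _ hmv, ?_⟩
    rw [← hB, Measure.map_map (measurable_pi_lambda _ hmv) hBm, ← hrowL]
    refine Measure.map_congr ?_
    filter_upwards [ae_all_iff.2 hgX] with ω hω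
    funext j
    simp only [comp_apply, Equiv.apply_symm_apply]
    exact (hω j).symm
  · intro p
    have hL := line_fib (L := fun i => X i (e p).2) (fun i => hX i _) (hcol _) i0 (hg (e p).2)
      (hgX (e p).2) (e p).1
    -- restriction to the column is measure preserving
    have hmp : MeasurePreserving (fun (ξ : P → E) (i : {i // i ≠ i0}) => ξ (e.symm (i, (e p).2)))
        (Measure.pi (fun p => ρ.map (X (e p).1 (e p).2)))
        (Measure.pi (fun i : {i // i ≠ i0} => ρ.map (X i (e p).2))) := by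
      have hm : Measurable (fun (ξ : P → E) (i : {i // i ≠ i0}) => ξ (e.symm (i, (e p).2))) :=
        measurable_pi_lambda _ fun i => measurable_pi_apply _
      refine ⟨hm, ?_⟩
      rw [← hB, Measure.map_map hm hBm,
        ← line_law (L := fun i => X i (e p).2) (fun i => hX i _) (hcol _) i0]
      congr 1
      funext ω i
      simp
    filter_upwards [hmp.quasiMeasurePreserving.ae hL] with ξ hξ
    refine Eq.trans ?_ hξ
    congr 1
    funext t
    congr 1
    funext i
    by_cases hi : i = (e p).1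
    · subst hi; simp
    · have : e.symm (i, (e p).2) ≠ p := by
        intro h
        apply hi
        rw [← h]; simp
      simp [hi, this]
  · intro j
    exact line_fib (L := fun j => X i0 j) (fun j => hX i0 j) hrow j0 hΨ hΨX j
  · intro j
    obtain ⟨g', hg', hgL'⟩ := hinv j
    exact line_inv (L := fun j => X i0 j) (fun j => hX i0 j) hrow j0 hΨ hΨX j
      (measurableSet_eq_fun measurable_fst measurable_snd) hg' hgL'

end side

/-- **The product model of a static array.** -/
theorem arr_of {R : Type*} [Fintype R] [DecidableEq R] [StandardBorelSpace E]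
    {rho : Measure (R → R → E)} [IsProbabilityMeasure rho]
    (indep : ∀ i0 j0 : R, iIndepFun
      (fun (p : {p : R × R // p.1 ≠ i0 ∧ p.2 ≠ j0}) (x : R → R → E) => x p.1.1 p.1.2) rho)
    (rowcl : ∀ i j0 : R, ∃ g : ({j // j ≠ j0} → E) → E, Measurable g ∧
      ∀ᵐ x ∂rho, x i j0 = g (fun j => x i j))
    (colcl : ∀ i0 j : R, ∃ g : ({i // i ≠ i0} → E) → E, Measurable g ∧
      ∀ᵐ x ∂rho, x i0 j = g (fun i => x i j))
    (hR : 3 ≤ Fintype.card R) (i0 j0 : R) :
    ∃ (μ : {i // i ≠ i0} × {j // j ≠ j0} → Measure E) (β : {j // j ≠ j0} → Measure E)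
      (v : {j // j ≠ j0} → ({i // i ≠ i0} × {j // j ≠ j0} → E) → E)
      (Ψ : ({j // j ≠ j0} → E) → E) (α : {i // i ≠ i0} → Measure E)
      (u : {i // i ≠ i0} → ({i // i ≠ i0} × {j // j ≠ j0} → E) → E)
      (Φ : ({i // i ≠ i0} → E) → E),
      Arr μ Prod.snd β v Ψ Prod.fst α u Φ (rho.map (fun x => x i0 j0)) ∧
      rho.map (fun x => x i0) = (Measure.pi β).map
        (fun (w : {j // j ≠ j0} → E) (j : R) => if hj : j = j0 then Ψ w else w ⟨j, hj⟩) := by
  classical
  have hne : ∀ i j : R, ∃ k, k ≠ i ∧ k ≠ j := by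
    intro i j
    obtain ⟨k, hk⟩ : ∃ k, k ∉ ({i, j} : Finset R) := by
      by_contra hcon
      push Not at hcon
      have h1 : Finset.univ ⊆ ({i, j} : Finset R) := fun k _ => hcon k
      have h2 := (Finset.card_le_card h1).trans (Finset.card_le_two)
      rw [Finset.card_univ] at h2
      omega
    simp only [Finset.mem_insert, Finset.mem_singleton, not_or] at hk
    exact ⟨k, hk⟩
  have hX : ∀ i j : R, Measurable (fun x : R → R → E => x i j) := fun i j =>
    (measurable_pi_apply j).comp (measurable_pi_apply i)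
  -- independence of lines
  have hcolI : ∀ j k : R, iIndepFun (fun (i : {i // i ≠ k}) (x : R → R → E) => x i.1 j) rho := by
    intro j k
    obtain ⟨j', hj', -⟩ := hne j j
    have h := (indep k j').precomp
      (g := fun i : {i // i ≠ k} => (⟨(i.1, j), i.2, hj'.symm⟩ : {p : R × R // p.1 ≠ k ∧ p.2 ≠ j'}))
      (fun a b hab => by
        simp only [Subtype.mk.injEq, Prod.mk.injEq, and_true] at hab
        exact Subtype.ext hab)
    exact h
  have hrowI : ∀ i k : R, iIndepFun (fun (j : {j // j ≠ k}) (x : R → R → E) => x i j.1) rho := by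
    intro i k
    obtain ⟨i', hi', -⟩ := hne i i
    have h := (indep i' k).precomp
      (g := fun j : {j // j ≠ k} => (⟨(i, j.1), hi'.symm, j.2⟩ : {p : R × R // p.1 ≠ i' ∧ p.2 ≠ k}))
      (fun a b hab => by
        simp only [Subtype.mk.injEq, Prod.mk.injEq, true_and] at hab
        exact Subtype.ext hab)
    exact h
  have hblock : iIndepFun (fun (p : {i // i ≠ i0} × {j // j ≠ j0}) (x : R → R → E) =>
      x p.1.1 p.2.1) rho := by
    have h := (indep i0 j0).precomp
      (g := fun p : {i // i ≠ i0} × {j // j ≠ j0} =>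
        (⟨(p.1.1, p.2.1), p.1.2, p.2.2⟩ : {p : R × R // p.1 ≠ i0 ∧ p.2 ≠ j0}))
      (fun a b hab => by
        simp only [Subtype.mk.injEq, Prod.mk.injEq] at hab
        exact Prod.ext (Subtype.ext hab.1) (Subtype.ext hab.2))
    exact h
  have hblock' : iIndepFun (fun (p : {j // j ≠ j0} × {i // i ≠ i0}) (x : R → R → E) =>
      x p.2.1 p.1.1) rho := by
    have h := hblock.precomp (Equiv.prodComm {j // j ≠ j0} {i // i ≠ i0}).injective
    exact h
  choose gr hgr hgr' using fun i : R => rowcl i j0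
  choose gc hgc hgc' using fun j : R => colcl i0 j
  -- the column side
  have hcs := side_mk (ρ := rho) (X := fun i j x => x i j) hX i0 j0 hblock
    hcolI (hrowI i0)
    (g := fun j => gc j) (fun j => hgc j) (fun j => hgc' j) (hgr i0) (hgr' i0)
    (fun j => rowcl i0 j) (Equiv.refl _)
  -- the row side
  have hrs := side_mk (ρ := rho) (X := fun j i x => x i j) (fun j i => hX i j) j0 i0 hblock'
    hrowI (hcolI j0)
    (g := fun i => gr i) (fun i => hgr i) (fun i => hgr' i) (hgc j0) (hgc' j0)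
    (fun i => colcl i j0) (Equiv.prodComm _ _)
  have hblockL : rho.map (fun x (p : {i // i ≠ i0} × {j // j ≠ j0}) => x p.1.1 p.2.1) =
      Measure.pi (fun p : {i // i ≠ i0} × {j // j ≠ j0} => rho.map (fun x => x p.1.1 p.2.1)) :=
    (iIndepFun_iff_map_fun_eq_pi_map (fun p => (hX _ _).aemeasurable)).1 hblock
  have hrowL := line_law (L := fun j (x : R → R → E) => x i0 j) (fun j => hX i0 j) (hrowI i0) j0
  refine ⟨_, _, _, _, _, _, _, ⟨hcs, hrs, ?_, ?_, ?_, ?_, ?_⟩, ?_⟩
  · -- the two descriptions of the corner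
    have hm : Measurable (fun x (p : {i // i ≠ i0} × {j // j ≠ j0}) => (x : R → R → E) p.1.1 p.2.1) :=
      measurable_pi_lambda _ fun p => hX _ _
    have hS : MeasurableSet {ξ | cor (fun (j : {j // j ≠ j0})
        (ξ : {i // i ≠ i0} × {j // j ≠ j0} → E) =>
        gc j (fun i => ξ ((Equiv.refl _).symm (i, j)))) (gr i0) ξ =
        cor (fun (i : {i // i ≠ i0}) (ξ : {i // i ≠ i0} × {j // j ≠ j0} → E) =>
        gr i (fun j => ξ ((Equiv.prodComm _ _).symm (j, i)))) (gc j0) ξ} :=
      measurableSet_eq_fun hcs.measurable_cor hrs.measurable_cor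
    have key : ∀ᵐ ξ ∂(rho.map (fun x (p : {i // i ≠ i0} × {j // j ≠ j0}) => x p.1.1 p.2.1)),
        cor (fun (j : {j // j ≠ j0})
        (ξ : {i // i ≠ i0} × {j // j ≠ j0} → E) =>
        gc j (fun i => ξ ((Equiv.refl _).symm (i, j)))) (gr i0) ξ =
        cor (fun (i : {i // i ≠ i0}) (ξ : {i // i ≠ i0} × {j // j ≠ j0} → E) =>
        gr i (fun j => ξ ((Equiv.prodComm _ _).symm (j, i)))) (gc j0) ξ := by
      rw [ae_map_iff hm.aemeasurable hS]
      filter_upwards [ae_all_iff.2 hgc', ae_all_iff.2 hgr'] with x h1 h2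
      unfold cor
      have e1 : (fun j : {j // j ≠ j0} => gc j (fun i : {i // i ≠ i0} => x i j)) =
          fun j : {j // j ≠ j0} => x i0 j := by
        funext j; exact (h1 j).symm
      have e2 : (fun i : {i // i ≠ i0} => gr i (fun j : {j // j ≠ j0} => x i j)) =
          fun i : {i // i ≠ i0} => x i j0 := by
        funext i; exact (h2 i).symm
      have e3 : x i0 j0 = gr i0 (fun j : {j // j ≠ j0} => x i0 j) := h2 i0
      have e4 : x i0 j0 = gc j0 (fun i : {i // i ≠ i0} => x i j0) := h1 j0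
      show gr i0 (fun j : {j // j ≠ j0} => gc j (fun i : {i // i ≠ i0} => x i j)) =
        gc j0 (fun i : {i // i ≠ i0} => gr i (fun j : {j // j ≠ j0} => x i j))
      rw [e1, e2, ← e3, ← e4]
    rw [hblockL] at key
    exact key
  · exact fun j i => ⟨(i, j), rfl, rfl⟩
  · exact fun p q h1 h2 => Prod.ext h2 h1
  · intro j
    obtain ⟨k, h1, h2⟩ := hne j j0
    exact ⟨⟨k, h2⟩, fun h => h1 (congrArg Subtype.val h).symm⟩
  · intro i
    obtain ⟨k, h1, h2⟩ := hne i i0
    exact ⟨⟨k, h2⟩, fun h => h1 (congrArg Subtype.val h).symm⟩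
  · have hrm : Measurable (fun (x : R → R → E) (j : {j // j ≠ j0}) => x i0 j) :=
      measurable_pi_lambda _ fun j => hX i0 j
    have hwm : Measurable (fun (w : {j // j ≠ j0} → E) (j : R) =>
        if hj : j = j0 then gr i0 w else w ⟨j, hj⟩) := by
      refine measurable_pi_lambda _ fun j => ?_
      by_cases hj : j = j0
      · simp only [hj, dite_true]; exact hgr i0
      · simp only [hj, dite_false]; exact measurable_pi_apply _
    show rho.map (fun x => x i0) = (Measure.pi fun j : {j // j ≠ j0} =>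
      rho.map (fun x => x i0 j)).map _
    rw [← hrowL, Measure.map_map hwm hrm]
    refine Measure.map_congr ?_
    filter_upwards [hgr' i0] with x hx
    funext j
    by_cases hj : j = j0
    · subst hj
      simp only [comp_apply, dite_true]
      exact hx
    · simp [hj]

end

end Crest.Agent.R069.StaticModel
end

-- ▼ part R069/Static4
section

/-!
# Row 69, node STATIC, part 4: the moves of the line outputs, commutation
-/

open MeasureTheory ProbabilityTheory Function
open scoped ENNReal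

set_option linter.unusedSectionVars false

namespace Crest.Agent.R069.Static

noncomputable section

variable {P : Type*} [Fintype P] [DecidableEq P] {J : Type*} [Fintype J] [DecidableEq J]
  {I : Type*} [Fintype I] [DecidableEq I]
  {E : Type*} [MeasurableSpace E]

namespace Side

variable {μ : P → Measure E} {b : P → J} {β : J → Measure E} {v : J → (P → E) → E}
    {Ψ : (J → E) → E} {μY : Measure E} (S : Side μ b β v Ψ μY)

include S

theorem v_piecewise (j : J) (ξ η : P → E) (s : Finset P) (hs : ∀ q ∈ s, b q ≠ j) :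
    v j (s.piecewise η ξ) = v j ξ := by
  induction s using Finset.induction_on with
  | empty => simp
  | insert q s hq ih =>
    rw [Finset.piecewise_insert, S.dep j _ q _ (hs q (Finset.mem_insert_self _ _))]
    exact ih fun r hr => hs r (Finset.mem_insert_of_mem hr)

/-- `v j` depends only on the entries of line `j`. -/
theorem v_congr (j : J) {ξ η : P → E} (h : ∀ q, b q = j → ξ q = η q) : v j ξ = v j η := by
  have h1 := S.v_piecewise j ξ η (Finset.univ.filter fun q => b q ≠ j) (by simp)
  rw [← h1]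
  congr 1
  funext q
  by_cases hq : b q = j
  · simp [hq, h q hq]
  · simp [hq]

theorem mp_v (j : J) : MeasurePreserving (v j) (Measure.pi μ) (β j) := by
  have := S.pβ
  exact (measurePreserving_eval β j).comp S.law

/-- joint law of all outputs and the moved output. -/
theorem mp_v_update (p : P) :
    MeasurePreserving (fun x : (P → E) × (P → E) =>
        ((fun j => v j x.1), v (b p) (update x.1 p (x.2 p))))
      ((Measure.pi μ).prod (Measure.pi μ)) ((Measure.pi β).prod (β (b p))) := by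
  have := S.pμ
  have := S.pβ
  have h1 : MeasurePreserving (fun x : (P → E) × E =>
        ((fun j => v j x.1), v (b p) (update x.1 p x.2)))
      ((Measure.pi μ).prod (μ p)) ((Measure.pi β).prod (β (b p))) :=
    S.law.skew_product (g := fun ξ t => v (b p) (update ξ p t))
      ((S.mv _).comp (measurable_update_prod' p)) (S.fib p)
  exact h1.comp ((MeasurePreserving.id _).prod (measurePreserving_eval μ p))

theorem mp_v_pair (p : P) :
    MeasurePreserving (fun x : (P → E) × (P → E) => (v (b p) x.1, v (b p) (update x.1 p (x.2 p))))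
      ((Measure.pi μ).prod (Measure.pi μ)) ((β (b p)).prod (β (b p))) := by
  have := S.pμ
  have := S.pβ
  have h1 : MeasurePreserving (fun x : (P → E) × E => (v (b p) x.1, v (b p) (update x.1 p x.2)))
      ((Measure.pi μ).prod (μ p)) ((β (b p)).prod (β (b p))) :=
    (S.mp_v (b p)).skew_product (g := fun ξ t => v (b p) (update ξ p t))
      ((S.mv _).comp (measurable_update_prod' p)) (S.fib p)
  exact h1.comp ((MeasurePreserving.id _).prod (measurePreserving_eval μ p))

/-- the corner and the moved corner are independent. -/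
theorem mp_cor_pair (p : P) :
    MeasurePreserving (fun x : (P → E) × (P → E) =>
        (cor v Ψ x.1, cor v Ψ (update x.1 p (x.2 p))))
      ((Measure.pi μ).prod (Measure.pi μ)) (μY.prod μY) := by
  have := S.pμ
  have := S.pY
  haveI : Nonempty P := ⟨p⟩
  have h1 : MeasurePreserving (fun x : (P → E) × E => (cor v Ψ x.1, cor v Ψ (update x.1 p x.2)))
      ((Measure.pi μ).prod (μ p)) (μY.prod μY) :=
    S.mp_cor.skew_product (g := fun ξ t => cor v Ψ (update ξ p t))
      (S.measurable_cor.comp (measurable_update_prod' p)) (S.fib_cor p)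
  exact h1.comp ((MeasurePreserving.id _).prod (measurePreserving_eval μ p))

/-- parameters of the move of output `b p` and the moved corner -/
def mv3 (v : J → (P → E) → E) (Ψ : (J → E) → E) (b : P → J) (p : P)
    (x : (P → E) × (P → E)) : (E × E) × E :=
  ((v (b p) x.1, v (b p) (update x.1 p (x.2 p))), cor v Ψ (update x.1 p (x.2 p)))

theorem mp_mv3 (p : P) (hnt : ∃ q, b q ≠ b p) :
    MeasurePreserving (mv3 v Ψ b p)
      ((Measure.pi μ).prod (Measure.pi μ)) (((β (b p)).prod (β (b p))).prod μY) := by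
  have := S.pμ
  have := S.pβ
  have := S.pY
  obtain ⟨q, hq⟩ := hnt
  have hqp : q ∉ ({p} : Finset P) := by
    rw [Finset.mem_singleton]; rintro rfl; exact hq rfl
  have hm : Measurable (fun x : ((P → E) × (P → E)) × E =>
      (((v (b p) x.1.1, v (b p) (update x.1.1 p (x.1.2 p))), x.2) : (E × E) × E)) :=
    ((((S.mv _).comp (measurable_fst.comp measurable_fst)).prodMk
      ((S.mv _).comp ((measurable_update_prod p).comp measurable_fst)))).prodMk measurable_snd
  have h := S.transfer {p} q hqp _ hm (fun x t => by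
    have hpq : p ≠ q := by rintro rfl; exact hq rfl
    simp only
    rw [S.dep (b p) x.1.1 q t hq, update_comm hpq.symm, S.dep (b p) _ q t hq])
  have h2 : MeasurePreserving (fun x : ((P → E) × (P → E)) × E =>
      (((v (b p) x.1.1, v (b p) (update x.1.1 p (x.1.2 p))), x.2) : (E × E) × E))
      (((Measure.pi μ).prod (Measure.pi μ)).prod μY) (((β (b p)).prod (β (b p))).prod μY) :=
    (S.mp_v_pair p).prod (MeasurePreserving.id _)
  rw [h2.map_eq] at h
  refine ⟨?_, ?_⟩
  · exact ((((S.mv _).comp measurable_fst).prodMk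
      ((S.mv _).comp (measurable_update_prod p)))).prodMk
        (S.measurable_cor.comp (measurable_update_prod p))
  · rw [← h]
    congr 1
    funext x
    simp [mv3, Finset.piecewise_singleton]

end Side

namespace Arr

variable {μ : P → Measure E} {b : P → J} {β : J → Measure E} {v : J → (P → E) → E}
    {Ψ : (J → E) → E} {a : P → I} {α : I → Measure E} {u : I → (P → E) → E}
    {Φ : (I → E) → E} {μY : Measure E} (A : Arr μ b β v Ψ a α u Φ μY)

include A

/-- A third entry. -/
theorem exists_third (p q : P) : ∃ r, r ≠ p ∧ r ≠ q := by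
  obtain ⟨j', hj⟩ := A.nt (b p)
  obtain ⟨i', hi⟩ := A.nt' (a p)
  obtain ⟨r1, h11, h12⟩ := A.surj j' (a p)
  obtain ⟨r2, h21, h22⟩ := A.surj (b p) i'
  by_cases h : r1 = q
  · refine ⟨r2, ?_, ?_⟩
    · rintro rfl; exact hi h22
    · rintro rfl; rw [h] at h11; exact hj (h21.symm.trans h11)
  · exact ⟨r1, by rintro rfl; exact hj h11, h⟩

/-- Commutation of the single-entry moves. -/
theorem G_comm [StandardBorelSpace E] {p q : P} (hpq : p ≠ q) {Gp Gq : E × E × E → E}
    (hGp : Measurable Gp) (hGq : Measurable Gq)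
    (hp : ∀ᵐ x ∂((Measure.pi μ).prod (Measure.pi μ)),
        cor v Ψ x.1 = Gp (x.1 p, x.2 p, cor v Ψ (update x.1 p (x.2 p))))
    (hq : ∀ᵐ x ∂((Measure.pi μ).prod (Measure.pi μ)),
        cor v Ψ x.1 = Gq (x.1 q, x.2 q, cor v Ψ (update x.1 q (x.2 q)))) :
    ∀ᵐ x ∂(((Measure.pi μ).prod (Measure.pi μ)).prod μY),
      Gp (x.1.1 p, x.1.2 p, Gq (x.1.1 q, x.1.2 q, x.2)) =
        Gq (x.1.1 q, x.1.2 q, Gp (x.1.1 p, x.1.2 p, x.2)) := by
  have := A.col.pμ
  obtain ⟨r, hrp, hrq⟩ := A.exists_third p q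
  have hrs : r ∉ ({p, q} : Finset P) := by simp [hrp, hrq]
  have m1 : ∀ p' : P, Measurable (fun x : ((P → E) × (P → E)) × E => x.1.1 p') := fun p' =>
    (measurable_pi_apply p').comp (measurable_fst.comp measurable_fst)
  have m2 : ∀ p' : P, Measurable (fun x : ((P → E) × (P → E)) × E => x.1.2 p') := fun p' =>
    (measurable_pi_apply p').comp (measurable_snd.comp measurable_fst)
  have hQ : MeasurableSet {x : ((P → E) × (P → E)) × E |
      Gp (x.1.1 p, x.1.2 p, Gq (x.1.1 q, x.1.2 q, x.2)) =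
        Gq (x.1.1 q, x.1.2 q, Gp (x.1.1 p, x.1.2 p, x.2))} := by
    refine measurableSet_eq_fun ?_ ?_
    · exact hGp.comp ((m1 p).prodMk ((m2 p).prodMk
        (hGq.comp ((m1 q).prodMk ((m2 q).prodMk measurable_snd)))))
    · exact hGq.comp ((m1 q).prodMk ((m2 q).prodMk
        (hGp.comp ((m1 p).prodMk ((m2 p).prodMk measurable_snd)))))
  refine (A.col.transfer_ae {p, q} r hrs _ hQ (fun x t => ?_)).1 ?_
  · simp only [Set.mem_ofPred_eq, update_of_ne hrp.symm, update_of_ne hrq.symm]
  · have hp' := (mp_sw μ {q}).quasiMeasurePreserving.ae hp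
    have hq' := (mp_sw μ {p}).quasiMeasurePreserving.ae hq
    filter_upwards [hp, hq, hp', hq'] with x h1 h2 h3 h4
    rw [sw_single] at h3 h4
    simp only at h3 h4
    rw [update_of_ne hpq, update_of_ne hpq] at h3
    rw [update_of_ne hpq.symm, update_of_ne hpq.symm] at h4
    have e1 : ({p, q} : Finset P).piecewise x.2 x.1 =
        update (update x.1 q (x.2 q)) p (x.2 p) := by
      rw [Finset.piecewise_insert, Finset.piecewise_singleton]
    have e2 : ({p, q} : Finset P).piecewise x.2 x.1 =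
        update (update x.1 p (x.2 p)) q (x.2 q) := by
      rw [e1, update_comm hpq]
    show Gp (x.1 p, x.2 p, Gq (x.1 q, x.2 q, cor v Ψ (({p, q} : Finset P).piecewise x.2 x.1))) =
      Gq (x.1 q, x.2 q, Gp (x.1 p, x.2 p, cor v Ψ (({p, q} : Finset P).piecewise x.2 x.1)))
    conv_lhs => rw [e2, ← h4, ← h1]
    conv_rhs => rw [e1, ← h3, ← h2]

end Arr

end

end Crest.Agent.R069.Static
end

-- ▼ part R069/Static5
section

/-!
# Row 69, node STATIC, part 5: the moves `Γ j` of the line outputs
-/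

open MeasureTheory ProbabilityTheory Function
open scoped ENNReal

set_option linter.unusedSectionVars false

namespace Crest.Agent.R069.Static

noncomputable section

variable {P : Type*} [Fintype P] [DecidableEq P] {J : Type*} [Fintype J] [DecidableEq J]
  {I : Type*} [Fintype I] [DecidableEq I]
  {E : Type*} [MeasurableSpace E]

/-- The corner reconstructed from the outputs `w`, the new output `t'` of line `j` and the moved
corner, without using `w j2`. -/
def KP (Ψ : (J → E) → E) (j j2 : J) (g : (J → E) → E) (x : ((J → E) × E) × E) : E :=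
  Ψ (update x.1.1 j2 (g (update (update x.1.1 j x.1.2) j2 x.2)))

namespace Side

variable {μ : P → Measure E} {b : P → J} {β : J → Measure E} {v : J → (P → E) → E}
    {Ψ : (J → E) → E} {μY : Measure E} (S : Side μ b β v Ψ μY)

include S

theorem measurable_KP (j j2 : J) {g : (J → E) → E} (hg : Measurable g) :
    Measurable (KP Ψ j j2 g) := by
  have h1 : Measurable (fun x : ((J → E) × E) × E => update x.1.1 j x.1.2) :=
    (S.measurable_update_pi j).comp measurable_fst
  have h2 : Measurable (fun x : ((J → E) × E) × E => update (update x.1.1 j x.1.2) j2 x.2) :=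
    (S.measurable_update_pi j2).comp (h1.prodMk measurable_snd)
  exact S.mΨ.comp ((S.measurable_update_pi j2).comp
    ((measurable_fst.comp measurable_fst).prodMk (hg.comp h2)))

theorem KK_eq_KP (p : P) (j2 : J) (g : (J → E) → E) (x : ((P → E) × (P → E)) × E) :
    KK v Ψ p j2 g x =
      KP Ψ (b p) j2 g (((fun k => v k x.1.1), v (b p) (update x.1.1 p (x.1.2 p))), x.2) := by
  unfold KK KP
  rw [S.v_update]

end Side

namespace Arr

variable {μ : P → Measure E} {b : P → J} {β : J → Measure E} {v : J → (P → E) → E}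
    {Ψ : (J → E) → E} {a : P → I} {α : I → Measure E} {u : I → (P → E) → E}
    {Φ : (I → E) → E} {μY : Measure E} (A : Arr μ b β v Ψ a α u Φ μY)

include A

/-- `KK` equals `G` on the free space. -/
theorem KK_eq_G [StandardBorelSpace E] (p : P) {G : E × E × E → E} (hGm : Measurable G)
    (hG : ∀ᵐ x ∂((Measure.pi μ).prod (Measure.pi μ)),
        cor v Ψ x.1 = G (x.1 p, x.2 p, cor v Ψ (update x.1 p (x.2 p))))
    (j2 : J) (hj2 : b p ≠ j2) {g : (J → E) → E} (hgm : Measurable g)
    (hg : ∀ᵐ w ∂(Measure.pi β), w j2 = g (update w j2 (Ψ w))) :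
    ∀ᵐ x ∂(((Measure.pi μ).prod (Measure.pi μ)).prod μY),
      KK v Ψ p j2 g x = G (x.1.1 p, x.1.2 p, x.2) := by
  obtain ⟨q, hq1, -⟩ := A.surj j2 (a p)
  have hqp : q ≠ p := by rintro rfl; exact hj2 hq1
  have hqp' : q ∉ ({p} : Finset P) := by simpa using hqp
  have hQ : MeasurableSet {x : ((P → E) × (P → E)) × E |
      KK v Ψ p j2 g x = G (x.1.1 p, x.1.2 p, x.2)} := by
    refine measurableSet_eq_fun (A.col.measurable_KK p j2 hgm) (hGm.comp ?_)
    exact ((measurable_pi_apply p).comp (measurable_fst.comp measurable_fst)).prodMk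
      (((measurable_pi_apply p).comp (measurable_snd.comp measurable_fst)).prodMk measurable_snd)
  refine (A.col.transfer_ae {p} q hqp' _ hQ (fun x t => ?_)).1 ?_
  · simp only [Set.mem_ofPred_eq]
    rw [A.col.KK_inv p j2 hj2 g q hq1, update_of_ne hqp.symm]
  · filter_upwards [hG, A.col.KK_eq p j2 hj2 hg] with x h1 h2
    show KK v Ψ p j2 g (x, cor v Ψ (({p} : Finset P).piecewise x.2 x.1)) =
      G (x.1 p, x.2 p, cor v Ψ (({p} : Finset P).piecewise x.2 x.1))
    rw [Finset.piecewise_singleton, h2, ← h1]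

/-- **The moves of the line outputs.** -/
theorem exists_Gam [StandardBorelSpace E] (j : J) :
    ∃ Γ : (E × E) × E → E, Measurable Γ ∧ ∀ p, b p = j →
      ∀ G : E × E × E → E, Measurable G →
      (∀ᵐ x ∂((Measure.pi μ).prod (Measure.pi μ)),
        cor v Ψ x.1 = G (x.1 p, x.2 p, cor v Ψ (update x.1 p (x.2 p)))) →
      ∀ᵐ x ∂(((Measure.pi μ).prod (Measure.pi μ)).prod μY),
        Γ ((v j x.1.1, v j (update x.1.1 p (x.1.2 p))), x.2) = G (x.1.1 p, x.1.2 p, x.2) := by
  classical
  have := A.col.pμ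
  have := A.col.pY
  obtain ⟨j2, hj2⟩ := A.nt j
  obtain ⟨g, hgm, hg⟩ := A.col.inv j2
  -- one move function for every entry of the line
  choose G hGm hG using fun p => A.exists_G p
  let s : Finset P := Finset.univ.filter fun q => b q ≠ j
  let W := (P → E) × E
  let ω : Measure W := (Measure.pi μ).prod μY
  have hassoc : MeasurePreserving (fun x : (P → E) × W => ((x.1, x.2.1), x.2.2))
      ((Measure.pi μ).prod ω) (((Measure.pi μ).prod (Measure.pi μ)).prod μY) :=
    (measurePreserving_prodAssoc (Measure.pi μ) (Measure.pi μ) μY).symm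
      MeasurableEquiv.prodAssoc
  have hpw : MeasurePreserving
      (fun x : ((P → E) × (P → E)) × W => (s.piecewise x.1.2 x.1.1, x.2))
      (((Measure.pi μ).prod (Measure.pi μ)).prod ω) ((Measure.pi μ).prod ω) :=
    (mp_piecewise μ s).prod (MeasurePreserving.id _)
  have hre : MeasurePreserving
      (fun x : (P → E) × ((P → E) × W) => ((x.2.1, x.1), x.2.2))
      ((Measure.pi μ).prod ((Measure.pi μ).prod ω))
      (((Measure.pi μ).prod (Measure.pi μ)).prod ω) := by
    have h1 := (measurePreserving_prodAssoc (Measure.pi μ) (Measure.pi μ) ω).symm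
      MeasurableEquiv.prodAssoc
    have h2 : MeasurePreserving (fun x : ((P → E) × (P → E)) × W => (x.1.swap, x.2))
        (((Measure.pi μ).prod (Measure.pi μ)).prod ω)
        (((Measure.pi μ).prod (Measure.pi μ)).prod ω) :=
      (Measure.measurePreserving_swap).prod (MeasurePreserving.id _)
    exact h2.comp h1
  have key : ∀ p, b p = j → ∀ᵐ ξ' ∂(Measure.pi μ), ∀ᵐ y ∂((Measure.pi μ).prod ω),
      KP Ψ j j2 g ((update (fun k => v k ξ') j (v j y.1), v j (update y.1 p (y.2.1 p))), y.2.2) =
        G p (y.1 p, y.2.1 p, y.2.2) := by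
    intro p hp
    have hpj : b p ≠ j2 := by rw [hp]; exact hj2
    have h1 := A.KK_eq_G p (hGm p) (hG p) j2 hpj hgm hg
    have h2 := ((hassoc.comp hpw).comp hre).quasiMeasurePreserving.ae h1
    have aux : ∀ x : (P → E) × ((P → E) × W),
        KK v Ψ p j2 g ((s.piecewise x.1 x.2.1, x.2.2.1), x.2.2.2) =
          G p (s.piecewise x.1 x.2.1 p, x.2.2.1 p, x.2.2.2) →
        KP Ψ j j2 g ((update (fun k => v k x.1) j (v j x.2.1),
          v j (update x.2.1 p (x.2.2.1 p))), x.2.2.2) =
          G p (x.2.1 p, x.2.2.1 p, x.2.2.2) := by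
      intro x hx
      rw [A.col.KK_eq_KP] at hx
      have hps : p ∉ s := by simp [s, hp]
      -- coordinates of the mixed configuration
      have e1 : v j (s.piecewise x.1 x.2.1) = v j x.2.1 :=
        A.col.v_congr j (fun q hq => by simp [s, hq])
      have e2 : (fun k => v k (s.piecewise x.1 x.2.1)) =
          update (fun k => v k x.1) j (v j x.2.1) := by
        funext k
        by_cases hk : k = j
        · subst hk; simp [e1]
        · rw [update_of_ne hk]
          refine A.col.v_congr k (fun q hq => ?_)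
          have : q ∈ s := by simp only [s, Finset.mem_filter, Finset.mem_univ, true_and]; rw [hq]; exact hk
          simp [this]
      have e3 : v j (update (s.piecewise x.1 x.2.1) p (x.2.2.1 p)) =
          v j (update x.2.1 p (x.2.2.1 p)) := by
        refine A.col.v_congr j (fun q hq => ?_)
        have hqs : q ∉ s := by simp [s, hq]
        by_cases hqp : q = p
        · subst hqp; simp
        · simp [hqp, hqs]
      have e4 : s.piecewise x.1 x.2.1 p = x.2.1 p := by simp [hps]
      simp only [hp] at hx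
      rw [e2, e3, e4] at hx
      exact hx
    have h3 : ∀ᵐ x ∂((Measure.pi μ).prod ((Measure.pi μ).prod ω)),
        KP Ψ j j2 g ((update (fun k => v k x.1) j (v j x.2.1),
          v j (update x.2.1 p (x.2.2.1 p))), x.2.2.2) =
          G p (x.2.1 p, x.2.2.1 p, x.2.2.2) := by
      refine h2.mono fun x hx => ?_
      simp only [comp_apply] at hx
      exact aux x hx
    exact Measure.ae_ae_of_ae_prod h3
  have key2 : ∀ᵐ ξ' ∂(Measure.pi μ), ∀ p, b p = j → ∀ᵐ y ∂((Measure.pi μ).prod ω),
      KP Ψ j j2 g ((update (fun k => v k ξ') j (v j y.1), v j (update y.1 p (y.2.1 p))), y.2.2) =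
        G p (y.1 p, y.2.1 p, y.2.2) := by
    rw [ae_all_iff]
    intro p
    by_cases hp : b p = j
    · filter_upwards [key p hp] with ξ' h _ using h
    · exact Filter.Eventually.of_forall fun _ h => absurd h hp
  obtain ⟨ξs, hξs⟩ := key2.exists
  refine ⟨fun y => KP Ψ j j2 g ((update (fun k => v k ξs) j y.1.1, y.1.2), y.2), ?_, ?_⟩
  · refine (A.col.measurable_KP j j2 hgm).comp ?_
    exact (((measurable_update _).comp (measurable_fst.comp measurable_fst)).prodMk
      (measurable_snd.comp measurable_fst)).prodMk measurable_snd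
  · intro p hp G' hG'm hG'
    have hpj : b p ≠ j2 := by rw [hp]; exact hj2
    have h1 := A.KK_eq_G p (hGm p) (hG p) j2 hpj hgm hg
    have h2 := A.KK_eq_G p hG'm hG' j2 hpj hgm hg
    have h3 := (hassoc.symm (e := MeasurableEquiv.prodAssoc.symm)).quasiMeasurePreserving.ae
      (hξs p hp)
    filter_upwards [h1, h2, h3] with x h1 h2 h3
    rw [← h2, h1]
    exact h3

/-- The key identity. -/
theorem Gam_mv3 [StandardBorelSpace E] (p : P) {Γ : (E × E) × E → E} (hΓm : Measurable Γ)
    (hΓ : ∀ G : E × E × E → E, Measurable G →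
      (∀ᵐ x ∂((Measure.pi μ).prod (Measure.pi μ)),
        cor v Ψ x.1 = G (x.1 p, x.2 p, cor v Ψ (update x.1 p (x.2 p)))) →
      ∀ᵐ x ∂(((Measure.pi μ).prod (Measure.pi μ)).prod μY),
        Γ ((v (b p) x.1.1, v (b p) (update x.1.1 p (x.1.2 p))), x.2) =
          G (x.1.1 p, x.1.2 p, x.2)) :
    ∀ᵐ x ∂((Measure.pi μ).prod (Measure.pi μ)), cor v Ψ x.1 = Γ (Side.mv3 v Ψ b p x) := by
  obtain ⟨G, hGm, hG⟩ := A.exists_G p
  have h1 := hΓ G hGm hG
  obtain ⟨j2, hj2⟩ := A.nt (b p)
  obtain ⟨q, hq1, -⟩ := A.surj j2 (a p)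
  have hqp : q ≠ p := by rintro rfl; exact hj2 hq1
  have hqp' : q ∉ ({p} : Finset P) := by simpa using hqp
  have hbq : b q ≠ b p := by rw [hq1]; exact hj2.symm
  have hQ : MeasurableSet {x : ((P → E) × (P → E)) × E |
      Γ ((v (b p) x.1.1, v (b p) (update x.1.1 p (x.1.2 p))), x.2) =
          G (x.1.1 p, x.1.2 p, x.2)} := by
    refine measurableSet_eq_fun (hΓm.comp ?_) (hGm.comp ?_)
    · exact ((((A.col.mv _).comp (measurable_fst.comp measurable_fst)).prodMk
        ((A.col.mv _).comp ((measurable_update_prod p).comp measurable_fst)))).prodMk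
          measurable_snd
    · exact ((measurable_pi_apply p).comp (measurable_fst.comp measurable_fst)).prodMk
        (((measurable_pi_apply p).comp (measurable_snd.comp measurable_fst)).prodMk
          measurable_snd)
  have h2 := (A.col.transfer_ae {p} q hqp' _ hQ (fun x t => by
    simp only [Set.mem_ofPred_eq]
    rw [A.col.dep (b p) x.1.1 q t hbq, update_comm hqp, A.col.dep (b p) _ q t hbq,
      update_of_ne hqp.symm])).2 h1
  filter_upwards [h2, hG] with x h2 h3
  have h2' : Γ ((v (b p) x.1, v (b p) (update x.1 p (x.2 p))),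
      cor v Ψ (({p} : Finset P).piecewise x.2 x.1)) =
        G (x.1 p, x.2 p, cor v Ψ (({p} : Finset P).piecewise x.2 x.1)) := h2
  rw [Finset.piecewise_singleton] at h2'
  rw [h3, ← h2']
  rfl

end Arr

end

end Crest.Agent.R069.Static
end

-- ▼ part R069/ArrCH
section

/-! Row 69, STATIC: Theorem CH (helper627). For a family of a.e. commuting averaging actions
`g j : V j → Y → Y` of a probability space (`g v y` independent of `y`, measure preserving, with
inverses), the unimodular joint eigenfunctions are total in `L²`. Proof by Hilbert--Schmidt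
operators (fibrewise Bessel) and the spectral theorem for compact operators. -/

set_option autoImplicit false
set_option linter.deprecated false
set_option linter.unusedSectionVars false

open MeasureTheory ProbabilityTheory Filter Set
open scoped ComplexConjugate ENNReal InnerProductSpace Topology

namespace Crest.Agent.R069.ArrCH

section Hilbert

variable {H : Type*} [NormedAddCommGroup H] [InnerProductSpace ℂ H] [CompleteSpace H]

/-- A family of commuting operators acting on a nonzero finite dimensional invariant subspace has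
a joint eigenvector there. -/
theorem exists_joint_of_finite (F : Set (H →L[ℂ] H))
    (hcomm : ∀ A ∈ F, ∀ B ∈ F, ∀ x, A (B x) = B (A x))
    (n : ℕ) (W : Submodule ℂ H) (hfin : FiniteDimensional ℂ W) (hn : Module.finrank ℂ W ≤ n)
    (hne : W ≠ ⊥) (hinv : ∀ A ∈ F, ∀ w ∈ W, A w ∈ W) :
    ∃ v ∈ W, v ≠ 0 ∧ ∀ A ∈ F, ∃ c : ℂ, A v = c • v := by
  induction n generalizing W with
  | zero =>
    exfalso
    apply hne
    exact Submodule.finrank_eq_zero.1 (Nat.le_zero.1 hn)
  | succ n ih =>
    by_cases hall : ∀ A ∈ F, ∃ c : ℂ, ∀ w ∈ W, A w = c • w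
    · obtain ⟨v, hv, hv0⟩ := W.exists_mem_ne_zero_of_ne_bot hne
      refine ⟨v, hv, hv0, fun A hA => ?_⟩
      obtain ⟨c, hc⟩ := hall A hA
      exact ⟨c, hc v hv⟩
    · push Not at hall
      obtain ⟨A, hA, hAc⟩ := hall
      -- restrict `A` to `W`
      let B : W →ₗ[ℂ] W := (A : H →ₗ[ℂ] H).restrict (fun w hw => hinv A hA w hw)
      have hnt : Nontrivial W := Submodule.nontrivial_iff_ne_bot.2 hne
      obtain ⟨c, hc⟩ := Module.End.exists_eigenvalue B
      obtain ⟨w0, hw0⟩ := hc.exists_hasEigenvector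
      let W' : Submodule ℂ H := W ⊓ LinearMap.ker ((A : H →ₗ[ℂ] H) - c • LinearMap.id)
      have hmem : ∀ w, w ∈ W' ↔ w ∈ W ∧ A w = c • w := by
        intro w
        simp only [W', Submodule.mem_inf, LinearMap.mem_ker, LinearMap.sub_apply,
          ContinuousLinearMap.coe_coe, LinearMap.smul_apply, LinearMap.id_apply, sub_eq_zero]
      have hle : W' ≤ W := inf_le_left
      have hfin' : FiniteDimensional ℂ W' := Submodule.finiteDimensional_of_le hle
      have hlt : W' < W := by
        refine lt_of_le_of_ne hle fun heq => ?_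
        obtain ⟨w, hw, hw'⟩ := hAc c
        exact hw' ((hmem w).1 (heq ▸ hw)).2
      have hne' : W' ≠ ⊥ := by
        intro hbot
        have h1 : (w0 : H) ∈ W' := by
          rw [hmem]
          refine ⟨w0.2, ?_⟩
          have := hw0.apply_eq_smul
          have h2 := congrArg (Subtype.val) this
          simpa [B] using h2
        rw [hbot, Submodule.mem_bot] at h1
        exact hw0.2 (Subtype.ext h1)
      have hinv' : ∀ B ∈ F, ∀ w ∈ W', B w ∈ W' := by
        intro B hB w hw
        rw [hmem] at hw ⊢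
        refine ⟨hinv B hB w hw.1, ?_⟩
        rw [hcomm A hA B hB, hw.2, map_smul]
      have hrank : Module.finrank ℂ W' ≤ n := by
        have := Submodule.finrank_lt_finrank_of_lt hlt
        omega
      obtain ⟨v, hv, hv0, hvF⟩ := ih W' hfin' hrank hne' hinv'
      exact ⟨v, hle hv, hv0, hvF⟩

/-- Commuting compact operators, closed under adjoints, with trivial joint kernel: the joint
eigenvectors are total. -/
theorem joint_total (F : Set (H →L[ℂ] H)) (hc : ∀ A ∈ F, IsCompactOperator A)
    (hadj : ∀ A ∈ F, ContinuousLinearMap.adjoint A ∈ F)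
    (hcomm : ∀ A ∈ F, ∀ B ∈ F, ∀ x, A (B x) = B (A x))
    (hker : ∀ x : H, (∀ A ∈ F, A x = 0) → x = 0)
    (x : H) (hx : ∀ v : H, (∀ A ∈ F, ∃ c : ℂ, A v = c • v) → ⟪v, x⟫_ℂ = 0) : x = 0 := by
  classical
  by_contra hx0
  set J : Set H := {v | ∀ A ∈ F, ∃ c : ℂ, A v = c • v} with hJ
  set K : Submodule ℂ H := (Submodule.span ℂ J)ᗮ with hK
  have hKmem : ∀ z, z ∈ K ↔ ∀ v ∈ J, ⟪v, z⟫_ℂ = 0 := by
    intro z
    constructor
    · intro hz v hv
      exact (Submodule.mem_orthogonal _ _).1 hz v (Submodule.subset_span hv)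
    · intro hz
      rw [hK, Submodule.mem_orthogonal]
      intro u hu
      induction hu using Submodule.span_induction with
      | mem v hv => exact hz v hv
      | zero => simp
      | add a b _ _ ha hb => rw [inner_add_left, ha, hb, add_zero]
      | smul c a _ ha => rw [inner_smul_left, ha, mul_zero]
  have hxK : x ∈ K := (hKmem x).2 hx
  have hKinv : ∀ A ∈ F, ∀ z ∈ K, A z ∈ K := by
    intro A hA z hz
    rw [hKmem] at hz ⊢
    intro v hv
    obtain ⟨c, hc⟩ := hv _ (hadj A hA)
    rw [← ContinuousLinearMap.adjoint_inner_left, hc, inner_smul_left, hz v hv, mul_zero]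
  obtain ⟨A, hA, hAx⟩ : ∃ A ∈ F, A x ≠ 0 := by
    by_contra hcon
    push Not at hcon
    exact hx0 (hker x hcon)
  -- a self-adjoint combination that does not kill `x`
  obtain ⟨S, hSc, hSs, hSx, hSK, hSF⟩ : ∃ S : H →L[ℂ] H, IsCompactOperator S ∧
      (S : H →ₗ[ℂ] H).IsSymmetric ∧ S x ≠ 0 ∧ (∀ z ∈ K, S z ∈ K) ∧
      (∀ B ∈ F, ∀ z, S (B z) = B (S z)) := by
    set A' := ContinuousLinearMap.adjoint A with hA'
    have hA'F := hadj A hA
    have hcA' : IsCompactOperator A' := hc _ hA'F
    by_cases h1 : (A + A') x = 0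
    · refine ⟨(Complex.I : ℂ) • (A - A'), ?_, ?_, ?_, ?_, ?_⟩
      · have := ((hc A hA).sub hcA').smul (Complex.I : ℂ)
        exact this
      · intro u w
        simp only [ContinuousLinearMap.coe_coe, ContinuousLinearMap.smul_apply,
          ContinuousLinearMap.sub_apply, inner_smul_left, inner_smul_right, inner_sub_left,
          inner_sub_right, hA']
        rw [ContinuousLinearMap.adjoint_inner_left, ContinuousLinearMap.adjoint_inner_right]
        simp only [Complex.conj_I]
        ring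
      · intro h2
        simp only [ContinuousLinearMap.smul_apply, smul_eq_zero, Complex.I_ne_zero,
          false_or, ContinuousLinearMap.sub_apply] at h2
        simp only [ContinuousLinearMap.add_apply] at h1
        have h3 : (2 : ℂ) • A x = 0 := by
          rw [two_smul]
          calc A x + A x = (A x + A' x) + (A x - A' x) := by abel
            _ = 0 := by rw [h1, h2, add_zero]
        exact hAx (by simpa using h3)
      · intro z hz
        simp only [ContinuousLinearMap.smul_apply, ContinuousLinearMap.sub_apply]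
        exact K.smul_mem _ (K.sub_mem (hKinv A hA z hz) (hKinv _ hA'F z hz))
      · intro B hB z
        simp only [ContinuousLinearMap.smul_apply, ContinuousLinearMap.sub_apply]
        rw [hcomm A hA B hB, hcomm A' hA'F B hB, map_smul, map_sub]
    · refine ⟨A + A', (hc A hA).add hcA', ?_, h1, ?_, ?_⟩
      · intro u w
        simp only [ContinuousLinearMap.coe_coe, ContinuousLinearMap.add_apply, inner_add_left,
          inner_add_right, hA']
        rw [ContinuousLinearMap.adjoint_inner_left, ContinuousLinearMap.adjoint_inner_right]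
        exact add_comm _ _
      · intro z hz
        simp only [ContinuousLinearMap.add_apply]
        exact K.add_mem (hKinv A hA z hz) (hKinv _ hA'F z hz)
      · intro B hB z
        simp only [ContinuousLinearMap.add_apply]
        rw [hcomm A hA B hB, hcomm A' hA'F B hB, map_add]
  have hclosed : IsClosed (K : Set H) := Submodule.isClosed_orthogonal _
  have hcomplete : CompleteSpace K := hclosed.completeSpace_coe
  let T : K →L[ℂ] K := S.restrict hSK
  have hTapp : ∀ z : K, ((T z : K) : H) = S z := fun z => rfl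
  have hTc : IsCompactOperator T := hSc.restrict' hSK
  have hTs : (T : K →ₗ[ℂ] K).IsSymmetric := by
    intro u w
    exact hSs u w
  have hT0 : T ≠ 0 := by
    intro h0
    apply hSx
    have := congrArg (fun R : K →L[ℂ] K => ((R ⟨x, hxK⟩ : K) : H)) h0
    simpa [hTapp] using this
  obtain ⟨μ, hμ, hμ0⟩ : ∃ μ, Module.End.HasEigenvalue (T : Module.End ℂ K) μ ∧ μ ≠ 0 := by
    by_contra hcon
    push Not at hcon
    exact hT0 ((ContinuousLinearMap.eq_zero_of_forall_hasEigenvalue_eq_zero hTc hTs).1 hcon)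
  have hfd := ContinuousLinearMap.finite_dimensional_eigenspace hTc μ hμ0
  let W0 : Submodule ℂ K := Module.End.eigenspace (T : Module.End ℂ K) μ
  have hfd' : FiniteDimensional ℂ W0 := hfd
  let W : Submodule ℂ H := W0.map K.subtype
  have hWmem : ∀ w, w ∈ W ↔ w ∈ K ∧ S w = μ • w := by
    intro w
    constructor
    · rintro ⟨z, hz, rfl⟩
      refine ⟨z.2, ?_⟩
      have h1 : T z = μ • z := Module.End.mem_eigenspace_iff.1 hz
      have := congrArg (Subtype.val) h1
      simpa [hTapp] using this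
    · rintro ⟨hw, hw'⟩
      refine ⟨⟨w, hw⟩, ?_, rfl⟩
      apply Module.End.mem_eigenspace_iff.2
      exact Subtype.ext hw'
  have hWfin : FiniteDimensional ℂ W := inferInstance
  have hWne : W ≠ ⊥ := by
    intro hbot
    obtain ⟨z, hz⟩ := hμ.exists_hasEigenvector
    have h1 : (z : H) ∈ W := ⟨z, hz.1, rfl⟩
    rw [hbot, Submodule.mem_bot] at h1
    exact hz.2 (Subtype.ext h1)
  have hWinv : ∀ B ∈ F, ∀ w ∈ W, B w ∈ W := by
    intro B hB w hw
    rw [hWmem] at hw ⊢
    refine ⟨hKinv B hB w hw.1, ?_⟩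
    rw [hSF B hB, hw.2, map_smul]
  obtain ⟨v, hv, hv0, hvF⟩ := exists_joint_of_finite F hcomm _ W hWfin le_rfl hWne hWinv
  have hvK : v ∈ K := ((hWmem v).1 hv).1
  have h2 := (hKmem v).1 hvK v hvF
  exact hv0 (inner_self_eq_zero.1 h2)

/-- Hilbert--Schmidt type criterion for compactness. -/
theorem compact_of_orthonormal_bound (A : H →L[ℂ] H) (C : ℝ)
    (hA : ∀ (n : ℕ) (e : Fin n → H), Orthonormal ℂ e → ∑ i, ‖A (e i)‖ ^ 2 ≤ C) :
    IsCompactOperator A := by
  classical
  set T : Set ℝ := {t | ∃ (n : ℕ) (e : Fin n → H), Orthonormal ℂ e ∧ t = ∑ i, ‖A (e i)‖ ^ 2}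
    with hT
  have hbdd : BddAbove T := ⟨C, by rintro t ⟨n, e, he, rfl⟩; exact hA n e he⟩
  have hne : T.Nonempty := by
    refine ⟨_, 0, (fun i => i.elim0), ?_, rfl⟩
    constructor
    · intro i; exact i.elim0
    · intro i; exact i.elim0
  have key : ∀ ε : ℝ, 0 < ε → ∃ M : Submodule ℂ H, FiniteDimensional ℂ M ∧
      ∀ x ∈ Mᗮ, ‖A x‖ ≤ ε * ‖x‖ := by
    intro ε hε
    obtain ⟨t, ⟨n, e, he, rfl⟩, ht⟩ := exists_lt_of_lt_csSup hne
      (show sSup T - ε ^ 2 < sSup T by nlinarith [pow_pos hε 2])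
    refine ⟨Submodule.span ℂ (Set.range e), ?_, ?_⟩
    · exact FiniteDimensional.span_of_finite ℂ (Set.finite_range e)
    · intro x hx
      by_cases hx0 : x = 0
      · simp [hx0]
      have hnx : 0 < ‖x‖ := norm_pos_iff.2 hx0
      set y : H := ((‖x‖⁻¹ : ℝ) : ℂ) • x with hy
      have hny : ‖y‖ = 1 := by
        rw [hy, norm_smul]
        simp [hnx.ne']
      have hye : ∀ i, ⟪e i, y⟫_ℂ = 0 := by
        intro i
        rw [hy, inner_smul_right, (Submodule.mem_orthogonal _ _).1 hx (e i)
          (Submodule.subset_span ⟨i, rfl⟩), mul_zero]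
      have hye' : ∀ i, ⟪y, e i⟫_ℂ = 0 := fun i => by
        rw [← inner_conj_symm, hye, map_zero]
      have hon : Orthonormal ℂ (Fin.cons y e : Fin (n + 1) → H) := by
        rw [orthonormal_iff_ite] at he ⊢
        intro i j
        refine Fin.cases ?_ (fun i => ?_) i <;> refine Fin.cases ?_ (fun j => ?_) j
        · simp only [Fin.cons_zero, if_true]
          rw [inner_self_eq_norm_sq_to_K, hny]; simp
        · simp only [Fin.cons_zero, Fin.cons_succ, hye' j]
          rw [if_neg (Fin.succ_ne_zero j).symm]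
        · simp only [Fin.cons_zero, Fin.cons_succ, hye i]
          rw [if_neg (Fin.succ_ne_zero i)]
        · simp only [Fin.cons_succ, he i j, Fin.succ_inj]
      have h1 : ∑ i, ‖A ((Fin.cons y e : Fin (n + 1) → H) i)‖ ^ 2 ≤ sSup T :=
        le_csSup hbdd ⟨n + 1, _, hon, rfl⟩
      rw [Fin.sum_univ_succ] at h1
      simp only [Fin.cons_zero, Fin.cons_succ] at h1
      have h2 : ‖A y‖ ^ 2 ≤ ε ^ 2 := by linarith
      have h3 : ‖A y‖ ≤ ε := abs_le_of_sq_le_sq' h2 hε.le |>.2
      have h4 : ‖A y‖ = ‖x‖⁻¹ * ‖A x‖ := by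
        rw [hy, map_smul, norm_smul]; simp
      rw [h4] at h3
      calc ‖A x‖ = ‖x‖⁻¹ * ‖A x‖ * ‖x‖ := by field_simp
        _ ≤ ε * ‖x‖ := mul_le_mul_of_nonneg_right h3 hnx.le
  choose! M hM1 hM2 using key
  set δ : ℕ → ℝ := fun k => 1 / ((k : ℝ) + 1) with hδ
  have hδpos : ∀ k, 0 < δ k := fun k => by positivity
  have hMc : ∀ k, (M (δ k)).HasOrthogonalProjection := fun k => by
    have := hM1 (δ k) (hδpos k)
    infer_instance
  let P : ℕ → (H →L[ℂ] H) := fun k => (M (δ k)).starProjection
  have hcomp : ∀ k, IsCompactOperator (A ∘L P k) := by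
    intro k
    have := hM1 (δ k) (hδpos k)
    have hloc : IsCompactOperator ((A ∘L (M (δ k)).subtypeL : M (δ k) →L[ℂ] H)) :=
      isCompactOperator_of_locallyCompactSpace_rng _
    exact hloc.comp_clm ((M (δ k)).orthogonalProjectionOnto)
  refine isCompactOperator_of_tendsto (F := fun k => A ∘L P k) (l := atTop) ?_
    (Eventually.of_forall hcomp)
  rw [tendsto_iff_norm_sub_tendsto_zero]
  have hle : ∀ k, ‖A ∘L P k - A‖ ≤ δ k := by
    intro k
    refine ContinuousLinearMap.opNorm_le_bound _ (hδpos k).le fun x => ?_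
    have h1 : (A ∘L P k - A) x = - A (x - P k x) := by
      simp
    rw [h1, norm_neg]
    have h2 : x - P k x ∈ (M (δ k))ᗮ := Submodule.sub_starProjection_mem_orthogonal x
    refine (hM2 (δ k) (hδpos k) _ h2).trans ?_
    refine mul_le_mul_of_nonneg_left ?_ (hδpos k).le
    have h3 : ‖x - P k x‖ = ‖(M (δ k))ᗮ.starProjection x‖ := by
      congr 1
      rw [Submodule.starProjection_orthogonal]
      simp [P]
    rw [h3]
    calc ‖(M (δ k))ᗮ.starProjection x‖ ≤ ‖(M (δ k))ᗮ.starProjection‖ * ‖x‖ :=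
          ContinuousLinearMap.le_opNorm _ _
      _ ≤ 1 * ‖x‖ := by
          gcongr
          exact Submodule.starProjection_norm_le _
      _ = ‖x‖ := one_mul _
  have hδ0 : Tendsto δ atTop (𝓝 0) := tendsto_one_div_add_atTop_nhds_zero_nat
  exact squeeze_zero (fun k => norm_nonneg _) hle hδ0

end Hilbert

section Rect

variable {Y V : Type*} [MeasurableSpace Y] [MeasurableSpace V]

theorem ae_ae_symm {ν : Measure V} {μ : Measure Y} [SFinite ν] [SFinite μ] {p : V × Y → Prop}
    (h : ∀ᵐ z ∂(ν.prod μ), p z) : ∀ᵐ y ∂μ, ∀ᵐ v ∂ν, p (v, y) := by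
  have h1 : ∀ᵐ z ∂(μ.prod ν), p z.swap :=
    (Measure.measurePreserving_swap (μ := μ) (ν := ν)).quasiMeasurePreserving.ae h
  exact Measure.ae_ae_of_ae_prod h1

/-- A function on a product space which integrates to zero over all rectangles is zero a.e. -/
theorem ae_zero_of_rect {ν : Measure V} {μ : Measure Y} [IsProbabilityMeasure ν]
    [IsProbabilityMeasure μ] {F : V × Y → ℂ} (hF : Integrable F (ν.prod μ))
    (h : ∀ S T, MeasurableSet S → MeasurableSet T → ∫ p in S ×ˢ T, F p ∂(ν.prod μ) = 0) :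
    F =ᵐ[ν.prod μ] 0 := by
  have huniv : ∫ p, F p ∂(ν.prod μ) = 0 := by
    have := h univ univ MeasurableSet.univ MeasurableSet.univ
    rwa [univ_prod_univ, setIntegral_univ] at this
  refine Integrable.ae_eq_of_forall_setIntegral_eq F 0 hF (integrable_zero _ _ _) ?_
  intro E hE _
  simp only [Pi.zero_apply, integral_zero]
  refine MeasurableSpace.induction_on_inter (C := fun E _ => ∫ p in E, F p ∂(ν.prod μ) = 0)
    generateFrom_prod.symm isPiSystem_prod ?_ ?_ ?_ ?_ E hE
  · simp
  · rintro t ⟨S, hS, T, hT, rfl⟩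
    exact h S T hS hT
  · intro t ht ih
    have := setIntegral_compl ht hF
    rw [this, huniv, ih, sub_zero]
  · intro f hd hm ih
    rw [integral_iUnion hm hd hF.integrableOn]
    simp [ih]

end Rect

section Op

variable {Y V : Type*} [MeasurableSpace Y] [MeasurableSpace V]

/-- A random transformation `g v` of `(Y, μ)`: `g v y` is independent of `y`, jointly measure
preserving, with inverses `g (inv v)`. -/
structure Act (ν : Measure V) (μ : Measure Y) (g : V → Y → Y) (inv : V → V) : Prop where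
  hg : Measurable (fun p : V × Y => g p.1 p.2)
  hinv : MeasurePreserving inv ν ν
  h1 : MeasurePreserving (fun p : V × Y => (g p.1 p.2, p.2)) (ν.prod μ) (μ.prod μ)
  h2 : MeasurePreserving (fun p : V × Y => (p.1, g p.1 p.2)) (ν.prod μ) (ν.prod μ)
  h3 : ∀ᵐ p ∂(ν.prod μ), g (inv p.1) (g p.1 p.2) = p.2

variable {ν : Measure V} {μ : Measure Y} [IsProbabilityMeasure ν] [IsProbabilityMeasure μ]
  {g : V → Y → Y} {inv : V → V}

theorem Act.mp (hA : Act ν μ g inv) :
    MeasurePreserving (fun p : V × Y => g p.1 p.2) (ν.prod μ) μ :=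
  measurePreserving_fst.comp hA.h1

theorem mp_snd : MeasurePreserving (fun p : V × Y => p.2) (ν.prod μ) μ := measurePreserving_snd

/-- integrability of the basic products -/
theorem Act.integrable (hA : Act ν μ g inv) {q : V → ℂ} (hq : Measurable q) {C : ℝ}
    (hb : ∀ v, ‖q v‖ ≤ C) {f h : Y → ℂ} (hf : MemLp f 2 μ) (hh : MemLp h 2 μ) :
    Integrable (fun p : V × Y => conj (h p.2) * (q p.1 * f (g p.1 p.2))) (ν.prod μ) := by
  have h1 : MemLp (fun p : V × Y => f (g p.1 p.2)) 2 (ν.prod μ) :=
    hf.comp_measurePreserving hA.mp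
  have h2 : MemLp (fun p : V × Y => h p.2) 2 (ν.prod μ) := hh.comp_measurePreserving mp_snd
  have h2' : MemLp (fun p : V × Y => conj (h p.2)) 2 (ν.prod μ) := h2.star
  have h3 : MemLp (fun p : V × Y => q p.1) ∞ (ν.prod μ) :=
    memLp_top_of_bound (hq.comp measurable_fst).aestronglyMeasurable C
      (Eventually.of_forall fun p => hb p.1)
  have h4 : MemLp (fun p : V × Y => q p.1 * f (g p.1 p.2)) 2 (ν.prod μ) := h1.mul' h3
  exact h2'.integrable_mul h4


/-- `g v y` averaged over `v` forgets `y`. -/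
theorem Act.ae_int (hA : Act ν μ g inv) {φ : Y → ℂ} (hφ : Integrable φ μ) :
    ∀ᵐ y ∂μ, ∫ v, φ (g v y) ∂ν = ∫ y, φ y ∂μ := by
  have hint : Integrable (fun p : V × Y => φ (g p.1 p.2)) (ν.prod μ) :=
    (hA.mp.integrable_comp_of_integrable hφ)
  refine Integrable.ae_eq_of_forall_setIntegral_eq _ _ hint.integral_prod_right
    (integrable_const _) ?_
  intro S hS _
  rw [setIntegral_const]
  have e1 : ∫ y in S, ∫ v, φ (g v y) ∂ν ∂μ
      = ∫ p, (S.indicator (fun _ => (1 : ℂ)) p.2) * φ (g p.1 p.2) ∂(ν.prod μ) := by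
    have hint2 : Integrable (fun p : V × Y => (S.indicator (fun _ => (1 : ℂ)) p.2)
        * φ (g p.1 p.2)) (ν.prod μ) := by
      refine hint.bdd_mul (c := 1) ?_ ?_
      · exact ((measurable_const.indicator hS).comp measurable_snd).aestronglyMeasurable
      · refine Eventually.of_forall fun p => ?_
        by_cases hp : p.2 ∈ S <;> simp [hp]
    rw [integral_prod_symm _ hint2, ← integral_indicator hS]
    refine integral_congr_ae (Eventually.of_forall fun y => ?_)
    by_cases hy : y ∈ S <;> simp [hy]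
  have e2 : ∫ p, (S.indicator (fun _ => (1 : ℂ)) p.2) * φ (g p.1 p.2) ∂(ν.prod μ)
      = ∫ p, φ p.1 * (S.indicator (fun _ => (1 : ℂ)) p.2) ∂(μ.prod μ) := by
    have hm : AEStronglyMeasurable (fun p : Y × Y => φ p.1 * (S.indicator (fun _ => (1 : ℂ)) p.2))
        (μ.prod μ) :=
      (hφ.aestronglyMeasurable.comp_quasiMeasurePreserving
        Measure.quasiMeasurePreserving_fst).mul
        ((measurable_const.indicator hS).comp measurable_snd).aestronglyMeasurable
    rw [← hA.h1.map_eq] at hm ⊢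
    rw [integral_map hA.h1.measurable.aemeasurable hm]
    refine integral_congr_ae (Eventually.of_forall fun p => ?_)
    simp [mul_comm]
  rw [e1, e2, integral_prod_mul]
  rw [integral_indicator hS]
  simp [Measure.real, mul_comm]

/-- averaging over `y` forgets `v`. -/
theorem Act.ae_int' (hA : Act ν μ g inv) {φ : Y → ℂ} (hφ : Integrable φ μ) :
    ∀ᵐ v ∂ν, ∫ y, φ (g v y) ∂μ = ∫ y, φ y ∂μ := by
  have hint : Integrable (fun p : V × Y => φ (g p.1 p.2)) (ν.prod μ) :=
    (hA.mp.integrable_comp_of_integrable hφ)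
  refine Integrable.ae_eq_of_forall_setIntegral_eq _ _ hint.integral_prod_left
    (integrable_const _) ?_
  intro S hS _
  rw [setIntegral_const]
  have e1 : ∫ v in S, ∫ y, φ (g v y) ∂μ ∂ν
      = ∫ p, (S.indicator (fun _ => (1 : ℂ)) p.1) * φ (g p.1 p.2) ∂(ν.prod μ) := by
    have hint2 : Integrable (fun p : V × Y => (S.indicator (fun _ => (1 : ℂ)) p.1)
        * φ (g p.1 p.2)) (ν.prod μ) := by
      refine hint.bdd_mul (c := 1) ?_ ?_
      · exact ((measurable_const.indicator hS).comp measurable_fst).aestronglyMeasurable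
      · refine Eventually.of_forall fun p => ?_
        by_cases hp : p.1 ∈ S <;> simp [hp]
    rw [integral_prod _ hint2, ← integral_indicator hS]
    refine integral_congr_ae (Eventually.of_forall fun y => ?_)
    by_cases hy : y ∈ S <;> simp [hy]
  have e2 : ∫ p, (S.indicator (fun _ => (1 : ℂ)) p.1) * φ (g p.1 p.2) ∂(ν.prod μ)
      = ∫ p, (S.indicator (fun _ => (1 : ℂ)) p.1) * φ p.2 ∂(ν.prod μ) := by
    have hm : AEStronglyMeasurable (fun p : V × Y => (S.indicator (fun _ => (1 : ℂ)) p.1) * φ p.2)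
        (ν.prod μ) :=
      ((measurable_const.indicator hS).comp measurable_fst).aestronglyMeasurable.mul
        (hφ.aestronglyMeasurable.comp_quasiMeasurePreserving
        Measure.quasiMeasurePreserving_snd)
    conv_rhs => rw [← hA.h2.map_eq]
    rw [integral_map hA.h2.measurable.aemeasurable (by rw [hA.h2.map_eq]; exact hm)]
  rw [e1, e2, integral_prod_mul]
  rw [integral_indicator hS]
  simp [Measure.real, mul_comm]

/-- The adjoint of `f ↦ f ∘ snd` is integration over the first variable. -/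
theorem adjoint_snd_ae (F : Lp ℂ 2 (ν.prod μ)) :
    ContinuousLinearMap.adjoint
      ((Lp.compMeasurePreservingₗᵢ ℂ (fun p : V × Y => p.2)
        (mp_snd (ν := ν) (μ := μ))).toContinuousLinearMap :
        Lp ℂ 2 μ →L[ℂ] Lp ℂ 2 (ν.prod μ)) F =ᵐ[μ] fun y => ∫ v, F (v, y) ∂ν := by
  set C : Lp ℂ 2 μ →L[ℂ] Lp ℂ 2 (ν.prod μ) :=
    (Lp.compMeasurePreservingₗᵢ ℂ (fun p : V × Y => p.2)
        (mp_snd (ν := ν) (μ := μ))).toContinuousLinearMap with hC
  have hF1 : Integrable F (ν.prod μ) := (Lp.memLp F).integrable (by norm_num)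
  refine Integrable.ae_eq_of_forall_setIntegral_eq _ _ ((Lp.memLp _).integrable (by norm_num))
    hF1.integral_prod_right ?_
  intro S hS hSf
  have e0 := L2.inner_indicatorConstLp_one (𝕜 := ℂ) hS hSf.ne (ContinuousLinearMap.adjoint C F)
  rw [← e0, ContinuousLinearMap.adjoint_inner_right, L2.inner_def]
  have e1 : C (indicatorConstLp 2 hS hSf.ne (1 : ℂ)) =ᵐ[ν.prod μ]
      fun p => S.indicator (fun _ => (1 : ℂ)) p.2 := by
    have h1 := Lp.coeFn_compMeasurePreserving (indicatorConstLp 2 hS hSf.ne (1 : ℂ))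
      (mp_snd (ν := ν) (μ := μ))
    have h2 : (indicatorConstLp 2 hS hSf.ne (1 : ℂ) : Y → ℂ) =ᵐ[μ] S.indicator fun _ => (1 : ℂ) :=
      indicatorConstLp_coeFn
    have h3 := (mp_snd (ν := ν) (μ := μ)).quasiMeasurePreserving.ae_eq_comp h2
    exact h1.trans h3
  have hint2 : Integrable (fun p : V × Y => (S.indicator (fun _ => (1 : ℂ)) p.2)
      * F p) (ν.prod μ) := by
    refine hF1.bdd_mul (c := 1) ?_ ?_
    · exact ((measurable_const.indicator hS).comp measurable_snd).aestronglyMeasurable
    · refine Eventually.of_forall fun p => ?_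
      by_cases hp : p.2 ∈ S <;> simp [hp]
  have e2 : ∫ p, ⟪C (indicatorConstLp 2 hS hSf.ne (1 : ℂ)) p, F p⟫_ℂ ∂(ν.prod μ)
      = ∫ p, (S.indicator (fun _ => (1 : ℂ)) p.2) * F p ∂(ν.prod μ) := by
    refine integral_congr_ae ?_
    filter_upwards [e1] with p hp
    rw [hp]
    by_cases h : p.2 ∈ S <;> simp [h]
  rw [e2, integral_prod_symm _ hint2, ← integral_indicator hS]
  refine integral_congr_ae (Eventually.of_forall fun y => ?_)
  by_cases hy : y ∈ S <;> simp [hy]

/-- The averaged operator. -/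
theorem Act.exists_op (hA : Act ν μ g inv) {q : V → ℂ} (hq : Measurable q) {C : ℝ}
    (hb : ∀ v, ‖q v‖ ≤ C) :
    ∃ A : Lp ℂ 2 μ →L[ℂ] Lp ℂ 2 μ, ∀ f : Lp ℂ 2 μ, A f =ᵐ[μ] fun y => ∫ v, q v * f (g v y) ∂ν := by
  have hqtop : MemLp (fun p : V × Y => q p.1) ∞ (ν.prod μ) :=
    memLp_top_of_bound (hq.comp measurable_fst).aestronglyMeasurable C
      (Eventually.of_forall fun p => hb p.1)
  let D : Lp ℂ 2 μ →L[ℂ] Lp ℂ 2 (ν.prod μ) :=
    (Lp.compMeasurePreservingₗᵢ ℂ (fun p : V × Y => g p.1 p.2) hA.mp).toContinuousLinearMap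
  let C' : Lp ℂ 2 μ →L[ℂ] Lp ℂ 2 (ν.prod μ) :=
    (Lp.compMeasurePreservingₗᵢ ℂ (fun p : V × Y => p.2)
        (mp_snd (ν := ν) (μ := μ))).toContinuousLinearMap
  let M : Lp ℂ 2 (ν.prod μ) →L[ℂ] Lp ℂ 2 (ν.prod μ) :=
    (ContinuousLinearMap.mul ℂ ℂ).holderL (ν.prod μ) ∞ 2 2 hqtop.toLp
  refine ⟨ContinuousLinearMap.adjoint C' ∘L M ∘L D, fun f => ?_⟩
  have h1 := adjoint_snd_ae (ν := ν) (μ := μ) (M (D f))
  refine h1.trans ?_
  have h2 : M (D f) =ᵐ[ν.prod μ] fun p => q p.1 * f (g p.1 p.2) := by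
    have h3 := (ContinuousLinearMap.mul ℂ ℂ).coeFn_holder (r := 2) hqtop.toLp (D f)
    have h4 := hqtop.coeFn_toLp
    have h5 := Lp.coeFn_compMeasurePreserving f hA.mp
    have h3' : M (D f) =ᵐ[ν.prod μ] fun p => (ContinuousLinearMap.mul ℂ ℂ) (hqtop.toLp _ p)
      (D f p) := h3
    filter_upwards [h3', h4, h5] with p hp3 hp4 hp5
    rw [hp3, hp4]
    have : D f p = f (g p.1 p.2) := hp5
    rw [this]
    rfl
  have h6 : ∀ᵐ y ∂μ, ∀ᵐ v ∂ν, M (D f) (v, y) = q v * f (g v y) := by
    exact ae_ae_symm h2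
  filter_upwards [h6] with y hy
  exact integral_congr_ae hy

/-- The operator of an action with symbol `q`. -/
def IsOp (ν : Measure V) (μ : Measure Y) [IsProbabilityMeasure μ] (g : V → Y → Y) (q : V → ℂ)
    (A : Lp ℂ 2 μ →L[ℂ] Lp ℂ 2 μ) : Prop :=
  ∀ f : Lp ℂ 2 μ, A f =ᵐ[μ] fun y => ∫ v, q v * f (g v y) ∂ν

theorem Act.inner_op (hA : Act ν μ g inv) {q : V → ℂ} (hq : Measurable q) {C : ℝ}
    (hb : ∀ v, ‖q v‖ ≤ C) {A : Lp ℂ 2 μ →L[ℂ] Lp ℂ 2 μ} (hop : IsOp ν μ g q A)
    (h f : Lp ℂ 2 μ) :
    ⟪h, A f⟫_ℂ = ∫ p, conj (h p.2) * (q p.1 * f (g p.1 p.2)) ∂(ν.prod μ) := by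
  rw [L2.inner_def, integral_prod_symm _ (hA.integrable hq hb (Lp.memLp f) (Lp.memLp h))]
  refine integral_congr_ae ?_
  filter_upwards [hop f] with y hy
  rw [hy]
  simp only [RCLike.inner_apply]
  rw [mul_comm, ← integral_const_mul]

theorem Act.op_adjoint (hA : Act ν μ g inv) {q : V → ℂ} (hq : Measurable q) {C : ℝ}
    (hb : ∀ v, ‖q v‖ ≤ C) {A B : Lp ℂ 2 μ →L[ℂ] Lp ℂ 2 μ} (hop : IsOp ν μ g q A)
    (hop' : IsOp ν μ g (fun v => conj (q (inv v))) B) :
    ContinuousLinearMap.adjoint A = B := by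
  symm
  rw [ContinuousLinearMap.eq_adjoint_iff]
  intro f h
  -- `⟪B f, h⟫ = ⟪f, A h⟫`
  have hq' : Measurable (fun v => conj (q (inv v))) :=
    Complex.continuous_conj.measurable.comp (hq.comp hA.hinv.measurable)
  have hb' : ∀ v, ‖(fun v => conj (q (inv v))) v‖ ≤ C := fun v => by
    simpa using hb (inv v)
  rw [← inner_conj_symm, hA.inner_op hq' hb' hop' h f, hA.inner_op hq hb hop f h,
    ← integral_conj]
  -- substitution `(v, y) ↦ (inv v, g v y)`
  have hR : MeasurePreserving (fun p : V × Y => (inv p.1, g p.1 p.2)) (ν.prod μ) (ν.prod μ) := by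
    have := (hA.hinv.prod (MeasurePreserving.id μ)).comp hA.h2
    exact this
  have hint := hA.integrable hq hb (Lp.memLp h) (Lp.memLp f)
  have hm : AEStronglyMeasurable (fun p : V × Y => conj (f p.2) * (q p.1 * h (g p.1 p.2)))
      ((ν.prod μ).map (fun p : V × Y => (inv p.1, g p.1 p.2))) := by
    rw [hR.map_eq]; exact hint.aestronglyMeasurable
  conv_rhs => rw [← hR.map_eq]
  rw [integral_map hR.measurable.aemeasurable hm]
  refine integral_congr_ae ?_
  filter_upwards [hA.h3] with p hp
  rw [hp]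
  simp only [map_mul, Complex.conj_conj]
  ring

theorem mp_swap3 {V' : Type*} [MeasurableSpace V'] {ν' : Measure V'} [IsProbabilityMeasure ν'] :
    MeasurePreserving (fun p : V' × (V × Y) => (p.2.1, (p.1, p.2.2))) (ν'.prod (ν.prod μ))
      (ν.prod (ν'.prod μ)) := by
  have h1 : MeasurePreserving (MeasurableEquiv.prodAssoc.symm : V' × (V × Y) → (V' × V) × Y)
      (ν'.prod (ν.prod μ)) ((ν'.prod ν).prod μ) :=
    (measurePreserving_prodAssoc ν' ν μ).symm _
  have h2 : MeasurePreserving (Prod.map Prod.swap id : (V' × V) × Y → (V × V') × Y)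
      ((ν'.prod ν).prod μ) ((ν.prod ν').prod μ) :=
    (Measure.measurePreserving_swap (μ := ν') (ν := ν)).prod (MeasurePreserving.id μ)
  have h3 := measurePreserving_prodAssoc ν ν' μ
  exact h3.comp (h2.comp h1)

theorem Act.op_comp {V' : Type*} [MeasurableSpace V'] {ν' : Measure V'} [IsProbabilityMeasure ν']
    {g' : V' → Y → Y} {inv' : V' → V'} (hA : Act ν μ g inv) (hA' : Act ν' μ g' inv')
    {q : V → ℂ} (hq : Measurable q) {C : ℝ} (hb : ∀ v, ‖q v‖ ≤ C)
    {q' : V' → ℂ} (hq' : Measurable q') {C' : ℝ} (hb' : ∀ v, ‖q' v‖ ≤ C')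
    {A B : Lp ℂ 2 μ →L[ℂ] Lp ℂ 2 μ} (hop : IsOp ν μ g q A) (hop' : IsOp ν' μ g' q' B)
    (h f : Lp ℂ 2 μ) :
    ⟪h, A (B f)⟫_ℂ = ∫ p, conj (h p.2.2) * (q p.2.1 * (q' p.1 * f (g' p.1 (g p.2.1 p.2.2))))
      ∂(ν'.prod (ν.prod μ)) := by
  rw [hA.inner_op hq hb hop]
  have hmp : MeasurePreserving (fun p : V' × (V × Y) => g' p.1 (g p.2.1 p.2.2))
      (ν'.prod (ν.prod μ)) μ := hA'.mp.comp ((MeasurePreserving.id ν').prod hA.mp)
  have hmp2 : MeasurePreserving (fun p : V' × (V × Y) => p.2.2) (ν'.prod (ν.prod μ)) μ :=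
    (mp_snd (ν := ν) (μ := μ)).comp measurePreserving_snd
  have i1 : MemLp (fun p : V' × (V × Y) => f (g' p.1 (g p.2.1 p.2.2))) 2 (ν'.prod (ν.prod μ)) :=
    (Lp.memLp f).comp_measurePreserving hmp
  have i2 : MemLp (fun p : V' × (V × Y) => conj (h p.2.2)) 2 (ν'.prod (ν.prod μ)) :=
    ((Lp.memLp h).comp_measurePreserving hmp2).star
  have i3 : MemLp (fun p : V' × (V × Y) => q p.2.1) ∞ (ν'.prod (ν.prod μ)) :=
    memLp_top_of_bound (hq.comp (measurable_fst.comp measurable_snd)).aestronglyMeasurable C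
      (Eventually.of_forall fun p => hb p.2.1)
  have i4 : MemLp (fun p : V' × (V × Y) => q' p.1) ∞ (ν'.prod (ν.prod μ)) :=
    memLp_top_of_bound (hq'.comp measurable_fst).aestronglyMeasurable C'
      (Eventually.of_forall fun p => hb' p.1)
  have i5 : MemLp (fun p : V' × (V × Y) => q' p.1 * f (g' p.1 (g p.2.1 p.2.2))) 2
      (ν'.prod (ν.prod μ)) := i1.mul' i4
  have i6 : MemLp (fun p : V' × (V × Y) => q p.2.1 * (q' p.1 * f (g' p.1 (g p.2.1 p.2.2)))) 2
      (ν'.prod (ν.prod μ)) := i5.mul' i3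
  have i7 : Integrable (fun p : V' × (V × Y) =>
      conj (h p.2.2) * (q p.2.1 * (q' p.1 * f (g' p.1 (g p.2.1 p.2.2))))) (ν'.prod (ν.prod μ)) :=
    i2.integrable_mul i6
  rw [integral_prod_symm _ i7]
  refine integral_congr_ae ?_
  have e1 := hA.mp.quasiMeasurePreserving.ae_eq_comp (hop' f)
  filter_upwards [e1] with p hp
  have hp' : (B f) (g p.1 p.2) = ∫ v, q' v * f (g' v (g p.1 p.2)) ∂ν' := hp
  rw [hp', integral_const_mul, integral_const_mul]

theorem Act.op_comm {V' : Type*} [MeasurableSpace V'] {ν' : Measure V'} [IsProbabilityMeasure ν']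
    {g' : V' → Y → Y} {inv' : V' → V'} (hA : Act ν μ g inv) (hA' : Act ν' μ g' inv')
    {q : V → ℂ} (hq : Measurable q) {C : ℝ} (hb : ∀ v, ‖q v‖ ≤ C)
    {q' : V' → ℂ} (hq' : Measurable q') {C' : ℝ} (hb' : ∀ v, ‖q' v‖ ≤ C')
    {A B : Lp ℂ 2 μ →L[ℂ] Lp ℂ 2 μ} (hop : IsOp ν μ g q A) (hop' : IsOp ν' μ g' q' B)
    (hcomm : ∀ᵐ p ∂(ν'.prod (ν.prod μ)), g' p.1 (g p.2.1 p.2.2) = g p.2.1 (g' p.1 p.2.2))
    (f : Lp ℂ 2 μ) : A (B f) = B (A f) := by
  refine ext_inner_left ℂ fun h => ?_
  rw [hA.op_comp hA' hq hb hq' hb' hop hop' h f, hA'.op_comp hA hq' hb' hq hb hop' hop h f]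
  have hmp : MeasurePreserving (fun p : V × (V' × Y) => g p.1 (g' p.2.1 p.2.2))
      (ν.prod (ν'.prod μ)) μ := hA.mp.comp ((MeasurePreserving.id ν).prod hA'.mp)
  have hmp2 : MeasurePreserving (fun p : V × (V' × Y) => p.2.2) (ν.prod (ν'.prod μ)) μ :=
    (mp_snd (ν := ν') (μ := μ)).comp measurePreserving_snd
  have hm : AEStronglyMeasurable (fun p : V × (V' × Y) =>
      conj (h p.2.2) * (q' p.2.1 * (q p.1 * f (g p.1 (g' p.2.1 p.2.2))))) (ν.prod (ν'.prod μ)) := by
    refine AEStronglyMeasurable.mul ?_ (AEStronglyMeasurable.mul ?_ (AEStronglyMeasurable.mul ?_ ?_))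
    · exact (((Lp.memLp h).comp_measurePreserving hmp2).star).aestronglyMeasurable
    · exact (hq'.comp (measurable_fst.comp measurable_snd)).aestronglyMeasurable
    · exact (hq.comp measurable_fst).aestronglyMeasurable
    · exact ((Lp.memLp f).comp_measurePreserving hmp).aestronglyMeasurable
  have hs := mp_swap3 (ν := ν) (μ := μ) (ν' := ν')
  rw [← hs.map_eq] at hm
  conv_rhs => rw [← hs.map_eq]
  rw [integral_map hs.measurable.aemeasurable hm]
  refine integral_congr_ae ?_
  filter_upwards [hcomm] with p hp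
  rw [hp]
  ring

/-- The averaged operators are compact. -/
theorem Act.op_compact (hA : Act ν μ g inv) {q : V → ℂ} (hq : Measurable q) {C : ℝ}
    (hb : ∀ v, ‖q v‖ ≤ C) {A : Lp ℂ 2 μ →L[ℂ] Lp ℂ 2 μ} (hop : IsOp ν μ g q A) :
    IsCompactOperator A := by
  refine compact_of_orthonormal_bound A (C ^ 2) fun n e he => ?_
  have hqm : MemLp (fun v => conj (q v)) 2 ν := by
    refine MemLp.of_bound (Complex.continuous_conj.measurable.comp hq).aestronglyMeasurable C
      (Eventually.of_forall fun v => ?_)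
    simpa using hb v
  -- sections of `e i ∘ g`
  have hsec : ∀ i, ∀ᵐ y ∂μ, MemLp (fun v => e i (g v y)) 2 ν := by
    intro i
    have h1 : MemLp (fun p : V × Y => e i (g p.1 p.2)) 2 (ν.prod μ) :=
      (Lp.memLp (e i)).comp_measurePreserving hA.mp
    have h2 : Integrable (fun p : V × Y => ‖e i (g p.1 p.2)‖ ^ 2) (ν.prod μ) :=
      h1.integrable_norm_pow (by norm_num)
    filter_upwards [h2.prod_left_ae] with y hy
    have hmeas : AEStronglyMeasurable (fun v => e i (g v y)) ν :=
      ((Lp.stronglyMeasurable (e i)).comp_measurable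
        (hA.hg.comp (measurable_id.prodMk measurable_const))).aestronglyMeasurable
    exact (memLp_two_iff_integrable_sq_norm hmeas).2 hy
  have horth : ∀ i k, ∀ᵐ y ∂μ, ∫ v, conj (e i (g v y)) * e k (g v y) ∂ν
      = if i = k then 1 else 0 := by
    intro i k
    have hint : Integrable (fun y => conj (e i y) * e k y) μ :=
      ((Lp.memLp (e i)).star).integrable_mul (Lp.memLp (e k))
    filter_upwards [hA.ae_int hint] with y hy
    rw [hy]
    have h1 := (orthonormal_iff_ite.1 he) i k
    rw [L2.inner_def] at h1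
    rw [← h1]
    refine integral_congr_ae (Eventually.of_forall fun y => ?_)
    simp only [RCLike.inner_apply]
    rw [mul_comm]
  -- pointwise Bessel
  have hbessel : ∀ᵐ y ∂μ, ∑ i, ‖A (e i) y‖ ^ 2 ≤ C ^ 2 := by
    have hall1 : ∀ᵐ y ∂μ, ∀ i, MemLp (fun v => e i (g v y)) 2 ν := ae_all_iff.2 hsec
    have hall2 : ∀ᵐ y ∂μ, ∀ i k, ∫ v, conj (e i (g v y)) * e k (g v y) ∂ν
        = if i = k then 1 else 0 := ae_all_iff.2 fun i => ae_all_iff.2 fun k => horth i k
    have hall3 : ∀ᵐ y ∂μ, ∀ i, A (e i) y = ∫ v, q v * e i (g v y) ∂ν :=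
      ae_all_iff.2 fun i => hop (e i)
    filter_upwards [hall1, hall2, hall3] with y h1 h2 h3
    let a : Fin n → Lp ℂ 2 ν := fun i => (h1 i).toLp
    have ha : Orthonormal ℂ a := by
      rw [orthonormal_iff_ite]
      intro i k
      rw [L2.inner_def, ← h2 i k]
      refine integral_congr_ae ?_
      filter_upwards [(h1 i).coeFn_toLp, (h1 k).coeFn_toLp] with v hv1 hv2
      simp only [a, RCLike.inner_apply]
      rw [hv1, hv2, mul_comm]
    have hB := ha.sum_inner_products_le (s := Finset.univ) hqm.toLp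
    have e1 : ∀ i, ‖⟪a i, hqm.toLp⟫_ℂ‖ = ‖A (e i) y‖ := by
      intro i
      rw [h3 i, L2.inner_def]
      have : ∫ v, ⟪a i v, hqm.toLp _ v⟫_ℂ ∂ν = conj (∫ v, q v * e i (g v y) ∂ν) := by
        rw [← integral_conj]
        refine integral_congr_ae ?_
        filter_upwards [(h1 i).coeFn_toLp, hqm.coeFn_toLp] with v hv1 hv2
        simp only [a, RCLike.inner_apply]
        rw [hv1, hv2, map_mul]
      rw [this]; simp
    have e2 : ‖hqm.toLp‖ ≤ C := by
      have hC : 0 ≤ C := by
        obtain ⟨v⟩ : Nonempty V := by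
          by_contra hne
          rw [not_nonempty_iff] at hne
          have := IsProbabilityMeasure.measure_univ (μ := ν)
          rw [univ_eq_empty_iff.2 hne, measure_empty] at this
          exact zero_ne_one this
        exact (norm_nonneg _).trans (hb v)
      have := Lp.norm_le_of_ae_bound (f := hqm.toLp) hC (by
        filter_upwards [hqm.coeFn_toLp] with v hv
        rw [hv]; simpa using hb v)
      have h1 : measureUnivNNReal ν = 1 := by simp [measureUnivNNReal]
      rw [h1] at this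
      simpa using this
    calc ∑ i, ‖A (e i) y‖ ^ 2 = ∑ i, ‖⟪a i, hqm.toLp⟫_ℂ‖ ^ 2 := by
          simp only [e1]
      _ ≤ ‖hqm.toLp‖ ^ 2 := hB
      _ ≤ C ^ 2 := by gcongr
  -- integrate
  have hn : ∀ i, ‖A (e i)‖ ^ 2 = ∫ y, ‖A (e i) y‖ ^ 2 ∂μ := by
    intro i
    have h1 := L2.inner_def (𝕜 := ℂ) (A (e i)) (A (e i))
    rw [inner_self_eq_norm_sq_to_K] at h1
    have h2 : ∫ y, ⟪A (e i) y, A (e i) y⟫_ℂ ∂μ = ((∫ y, ‖A (e i) y‖ ^ 2 ∂μ : ℝ) : ℂ) := by
      rw [← integral_complex_ofReal]
      refine integral_congr_ae (Eventually.of_forall fun y => ?_)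
      simp only [inner_self_eq_norm_sq_to_K]
      push_cast; rfl
    rw [h2] at h1
    apply Complex.ofReal_injective
    rw [← h1]
    simp
  simp only [hn]
  rw [← integral_finset_sum _ (fun i _ => (Lp.memLp (A (e i))).integrable_norm_pow (by norm_num))]
  calc ∫ y, ∑ i, ‖A (e i) y‖ ^ 2 ∂μ ≤ ∫ _, C ^ 2 ∂μ := by
        refine integral_mono_ae ?_ (integrable_const _) hbessel
        exact integrable_finset_sum _
          (fun i _ => (Lp.memLp (A (e i))).integrable_norm_pow (by norm_num))
    _ = C ^ 2 := by simp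

/-- integral over a rectangle of `f ∘ g`. -/
theorem Act.setIntegral_rect (hA : Act ν μ g inv) {f : Y → ℂ} (hf : MemLp f 2 μ)
    {S : Set V} {T : Set Y} (hS : MeasurableSet S) (hT : MeasurableSet T) :
    ∫ p in S ×ˢ T, f (g p.1 p.2) ∂(ν.prod μ)
      = ∫ y in T, ∫ v, S.indicator (fun _ => (1 : ℂ)) v * f (g v y) ∂ν ∂μ := by
  have hint := hA.integrable (q := S.indicator (fun _ => (1 : ℂ)))
    (measurable_const.indicator hS) (C := 1)
    (fun v => by by_cases h : v ∈ S <;> simp [h]) hf (h := T.indicator (fun _ => (1 : ℂ)))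
    ((memLp_const 1).indicator hT)
  rw [← integral_indicator (hS.prod hT), ← integral_indicator hT]
  have e1 : ∀ p : V × Y, (S ×ˢ T).indicator (fun p : V × Y => f (g p.1 p.2)) p
      = conj (T.indicator (fun _ => (1 : ℂ)) p.2) *
        (S.indicator (fun _ => (1 : ℂ)) p.1 * f (g p.1 p.2)) := by
    intro p
    by_cases h1 : p.1 ∈ S <;> by_cases h2 : p.2 ∈ T <;> simp [h1, h2, Set.indicator]
  rw [integral_congr_ae (Eventually.of_forall e1), integral_prod_symm _ hint]
  refine integral_congr_ae (Eventually.of_forall fun y => ?_)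
  simp only
  by_cases hy : y ∈ T
  · simp [hy]
  · simp [hy]

theorem Act.ker_trivial (hA : Act ν μ g inv) (f : Lp ℂ 2 μ)
    (h : ∀ q : V → ℂ, Measurable q → (∀ v, ‖q v‖ ≤ 1) → ∀ᵐ y ∂μ, ∫ v, q v * f (g v y) ∂ν = 0) :
    f = 0 := by
  have h1 : (fun p : V × Y => f (g p.1 p.2)) =ᵐ[ν.prod μ] 0 := by
    refine ae_zero_of_rect ?_ fun S T hS hT => ?_
    · exact ((Lp.memLp f).comp_measurePreserving hA.mp).integrable (by norm_num)
    · rw [hA.setIntegral_rect (Lp.memLp f) hS hT]
      have h2 := h (S.indicator (fun _ => (1 : ℂ))) (measurable_const.indicator hS)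
        (fun v => by by_cases h : v ∈ S <;> simp [h])
      rw [integral_congr_ae (ae_restrict_of_ae h2)]
      simp
  have h3 : Lp.compMeasurePreserving (fun p : V × Y => g p.1 p.2) hA.mp f = 0 := by
    refine Lp.ext ?_
    refine (Lp.coeFn_compMeasurePreserving f hA.mp).trans ?_
    refine EventuallyEq.trans ?_ (Lp.coeFn_zero _ _ _).symm
    exact h1
  have h4 := Lp.norm_compMeasurePreserving f hA.mp
  rw [h3, norm_zero] at h4
  exact norm_eq_zero.1 h4.symm

/-- unimodular part of a function -/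
noncomputable def unimod {α : Type*} (f : α → ℂ) : α → ℂ :=
  fun y => if f y = 0 then 1 else f y / (‖f y‖ : ℂ)

theorem norm_unimod {α : Type*} (f : α → ℂ) (y : α) : ‖unimod f y‖ = 1 := by
  unfold unimod
  split_ifs with h
  · simp
  · rw [norm_div]
    simp [h]

theorem measurable_unimod {α : Type*} [MeasurableSpace α] {f : α → ℂ} (hf : Measurable f) :
    Measurable (unimod f) := by
  unfold unimod
  refine Measurable.ite (hf (measurableSet_singleton 0)) measurable_const ?_
  exact hf.div (Complex.continuous_ofReal.measurable.comp hf.norm)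

theorem unimod_mul {α β : Type*} {f : α → ℂ} {k : β → ℂ} {a b : α} {v : β}
    (hk : k v ≠ 0) (h : f b = k v * f a) (ha : f a ≠ 0) :
    unimod f b = unimod k v * unimod f a := by
  have hb : f b ≠ 0 := by rw [h]; exact mul_ne_zero hk ha
  simp only [unimod, if_neg hb, if_neg hk, if_neg ha]
  rw [h, norm_mul]
  have h1 : (‖k v‖ : ℂ) ≠ 0 := by
    simpa using hk
  have h2 : (‖f a‖ : ℂ) ≠ 0 := by
    simpa using ha
  push_cast
  field_simp

theorem norm_sq_Lp (f : Lp ℂ 2 μ) : ‖f‖ ^ 2 = ∫ y, ‖f y‖ ^ 2 ∂μ := by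
  have h1 := L2.inner_def (𝕜 := ℂ) f f
  rw [inner_self_eq_norm_sq_to_K] at h1
  have h2 : ∫ y, ⟪f y, f y⟫_ℂ ∂μ = ((∫ y, ‖f y‖ ^ 2 ∂μ : ℝ) : ℂ) := by
    rw [← integral_complex_ofReal]
    refine integral_congr_ae (Eventually.of_forall fun y => ?_)
    simp only [inner_self_eq_norm_sq_to_K]
    push_cast; rfl
  rw [h2] at h1
  apply Complex.ofReal_injective
  rw [← h1]
  simp

/-- Joint eigenfunctions are unimodular (up to a constant) and transform by a unimodular
factor. -/
theorem Act.eigen (hA : Act ν μ g inv) (f : Lp ℂ 2 μ) (hf : f ≠ 0)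
    (hE : ∀ q : V → ℂ, Measurable q → (∀ v, ‖q v‖ ≤ 1) →
      ∃ c : ℂ, ∀ᵐ y ∂μ, ∫ v, q v * f (g v y) ∂ν = c * f y) :
    (∃ c : ℝ, 0 < c ∧ ∀ᵐ y ∂μ, ‖f y‖ = c) ∧ ∃ kap : V → ℂ, Measurable kap ∧ (∀ v, ‖kap v‖ = 1) ∧
      ∀ᵐ p ∂(ν.prod μ), unimod f (g p.1 p.2) = kap p.1 * unimod f p.2 := by
  have hfm : Measurable (f : Y → ℂ) := (Lp.stronglyMeasurable f).measurable
  set N : ℂ := ((‖f‖ ^ 2 : ℝ) : ℂ) with hN
  have hN0 : N ≠ 0 := by
    rw [hN]
    have : ‖f‖ ≠ 0 := norm_ne_zero_iff.2 hf
    exact_mod_cast pow_ne_zero 2 this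
  have hNint : ∫ y, conj (f y) * f y ∂μ = N := by
    rw [hN, norm_sq_Lp, ← integral_complex_ofReal]
    refine integral_congr_ae (Eventually.of_forall fun y => ?_)
    simp only
    rw [← Complex.normSq_eq_conj_mul_self, Complex.normSq_eq_norm_sq]
  have hone : Measurable (fun _ : V => (1 : ℂ)) := measurable_const
  have hint0 := hA.integrable (q := fun _ => 1) hone (C := 1) (by simp) (Lp.memLp f) (Lp.memLp f)
  simp only [one_mul] at hint0
  set k0 : V → ℂ := fun v => (∫ y, conj (f y) * f (g v y) ∂μ) / N with hk0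
  have hk0m : Measurable k0 := by
    have h1 : StronglyMeasurable (fun p : V × Y => conj (f p.2) * f (g p.1 p.2)) :=
      ((Complex.continuous_conj.measurable.comp (hfm.comp measurable_snd)).mul
        (hfm.comp hA.hg)).stronglyMeasurable
    exact (h1.integral_prod_right').measurable.div_const _
  have hk0i : Integrable k0 ν := hint0.integral_prod_left.div_const _
  -- eigenvalues
  have hc : ∀ q : V → ℂ, Measurable q → (∀ v, ‖q v‖ ≤ 1) → ∀ᵐ y ∂μ,
      ∫ v, q v * f (g v y) ∂ν = (∫ v, q v * k0 v ∂ν) * f y := by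
    intro q hq hb
    obtain ⟨c, hc⟩ := hE q hq hb
    have hint := hA.integrable hq hb (Lp.memLp f) (Lp.memLp f)
    have e1 : ∫ p, conj (f p.2) * (q p.1 * f (g p.1 p.2)) ∂(ν.prod μ) = c * N := by
      rw [integral_prod_symm _ hint]
      simp only
      have : ∀ᵐ y ∂μ, ∫ v, conj (f y) * (q v * f (g v y)) ∂ν = c * (conj (f y) * f y) := by
        filter_upwards [hc] with y hy
        rw [integral_const_mul, hy]; ring
      rw [integral_congr_ae this, integral_const_mul, hNint]
    have e2 : ∫ p, conj (f p.2) * (q p.1 * f (g p.1 p.2)) ∂(ν.prod μ)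
        = (∫ v, q v * k0 v ∂ν) * N := by
      rw [integral_prod _ hint, ← integral_mul_const]
      refine integral_congr_ae (Eventually.of_forall fun v => ?_)
      simp only [hk0]
      rw [mul_assoc, div_mul_cancel₀ _ hN0, ← integral_const_mul]
      refine integral_congr_ae (Eventually.of_forall fun y => ?_)
      simp only
      ring
    have e3 : c = ∫ v, q v * k0 v ∂ν := mul_right_cancel₀ hN0 (e1.symm.trans e2)
    rw [← e3]; exact hc
  -- the eigenvalue equation
  have hker : ∀ᵐ p ∂(ν.prod μ), f (g p.1 p.2) = k0 p.1 * f p.2 := by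
    have hfi : Integrable (f : Y → ℂ) μ := (Lp.memLp f).integrable (by norm_num)
    have i1 : Integrable (fun p : V × Y => f (g p.1 p.2)) (ν.prod μ) :=
      ((Lp.memLp f).comp_measurePreserving hA.mp).integrable (by norm_num)
    have i2 : Integrable (fun p : V × Y => k0 p.1 * f p.2) (ν.prod μ) := hk0i.mul_prod hfi
    have h0 : (fun p : V × Y => f (g p.1 p.2) - k0 p.1 * f p.2) =ᵐ[ν.prod μ] 0 := by
      refine ae_zero_of_rect (i1.sub i2) fun S T hS hT => ?_
      rw [integral_sub i1.integrableOn i2.integrableOn, hA.setIntegral_rect (Lp.memLp f) hS hT]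
      have h1 := hc (S.indicator (fun _ => (1 : ℂ))) (measurable_const.indicator hS)
        (fun v => by by_cases h : v ∈ S <;> simp [h])
      rw [integral_congr_ae (ae_restrict_of_ae h1), integral_const_mul]
      rw [setIntegral_prod_mul]
      have h2 : ∫ v, S.indicator (fun _ => (1 : ℂ)) v * k0 v ∂ν = ∫ v in S, k0 v ∂ν := by
        rw [← integral_indicator hS]
        refine integral_congr_ae (Eventually.of_forall fun v => ?_)
        by_cases hv : v ∈ S <;> simp [hv]
      rw [h2, sub_self]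
    filter_upwards [h0] with p hp
    exact sub_eq_zero.1 hp
  -- `|k0| = 1`
  have hk1 : ∀ᵐ v ∂ν, ‖k0 v‖ = 1 := by
    have hφ : Integrable (fun y => conj (f y) * f y) μ :=
      ((Lp.memLp f).star).integrable_mul (Lp.memLp f)
    have h1 := hA.ae_int' hφ
    have h2 := Measure.ae_ae_of_ae_prod hker
    filter_upwards [h1, h2] with v hv1 hv2
    rw [hNint] at hv1
    have h3 : ∫ y, conj (f (g v y)) * f (g v y) ∂μ = conj (k0 v) * k0 v * N := by
      rw [← hNint, ← integral_const_mul]
      refine integral_congr_ae ?_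
      filter_upwards [hv2] with y hy
      have hy' : f (g v y) = k0 v * f y := hy
      rw [hy', map_mul]; ring
    rw [h3] at hv1
    have h4 : conj (k0 v) * k0 v = 1 := by
      have : conj (k0 v) * k0 v * N = 1 * N := by rw [hv1, one_mul]
      exact mul_right_cancel₀ hN0 this
    rw [← Complex.normSq_eq_conj_mul_self, Complex.normSq_eq_norm_sq] at h4
    have h5 : ‖k0 v‖ ^ 2 = 1 := by exact_mod_cast h4
    nlinarith [norm_nonneg (k0 v), sq_nonneg (‖k0 v‖ - 1)]
  have hk1' : ∀ᵐ p ∂(ν.prod μ), ‖k0 p.1‖ = 1 :=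
    (Measure.quasiMeasurePreserving_fst (μ := ν) (ν := μ)).ae hk1
  -- `|f|` is constant
  have hinvn : ∀ᵐ z ∂(μ.prod μ), ‖f z.1‖ = ‖f z.2‖ := by
    have hms : MeasurableSet {z : Y × Y | ‖f z.1‖ = ‖f z.2‖} :=
      measurableSet_eq_fun (hfm.norm.comp measurable_fst) (hfm.norm.comp measurable_snd)
    rw [← hA.h1.map_eq, ae_map_iff hA.h1.measurable.aemeasurable hms]
    filter_upwards [hker, hk1'] with p hp1 hp2
    rw [hp1, norm_mul, hp2, one_mul]
  have hconst : ∃ c : ℝ, 0 < c ∧ ∀ᵐ y ∂μ, ‖f y‖ = c := by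
    have h1 := ae_ae_symm hinvn
    obtain ⟨y2, hy2⟩ := h1.exists
    refine ⟨‖f y2‖, ?_, hy2⟩
    by_contra hneg
    have h3 : ‖f y2‖ = 0 := le_antisymm (not_lt.1 hneg) (norm_nonneg _)
    apply hf
    refine Lp.ext ?_
    refine EventuallyEq.trans ?_ (Lp.coeFn_zero _ _ _).symm
    filter_upwards [hy2] with y hy
    have hy' : ‖f y‖ = ‖f y2‖ := hy
    rw [h3] at hy'
    exact norm_eq_zero.1 hy'
  refine ⟨hconst, unimod k0, measurable_unimod hk0m, norm_unimod k0, ?_⟩
  obtain ⟨c, hc0, hcc⟩ := hconst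
  have hcc' : ∀ᵐ p ∂(ν.prod μ), ‖f p.2‖ = c :=
    (Measure.quasiMeasurePreserving_snd (μ := ν) (ν := μ)).ae hcc
  filter_upwards [hker, hk1', hcc'] with p h1 h2 h3
  refine unimod_mul ?_ h1 ?_
  · intro h; rw [h, norm_zero] at h2; exact zero_ne_one h2
  · intro h; rw [h, norm_zero] at h3; exact hc0.ne h3

end Op

section Total

/-- **Theorem CH**: for a family of commuting averaging actions, the unimodular joint
eigenfunctions are total in `L²`. -/
theorem total {J : Type*} [Nonempty J] {Y : Type*} [MeasurableSpace Y] {μ : Measure Y}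
    [IsProbabilityMeasure μ] {V : J → Type*} [∀ j, MeasurableSpace (V j)]
    {ν : ∀ j, Measure (V j)} [∀ j, IsProbabilityMeasure (ν j)]
    {g : ∀ j, V j → Y → Y} {inv : ∀ j, V j → V j}
    (hA : ∀ j, Act (ν j) μ (g j) (inv j))
    (hcomm : ∀ j l, ∀ᵐ p ∂((ν l).prod ((ν j).prod μ)),
      g l p.1 (g j p.2.1 p.2.2) = g j p.2.1 (g l p.1 p.2.2))
    {h : Y → ℂ} (hh : MemLp h 2 μ)
    (horth : ∀ (f : Y → ℂ) (kap : ∀ j, V j → ℂ), Measurable f → (∀ y, ‖f y‖ = 1) →
      (∀ j, Measurable (kap j)) → (∀ j v, ‖kap j v‖ = 1) →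
      (∀ j, ∀ᵐ p ∂((ν j).prod μ), f (g j p.1 p.2) = kap j p.1 * f p.2) →
      ∫ y, h y * conj (f y) ∂μ = 0) :
    h =ᵐ[μ] 0 := by
  classical
  set F : Set (Lp ℂ 2 μ →L[ℂ] Lp ℂ 2 μ) := {A | ∃ (j : J) (q : V j → ℂ), Measurable q ∧
    (∀ v, ‖q v‖ ≤ 1) ∧ IsOp (ν j) μ (g j) q A} with hF
  have h0 : hh.toLp h = 0 := by
    refine joint_total F ?_ ?_ ?_ ?_ _ ?_
    · rintro A ⟨j, q, hq, hb, hop⟩
      exact (hA j).op_compact hq hb hop
    · rintro A ⟨j, q, hq, hb, hop⟩
      have hq' : Measurable (fun v => conj (q (inv j v))) :=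
        Complex.continuous_conj.measurable.comp (hq.comp (hA j).hinv.measurable)
      have hb' : ∀ v, ‖(fun v => conj (q (inv j v))) v‖ ≤ 1 := fun v => by
        simpa using hb (inv j v)
      obtain ⟨B, hB⟩ := (hA j).exists_op hq' hb'
      rw [(hA j).op_adjoint hq hb hop hB]
      exact ⟨j, _, hq', hb', hB⟩
    · rintro A ⟨j, q, hq, hb, hop⟩ B ⟨l, r, hr, hb', hop'⟩ x
      exact (hA j).op_comm (hA l) hq hb hr hb' hop hop' (hcomm j l) x
    · intro x hx
      obtain ⟨j⟩ := ‹Nonempty J›
      refine (hA j).ker_trivial x fun q hq hb => ?_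
      obtain ⟨B, hB⟩ := (hA j).exists_op hq hb
      have h1 := hx B ⟨j, q, hq, hb, hB⟩
      have h2 := hB x
      rw [h1] at h2
      filter_upwards [h2, Lp.coeFn_zero ℂ 2 μ] with y hy hy0
      rw [← hy, hy0]; rfl
    · intro f hf
      by_cases hf0 : f = 0
      · rw [hf0, inner_zero_left]
      have hE : ∀ j, ∀ q : V j → ℂ, Measurable q → (∀ v, ‖q v‖ ≤ 1) →
          ∃ c : ℂ, ∀ᵐ y ∂μ, ∫ v, q v * f (g j v y) ∂(ν j) = c * f y := by
        intro j q hq hb
        obtain ⟨B, hB⟩ := (hA j).exists_op hq hb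
        obtain ⟨c, hc⟩ := hf B ⟨j, q, hq, hb, hB⟩
        refine ⟨c, ?_⟩
        have h2 := hB f
        rw [hc] at h2
        filter_upwards [h2, Lp.coeFn_smul c f] with y hy hy0
        rw [← hy, hy0]; rfl
      have hE' := fun j => (hA j).eigen f hf0 (hE j)
      choose kap hk1 hk2 hk3 using fun j => (hE' j).2
      obtain ⟨j0⟩ := ‹Nonempty J›
      obtain ⟨c, hc0, hcc⟩ := (hE' j0).1
      have hfm : Measurable (f : Y → ℂ) := (Lp.stronglyMeasurable f).measurable
      have h1 := horth (unimod f) kap (measurable_unimod hfm) (norm_unimod _) hk1 hk2 hk3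
      rw [L2.inner_def]
      have h2 : ∫ y, ⟪f y, hh.toLp h y⟫_ℂ ∂μ = ∫ y, (c : ℂ) * (h y * conj (unimod f y)) ∂μ := by
        refine integral_congr_ae ?_
        filter_upwards [hcc, hh.coeFn_toLp] with y hy1 hy2
        simp only [RCLike.inner_apply]
        rw [hy2]
        have hne : f y ≠ 0 := by
          intro h; rw [h, norm_zero] at hy1; exact hc0.ne hy1
        simp only [unimod, if_neg hne, hy1, map_div₀, Complex.conj_ofReal]
        have : (c : ℂ) ≠ 0 := by exact_mod_cast hc0.ne'
        field_simp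
      rw [h2, integral_const_mul, h1, mul_zero]
  have h1 := hh.coeFn_toLp
  rw [h0] at h1
  exact h1.symm.trans (Lp.coeFn_zero _ _ _)

end Total

end Crest.Agent.R069.ArrCH
end

-- ▼ part R069/Static6
section

/-!
# Row 69, node STATIC, part 6: the moves `Γ j` form commuting actions
-/

open MeasureTheory ProbabilityTheory Function
open scoped ENNReal

set_option linter.unusedSectionVars false

namespace Crest.Agent.R069.Static

noncomputable section

section aux

variable {X Y Z W : Type*} [MeasurableSpace X] [MeasurableSpace Y] [MeasurableSpace Z]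
  [MeasurableSpace W]

theorem mp_of_comp {f : Y → Z} {M : X → Y} {f' : X → Z} {μa : Measure X} {μb : Measure Y}
    {μc : Measure Z} (hM : MeasurePreserving M μa μb) (hf : Measurable f)
    (h : (fun x => f (M x)) =ᵐ[μa] f') (hf' : MeasurePreserving f' μa μc) :
    MeasurePreserving f μb μc := by
  refine ⟨hf, ?_⟩
  rw [← hM.map_eq, Measure.map_map hf hM.measurable]
  exact (Measure.map_congr h).trans hf'.map_eq

theorem ae_of_comp {M : X → Y} {μa : Measure X} {μb : Measure Y}
    (hM : MeasurePreserving M μa μb) {Q : Y → Prop} (hQ : MeasurableSet {y | Q y})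
    (h : ∀ᵐ x ∂μa, Q (M x)) : ∀ᵐ y ∂μb, Q y := by
  rw [← hM.map_eq]
  exact (ae_map_iff hM.measurable.aemeasurable hQ).2 h

theorem mp_mid (μ1 : Measure X) (μ2 : Measure Y) (μ3 : Measure Z) (μ4 : Measure W)
    [IsProbabilityMeasure μ1] [IsProbabilityMeasure μ2] [IsProbabilityMeasure μ3]
    [IsProbabilityMeasure μ4] :
    MeasurePreserving (fun x : (X × Y) × (Z × W) => ((x.1.1, x.2.1), (x.1.2, x.2.2)))
      ((μ1.prod μ2).prod (μ3.prod μ4)) ((μ1.prod μ3).prod (μ2.prod μ4)) := by
  have h1 := measurePreserving_prodAssoc μ1 μ2 (μ3.prod μ4)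
  have h2 : MeasurePreserving (fun x : X × (Y × (Z × W)) => (x.1, ((x.2.1, x.2.2.1), x.2.2.2)))
      (μ1.prod (μ2.prod (μ3.prod μ4))) (μ1.prod ((μ2.prod μ3).prod μ4)) :=
    (MeasurePreserving.id μ1).prod ((measurePreserving_prodAssoc μ2 μ3 μ4).symm
      MeasurableEquiv.prodAssoc)
  have h3 : MeasurePreserving (fun x : X × ((Y × Z) × W) => (x.1, (x.2.1.swap, x.2.2)))
      (μ1.prod ((μ2.prod μ3).prod μ4)) (μ1.prod ((μ3.prod μ2).prod μ4)) :=
    (MeasurePreserving.id μ1).prod ((Measure.measurePreserving_swap).prod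
      (MeasurePreserving.id μ4))
  have h4 : MeasurePreserving (fun x : X × ((Z × Y) × W) => (x.1, (x.2.1.1, (x.2.1.2, x.2.2))))
      (μ1.prod ((μ3.prod μ2).prod μ4)) (μ1.prod (μ3.prod (μ2.prod μ4))) :=
    (MeasurePreserving.id μ1).prod (measurePreserving_prodAssoc μ3 μ2 μ4)
  have h5 : MeasurePreserving (fun x : X × (Z × (Y × W)) => ((x.1, x.2.1), x.2.2))
      (μ1.prod (μ3.prod (μ2.prod μ4))) ((μ1.prod μ3).prod (μ2.prod μ4)) :=
    (measurePreserving_prodAssoc μ1 μ3 (μ2.prod μ4)).symm MeasurableEquiv.prodAssoc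
  exact h5.comp (h4.comp (h3.comp (h2.comp h1)))

end aux

variable {P : Type*} [Fintype P] [DecidableEq P] {J : Type*} [Fintype J] [DecidableEq J]
  {I : Type*} [Fintype I] [DecidableEq I]
  {E : Type*} [MeasurableSpace E]

/-- Replace the entry `q` in both copies by the entries of another pair of copies. -/
theorem mp_update2 (μ : P → Measure E) [∀ p, IsProbabilityMeasure (μ p)] (q : P) :
    MeasurePreserving (fun x : ((P → E) × (P → E)) × ((P → E) × (P → E)) =>
        (update x.1.1 q (x.2.1 q), update x.1.2 q (x.2.2 q)))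
      (((Measure.pi μ).prod (Measure.pi μ)).prod ((Measure.pi μ).prod (Measure.pi μ)))
      ((Measure.pi μ).prod (Measure.pi μ)) :=
  ((mp_update μ q).prod (mp_update μ q)).comp
    (mp_mid (Measure.pi μ) (Measure.pi μ) (Measure.pi μ) (Measure.pi μ))

namespace Side

variable {μ : P → Measure E} {b : P → J} {β : J → Measure E} {v : J → (P → E) → E}
    {Ψ : (J → E) → E} {μY : Measure E} (S : Side μ b β v Ψ μY)

include S

theorem mv3_sw (p : P) (x : (P → E) × (P → E)) :
    mv3 v Ψ b p (sw {p} x) =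
      ((v (b p) (update x.1 p (x.2 p)), v (b p) x.1), cor v Ψ x.1) := by
  rw [sw_single]
  simp [mv3]

theorem act (p : P) (hnt : ∃ q, b q ≠ b p) {Γ : (E × E) × E → E}
    (hΓm : Measurable Γ) [StandardBorelSpace E]
    (hKI : ∀ᵐ x ∂((Measure.pi μ).prod (Measure.pi μ)), cor v Ψ x.1 = Γ (mv3 v Ψ b p x)) :
    ArrCH.Act ((β (b p)).prod (β (b p))) μY (fun v y => Γ (v, y)) Prod.swap := by
  have := S.pμ
  have := S.pβ
  have := S.pY
  have hM := S.mp_mv3 p hnt
  have hKI' := (mp_sw μ {p}).quasiMeasurePreserving.ae hKI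
  refine ⟨hΓm, Measure.measurePreserving_swap, ?_, ?_, ?_⟩
  · refine mp_of_comp hM (hΓm.prodMk measurable_snd) ?_ (S.mp_cor_pair p)
    filter_upwards [hKI] with x hx
    exact Prod.ext hx.symm rfl
  · have h1 : MeasurePreserving (fun y : (E × E) × E => (y.1.swap, y.2))
        (((β (b p)).prod (β (b p))).prod μY) (((β (b p)).prod (β (b p))).prod μY) :=
      (Measure.measurePreserving_swap).prod (MeasurePreserving.id _)
    refine mp_of_comp hM (measurable_fst.prodMk hΓm) ?_ (h1.comp (hM.comp (mp_sw μ {p})))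
    filter_upwards [hKI] with x hx
    simp only [comp_apply]
    rw [S.mv3_sw]
    exact Prod.ext rfl hx.symm
  · refine ae_of_comp hM ?_ ?_
    · refine measurableSet_eq_fun ?_ measurable_snd
      exact hΓm.comp ((measurable_swap.comp measurable_fst).prodMk hΓm)
    · filter_upwards [hKI, hKI'] with x h1 h2
      rw [S.mv3_sw] at h2
      have h3 : Γ ((mv3 v Ψ b p x).1, (mv3 v Ψ b p x).2) = cor v Ψ x.1 := h1.symm
      rw [h3]
      have h4 : cor v Ψ (sw {p} x).1 = cor v Ψ (update x.1 p (x.2 p)) := by rw [sw_single]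
      rw [h4] at h2
      exact h2.symm

end Side

namespace Arr

variable {μ : P → Measure E} {b : P → J} {β : J → Measure E} {v : J → (P → E) → E}
    {Ψ : (J → E) → E} {a : P → I} {α : I → Measure E} {u : I → (P → E) → E}
    {Φ : (I → E) → E} {μY : Measure E} (A : Arr μ b β v Ψ a α u Φ μY)

include A

/-- Commutation of the moves of the line outputs (also for the same line). -/
theorem Gam_comm [StandardBorelSpace E] [Nonempty I] (Γ : J → (E × E) × E → E)
    (hΓm : ∀ j, Measurable (Γ j))
    (hΓ : ∀ j p, b p = j → ∀ G : E × E × E → E, Measurable G →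
      (∀ᵐ x ∂((Measure.pi μ).prod (Measure.pi μ)),
        cor v Ψ x.1 = G (x.1 p, x.2 p, cor v Ψ (update x.1 p (x.2 p)))) →
      ∀ᵐ x ∂(((Measure.pi μ).prod (Measure.pi μ)).prod μY),
        Γ j ((v j x.1.1, v j (update x.1.1 p (x.1.2 p))), x.2) = G (x.1.1 p, x.1.2 p, x.2))
    (j l : J) :
    ∀ᵐ x ∂(((β l).prod (β l)).prod (((β j).prod (β j)).prod μY)),
      Γ l (x.1, Γ j (x.2.1, x.2.2)) = Γ j (x.2.1, Γ l (x.1, x.2.2)) := by
  have := A.col.pμ
  have := A.col.pβ
  have := A.col.pY
  obtain ⟨i⟩ := ‹Nonempty I›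
  obtain ⟨i', hi⟩ := A.nt' i
  obtain ⟨p, rfl, hp2⟩ := A.surj l i
  obtain ⟨q, rfl, hq2⟩ := A.surj j i'
  have hpq : p ≠ q := by rintro rfl; exact hi (hp2.symm.trans hq2)
  obtain ⟨Gp, hGpm, hGp⟩ := A.exists_G p
  obtain ⟨Gq, hGqm, hGq⟩ := A.exists_G q
  have hcomm := A.G_comm hpq hGpm hGqm hGp hGq
  have eP := hΓ (b p) p rfl Gp hGpm hGp
  have eQ := hΓ (b q) q rfl Gq hGqm hGq
  set PP := (Measure.pi μ).prod (Measure.pi μ) with hPP
  -- the parameter map
  let Mp : ((P → E) × (P → E)) → E × E := fun x => (v (b p) x.1, v (b p) (update x.1 p (x.2 p)))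
  let Mq : ((P → E) × (P → E)) → E × E := fun x => (v (b q) x.1, v (b q) (update x.1 q (x.2 q)))
  have hMp : MeasurePreserving Mp PP ((β (b p)).prod (β (b p))) := A.col.mp_v_pair p
  have hMq : MeasurePreserving Mq PP ((β (b q)).prod (β (b q))) := A.col.mp_v_pair q
  have hM : MeasurePreserving
      (fun x : ((P → E) × (P → E)) × (((P → E) × (P → E)) × E) => (Mp x.1, (Mq x.2.1, x.2.2)))
      (PP.prod (PP.prod μY))
      (((β (b p)).prod (β (b p))).prod (((β (b q)).prod (β (b q))).prod μY)) :=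
    hMp.prod (hMq.prod (MeasurePreserving.id _))
  have actP : ArrCH.Act ((β (b p)).prod (β (b p))) μY (fun v y => Γ (b p) (v, y)) Prod.swap := by
    refine A.col.act p ?_ (hΓm _) (A.Gam_mv3 p (hΓm _) (hΓ (b p) p rfl))
    obtain ⟨j', hj'⟩ := A.nt (b p)
    obtain ⟨r, hr, -⟩ := A.surj j' i
    exact ⟨r, by rw [hr]; exact hj'.symm⟩
  have actQ : ArrCH.Act ((β (b q)).prod (β (b q))) μY (fun v y => Γ (b q) (v, y)) Prod.swap := by
    refine A.col.act q ?_ (hΓm _) (A.Gam_mv3 q (hΓm _) (hΓ (b q) q rfl))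
    obtain ⟨j', hj'⟩ := A.nt (b q)
    obtain ⟨r, hr, -⟩ := A.surj j' i
    exact ⟨r, by rw [hr]; exact hj'.symm⟩
  refine ae_of_comp hM ?_ ?_
  · refine measurableSet_eq_fun ?_ ?_
    · exact (hΓm _).comp (measurable_fst.prodMk ((hΓm _).comp
        ((measurable_fst.comp measurable_snd).prodMk (measurable_snd.comp measurable_snd))))
    · exact (hΓm _).comp ((measurable_fst.comp measurable_snd).prodMk ((hΓm _).comp
        (measurable_fst.prodMk (measurable_snd.comp measurable_snd))))
  · -- the four identities on `PP ⊗ (PP ⊗ μY)`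
    -- (1) `Γ q` at `(y, z)`
    have h1 : ∀ᵐ x ∂(PP.prod (PP.prod μY)),
        Γ (b q) (Mq x.2.1, x.2.2) = Gq (x.2.1.1 q, x.2.1.2 q, x.2.2) :=
      (measurePreserving_snd (μ := PP) (ν := PP.prod μY)).quasiMeasurePreserving.ae eQ
    -- (2) `Γ p` at `(x, z)`
    have hxz : MeasurePreserving
        (fun x : ((P → E) × (P → E)) × (((P → E) × (P → E)) × E) => (x.1, x.2.2))
        (PP.prod (PP.prod μY)) (PP.prod μY) :=
      (MeasurePreserving.id _).prod measurePreserving_snd
    have h2 : ∀ᵐ x ∂(PP.prod (PP.prod μY)),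
        Γ (b p) (Mp x.1, x.2.2) = Gp (x.1.1 p, x.1.2 p, x.2.2) :=
      hxz.quasiMeasurePreserving.ae eP
    -- (3) `Γ p` at `(x, Γ q (y, z))`
    have hxg : MeasurePreserving
        (fun x : ((P → E) × (P → E)) × (((P → E) × (P → E)) × E) =>
          (x.1, Γ (b q) (Mq x.2.1, x.2.2)))
        (PP.prod (PP.prod μY)) (PP.prod μY) := by
      have k : MeasurePreserving (fun y : ((P → E) × (P → E)) × E => Γ (b q) (Mq y.1, y.2))
          (PP.prod μY) μY := (actQ.mp).comp (hMq.prod (MeasurePreserving.id μY))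
      exact (MeasurePreserving.id PP).prod k
    have h3 : ∀ᵐ x ∂(PP.prod (PP.prod μY)),
        Γ (b p) (Mp x.1, Γ (b q) (Mq x.2.1, x.2.2)) =
          Gp (x.1.1 p, x.1.2 p, Γ (b q) (Mq x.2.1, x.2.2)) :=
      hxg.quasiMeasurePreserving.ae eP
    -- (4) `Γ q` at `(y, Γ p (x, z))`
    have hyx : MeasurePreserving
        (fun x : ((P → E) × (P → E)) × (((P → E) × (P → E)) × E) => (x.2.1, (x.1, x.2.2)))
        (PP.prod (PP.prod μY)) (PP.prod (PP.prod μY)) := by
      have k1 := (measurePreserving_prodAssoc PP PP μY).symm MeasurableEquiv.prodAssoc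
      have k2 : MeasurePreserving
          (fun x : (((P → E) × (P → E)) × ((P → E) × (P → E))) × E => (x.1.swap, x.2))
          ((PP.prod PP).prod μY) ((PP.prod PP).prod μY) :=
        (Measure.measurePreserving_swap).prod (MeasurePreserving.id _)
      have k3 := measurePreserving_prodAssoc PP PP μY
      exact k3.comp (k2.comp k1)
    have hyg : MeasurePreserving
        (fun x : ((P → E) × (P → E)) × (((P → E) × (P → E)) × E) =>
          (x.2.1, Γ (b p) (Mp x.1, x.2.2)))
        (PP.prod (PP.prod μY)) (PP.prod μY) := by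
      have k : MeasurePreserving
          (fun x : ((P → E) × (P → E)) × (((P → E) × (P → E)) × E) =>
            (x.1, Γ (b p) (Mp x.2.1, x.2.2)))
          (PP.prod (PP.prod μY)) (PP.prod μY) := by
        have k' : MeasurePreserving (fun y : ((P → E) × (P → E)) × E => Γ (b p) (Mp y.1, y.2))
            (PP.prod μY) μY := (actP.mp).comp (hMp.prod (MeasurePreserving.id μY))
        exact (MeasurePreserving.id PP).prod k'
      exact k.comp hyx
    have h4 : ∀ᵐ x ∂(PP.prod (PP.prod μY)),
        Γ (b q) (Mq x.2.1, Γ (b p) (Mp x.1, x.2.2)) =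
          Gq (x.2.1.1 q, x.2.1.2 q, Γ (b p) (Mp x.1, x.2.2)) :=
      hyg.quasiMeasurePreserving.ae eQ
    -- (5) commutation of the single-entry moves with independent parameters
    have hR : MeasurePreserving
        (fun x : ((P → E) × (P → E)) × (((P → E) × (P → E)) × E) =>
          (((update x.1.1 q (x.2.1.1 q), update x.1.2 q (x.2.1.2 q)), x.2.2) :
            ((P → E) × (P → E)) × E))
        (PP.prod (PP.prod μY)) (PP.prod μY) := by
      have k1 := (measurePreserving_prodAssoc PP PP μY).symm MeasurableEquiv.prodAssoc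
      have k2 : MeasurePreserving
          (fun x : (((P → E) × (P → E)) × ((P → E) × (P → E))) × E =>
            (((update x.1.1.1 q (x.1.2.1 q), update x.1.1.2 q (x.1.2.2 q)), x.2) :
              ((P → E) × (P → E)) × E))
          ((PP.prod PP).prod μY) (PP.prod μY) :=
        (mp_update2 μ q).prod (MeasurePreserving.id _)
      exact k2.comp k1
    have h5 := hR.quasiMeasurePreserving.ae hcomm
    filter_upwards [h1, h2, h3, h4, h5] with x h1 h2 h3 h4 h5
    simp only [update_of_ne hpq, update_self] at h5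
    show Γ (b p) (Mp x.1, Γ (b q) (Mq x.2.1, x.2.2)) =
      Γ (b q) (Mq x.2.1, Γ (b p) (Mp x.1, x.2.2))
    rw [h3, h4, h1, h2]
    exact h5

end Arr

end

end Crest.Agent.R069.Static
end

-- ▼ part R069/Static7
section

/-!
# Row 69, node STATIC, part 7: the product form of joint eigenfunctions
-/

open MeasureTheory ProbabilityTheory Function
open scoped ENNReal

set_option linter.unusedSectionVars false

namespace Crest.Agent.R069.Static

noncomputable section

variable {J : Type*} [Fintype J] [DecidableEq J] {E : Type*} [MeasurableSpace E]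

/-- A function whose single-coordinate changes are multiplicative is a product. -/
theorem prod_form (β : J → Measure E) [∀ j, IsProbabilityMeasure (β j)] (F : (J → E) → ℂ)
    (kap : J → E × E → ℂ)
    (h : ∀ j, ∀ᵐ x ∂((Measure.pi β).prod (Measure.pi β)),
      F x.1 = kap j (x.1 j, x.2 j) * F (update x.1 j (x.2 j))) (s : Finset J) :
    ∀ᵐ x ∂((Measure.pi β).prod (Measure.pi β)),
      F x.1 = (∏ j ∈ s, kap j (x.1 j, x.2 j)) * F (s.piecewise x.2 x.1) := by
  induction s using Finset.induction_on with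
  | empty => simp
  | insert j s hj ih =>
    have h1 := (mp_sw β s).quasiMeasurePreserving.ae (h j)
    filter_upwards [ih, h1] with x h2 h3
    simp only [sw, Finset.piecewise_eq_of_notMem _ _ _ hj] at h3
    rw [h2, h3, Finset.prod_insert hj, Finset.piecewise_insert]
    ring

/-- One-coordinate form on `pi β ⊗ β j` gives the two-copies form. -/
theorem ae_two_copies (β : J → Measure E) [∀ j, IsProbabilityMeasure (β j)] (j : J)
    {Q : (J → E) × E → Prop} (h : ∀ᵐ x ∂((Measure.pi β).prod (β j)), Q x) :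
    ∀ᵐ x ∂((Measure.pi β).prod (Measure.pi β)), Q (x.1, x.2 j) :=
  ((MeasurePreserving.id (Measure.pi β)).prod
    (measurePreserving_eval β j)).quasiMeasurePreserving.ae h

/-- **Product form.** -/
theorem exists_prod_form [Nonempty J] (β : J → Measure E) [∀ j, IsProbabilityMeasure (β j)]
    {F : (J → E) → ℂ} (hF1 : ∀ w, ‖F w‖ = 1)
    {kap : J → E × E → ℂ} (hk : ∀ j, Measurable (kap j)) (hk1 : ∀ j e, ‖kap j e‖ = 1)
    (h : ∀ j, ∀ᵐ x ∂((Measure.pi β).prod (β j)),
      F x.1 = kap j (x.1 j, x.2) * F (update x.1 j x.2)) :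
    ∃ G : J → E → ℂ, (∀ j, Measurable (G j)) ∧ (∀ j e, ‖G j e‖ = 1) ∧
      ∀ᵐ w ∂(Measure.pi β), F w = ∏ j, G j (w j) := by
  classical
  have h1 := prod_form β F kap (fun j => ae_two_copies β j
    (Q := fun x => F x.1 = kap j (x.1 j, x.2) * F (update x.1 j x.2)) (h j)) Finset.univ
  have h2 := (Measure.measurePreserving_swap (μ := Measure.pi β)
    (ν := Measure.pi β)).quasiMeasurePreserving.ae h1
  obtain ⟨ws, hws⟩ := (Measure.ae_ae_of_ae_prod h2).exists
  obtain ⟨j1⟩ := ‹Nonempty J›
  refine ⟨fun j e => (if j = j1 then F ws else 1) * kap j (e, ws j), fun j => ?_, fun j e => ?_,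
    ?_⟩
  · exact measurable_const.mul ((hk j).comp (measurable_id.prodMk measurable_const))
  · rw [norm_mul, hk1, mul_one]
    split_ifs
    · exact hF1 ws
    · simp
  · filter_upwards [hws] with w hw
    simp only [Prod.swap, Finset.piecewise_univ] at hw
    rw [hw, Finset.prod_mul_distrib, Finset.prod_ite_eq' Finset.univ j1]
    simp [mul_comm]

variable {P : Type*} [Fintype P] [DecidableEq P]  {I : Type*} [Fintype I] [DecidableEq I]

/-- `f` is a corner character: unimodular, and `f ∘ Ψ` is a product. -/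
def CChar (β : J → Measure E) (Ψ : (J → E) → E) (f : E → ℂ) : Prop :=
  Measurable f ∧ (∀ y, ‖f y‖ = 1) ∧ ∃ G : J → E → ℂ, (∀ j, Measurable (G j)) ∧
    (∀ j e, ‖G j e‖ = 1) ∧ ∀ᵐ w ∂(Measure.pi β), f (Ψ w) = ∏ j, G j (w j)

namespace Arr

variable {μ : P → Measure E} {b : P → J} {β : J → Measure E} {v : J → (P → E) → E}
    {Ψ : (J → E) → E} {a : P → I} {α : I → Measure E} {u : I → (P → E) → E}
    {Φ : (I → E) → E} {μY : Measure E} (A : Arr μ b β v Ψ a α u Φ μY)

include A

theorem exists_ne_line [Nonempty I] (p : P) : ∃ q, b q ≠ b p := by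
  obtain ⟨j', hj'⟩ := A.nt (b p)
  obtain ⟨i⟩ := ‹Nonempty I›
  obtain ⟨r, hr, -⟩ := A.surj j' i
  exact ⟨r, by rw [hr]; exact hj'.symm⟩

/-- A joint eigenfunction is a corner character. -/
theorem cchar_of_eigen [StandardBorelSpace E] [Nonempty I] [Nonempty J]
    (Γ : J → (E × E) × E → E)
    (hKI : ∀ p, ∀ᵐ x ∂((Measure.pi μ).prod (Measure.pi μ)),
      cor v Ψ x.1 = Γ (b p) (Side.mv3 v Ψ b p x))
    {f : E → ℂ} (hf : Measurable f) (hf1 : ∀ y, ‖f y‖ = 1)
    {kap : J → E × E → ℂ} (hk : ∀ j, Measurable (kap j)) (hk1 : ∀ j e, ‖kap j e‖ = 1)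
    (h : ∀ j, ∀ᵐ p ∂(((β j).prod (β j)).prod μY), f (Γ j (p.1, p.2)) = kap j p.1 * f p.2) :
    CChar β Ψ f := by
  have := A.col.pμ
  have := A.col.pβ
  have := A.col.pY
  refine ⟨hf, hf1, ?_⟩
  refine exists_prod_form β (F := fun w => f (Ψ w)) (fun w => hf1 _) hk hk1 fun j => ?_
  obtain ⟨i⟩ := ‹Nonempty I›
  obtain ⟨p, rfl, -⟩ := A.surj j i
  haveI : Nonempty I := ⟨i⟩
  have h1 := (A.col.mp_mv3 p (A.exists_ne_line p)).quasiMeasurePreserving.ae (h (b p))
  refine ae_of_comp (A.col.mp_v_update p) ?_ ?_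
  · refine measurableSet_eq_fun ?_ ?_
    · exact hf.comp (A.col.mΨ.comp measurable_fst)
    · refine Measurable.mul ((hk _).comp ?_) (hf.comp (A.col.mΨ.comp (measurable_update_prod' _)))
      exact ((measurable_pi_apply _).comp measurable_fst).prodMk measurable_snd
  · filter_upwards [h1, hKI p] with x h2 h3
    have h4 : f (cor v Ψ x.1) =
        kap (b p) (v (b p) x.1, v (b p) (update x.1 p (x.2 p))) *
          f (cor v Ψ (update x.1 p (x.2 p))) := by
      rw [h3]; exact h2
    rw [A.col.cor_update] at h4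
    exact h4

/-- Orthogonality form of the totality of the corner characters. -/
theorem corner_orth [StandardBorelSpace E] [Nonempty I] [Nonempty J]
    {h : E → ℂ} (hh : MemLp h 2 μY)
    (horth : ∀ f, CChar β Ψ f → ∫ y, h y * (starRingEnd ℂ) (f y) ∂μY = 0) : h =ᵐ[μY] 0 := by
  have := A.col.pμ
  have := A.col.pβ
  have := A.col.pY
  choose Γ hΓm hΓ using fun j => A.exists_Gam j
  have hKI : ∀ p, ∀ᵐ x ∂((Measure.pi μ).prod (Measure.pi μ)),
      cor v Ψ x.1 = Γ (b p) (Side.mv3 v Ψ b p x) := fun p =>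
    A.Gam_mv3 p (hΓm _) (hΓ (b p) p rfl)
  have hact : ∀ j, ArrCH.Act ((β j).prod (β j)) μY (fun v y => Γ j (v, y)) Prod.swap := by
    intro j
    obtain ⟨i⟩ := ‹Nonempty I›
    haveI : Nonempty I := ⟨i⟩
    obtain ⟨p, rfl, -⟩ := A.surj j i
    exact A.col.act p (A.exists_ne_line p) (hΓm _) (hKI p)
  have hcomm := A.Gam_comm Γ hΓm hΓ
  refine ArrCH.total (V := fun _ : J => E × E) (ν := fun j => (β j).prod (β j))
    (g := fun j v y => Γ j (v, y)) (inv := fun _ => Prod.swap) hact ?_ hh ?_
  · intro j l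
    exact hcomm j l
  · intro f kap hf hf1 hk hk1 hfk
    exact horth f (A.cchar_of_eigen Γ hKI hf hf1 hk hk1 hfk)

end Arr

end

end Crest.Agent.R069.Static
end

-- ▼ part R069/StaticOut

/-!
# Row 69, node STATIC: `N_STATIC`
-/

open MeasureTheory ProbabilityTheory Function
open scoped ENNReal

namespace Crest.Agent.R069.StaticOut

open Crest.Agent.R069.Static

noncomputable section

/-- A family of square integrable functions with trivial orthogonal complement is total. -/
theorem dense_of_orth {Y : Type*} [MeasurableSpace Y] {mu : Measure Y} [IsProbabilityMeasure mu]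
    (FF : Set (Y → ℂ)) (hFF : ∀ f ∈ FF, MemLp f 2 mu)
    (horth : ∀ h : Y → ℂ, MemLp h 2 mu →
      (∀ f ∈ FF, ∫ y, h y * (starRingEnd ℂ) (f y) ∂mu = 0) → h =ᵐ[mu] 0)
    {h : Y → ℂ} (hh : MemLp h 2 mu) {ε : ℝ} (hε : 0 < ε) :
    ∃ (F : Finset (Y → ℂ)) (a : (Y → ℂ) → ℂ), (∀ f ∈ F, f ∈ FF) ∧
      ∫ y, ‖h y - ∑ f ∈ F, a f * f y‖ ^ 2 ∂mu < ε := by
  classical
  let v : FF → Lp ℂ 2 mu := fun f => (hFF f.1 f.2).toLp f.1
  let V : Submodule ℂ (Lp ℂ 2 mu) := Submodule.span ℂ (Set.range v)
  have hV : Vᗮ = ⊥ := by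
    rw [Submodule.eq_bot_iff]
    intro x hx
    rw [Submodule.mem_orthogonal] at hx
    have h0 : (x : Y → ℂ) =ᵐ[mu] 0 := by
      refine horth x (Lp.memLp x) fun f hf => ?_
      have h1 := hx (v ⟨f, hf⟩) (Submodule.subset_span ⟨⟨f, hf⟩, rfl⟩)
      rw [L2.inner_def] at h1
      rw [← h1]
      refine integral_congr_ae ?_
      filter_upwards [(hFF f hf).coeFn_toLp] with y hy
      simp only [v]
      rw [hy]
      simp
    exact (Lp.eq_zero_iff_ae_eq_zero).2 h0
  have htop : V.topologicalClosure = ⊤ := (Submodule.topologicalClosure_eq_top_iff).2 hV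
  have hmem : hh.toLp h ∈ closure (V : Set (Lp ℂ 2 mu)) := by
    rw [← Submodule.topologicalClosure_coe, htop]; trivial
  obtain ⟨g, hgV, hg⟩ := Metric.mem_closure_iff.1 hmem (Real.sqrt ε) (Real.sqrt_pos.2 hε)
  obtain ⟨c, hc⟩ := (Finsupp.mem_span_range_iff_exists_finsupp).1 hgV
  have hsum : (g : Y → ℂ) =ᵐ[mu] fun y => ∑ i ∈ c.support, c i * i.1 y := by
    rw [← hc, Finsupp.sum]
    have h1 := Lp.coeFn_finsetSum (μ := mu) (p := 2) c.support (fun i => c i • v i)
    have h2 : ∀ i : FF, ((c i • v i : Lp ℂ 2 mu) : Y → ℂ) =ᵐ[mu] fun y => c i * i.1 y := by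
      intro i
      filter_upwards [Lp.coeFn_smul (c i) (v i), (hFF i.1 i.2).coeFn_toLp] with y h3 h4
      rw [h3]; simp only [Pi.smul_apply, smul_eq_mul, v]; rw [h4]
    filter_upwards [h1, (ae_ball_iff c.support.countable_toSet).2 fun i _ => h2 i] with y h3 h4
    rw [h3, Finset.sum_apply]
    exact Finset.sum_congr rfl fun i hi => h4 i hi
  refine ⟨c.support.image Subtype.val, fun f => if hf : f ∈ FF then c ⟨f, hf⟩ else 0, ?_, ?_⟩
  · intro f hf
    simp only [Finset.mem_image] at hf
    obtain ⟨i, -, rfl⟩ := hf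
    exact i.2
  · have e1 : ∀ y, ∑ f ∈ c.support.image Subtype.val,
        (if hf : f ∈ FF then c ⟨f, hf⟩ else 0) * f y = ∑ i ∈ c.support, c i * i.1 y := by
      intro y
      rw [Finset.sum_image (fun a _ b _ h => Subtype.ext h)]
      refine Finset.sum_congr rfl fun i _ => ?_
      simp [i.2]
    have e2 : ∫ y, ‖h y - ∑ f ∈ c.support.image Subtype.val,
        (if hf : f ∈ FF then c ⟨f, hf⟩ else 0) * f y‖ ^ 2 ∂mu = ‖hh.toLp h - g‖ ^ 2 := by
      rw [ArrCH.norm_sq_Lp]
      refine integral_congr_ae ?_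
      filter_upwards [hsum, Lp.coeFn_sub (hh.toLp h) g, hh.coeFn_toLp] with y h1 h2 h3
      rw [e1, h2, Pi.sub_apply, h3, h1]
    rw [e2]
    rw [dist_eq_norm] at hg
    calc ‖hh.toLp h - g‖ ^ 2 < (Real.sqrt ε) ^ 2 :=
          pow_lt_pow_left₀ hg (norm_nonneg _) two_ne_zero
      _ = ε := Real.sq_sqrt hε.le

theorem tot_of_corner {R E : Type*} [Fintype R] [DecidableEq R] [MeasurableSpace E]
    [StandardBorelSpace E] {κ : Measure (R → E)} {j0 : R}
    {β : {j // j ≠ j0} → Measure E} [∀ j, IsProbabilityMeasure (β j)]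
    {Ψ : ({j // j ≠ j0} → E) → E} (hΨ : Measurable Ψ)
    (hκ : κ = (Measure.pi β).map
        (fun (w : {j // j ≠ j0} → E) (j : R) => if hj : j = j0 then Ψ w else w ⟨j, hj⟩))
    (hc : ∀ h : E → ℂ, MemLp h 2 ((Measure.pi β).map Ψ) → ∀ ε : ℝ, 0 < ε →
      ∃ (F : Finset (E → ℂ)) (a : (E → ℂ) → ℂ), (∀ f ∈ F, CChar β Ψ f) ∧
        ∫ y, ‖h y - ∑ f ∈ F, a f * f y‖ ^ 2 ∂((Measure.pi β).map Ψ) < ε) :
    TotAt κ j0 := by
  classical
  have hT : Measurable (fun (w : {j // j ≠ j0} → E) (j : R) =>
      if hj : j = j0 then Ψ w else w ⟨j, hj⟩) := by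
    refine measurable_pi_lambda _ fun j => ?_
    by_cases hj : j = j0
    · simp only [hj, dite_true]; exact hΨ
    · simp only [hj, dite_false]; exact measurable_pi_apply _
  intro h hh ⟨C, hC⟩ ε hε
  have hpr : IsProbabilityMeasure ((Measure.pi β).map Ψ) :=
    Measure.isProbabilityMeasure_map hΨ.aemeasurable
  obtain ⟨F, a, hF, hlt⟩ := hc h (MemLp.of_bound hh.aestronglyMeasurable C
    (Filter.Eventually.of_forall hC)) ε hε
  have hFm : ∀ f ∈ F, Measurable f := fun f hf => (hF f hf).1
  refine ⟨F, a, fun f hf => ?_, ?_⟩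
  · obtain ⟨hfm, hf1, G, hGm, hG1, hG⟩ := hF f hf
    refine ⟨hfm, hf1, fun j => if hj : j = j0 then fun _ => 1 else G ⟨j, hj⟩, ?_, ?_, ?_⟩
    · intro j
      by_cases hj : j = j0
      · simp only [hj, dite_true]; exact measurable_const
      · simp only [hj, dite_false]; exact hGm _
    · intro j e
      by_cases hj : j = j0
      · simp [hj]
      · simp only [hj, dite_false]; exact hG1 _ _
    · have hS : MeasurableSet {x : R → E | f (x j0) = ∏ j ∈ Finset.univ.erase j0,
          (if hj : j = j0 then (fun _ => 1 : E → ℂ) else G ⟨j, hj⟩) (x j)} := by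
        refine measurableSet_eq_fun (hfm.comp (measurable_pi_apply _)) ?_
        refine Finset.measurable_prod _ fun j hj => ?_
        have hj' : j ≠ j0 := Finset.ne_of_mem_erase hj
        simp only [hj', dite_false]
        exact (hGm _).comp (measurable_pi_apply _)
      rw [hκ, ae_map_iff hT.aemeasurable hS]
      filter_upwards [hG] with w hw
      simp only [dite_true]
      rw [hw]
      refine (Finset.prod_bij (fun (j : {j // j ≠ j0}) _ => j.1) ?_ ?_ ?_ ?_)
      · intro j _; simp [j.2]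
      · intro j _ k _ hjk; exact Subtype.ext hjk
      · intro j hj; exact ⟨⟨j, Finset.ne_of_mem_erase hj⟩, Finset.mem_univ _, rfl⟩
      · intro j _; simp [j.2]
  · have hk : κ.map (fun x => x j0) = (Measure.pi β).map Ψ := by
      rw [hκ, Measure.map_map (measurable_pi_apply j0) hT]
      congr 1
      funext w
      simp
    have hint : ∫ x, ‖h (x j0) - ∑ f ∈ F, a f * f (x j0)‖ ^ 2 ∂κ =
        ∫ y, ‖h y - ∑ f ∈ F, a f * f y‖ ^ 2 ∂(κ.map (fun x => x j0)) := by
      rw [integral_map (measurable_pi_apply j0).aemeasurable]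
      refine Measurable.aestronglyMeasurable ?_
      refine (Measurable.norm ?_).pow_const 2
      exact hh.sub (Finset.measurable_sum _ fun f hf => (hFm f hf).const_mul _)
    rw [hint, hk]
    exact hlt

/-- **Node STATIC.** -/
theorem n_static : N_STATIC := by
  intro R _ _ E _ _ hR rho h i0 j0
  classical
  have := h.prob
  obtain ⟨μ, β, v, Ψ, α, u, Φ, A, hlaw⟩ := StaticModel.arr_of h.indep h.rowcl h.colcl hR i0 j0
  have := A.col.pβ
  have hne : ∀ i : R, ∃ k, k ≠ i := by
    intro i
    have : Nontrivial R := Fintype.one_lt_card_iff_nontrivial.1 (by omega)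
    exact exists_ne i
  have : Nonempty {i // i ≠ i0} := by obtain ⟨k, hk⟩ := hne i0; exact ⟨⟨k, hk⟩⟩
  have : Nonempty {j // j ≠ j0} := by obtain ⟨k, hk⟩ := hne j0; exact ⟨⟨k, hk⟩⟩
  have hΨ : Measurable Ψ := A.col.mΨ
  have hT : Measurable (fun (w : {j // j ≠ j0} → E) (j : R) =>
      if hj : j = j0 then Ψ w else w ⟨j, hj⟩) := by
    refine measurable_pi_lambda _ fun j => ?_
    by_cases hj : j = j0
    · simp only [hj, dite_true]; exact hΨ
    · simp only [hj, dite_false]; exact measurable_pi_apply _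
  have hY : rho.map (fun x => x i0 j0) = (Measure.pi β).map Ψ := by
    have e1 : rho.map (fun x => x i0 j0) = (rho.map (fun x => x i0)).map (fun y => y j0) := by
      rw [Measure.map_map (measurable_pi_apply j0) (measurable_pi_apply i0)]; rfl
    rw [e1, hlaw, Measure.map_map (measurable_pi_apply j0) hT]
    congr 1
    funext w
    simp
  refine tot_of_corner hΨ hlaw ?_
  rw [← hY]
  have := A.col.pY
  intro g hg ε hε
  exact dense_of_orth {f | CChar β Ψ f}
    (fun f hf => MemLp.of_bound hf.1.aestronglyMeasurable 1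
      (Filter.Eventually.of_forall fun y => (hf.2.1 y).le))
    (fun g hg horth => A.corner_orth hg horth) hg hε

end

end Crest.Agent.R069.StaticOut
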