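import Crest.Agent.R069.Ind_Mg
import Crest.Agent.R069.SatDefs
import Crest.Agent.R069.CI
import Crest.Agent.R069.Rel2
import Crest.Agent.R069.RuleA
import Crest.Agent.R069.SpecX_Mg
import Crest.Agent.R069.Iface
import Mathlib
import Crest.Agent.R069.Desc
import Crest.Agent.R069.ArrFib
import Crest.Agent.R069.LoebCE
import Crest.Agent.R069.LoebMap
import Crest.Agent.R069.SatEn
import Crest.Agent.R069.Rel
import Crest.Agent.R069.Sites
import Crest.Agent.R069.LoebPt

-- ▼ part R069/YEAll
section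

/-!
# Row 69: `N_YE` from `N_SAT` and `N_RULE`
-/

namespace Crest.Agent.R069.YE

theorem n_ye_all (hSAT : N_SAT) (hRULE : N_RULE) : N_YE :=
  n_ye hSAT hRULE (Cl.n_closed Ind.n_ind) S1F.s1F

end Crest.Agent.R069.YE
end

-- ▼ part R069/TwoPair
section

/-!
# Row 69, node TWO: the relative product of two pairs over the base system
-/

set_option autoImplicit false

open MeasureTheory Filter Set ProbabilityTheory
open scoped ENNReal Topology

namespace Crest.Agent.R069

theorem two_nul_le {α : Type*} [m : MeasurableSpace α] (μ : Measure α) : nul μ ≤ m :=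
  fun _ hA => hA.1

/-- null sets are almost everywhere trivial -/
theorem two_aele_nul {α : Type*} {m : MeasurableSpace α} [mα : MeasurableSpace α] (μ : Measure α) :
    AELe μ (nul μ) m := by
  rintro A ⟨_, h | h⟩
  · exact ⟨∅, @MeasurableSet.empty _ m, ae_eq_empty.2 h⟩
  · exact ⟨univ, @MeasurableSet.univ _ m, (ae_eq_univ.2 h)⟩

/-- preimages of trivial sets -/
theorem two_measurable_nul {α β : Type*} [MeasurableSpace α] [MeasurableSpace β] {μ : Measure α}
    {ν : Measure β} {f : α → β} (hf : MeasurePreserving f μ ν) :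
    Measurable[nul μ, nul ν] f := by
  rintro A ⟨hA, h | h⟩
  · exact ⟨hf.measurable hA, Or.inl (by rw [hf.measure_preimage hA.nullMeasurableSet, h])⟩
  · refine ⟨hf.measurable hA, Or.inr ?_⟩
    rw [← preimage_compl, hf.measure_preimage hA.compl.nullMeasurableSet, h]

/-- the automorphism `S n` of a system -/
def Sys.twoEquiv (M : Sys) (n : ℤ) : M.Ω ≃ᵐ M.Ω where
  toFun := M.S n
  invFun := M.S (-n)
  left_inv x := by rw [← M.S_add, neg_add_cancel, M.S_zero]
  right_inv x := by rw [← M.S_add, add_neg_cancel, M.S_zero]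
  measurable_toFun := (M.S_mp n).measurable
  measurable_invFun := (M.S_mp (-n)).measurable

@[simp] theorem Sys.twoEquiv_apply (M : Sys) (n : ℤ) (x : M.Ω) : M.twoEquiv n x = M.S n x := rfl

section two

variable {X : Sys} (P P' : Pair X) [StandardBorelSpace P.Ω] [Nonempty P.Ω]
  [StandardBorelSpace P'.Ω] [Nonempty P'.Ω]

omit [StandardBorelSpace P.Ω] [Nonempty P.Ω] [StandardBorelSpace P'.Ω] [Nonempty P'.Ω] in
theorem two_map_eq : P.μ.map P.π = P'.μ.map P'.π := by
  rw [P.π_mp.map_eq, P'.π_mp.map_eq]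

/-- the measure of the two copies -/
noncomputable def twoμ : Measure (P.Ω × P'.Ω) := relProd P.μ P.π P'.μ P'.π

instance : IsProbabilityMeasure (twoμ P P') :=
  isProbabilityMeasure_relProd P.π_mp.measurable

theorem two_fst : MeasurePreserving Prod.fst (twoμ P P') P.μ :=
  measurePreserving_relProd_fst P.π_mp.measurable

theorem two_snd : MeasurePreserving Prod.snd (twoμ P P') P'.μ :=
  measurePreserving_relProd_snd P'.π_mp.measurable (two_map_eq P P')

theorem two_S (n : ℤ) :
    MeasurePreserving (Prod.map (P.S n) (P'.S n)) (twoμ P P') (twoμ P P') :=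
  measurePreserving_relProd_prodMap P.π_mp.measurable P'.π_mp.measurable (two_map_eq P P')
    (P.S_mp n) (P'.S_mp n) (X.twoEquiv n) (P.π_S n) (P'.π_S n)

/-- the environment of the two copies -/
@[implicit_reducible]
noncomputable def twoC : MeasurableSpace (P.Ω × P'.Ω) :=
  (P.C.comap Prod.fst ⊔ P'.C.comap Prod.snd) ⊔ nul (twoμ P P')

theorem twoC_le : twoC P P' ≤ Prod.instMeasurableSpace := by
  refine sup_le (sup_le ?_ ?_) (two_nul_le _)
  · exact (MeasurableSpace.comap_mono P.C_le).trans (measurable_fst).comap_le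
  · exact (MeasurableSpace.comap_mono P'.C_le).trans (measurable_snd).comap_le

theorem two_indep_C :
    Indep (P.C.comap (Prod.fst : P.Ω × P'.Ω → P.Ω)) (P'.C.comap Prod.snd) (twoμ P P') :=
  relProd_indep_both P.π_mp.measurable P'.π_mp.measurable (two_map_eq P P') P.C_le P'.C_le
    P'.indep

theorem two_indep :
    Indep (X.ms.comap (fun p : P.Ω × P'.Ω => P.π p.1)) (twoC P P') (twoμ P P') := by
  have h := relProd_indep (μ := P.μ) (μ' := P'.μ) P.π_mp.measurable P'.π_mp.measurable
    (two_map_eq P P') P.C_le P'.C_le P.indep P'.indep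
  have h1 : X.ms.comap (fun p : P.Ω × P'.Ω => P.π p.1) ≤ Prod.instMeasurableSpace :=
    (P.π_mp.measurable.comp measurable_fst).comap_le
  have h2 : P.C.comap (Prod.fst : P.Ω × P'.Ω → P.Ω) ⊔ P'.C.comap Prod.snd ≤
      Prod.instMeasurableSpace :=
    sup_le ((MeasurableSpace.comap_mono P.C_le).trans (measurable_fst).comap_le)
      ((MeasurableSpace.comap_mono P'.C_le).trans (measurable_snd).comap_le)
  exact Indep.mono_ae h1 h1 h2 (twoC_le P P') AELe.refl (AELe.sup AELe.refl (two_aele_nul _)) h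

theorem two_C_S (n : ℤ) :
    Measurable[twoC P P', twoC P P'] (Prod.map (P.S n) (P'.S n)) := by
  rw [measurable_iff_comap_le, twoC, MeasurableSpace.comap_sup, MeasurableSpace.comap_sup,
    MeasurableSpace.comap_comp, MeasurableSpace.comap_comp]
  refine sup_le_sup (sup_le_sup ?_ ?_) ?_
  · have e : (Prod.fst ∘ Prod.map (P.S n) (P'.S n) : P.Ω × P'.Ω → P.Ω) = P.S n ∘ Prod.fst := rfl
    rw [e, ← MeasurableSpace.comap_comp]
    exact MeasurableSpace.comap_mono (measurable_iff_comap_le.1 (P.C_S n))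
  · have e : (Prod.snd ∘ Prod.map (P.S n) (P'.S n) : P.Ω × P'.Ω → P'.Ω) = P'.S n ∘ Prod.snd := rfl
    rw [e, ← MeasurableSpace.comap_comp]
    exact MeasurableSpace.comap_mono (measurable_iff_comap_le.1 (P'.C_S n))
  · exact measurable_iff_comap_le.1 (two_measurable_nul (two_S P P' n))

theorem two_π_S (n : ℤ) :
    (fun p : P.Ω × P'.Ω => P.π (Prod.map (P.S n) (P'.S n) p).1) =ᵐ[twoμ P P']
      fun p => X.S n (P.π p.1) := by
  have h := (two_fst P P').quasiMeasurePreserving.ae_eq_comp (P.π_S n)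
  filter_upwards [h] with p hp
  exact hp

/-- **The relative product of two pairs over the base system.** -/
noncomputable def twoPair : Pair X where
  Ω := P.Ω × P'.Ω
  ms := Prod.instMeasurableSpace
  μ := twoμ P P'
  pr := inferInstance
  S n := Prod.map (P.S n) (P'.S n)
  S_zero p := by simp [Prod.map, P.S_zero, P'.S_zero]
  S_add a b p := by simp [Prod.map, P.S_add, P'.S_add]
  S_mp n := two_S P P' n
  π p := P.π p.1
  π_mp := P.π_mp.comp (two_fst P P')
  π_S n := two_π_S P P' n
  C := twoC P P'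
  C_le := twoC_le P P'
  C_nul := le_sup_right
  C_S n := two_C_S P P' n
  indep := two_indep P P'

/-- the first copy -/
noncomputable def twoExt1 : Ext P (twoPair P P') where
  f := Prod.fst
  f_mp := two_fst P P'
  f_S _ := EventuallyEq.rfl
  f_π := EventuallyEq.rfl
  f_C := le_sup_left.trans le_sup_left

/-- the second copy -/
noncomputable def twoExt2 [MeasurableEq X.Ω] : Ext P' (twoPair P P') where
  f := Prod.snd
  f_mp := two_snd P P'
  f_S _ := EventuallyEq.rfl
  f_π := relProd_base_eq' P.π_mp.measurable P'.π_mp.measurable (two_map_eq P P')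
  f_C := le_sup_right.trans le_sup_left

/-- the two copies are conditionally independent given the base -/
theorem two_ci : CI (twoPair P P').μ (P.ms.comap (twoExt1 P P').f)
    (P'.ms.comap (Prod.snd : P.Ω × P'.Ω → P'.Ω)) (X.ms.comap (twoPair P P').π) :=
  relProd_ci P.π_mp.measurable

end two

end Crest.Agent.R069
end

-- ▼ part R069/RuleA2
section

/-!
# Row 69, node RULE, R1 (final form): `P_i F` is `LL (comap π X)`-measurable
-/

set_option autoImplicit false

open MeasureTheory Filter Set ProbabilityTheory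
open scoped ENNReal Topology

namespace Crest.Agent.R069.RuleA

open Crest.Agent.R069

/-- **R1** -/
theorem R1 {X : Sys} [StandardBorelSpace X.Ω] {P : Pair X} [StandardBorelSpace P.Ω]
    [Nonempty P.Ω] {ι : Type} {s : ι → ℕ → ℤ} (h2 : S2 s P) (i : ι)
    {F : X.Ω → ℝ} (hF : Bd X.ms F) :
    (lb P.μ)[(lb P.μ)[sitef P.toSys (s i) (F ∘ P.π) | rest s i P] | LL (X.ms.comap P.π)]
      =ᵐ[lb P.μ] (lb P.μ)[sitef P.toSys (s i) (F ∘ P.π) | rest s i P] :=
  R1_core s i (twoExt1 P P) (twoExt2 P P) (two_ci P P) hF (h2 _ _) (h2 _ _)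

end Crest.Agent.R069.RuleA
end

-- ▼ part R069/RuleTop
section

/-!
# Row 69, node RULE: final assembly `n_rule : N_RULE`

Ingredients: the level system `RuleLev.rlev` (helper212), the rule `Rule.rule_eq` (helper714), the
spectral theorem `SpecX.specX` (helper334), `RuleA.R1` and the dictionary `RuleDic` (helper225).
-/

set_option autoImplicit false
set_option linter.unusedSectionVars false

open MeasureTheory Filter Set ProbabilityTheory
open scoped ENNReal Topology

namespace Crest.Agent.R069.RuleTop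

open Crest.Agent.R069 Crest.Agent.R069.RuleDic Crest.Agent.R069.Rule

/-- the rule on `Lb P.Ω` in the form needed by the spectral theorem -/
theorem hrule {X : Sys} [StandardBorelSpace X.Ω] {ι : Type} [Fintype ι] [DecidableEq ι]
    {s : ι → ℕ → ℤ} {P : Pair X} [StandardBorelSpace P.Ω] [Nonempty P.Ω] (h1 : S1 P)
    (h2 : S2 s P) (hX : XIndP X s) (hc : 2 ≤ Fintype.card ι) (i : ι) {F g : ι → X.Ω → ℝ}
    (hF : ∀ j, Bd X.ms (F j)) (hg : ∀ j, Bd X.ms (g j))
    (hFg : ∀ j, ∀ G : X.Ω → ℝ, Bd X.ms G → ∫ x, g j x * G x ∂X.μ =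
      ∫ y, ((lb P.μ)[F j ∘ φ s P i | rest s i P]) y * (G ∘ φ s P i) y ∂(lb P.μ)) (j0 : ι) :
    ∫ y, (∏ j ∈ Finset.univ.erase j0, F j (φ s P j y)) * g j0 (φ s P j0 y) ∂(lb P.μ) =
      ∫ y, (∏ j ∈ Finset.univ.erase j0, g j (φ s P j y)) * F j0 (φ s P j0 y) ∂(lb P.μ) := by
  refine rule_eq (RuleLev.rlev h1 hX) h2 hX hc (fun i f hf => RuleA.R1 h2 i hf) i j0 hF hg ?_
  intro j G hG
  rw [hFg j G hG]
  refine integral_congr_ae ?_
  have e1 : (lb P.μ)[F j ∘ φ s P i | rest s i P] =ᵐ[lb P.μ] PF s i P (F j ∘ P.π) :=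
    condExp_congr_ae (comp_φ s P i (hF j).1)
  filter_upwards [e1, comp_φ s P i hG.1] with y h3 h4
  rw [h3, h4]

section

variable {X : Sys} {ι : Type} [Fintype ι] [DecidableEq ι] (s : ι → ℕ → ℤ) (P : Pair X)
  [StandardBorelSpace P.Ω] [Nonempty P.Ω]

theorem hom (i : ι) : SpecX.Hom X.μ (lb P.μ) (fun f : X.Ω → ℝ => f ∘ φ s P i) where
  meas f hf := hf.1.comp (φ_mp s P i).measurable
  bdd f C _ hC y := hC _
  add _ _ _ _ := EventuallyEq.rfl
  smul _ _ _ := EventuallyEq.rfl
  mul _ _ _ _ := EventuallyEq.rfl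
  comp _ _ _ _ := EventuallyEq.rfl
  int f hf := by
    have h := φ_mp s P i
    rw [← h.map_eq, integral_map h.measurable.aemeasurable
      (by rw [h.map_eq]; exact hf.1.aestronglyMeasurable)]
    rfl

theorem visX_iff' (A : Set X.Ω) : MeasurableSet[P.visX s] A ↔ MeasurableSet A ∧
    ∀ i, AEStronglyMeasurable[rest s i P]
      ((A.indicator fun _ => (1 : ℝ)) ∘ φ s P i) (lb P.μ) := by
  rw [visX_iff s P]
  refine and_congr_right fun hA => forall_congr' fun i => ?_
  constructor
  · rintro ⟨B, hB, hAB⟩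
    refine ⟨B.indicator fun _ => (1 : ℝ),
      (@stronglyMeasurable_const _ _ (rest s i P) _ (1 : ℝ)).indicator hB, ?_⟩
    filter_upwards [hAB] with y hy
    have hy' : (φ s P i y ∈ A) = (y ∈ B) := hy
    by_cases h : y ∈ B
    · have h' : φ s P i y ∈ A := by rw [hy']; exact h
      simp only [Function.comp_apply, indicator_of_mem h, indicator_of_mem h']
    · have h' : φ s P i y ∉ A := by rw [hy']; exact h
      simp only [Function.comp_apply, indicator_of_notMem h, indicator_of_notMem h']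
  · rintro ⟨g, hg, hgA⟩
    refine ⟨g ⁻¹' {1}, hg.measurable (measurableSet_singleton _), ?_⟩
    filter_upwards [hgA] with y hy
    apply propext
    show φ s P i y ∈ A ↔ g y = 1
    rw [← hy]
    by_cases h : φ s P i y ∈ A
    · simp [h]
    · simp [h]

theorem tauJ_update (F : ι → X.Ω → ℝ) (u : X.Ω → ℝ) (j0 : ι) :
    SpecX.tauJ (lb P.μ) (fun i (f : X.Ω → ℝ) => f ∘ φ s P i) (Function.update F j0 u) =
      ∫ y, (∏ j ∈ Finset.univ.erase j0, F j (φ s P j y)) * u (φ s P j0 y) ∂(lb P.μ) := by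
  unfold SpecX.tauJ
  congr 1
  funext y
  rw [← Finset.prod_erase_mul _ _ (Finset.mem_univ j0)]
  congr 1
  · refine Finset.prod_congr rfl fun j hj => ?_
    rw [Function.update_of_ne (Finset.ne_of_mem_erase hj)]
    rfl
  · rw [Function.update_self]
    rfl

end

/-- **node `N_RULE`** -/
theorem n_rule : N_RULE := by
  intro X hX P hP ι _ s hc hXi h1 h2 f hf h0
  classical
  have : Nonempty P.Ω := (nonempty_of_measure_ne_zero (μ := P.μ) (s := univ) (by simp)).to_type
  obtain ⟨i0, hi0⟩ := h0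
  rw [tau_eq s P hf]
  refine SpecX.specX (mY := P.visX s) (J := fun i (f : X.Ω → ℝ) => f ∘ φ s P i)
    (SS := fun i => rest s i P) (fun i => hom s P i) (fun i => restLe s P i) ?_
    (fun A => visX_iff' s P A) hc (fun A h => h.1) ?_ f hf i0 hi0
  · intro i j hij g hg
    exact (hg.1.comp (φ_measurable s P hij)).stronglyMeasurable.aestronglyMeasurable
  · intro i F g hF hg hFg j0
    rw [tauJ_update s P, tauJ_update s P]
    exact hrule h1 h2 hXi (by omega) i hF hg hFg j0

end Crest.Agent.R069.RuleTop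
end

-- ▼ part R069/Arr3Static
section

/-! Row 69, node ARR3 (helper93): static lemmas O and G.
Unimodular variables `u_j` (`j` in a finite type with at least 3 elements), any `r - 1` of them
independent, with a.s. constant product: each of them is a.s. constant or has mean zero. -/

open MeasureTheory ProbabilityTheory Filter
open scoped ComplexConjugate

namespace Crest.Agent.R069.Arr3

set_option linter.unusedVariables false

variable {Ω : Type*} [MeasurableSpace Ω] {P : Measure Ω}

theorem integrable_unimod [IsFiniteMeasure P] {a : Ω → ℂ} (ha : AEStronglyMeasurable a P)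
    (na : ∀ᵐ w ∂P, ‖a w‖ = 1) : Integrable a P :=
  Integrable.of_bound ha 1 (na.mono fun _ h => h.le)

/-- a unimodular variable with a mean of modulus one is a.s. constant -/
theorem const_of_norm_mean [IsProbabilityMeasure P] {a : Ω → ℂ} (ha : AEStronglyMeasurable a P)
    (na : ∀ᵐ w ∂P, ‖a w‖ = 1) (h : ‖∫ w, a w ∂P‖ = 1) :
    ∀ᵐ w ∂P, a w = ∫ w, a w ∂P := by
  set m : ℂ := ∫ w, a w ∂P with hm
  have hint : Integrable a P := integrable_unimod ha na
  have hi2 : Integrable (fun w => 2 * (a w * conj m).re) P :=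
    ((hint.mul_const (conj m)).re).const_mul 2
  have key : ∫ w, ‖a w - m‖ ^ 2 ∂P = 0 := by
    have e1 : ∀ᵐ w ∂P, ‖a w - m‖ ^ 2 = 2 - 2 * (a w * conj m).re := by
      filter_upwards [na] with w hw
      have h1 : ‖a w - m‖ ^ 2 = ‖a w‖ ^ 2 + ‖m‖ ^ 2 - 2 * (a w * conj m).re := by
        rw [← Complex.normSq_eq_norm_sq, Complex.normSq_sub, Complex.normSq_eq_norm_sq,
          Complex.normSq_eq_norm_sq]
      rw [h1, hw, h]; norm_num
    rw [integral_congr_ae e1, integral_sub (integrable_const _) hi2]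
    have e2 : ∫ w, 2 * (a w * conj m).re ∂P = 2 * (m * conj m).re := by
      rw [integral_const_mul]
      congr 1
      have h3 : ∫ w, (a w * conj m).re ∂P = (∫ w, a w * conj m ∂P).re := by
        have := integral_re (𝕜 := ℂ) (hint.mul_const (conj m))
        simpa using this
      rw [h3, integral_mul_const]
    rw [e2, Complex.mul_conj, Complex.normSq_eq_norm_sq, h]
    simp
  have hnn : 0 ≤ᵐ[P] fun w => ‖a w - m‖ ^ 2 := Eventually.of_forall fun w => by positivity
  have hi3 : Integrable (fun w => ‖a w - m‖ ^ 2) P := by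
    refine Integrable.of_bound ((ha.sub aestronglyMeasurable_const).norm.pow 2) 4 ?_
    filter_upwards [na] with w hw
    rw [Real.norm_of_nonneg (by positivity)]
    have : ‖a w - m‖ ≤ 2 := by
      calc ‖a w - m‖ ≤ ‖a w‖ + ‖m‖ := norm_sub_le _ _
        _ = 2 := by rw [hw, h]; norm_num
    nlinarith [norm_nonneg (a w - m)]
  have := (integral_eq_zero_iff_of_nonneg_ae hnn hi3).1 key
  filter_upwards [this] with w hw
  have h5 : ‖a w - m‖ = 0 := by simpa using hw
  exact sub_eq_zero.1 (norm_eq_zero.1 h5)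

theorem conj_mul_self_of_norm {z : ℂ} (h : ‖z‖ = 1) : z * conj z = 1 := by
  rw [Complex.mul_conj, Complex.normSq_eq_norm_sq, h]; norm_num

/-- pairwise independent unimodular variables with a.s. constant product -/
theorem mean_eq_of_triple [IsProbabilityMeasure P] {u v a : Ω → ℂ} (hu : Measurable u)
    (hv : Measurable v) (ha : Measurable a) (nu : ∀ᵐ w ∂P, ‖u w‖ = 1)
    (nv : ∀ᵐ w ∂P, ‖v w‖ = 1) (na : ∀ᵐ w ∂P, ‖a w‖ = 1) (hua : IndepFun u a P)
    (hva : IndepFun v a P) {θ : ℂ} (h : ∀ᵐ w ∂P, u w * v w * a w = θ) :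
    ∫ w, u w ∂P = (∫ w, u w ∂P) * ((∫ w, a w ∂P) * conj (∫ w, a w ∂P)) := by
  have e1 : ∫ w, u w * a w ∂P = θ * conj (∫ w, v w ∂P) := by
    rw [← integral_conj, ← integral_const_mul]
    refine integral_congr_ae ?_
    filter_upwards [h, nv] with w hw hn
    rw [← hw]
    have := conj_mul_self_of_norm hn
    linear_combination (-u w * a w) * this
  have e2 : ∫ w, u w * a w ∂P = (∫ w, u w ∂P) * ∫ w, a w ∂P :=
    hua.integral_fun_mul_eq_mul_integral hu.aestronglyMeasurable ha.aestronglyMeasurable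
  have hc : IndepFun (fun w => conj (v w)) (fun w => conj (a w)) P :=
    hva.comp (φ := fun z : ℂ => conj z) (ψ := fun z : ℂ => conj z)
      Complex.continuous_conj.measurable Complex.continuous_conj.measurable
  have e3 : ∫ w, u w ∂P = θ * (conj (∫ w, v w ∂P) * conj (∫ w, a w ∂P)) := by
    have e4 : ∫ w, conj (v w) * conj (a w) ∂P
        = (∫ w, conj (v w) ∂P) * ∫ w, conj (a w) ∂P :=
      hc.integral_fun_mul_eq_mul_integral
        (Complex.continuous_conj.measurable.comp hv).aestronglyMeasurable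
        (Complex.continuous_conj.measurable.comp ha).aestronglyMeasurable
    rw [← integral_conj, ← integral_conj, ← e4, ← integral_const_mul]
    refine integral_congr_ae ?_
    filter_upwards [h, nv, na] with w hw hn hn2
    rw [← hw]
    have h1 := conj_mul_self_of_norm hn
    have h2 := conj_mul_self_of_norm hn2
    linear_combination (-u w * (a w * conj (a w))) * h1 - u w * h2
  calc ∫ w, u w ∂P = θ * conj (∫ w, v w ∂P) * conj (∫ w, a w ∂P) := by rw [e3]; ring
    _ = ((∫ w, u w ∂P) * ∫ w, a w ∂P) * conj (∫ w, a w ∂P) := by rw [← e1, e2]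
    _ = _ := by ring

theorem norm_mean_of_triple [IsProbabilityMeasure P] {u v a : Ω → ℂ} (hu : Measurable u)
    (hv : Measurable v) (ha : Measurable a) (nu : ∀ᵐ w ∂P, ‖u w‖ = 1)
    (nv : ∀ᵐ w ∂P, ‖v w‖ = 1) (na : ∀ᵐ w ∂P, ‖a w‖ = 1) (hua : IndepFun u a P)
    (hva : IndepFun v a P) {θ : ℂ} (h : ∀ᵐ w ∂P, u w * v w * a w = θ)
    (h0 : ∫ w, u w ∂P ≠ 0) : ‖∫ w, a w ∂P‖ = 1 := by
  have h1 := mean_eq_of_triple hu hv ha nu nv na hua hva h
  have h2 : (∫ w, a w ∂P) * conj (∫ w, a w ∂P) = 1 := by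
    have : (∫ w, u w ∂P) * ((∫ w, a w ∂P) * conj (∫ w, a w ∂P)) = (∫ w, u w ∂P) * 1 := by
      rw [mul_one]; exact h1.symm
    exact mul_left_cancel₀ h0 this
  rw [Complex.mul_conj, Complex.normSq_eq_norm_sq] at h2
  have h3 : ‖∫ w, a w ∂P‖ ^ 2 = 1 := by exact_mod_cast h2
  nlinarith [norm_nonneg (∫ w, a w ∂P), sq_nonneg (‖∫ w, a w ∂P‖ - 1)]

/-- **Static lemma O (three variables)**. -/
theorem const_of_triple [IsProbabilityMeasure P] {u v a : Ω → ℂ} (hu : Measurable u)
    (hv : Measurable v) (ha : Measurable a) (nu : ∀ᵐ w ∂P, ‖u w‖ = 1)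
    (nv : ∀ᵐ w ∂P, ‖v w‖ = 1) (na : ∀ᵐ w ∂P, ‖a w‖ = 1) (huv : IndepFun u v P)
    (hua : IndepFun u a P) (hva : IndepFun v a P) {θ : ℂ}
    (h : ∀ᵐ w ∂P, u w * v w * a w = θ) (h0 : ∫ w, u w ∂P ≠ 0) :
    ∃ z, ∀ᵐ w ∂P, u w = z := by
  have h1 := const_of_norm_mean ha.aestronglyMeasurable na
    (norm_mean_of_triple hu hv ha nu nv na hua hva h h0)
  have h2 := const_of_norm_mean hv.aestronglyMeasurable nv
    (norm_mean_of_triple (θ := θ) hu ha hv nu na nv huv hva.symm
      (by filter_upwards [h] with w hw; rw [← hw]; ring) h0)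
  refine ⟨θ * conj (∫ w, v w ∂P) * conj (∫ w, a w ∂P), ?_⟩
  filter_upwards [h, h1, h2, nv, na] with w hw e1 e2 n1 n2
  rw [← e1, ← e2, ← hw]
  have h3 := conj_mul_self_of_norm n1
  have h4 := conj_mul_self_of_norm n2
  linear_combination (-u w * (a w * conj (a w))) * h3 - u w * h4

/-- **Static lemma O**: `u_j`, `j : ι`, `3 ≤ card ι`, unimodular, any `card ι - 1` of them
independent, product a.s. constant: each `u_j` is a.s. constant or has mean zero. -/
theorem const_or_mean_zero [IsProbabilityMeasure P] {ι : Type*} [Fintype ι] [DecidableEq ι]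
    (hr : 3 ≤ Fintype.card ι) {u : ι → Ω → ℂ} (hu : ∀ j, Measurable (u j))
    (nu : ∀ j, ∀ᵐ w ∂P, ‖u j w‖ = 1)
    (hind : ∀ j0 : ι, iIndepFun (fun (j : {j : ι // j ≠ j0}) => u j) P) {θ : ℂ}
    (h : ∀ᵐ w ∂P, ∏ j, u j w = θ) (j : ι) :
    (∃ z, ∀ᵐ w ∂P, u j w = z) ∨ ∫ w, u j w ∂P = 0 := by
  classical
  by_cases h0 : ∫ w, u j w ∂P = 0
  · exact Or.inr h0
  left
  -- a second and a third index
  obtain ⟨j', hj'⟩ : ∃ j', j' ≠ j := by
    by_contra hc
    push Not at hc
    have : Fintype.card ι ≤ 1 := Fintype.card_le_one_iff.2 fun a b => (hc a).trans (hc b).symm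
    omega
  obtain ⟨j3, hj3, hj3'⟩ : ∃ j3, j3 ≠ j ∧ j3 ≠ j' := by
    by_contra hc
    push Not at hc
    have : (Finset.univ : Finset ι) ⊆ {j, j'} := by
      intro x _
      by_cases hx : x = j
      · simp [hx]
      · simp [hc x hx]
    have h1 := Finset.card_le_card this
    have h2 : ({j, j'} : Finset ι).card ≤ 2 := Finset.card_le_two
    rw [Finset.card_univ] at h1
    omega
  let S : Finset ι := Finset.univ \ {j, j'}
  have hprod : ∀ w, ∏ i, u i w = u j w * u j' w * ∏ i ∈ S, u i w := by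
    intro w
    have h1 : (Finset.univ : Finset ι) = insert j (insert j' S) := by
      ext x
      simp only [S, Finset.mem_univ, Finset.mem_insert, Finset.mem_sdiff, true_and,
        Finset.mem_singleton, true_iff]
      tauto
    rw [h1, Finset.prod_insert, Finset.prod_insert, mul_assoc]
    · simp [S]
    · simp only [S, Finset.mem_insert, Finset.mem_sdiff, Finset.mem_univ, true_and,
        Finset.mem_singleton, not_or]
      tauto
  have hkey : ∀ (p q : ι), p ≠ q → ({p, q} : Finset ι) = {j, j'} →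
      IndepFun (u p) (fun w => ∏ i ∈ S, u i w) P := by
    intro p q hpq hset
    have hI := hind q
    have hpS : (⟨p, hpq⟩ : {i : ι // i ≠ q}) ∉ S.subtype (fun i => i ≠ q) := by
      simp only [Finset.mem_subtype, S, ← hset, Finset.mem_sdiff, Finset.mem_univ, true_and,
        Finset.mem_insert, Finset.mem_singleton, not_or, not_and, not_not]
      tauto
    have h1 := hI.indepFun_finsetProd_of_notMem (fun i => hu i) hpS
    have h2 : (∏ i ∈ S.subtype (fun i => i ≠ q), (fun (i : {i : ι // i ≠ q}) => u i) i)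
        = fun w => ∏ i ∈ S, u i w := by
      funext w
      rw [Finset.prod_apply]
      have hS : ∀ i ∈ S, i ≠ q := by
        intro i hi
        simp only [S, ← hset, Finset.mem_sdiff, Finset.mem_univ, true_and,
          Finset.mem_insert, Finset.mem_singleton, not_or] at hi
        exact hi.2
      exact Finset.prod_subtype_of_mem (f := fun i => u i w) hS
    rw [h2] at h1
    exact h1.symm
  have huv : IndepFun (u j) (u j') P := by
    have := (hind j3).indepFun (i := ⟨j, fun h => hj3 h.symm⟩) (j := ⟨j', fun h => hj3' h.symm⟩)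
      (by intro hc; exact hj' (Subtype.ext_iff.1 hc).symm)
    simpa using this
  have hua : IndepFun (u j) (fun w => ∏ i ∈ S, u i w) P := hkey j j' hj'.symm rfl
  have hva : IndepFun (u j') (fun w => ∏ i ∈ S, u i w) P :=
    hkey j' j hj' (Finset.pair_comm _ _)
  refine const_of_triple (hu j) (hu j') (Finset.measurable_fun_prod S fun i _ => hu i) (nu j)
    (nu j') ?_ huv hua hva (θ := θ) ?_ h0
  · have : ∀ᵐ w ∂P, ∀ i, ‖u i w‖ = 1 := ae_all_iff.2 nu
    filter_upwards [this] with w hw
    rw [norm_prod]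
    exact Finset.prod_eq_one fun i _ => hw i
  · filter_upwards [h] with w hw
    rw [← hprod]; exact hw

end Crest.Agent.R069.Arr3
end

-- ▼ part R069/Arr3Core
section

/-! Row 69, node N-H (helper93): two copies of the environment kernel.  Everything is stated for
arbitrary probability spaces `L1`, `L2` (later Loeb spaces). -/

set_option linter.unusedVariables false
set_option linter.unusedSectionVars false

open MeasureTheory ProbabilityTheory Filter
open scoped ComplexConjugate ENNReal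

namespace Crest.Agent.R069.Arr3

/-- `kap` is a regular version of the conditional law of `z` given `mC`, through the
`mC`-measurable map `w`. -/
structure IsEnv {L Z W : Type*} (mC : MeasurableSpace L) [mL : MeasurableSpace L]
    [MeasurableSpace Z] [MeasurableSpace W]
    (P : Measure L) (z : L → Z) (w : L → W) (kap : Kernel W Z) :
    Prop where
  hC : mC ≤ mL
  mz : Measurable z
  mw : Measurable[mC] w
  law : ∀ s : Set Z, MeasurableSet s →
    P[(z ⁻¹' s).indicator (fun _ => (1 : ℝ)) | mC] =ᵐ[P] fun x => (kap (w x)).real s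

/-- two Markov kernels that agree a.e. on each measurable set agree a.e. -/
theorem kernel_ae_eq {W Z : Type*} [MeasurableSpace W] [MeasurableSpace Z]
    [MeasurableSpace.CountablyGenerated Z] {ν : Measure W} [IsFiniteMeasure ν]
    {κ1 κ2 : Kernel W Z} [IsMarkovKernel κ1] [IsMarkovKernel κ2]
    (h : ∀ t : Set Z, MeasurableSet t → ∀ᵐ v ∂ν, κ1 v t = κ2 v t) : ∀ᵐ v ∂ν, κ1 v = κ2 v := by
  apply Kernel.ae_eq_of_compProd_eq
  refine Measure.ext_prod ?_
  intro s t hs ht
  rw [Measure.compProd_apply_prod hs ht, Measure.compProd_apply_prod hs ht]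
  exact setLIntegral_congr_fun_ae hs ((h t ht).mono fun v hv _ => hv)

theorem eq_of_real_eq {Z : Type*} [MeasurableSpace Z] {μ ν : Measure Z} [IsFiniteMeasure μ]
    [IsFiniteMeasure ν] {s : Set Z} (h : μ.real s = ν.real s) : μ s = ν s := by
  have := congrArg ENNReal.ofReal h
  rwa [Measure.real, Measure.real, ENNReal.ofReal_toReal (measure_ne_top _ _),
    ENNReal.ofReal_toReal (measure_ne_top _ _)] at this

namespace IsEnv

variable {L Z W : Type*} {mC : MeasurableSpace L} [mL : MeasurableSpace L]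
    [MeasurableSpace Z] [MeasurableSpace W] {P : Measure L} {z : L → Z} {w : L → W} {kap : Kernel W Z}

theorem mw' (h : IsEnv mC P z w kap) : Measurable w := h.mw.mono h.hC le_rfl

/-- total mass version -/
theorem integral_real [IsProbabilityMeasure P] (h : IsEnv mC P z w kap) {s : Set Z}
    (hs : MeasurableSet s) : ∫ x, (kap (w x)).real s ∂P = P.real (z ⁻¹' s) := by
  rw [← integral_congr_ae (h.law s hs), integral_condExp h.hC, integral_indicator_const _ (h.mz hs)]
  simp

/-- an a.s. property of `z` holds under the kernel for a.e. environment point -/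
theorem ae_of_ae [IsProbabilityMeasure P] [IsMarkovKernel kap] (h : IsEnv mC P z w kap)
    {s : Set Z} (hs : MeasurableSet s) (hz : ∀ᵐ x ∂P, z x ∈ s) :
    ∀ᵐ v ∂(P.map w), ∀ᵐ y ∂(kap v), y ∈ s := by
  have h0 : P.real (z ⁻¹' sᶜ) = 0 := by
    rw [Measure.real, show P (z ⁻¹' sᶜ) = 0 from hz, ENNReal.toReal_zero]
  have h1 := h.integral_real hs.compl
  rw [h0] at h1
  have hm : Measurable fun x => (kap (w x)).real sᶜ :=
    ((kap.measurable_coe hs.compl).comp h.mw').ennreal_toReal
  have h2 : (fun x => (kap (w x)).real sᶜ) =ᵐ[P] 0 := by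
    refine (integral_eq_zero_iff_of_nonneg (fun x => measureReal_nonneg) ?_).1 h1
    refine Integrable.of_bound hm.aestronglyMeasurable 1 (Eventually.of_forall fun x => ?_)
    rw [Real.norm_of_nonneg measureReal_nonneg]
    exact measureReal_le_one
  have hset : MeasurableSet {v | kap v sᶜ = 0} := kap.measurable_coe hs.compl (measurableSet_singleton 0)
  rw [ae_map_iff h.mw'.aemeasurable (by
    have : {v | ∀ᵐ y ∂(kap v), y ∈ s} = {v | kap v sᶜ = 0} := rfl
    rw [this]; exact hset)]
  filter_upwards [h2] with x hx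
  have : (kap (w x)).real sᶜ = 0 := hx
  rw [measureReal_eq_zero_iff] at this
  exact this

/-- change of the environment space: more environment data, same kernel -/
theorem comap {W2 : Type*} [MeasurableSpace W2] (h : IsEnv mC P z w kap) (w2 : L → W2)
    (hw2 : Measurable[mC] w2) (p : W2 → W) (hp : Measurable p) (hpw : ∀ x, p (w2 x) = w x) :
    IsEnv mC P z w2 (kap.comap p hp) where
  hC := h.hC
  mz := h.mz
  mw := hw2
  law s hs := by
    refine (h.law s hs).trans (Eventually.of_forall fun x => ?_)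
    simp only [Kernel.comap_apply, hpw]

/-- functions of `z` -/
theorem map {Z' : Type*} [MeasurableSpace Z'] (h : IsEnv mC P z w kap) (g : Z → Z')
    (hg : Measurable g) : IsEnv mC P (fun x => g (z x)) w (kap.map g) where
  hC := h.hC
  mz := hg.comp h.mz
  mw := h.mw
  law s hs := by
    refine (h.law (g ⁻¹' s) (hg hs)).trans (Eventually.of_forall fun x => ?_)
    simp only [Measure.real, Kernel.map_apply' _ hg _ hs]

/-- uniqueness of the environment kernel -/
theorem unique [IsProbabilityMeasure P] [MeasurableSpace.CountablyGenerated Z]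
    {kap' : Kernel W Z} [IsMarkovKernel kap] [IsMarkovKernel kap'] (h : IsEnv mC P z w kap)
    (h' : IsEnv mC P z w kap') : ∀ᵐ v ∂(P.map w), kap v = kap' v := by
  have : IsProbabilityMeasure (P.map w) := Measure.isProbabilityMeasure_map h.mw'.aemeasurable
  refine kernel_ae_eq fun t ht => ?_
  rw [ae_map_iff h.mw'.aemeasurable
    (measurableSet_eq_fun (kap.measurable_coe ht) (kap'.measurable_coe ht))]
  filter_upwards [h.law t ht, h'.law t ht] with x hx hx'
  exact eq_of_real_eq (hx.symm.trans hx')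

/-- uniqueness after applying a function -/
theorem map_eq {Z' : Type*} [MeasurableSpace Z'] [MeasurableSpace.CountablyGenerated Z']
    [IsProbabilityMeasure P] {kap' : Kernel W Z'} [IsMarkovKernel kap] [IsMarkovKernel kap']
    (h : IsEnv mC P z w kap) (g : Z → Z') (hg : Measurable g)
    (h' : IsEnv mC P (fun x => g (z x)) w kap') : ∀ᵐ v ∂(P.map w), (kap v).map g = kap' v := by
  have hk := Kernel.IsMarkovKernel.map kap hg
  filter_upwards [(h.map g hg).unique h'] with v hv
  rw [← hv, Kernel.map_apply _ hg]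

/-- pull back of an environment along a measure preserving map -/
theorem comp_mp {L2 : Type*} {mC2 : MeasurableSpace L2} [mL2 : MeasurableSpace L2]
    {P2 : Measure L2} [IsProbabilityMeasure P] [IsProbabilityMeasure P2] (h : IsEnv mC P z w kap) (q : L2 → L)
    (hq : MeasurePreserving q P2 P) (hC2 : mC2 ≤ mL2) (hle : mC.comap q ≤ mC2)
    (hS : ∀ F : L → ℝ, Measurable F → (∃ C, ∀ x, |F x| ≤ C) →
      P2[fun x => F (q x) | mC2] =ᵐ[P2] fun x => (P[F | mC]) (q x)) :
    IsEnv mC2 P2 (fun x => z (q x)) (fun x => w (q x)) kap where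
  hC := hC2
  mz := h.mz.comp hq.measurable
  mw := by
    intro s hs
    exact hle _ ⟨w ⁻¹' s, h.mw hs, rfl⟩
  law s hs := by
    have e1 : ((fun x => z (q x)) ⁻¹' s).indicator (fun _ => (1 : ℝ))
        = fun x => (z ⁻¹' s).indicator (fun _ => (1 : ℝ)) (q x) := rfl
    rw [e1]
    refine (hS _ ?_ ?_).trans ?_
    · exact measurable_const.indicator (h.mz hs)
    · refine ⟨1, fun x => ?_⟩
      by_cases hx : x ∈ z ⁻¹' s <;> simp [hx]
    · exact hq.quasiMeasurePreserving.ae_eq (h.law s hs) |>.trans (Eventually.of_forall fun x => rfl)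

end IsEnv

section two

variable {L1 L2 E X W W0 J : Type*} {C1 : MeasurableSpace L1} {C2 : MeasurableSpace L2}
  [mL1 : MeasurableSpace L1] [mL2 : MeasurableSpace L2]
  [MeasurableSpace E] [MeasurableSpace X] [MeasurableSpace W] [MeasurableSpace W0]
  {P1 : Measure L1} {P2 : Measure L2} [IsProbabilityMeasure P1] [IsProbabilityMeasure P2]
  {e : L1 → J → E} {w : L1 → W} {kap : Kernel W (J → E)}
  {q q' : L2 → L1} {w0 : L2 → W0} {kap0 : Kernel W0 (J → E × E)}

/-- the environment map of the two copies -/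
def w2 (w0 : L2 → W0) (w : L1 → W) (q q' : L2 → L1) : L2 → W0 × W × W :=
  fun x => (w0 x, w (q x), w (q' x))

/-- the pair of the two rows -/
def z2 (e : L1 → J → E) (q q' : L2 → L1) : L2 → J → E × E := fun x j => (e (q x) j, e (q' x) j)

/-- (H1) -/
theorem h1 (hw : Measurable[C1] w) (hC1 : C1 ≤ mL1) (hw0 : Measurable w0)
    (hq : MeasurePreserving q P2 P1) (hq' : MeasurePreserving q' P2 P1)
    (hind : Indep (C1.comap q) (C1.comap q') P2) :
    (P2.map (w2 w0 w q q')).map (fun v => (v.2.1, v.2.2)) = (P1.map w).prod (P1.map w) := by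
  have mw : Measurable w := hw.mono hC1 le_rfl
  have mq : Measurable (fun x => w (q x)) := mw.comp hq.measurable
  have mq' : Measurable (fun x => w (q' x)) := mw.comp hq'.measurable
  have mw2 : Measurable (w2 w0 w q q') := hw0.prodMk (mq.prodMk mq')
  rw [Measure.map_map (by fun_prop) mw2]
  have e1 : (fun v : W0 × W × W => (v.2.1, v.2.2)) ∘ w2 w0 w q q'
      = fun x => (w (q x), w (q' x)) := rfl
  rw [e1]
  have hif : IndepFun (fun x => w (q x)) (fun x => w (q' x)) P2 := by
    rw [IndepFun_iff_Indep]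
    refine indep_of_indep_of_le_left (indep_of_indep_of_le_right hind ?_) ?_
    · rw [show (fun x => w (q' x)) = w ∘ q' from rfl, ← MeasurableSpace.comap_comp]
      exact MeasurableSpace.comap_mono hw.comap_le
    · rw [show (fun x => w (q x)) = w ∘ q from rfl, ← MeasurableSpace.comap_comp]
      exact MeasurableSpace.comap_mono hw.comap_le
  rw [(indepFun_iff_map_prod_eq_prod_map_map mq.aemeasurable mq'.aemeasurable).1 hif]
  congr 1
  · rw [show (fun x => w (q x)) = w ∘ q from rfl, ← Measure.map_map mw hq.measurable, hq.map_eq]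
  · rw [show (fun x => w (q' x)) = w ∘ q' from rfl, ← Measure.map_map mw hq'.measurable,
      hq'.map_eq]

/-- the two-copy environment -/
theorem env2 (h0 : IsEnv C2 P2 (z2 e q q') w0 kap0) (h : IsEnv C1 P1 e w kap)
    (hle : C1.comap q ≤ C2) (hle' : C1.comap q' ≤ C2) :
    IsEnv C2 P2 (z2 e q q') (w2 w0 w q q') (kap0.comap Prod.fst measurable_fst) := by
  refine h0.comap _ ?_ Prod.fst measurable_fst fun x => rfl
  refine Measurable.prodMk h0.mw (Measurable.prodMk ?_ ?_)
  · intro s hs
    exact hle _ ⟨w ⁻¹' s, h.mw hs, rfl⟩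
  · intro s hs
    exact hle' _ ⟨w ⁻¹' s, h.mw hs, rfl⟩

/-- (H2), first leg, for the whole row -/
theorem h2 [MeasurableSpace.CountablyGenerated (J → E)] [IsMarkovKernel kap] [IsMarkovKernel kap0]
    (h0 : IsEnv C2 P2 (z2 e q q') w0 kap0) (h : IsEnv C1 P1 e w kap)
    (hle : C1.comap q ≤ C2) (hle' : C1.comap q' ≤ C2)
    (hq : MeasurePreserving q P2 P1)
    (hS : ∀ F : L1 → ℝ, Measurable F → (∃ C, ∀ x, |F x| ≤ C) →
      P2[fun x => F (q x) | C2] =ᵐ[P2] fun x => (P1[F | C1]) (q x)) :
    ∀ᵐ v ∂(P2.map (w2 w0 w q q')),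
      (kap0 v.1).map (fun (y : J → E × E) j => (y j).1) = kap v.2.1 := by
  have hg : Measurable (fun (y : J → E × E) j => (y j).1) := by fun_prop
  have a2 := (h.comp_mp q hq h0.hC hle hS).comap (w2 w0 w q q') (env2 h0 h hle hle').mw
    (fun v : W0 × W × W => v.2.1) (by fun_prop) (fun x => rfl)
  have := (env2 h0 h hle hle').map_eq _ hg a2
  filter_upwards [this] with v hv
  rw [Kernel.comap_apply, Kernel.comap_apply] at hv
  exact hv

/-- (H2), second leg, for the whole row -/
theorem h2' [MeasurableSpace.CountablyGenerated (J → E)] [IsMarkovKernel kap] [IsMarkovKernel kap0]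
    (h0 : IsEnv C2 P2 (z2 e q q') w0 kap0) (h : IsEnv C1 P1 e w kap)
    (hle : C1.comap q ≤ C2) (hle' : C1.comap q' ≤ C2)
    (hq' : MeasurePreserving q' P2 P1)
    (hS : ∀ F : L1 → ℝ, Measurable F → (∃ C, ∀ x, |F x| ≤ C) →
      P2[fun x => F (q' x) | C2] =ᵐ[P2] fun x => (P1[F | C1]) (q' x)) :
    ∀ᵐ v ∂(P2.map (w2 w0 w q q')),
      (kap0 v.1).map (fun (y : J → E × E) j => (y j).2) = kap v.2.2 := by
  have hg : Measurable (fun (y : J → E × E) j => (y j).2) := by fun_prop
  have a2 := (h.comp_mp q' hq' h0.hC hle' hS).comap (w2 w0 w q q') (env2 h0 h hle hle').mw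
    (fun v : W0 × W × W => v.2.2) (by fun_prop) (fun x => rfl)
  have := (env2 h0 h hle hle').map_eq _ hg a2
  filter_upwards [this] with v hv
  rw [Kernel.comap_apply, Kernel.comap_apply] at hv
  exact hv

/-- (H3) -/
theorem h3 [MeasurableEq X] [IsMarkovKernel kap0]
    (h0 : IsEnv C2 P2 (z2 e q q') w0 kap0) (h : IsEnv C1 P1 e w kap)
    (hle : C1.comap q ≤ C2) (hle' : C1.comap q' ≤ C2) (π : E → X) (hπ : Measurable π) (j0 : J)
    (hX : ∀ᵐ x ∂P2, π (e (q x) j0) = π (e (q' x) j0)) :
    ∀ᵐ v ∂(P2.map (w2 w0 w q q')), ∀ᵐ y ∂(kap0 v.1), π (y j0).1 = π (y j0).2 := by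
  have hs : MeasurableSet {y : J → E × E | π (y j0).1 = π (y j0).2} :=
    measurableSet_eq_fun (by fun_prop) (by fun_prop)
  exact (env2 h0 h hle hle').ae_of_ae hs hX

end two

section one

variable {L1 E X W J : Type*} {C1 : MeasurableSpace L1} [mL1 : MeasurableSpace L1]
  [MeasurableSpace E] [MeasurableSpace X] [MeasurableSpace W]
  {P1 : Measure L1} [IsProbabilityMeasure P1]
  {e : L1 → J → E} {w : L1 → W} {kap : Kernel W (J → E)}

/-- (H8): the fibre law of the `X`-coordinate -/
theorem h8 [MeasurableSpace.CountablyGenerated X] [IsMarkovKernel kap] (h : IsEnv C1 P1 e w kap)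
    (π : E → X) (hπ : Measurable π) (j0 : J) {μX : Measure X} [IsProbabilityMeasure μX]
    (hX : P1.map (fun x => π (e x j0)) = μX)
    (hind : Indep (MeasurableSpace.comap (fun x => π (e x j0)) inferInstance) C1 P1) :
    ∀ᵐ v ∂(P1.map w), (kap v).map (fun y => π (y j0)) = μX := by
  have hg : Measurable (fun (y : J → E) => π (y j0)) := by fun_prop
  have mX : Measurable (fun x => π (e x j0)) := hg.comp h.mz
  have a2 : IsEnv C1 P1 (fun x => π (e x j0)) w (Kernel.const W μX) := by
    refine ⟨h.hC, mX, h.mw, fun s hs => ?_⟩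
    have hm : StronglyMeasurable[MeasurableSpace.comap (fun x => π (e x j0)) inferInstance]
        (((fun x => π (e x j0)) ⁻¹' s).indicator (fun _ => (1 : ℝ))) :=
      stronglyMeasurable_const.indicator ⟨s, hs, rfl⟩
    have := condExp_indep_eq (μ := P1) mX.comap_le h.hC hm hind
    refine this.trans (Eventually.of_forall fun x => ?_)
    simp only [Kernel.const_apply]
    rw [integral_indicator_const _ (mX hs), ← hX, Measure.real, Measure.real,
      Measure.map_apply mX hs]
    simp
  have := h.map_eq _ hg a2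
  filter_upwards [this] with v hv
  rw [Kernel.const_apply] at hv
  exact hv

end one

end Crest.Agent.R069.Arr3
end

-- ▼ part R069/Arr3Hyp
section

/-! Row 69, node N-H (helper93): row characters, lemma G, and the hypotheses `Desc.Hyp`. -/

set_option linter.unusedVariables false
set_option linter.unusedSectionVars false

open MeasureTheory ProbabilityTheory Filter
open scoped ComplexConjugate ENNReal

namespace Crest.Agent.R069.Arr3

section rowch

variable {E E' J : Type*} [MeasurableSpace E] [MeasurableSpace E'] [Fintype J] [DecidableEq J]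

/-- row characters (same shape as `RowChar` of the static theorem) -/
def RowCh (ρ : Measure (J → E)) (j0 : J) : Set (E → ℂ) :=
  {χ | Measurable χ ∧ (∀ e, ‖χ e‖ = 1) ∧ ∃ g : J → E → ℂ, (∀ j, Measurable (g j)) ∧
    (∀ j e, ‖g j e‖ = 1) ∧ ∀ᵐ y ∂ρ, χ (y j0) = ∏ j ∈ Finset.univ.erase j0, g j (y j)}

/-- any `card J - 1` coordinates are independent -/
def Ind1 (ρ : Measure (J → E)) : Prop :=
  ∀ j0 : J, iIndepFun (fun (j : {j : J // j ≠ j0}) (y : J → E) => y j) ρ

theorem RowCh.meas {ρ : Measure (J → E)} {j0 : J} {χ : E → ℂ} (h : χ ∈ RowCh ρ j0) :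
    Measurable χ := h.1

theorem RowCh.norm {ρ : Measure (J → E)} {j0 : J} {χ : E → ℂ} (h : χ ∈ RowCh ρ j0) (e : E) :
    ‖χ e‖ = 1 := h.2.1 e

theorem RowCh.mul {ρ : Measure (J → E)} {j0 : J} {χ χ' : E → ℂ} (h : χ ∈ RowCh ρ j0)
    (h' : χ' ∈ RowCh ρ j0) : (fun e => χ e * χ' e) ∈ RowCh ρ j0 := by
  obtain ⟨m, n, g, gm, gn, hg⟩ := h
  obtain ⟨m', n', g', gm', gn', hg'⟩ := h'
  refine ⟨m.mul m', fun e => by rw [norm_mul, n, n', one_mul], fun j e => g j e * g' j e,
    fun j => (gm j).mul (gm' j), fun j e => by rw [norm_mul, gn, gn', one_mul], ?_⟩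
  filter_upwards [hg, hg'] with y hy hy'
  rw [hy, hy', Finset.prod_mul_distrib]

theorem RowCh.conj {ρ : Measure (J → E)} {j0 : J} {χ : E → ℂ} (h : χ ∈ RowCh ρ j0) :
    (fun e => conj (χ e)) ∈ RowCh ρ j0 := by
  obtain ⟨m, n, g, gm, gn, hg⟩ := h
  refine ⟨Complex.continuous_conj.measurable.comp m, fun e => by rw [RCLike.norm_conj, n],
    fun j e => conj (g j e), fun j => Complex.continuous_conj.measurable.comp (gm j),
    fun j e => by rw [RCLike.norm_conj, gn], ?_⟩
  filter_upwards [hg] with y hy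
  rw [hy, map_prod]

theorem RowCh.const {ρ : Measure (J → E)} {j0 j1 : J} (hj : j1 ≠ j0) {c : ℂ} (hc : ‖c‖ = 1) :
    (fun _ => c) ∈ RowCh ρ j0 := by
  refine ⟨measurable_const, fun _ => hc, fun j _ => if j = j1 then c else 1,
    fun j => measurable_const, fun j e => ?_, Eventually.of_forall fun y => ?_⟩
  · by_cases h : j = j1 <;> simp [h, hc]
  · rw [Finset.prod_ite_eq' (Finset.univ.erase j0) j1 (fun _ => c)]
    simp [hj]

theorem RowCh.pull {ρ : Measure (J → E')} {j0 : J} {f : E' → E} (hf : Measurable f) {χ : E → ℂ}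
    (h : χ ∈ RowCh (ρ.map fun y j => f (y j)) j0) : (fun e => χ (f e)) ∈ RowCh ρ j0 := by
  obtain ⟨m, n, g, gm, gn, hg⟩ := h
  have hF : Measurable (fun (y : J → E') j => f (y j)) := by fun_prop
  refine ⟨m.comp hf, fun e => n _, fun j e => g j (f e), fun j => (gm j).comp hf,
    fun j e => gn _ _, ?_⟩
  exact ae_of_ae_map hF.aemeasurable hg

/-- **Lemma O**: a row character is constant or has mean zero -/
theorem RowCh.cz {ρ : Measure (J → E)} [IsProbabilityMeasure ρ] (hJ : 3 ≤ Fintype.card J)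
    (hI : Ind1 ρ) {j0 : J} {χ : E → ℂ} (h : χ ∈ RowCh ρ j0) :
    (∃ z, ∀ᵐ y ∂ρ, χ (y j0) = z) ∨ ∫ y, χ (y j0) ∂ρ = 0 := by
  obtain ⟨m, n, g, gm, gn, hg⟩ := h
  let φ : J → E → ℂ := fun j e => if j = j0 then χ e else conj (g j e)
  have hφm : ∀ j, Measurable (φ j) := by
    intro j
    by_cases hj : j = j0
    · simp only [φ, hj, if_true]; exact m
    · simp only [φ, hj, if_false]; exact Complex.continuous_conj.measurable.comp (gm j)
  have hφn : ∀ j e, ‖φ j e‖ = 1 := by
    intro j e
    by_cases hj : j = j0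
    · simp only [φ, hj, if_true]; exact n e
    · simp only [φ, hj, if_false]; rw [RCLike.norm_conj]; exact gn j e
  have := const_or_mean_zero (P := ρ) hJ (u := fun j y => φ j (y j))
    (fun j => (hφm j).comp (measurable_pi_apply j))
    (fun j => Eventually.of_forall fun y => hφn _ _)
    (fun j1 => (hI j1).comp (fun (j : {j // j ≠ j1}) => φ j) fun j => hφm _) (θ := 1) ?_ j0
  · simpa only [φ, if_true] using this
  · filter_upwards [hg] with y hy
    rw [← Finset.mul_prod_erase _ _ (Finset.mem_univ j0)]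
    simp only [φ, if_true]
    rw [hy, ← Finset.prod_mul_distrib]
    refine Finset.prod_eq_one fun j hj => ?_
    rw [if_neg (Finset.ne_of_mem_erase hj)]
    exact conj_mul_self_of_norm (gn j _)

theorem RowCh.cz_map {ρ : Measure (J → E)} [IsProbabilityMeasure ρ] (hJ : 3 ≤ Fintype.card J)
    (hI : Ind1 ρ) {j0 : J} {χ : E → ℂ} (h : χ ∈ RowCh ρ j0) :
    (∃ z, ∀ᵐ e ∂(ρ.map fun y => y j0), χ e = z) ∨ ∫ e, χ e ∂(ρ.map fun y => y j0) = 0 := by
  rcases RowCh.cz hJ hI h with ⟨z, hz⟩ | h0
  · left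
    refine ⟨z, ?_⟩
    have hm : Measurable fun y : J → E => y j0 := measurable_pi_apply j0
    exact (ae_map_iff hm.aemeasurable (h.1 (measurableSet_singleton z))).2 hz
  · right
    have hm : Measurable fun y : J → E => y j0 := measurable_pi_apply j0
    rw [integral_map hm.aemeasurable h.1.aestronglyMeasurable]
    exact h0

/-- **Lemma G** -/
theorem RowCh.cz2 {ρ : Measure (J → E × E)} [IsProbabilityMeasure ρ] (hJ : 3 ≤ Fintype.card J)
    (hI : Ind1 ρ) {j0 : J} {χ χ' : E → ℂ} (h : χ ∈ RowCh (ρ.map fun y j => (y j).1) j0)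
    (h' : χ' ∈ RowCh (ρ.map fun y j => (y j).2) j0) :
    (∃ c : ℂ, ∀ᵐ z ∂(ρ.map fun y => y j0), χ z.1 * (starRingEnd ℂ) (χ' z.2) = c) ∨
      ∫ z, χ z.1 * (starRingEnd ℂ) (χ' z.2) ∂(ρ.map fun y => y j0) = 0 := by
  have h1 := RowCh.pull measurable_fst h
  have h2 := RowCh.conj (RowCh.pull measurable_snd h')
  exact RowCh.cz_map hJ hI (RowCh.mul h1 h2)

theorem RowCh.T_iff {ρ : Measure (J → E)} {j0 : J} (T : E ≃ᵐ E) (χ : E → ℂ) :
    χ ∈ RowCh (ρ.map fun y j => T (y j)) j0 ↔ (fun e => χ (T e)) ∈ RowCh ρ j0 := by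
  constructor
  · exact RowCh.pull T.measurable
  · intro h
    have hT : Measurable (fun (y : J → E) j => T (y j)) := by fun_prop
    have hT' : Measurable (fun (y : J → E) j => T.symm (y j)) := by fun_prop
    have h1 : ((ρ.map fun y j => T (y j)).map fun y j => T.symm (y j)) = ρ := by
      rw [Measure.map_map hT' hT]
      convert Measure.map_id
      funext y j
      simp
    rw [← h1] at h
    have := RowCh.pull T.symm.measurable h
    simpa using this

/-- from density of the row characters to totality -/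
theorem total_of_dense {P : Measure E} [IsProbabilityMeasure P] {C : Set (E → ℂ)}
    (hC : ∀ χ ∈ C, Measurable χ ∧ ∀ e, ‖χ e‖ = 1)
    (hd : ∀ h : E → ℂ, Measurable h → (∃ B, ∀ e, ‖h e‖ ≤ B) → ∀ ε > 0,
      ∃ (F : Finset (E → ℂ)) (a : (E → ℂ) → ℂ), (∀ f ∈ F, f ∈ C) ∧
        ∫ e, ‖h e - ∑ f ∈ F, a f * f e‖ ^ 2 ∂P < ε)
    {f : E → ℂ} (hf : MemLp f 2 P) (h0 : ∀ χ ∈ C, ∫ e, f e * conj (χ e) ∂P = 0) : f =ᵐ[P] 0 := by
  have hfi : Integrable f P := hf.integrable (by norm_num)
  have key : ∀ s, MeasurableSet s → ∫ e in s, f e ∂P = 0 := by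
    intro s hs
    have hh : Measurable (s.indicator (fun _ => (1 : ℂ))) := measurable_const.indicator hs
    have hbd : ∀ e, ‖s.indicator (fun _ => (1 : ℂ)) e‖ ≤ 1 := by
      intro e
      by_cases he : e ∈ s <;> simp [he]
    -- the bound
    have hbound : ∀ ε > 0, ‖∫ e in s, f e ∂P‖ ≤ (∫ e, ‖f e‖ ^ 2 ∂P) ^ ((1:ℝ)/2) * ε ^ ((1:ℝ)/2) := by
      intro ε hε
      obtain ⟨F, a, hF, hlt⟩ := hd _ hh ⟨1, hbd⟩ ε hε
      set S : E → ℂ := fun e => ∑ f ∈ F, a f * f e with hS
      have hSm : Measurable S := Finset.measurable_fun_sum F fun χ hχ => (hC χ (hF χ hχ)).1.const_mul _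
      have hSb : ∀ e, ‖S e‖ ≤ ∑ χ ∈ F, ‖a χ‖ := by
        intro e
        refine (norm_sum_le _ _).trans (Finset.sum_le_sum fun χ hχ => ?_)
        rw [norm_mul, (hC χ (hF χ hχ)).2 e, mul_one]
      have hSi : ∫ e, f e * conj (S e) ∂P = 0 := by
        have : (fun e => f e * conj (S e)) = fun e => ∑ χ ∈ F, conj (a χ) * (f e * conj (χ e)) := by
          funext e
          simp only [hS, map_sum, map_mul, Finset.mul_sum]
          exact Finset.sum_congr rfl fun χ _ => by ring
        rw [this, integral_finsetSum]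
        · refine Finset.sum_eq_zero fun χ hχ => ?_
          rw [integral_const_mul, h0 χ (hF χ hχ), mul_zero]
        · intro χ hχ
          refine Integrable.const_mul ?_ _
          refine hfi.mul_bdd (c := 1) ?_ (Eventually.of_forall fun e => ?_)
          · exact (Complex.continuous_conj.measurable.comp (hC χ (hF χ hχ)).1).aestronglyMeasurable
          · rw [RCLike.norm_conj, (hC χ (hF χ hχ)).2]
      set d : E → ℂ := fun e => s.indicator (fun _ => (1 : ℂ)) e - S e with hdd
      have hdm : Measurable d := hh.sub hSm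
      have hdb : ∀ e, ‖d e‖ ≤ 1 + ∑ χ ∈ F, ‖a χ‖ := fun e =>
        (norm_sub_le _ _).trans (add_le_add (hbd e) (hSb e))
      have hdL : MemLp d 2 P := MemLp.of_bound hdm.aestronglyMeasurable _
        (Eventually.of_forall hdb)
      have e1 : ∫ e in s, f e ∂P = ∫ e, f e * conj (d e) ∂P := by
        have e2 : ∫ e in s, f e ∂P = ∫ e, f e * conj (s.indicator (fun _ => (1 : ℂ)) e) ∂P := by
          rw [← integral_indicator hs]
          congr 1
          funext e
          by_cases he : e ∈ s <;> simp [he]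
        rw [e2, ← sub_zero (∫ e, f e * conj (s.indicator (fun _ => (1 : ℂ)) e) ∂P), ← hSi,
          ← integral_sub]
        · congr 1
          funext e
          simp only [hdd, map_sub]
          ring
        · refine hfi.mul_bdd (c := 1) ?_ (Eventually.of_forall fun e => ?_)
          · exact (Complex.continuous_conj.measurable.comp hh).aestronglyMeasurable
          · rw [RCLike.norm_conj]; exact hbd e
        · refine hfi.mul_bdd (c := ∑ χ ∈ F, ‖a χ‖) ?_ (Eventually.of_forall fun e => ?_)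
          · exact (Complex.continuous_conj.measurable.comp hSm).aestronglyMeasurable
          · rw [RCLike.norm_conj]; exact hSb e
      rw [e1]
      calc ‖∫ e, f e * conj (d e) ∂P‖ ≤ ∫ e, ‖f e * conj (d e)‖ ∂P := norm_integral_le_integral_norm _
        _ = ∫ e, ‖f e‖ * ‖d e‖ ∂P := by simp only [norm_mul, RCLike.norm_conj]
        _ ≤ (∫ e, ‖f e‖ ^ (2:ℝ) ∂P) ^ ((1:ℝ)/2) * (∫ e, ‖d e‖ ^ (2:ℝ) ∂P) ^ ((1:ℝ)/2) := by
            have hpq : Real.HolderConjugate 2 2 := Real.HolderConjugate.two_two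
            have := integral_mul_norm_le_Lp_mul_Lq (μ := P) hpq (f := f) (g := d)
              (by simpa using hf) (by simpa using hdL)
            simpa using this
        _ ≤ (∫ e, ‖f e‖ ^ 2 ∂P) ^ ((1:ℝ)/2) * ε ^ ((1:ℝ)/2) := by
            have e3 : ∀ (u : E → ℂ), (∫ e, ‖u e‖ ^ (2:ℝ) ∂P) = ∫ e, ‖u e‖ ^ 2 ∂P := fun u => by
              congr 1; funext e; exact Real.rpow_two _
            rw [e3, e3]
            gcongr
    have hz : ‖∫ e in s, f e ∂P‖ ≤ 0 := by
      have hlim : Tendsto (fun ε : ℝ => (∫ e, ‖f e‖ ^ 2 ∂P) ^ ((1:ℝ)/2) * ε ^ ((1:ℝ)/2))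
          (nhdsWithin 0 (Set.Ioi 0)) (nhds ((∫ e, ‖f e‖ ^ 2 ∂P) ^ ((1:ℝ)/2) * (0:ℝ) ^ ((1:ℝ)/2))) := by
        refine Tendsto.const_mul _ ?_
        have : ContinuousAt (fun ε : ℝ => ε ^ ((1:ℝ)/2)) 0 :=
          Real.continuousAt_rpow_const 0 _ (Or.inr (by norm_num))
        exact this.tendsto.mono_left nhdsWithin_le_nhds
      rw [Real.zero_rpow (by norm_num), mul_zero] at hlim
      exact ge_of_tendsto hlim (by
        filter_upwards [self_mem_nhdsWithin] with ε hε
        exact hbound ε hε)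
    exact norm_le_zero_iff.1 hz
  exact ae_eq_zero_of_forall_setIntegral_eq_of_sigmaFinite
    (fun s _ _ => hfi.integrableOn) (fun s hs _ => key s hs)

end rowch

section assembly

open Crest.Agent.R069.Arr (env kap shift W)

theorem IsEnv.of_arr {L Z V : Type*} {mC : MeasurableSpace L} [mL : MeasurableSpace L]
    [MeasurableSpace Z] [StandardBorelSpace Z] [Nonempty Z] [MeasurableSpace V] {P : Measure L}
    [IsProbabilityMeasure P] {z : L → Z} {w : L → V} {κ : Kernel V Z} (hC : mC ≤ mL)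
    (hz : Measurable z) (h : Arr.IsEnv mC P z w κ) : IsEnv mC P z w κ where
  hC := hC
  mz := hz
  mw := h.meas
  law s hs := h.condExp_ind hC hz hs

end assembly

end Crest.Agent.R069.Arr3
end

-- ▼ part R069/Arr3Asm
section

/-! Row 69, node N-H (helper93): the hypotheses `Desc.Hyp` (H1)-(H8) from two copies. -/

set_option linter.unusedVariables false
set_option linter.unusedSectionVars false

open MeasureTheory ProbabilityTheory Filter
open scoped ComplexConjugate ENNReal

namespace Crest.Agent.R069.Arr3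

open Crest.Agent.R069.Arr (env kap shift W isEnv_env kap_shift env_shift measurable_env
  measurable_shift)

/-- The row properties used on the first level: `L1` (later `Lb E`), `C1` (later `LL C`),
`e x i` the site variables, `S` the action. -/
structure OneCopy {L1 E X R : Type*} (C1 : MeasurableSpace L1) [mL1 : MeasurableSpace L1]
    [mE : MeasurableSpace E] [mX : MeasurableSpace X] [Fintype R] [DecidableEq R]
    (P1 : Measure L1) (S : ℤ → L1 → L1) (e : L1 → R → E) (T : E ≃ᵐ E) (π : E → X)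
    (μX : Measure X) (TX : X → X) (j0 : R) : Prop where
  hC : C1 ≤ mL1
  me : Measurable e
  mp : ∀ n, MeasurePreserving (S n) P1 P1
  add : ∀ a b x, S (a + b) x = S a (S b x)
  zero : ∀ x, S 0 x = x
  SC : ∀ n, Measurable[C1, C1] (S n)
  eT : ∀ᵐ x ∂P1, e (S 1 x) = fun i => T (e x i)
  mπ : Measurable π
  mTX : Measurable TX
  lawX : P1.map (fun x => π (e x j0)) = μX
  indX : Indep (mX.comap (fun x => π (e x j0))) C1 P1
  πT : ∀ᵐ x ∂P1, π (T (e x j0)) = TX (π (e x j0))
  ind : ∀ i0 : R, iCI P1 (fun i => mE.comap (fun x => e x i)) (Finset.univ.erase i0) C1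

/-- The second level: two measure preserving maps `q, q' : L2 → L1`. -/
structure TwoCopies {L1 L2 E X R : Type*} (C1 : MeasurableSpace L1) (C2 : MeasurableSpace L2)
    [mL1 : MeasurableSpace L1] [mL2 : MeasurableSpace L2]
    [mE : MeasurableSpace E] [mX : MeasurableSpace X] [Fintype R] [DecidableEq R]
    (P1 : Measure L1) (P2 : Measure L2) (q q' : L2 → L1) (e : L1 → R → E) (π : E → X)
    (j0 : R) : Prop where
  hC2 : C2 ≤ mL2
  mq : MeasurePreserving q P2 P1
  mq' : MeasurePreserving q' P2 P1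
  le : C1.comap q ≤ C2
  le' : C1.comap q' ≤ C2
  indCC : Indep (C1.comap q) (C1.comap q') P2
  S1 : ∀ F : L1 → ℝ, Measurable F → (∃ C, ∀ x, |F x| ≤ C) →
    P2[fun x => F (q x) | C2] =ᵐ[P2] fun x => (P1[F | C1]) (q x)
  S1' : ∀ F : L1 → ℝ, Measurable F → (∃ C, ∀ x, |F x| ≤ C) →
    P2[fun x => F (q' x) | C2] =ᵐ[P2] fun x => (P1[F | C1]) (q' x)
  XX : ∀ᵐ x ∂P2, π (e (q x) j0) = π (e (q' x) j0)
  ind2 : ∀ i0 : R, iCI P2 (fun i => (inferInstance : MeasurableSpace (E × E)).comap
    (fun x => (e (q x) i, e (q' x) i))) (Finset.univ.erase i0) C2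

section

variable {L1 L2 E X R : Type*} {C1 : MeasurableSpace L1} {C2 : MeasurableSpace L2}
    [mL1 : MeasurableSpace L1] [mL2 : MeasurableSpace L2]
    [mE : MeasurableSpace E] [StandardBorelSpace E] [Nonempty E]
    [mX : MeasurableSpace X] [StandardBorelSpace X] [Fintype R] [DecidableEq R]
    {P1 : Measure L1} {P2 : Measure L2} [IsProbabilityMeasure P1] [IsProbabilityMeasure P2]
    {S : ℤ → L1 → L1} {e : L1 → R → E} {T : E ≃ᵐ E} {π : E → X}
    {μX : Measure X} {TX : X → X} {j0 : R} {q q' : L2 → L1}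

/-- the environment variable of the first level (no extra functions needed) -/
noncomputable abbrev env1 (C1 : MeasurableSpace L1) {mL1 : MeasurableSpace L1} (P1 : Measure L1)
    [IsProbabilityMeasure P1] (e : L1 → R → E) (S : ℤ → L1 → L1) : L1 → W :=
  env C1 P1 e S (fun _ _ => 0)

/-- the environment kernel of the first level -/
noncomputable abbrev kap1 (C1 : MeasurableSpace L1) {mL1 : MeasurableSpace L1} (P1 : Measure L1)
    [IsProbabilityMeasure P1] (e : L1 → R → E) (S : ℤ → L1 → L1) : Kernel W (R → E) :=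
  kap C1 P1 e S (fun _ _ => 0)

/-- its marginal at the site `j0` -/
noncomputable def marg (C1 : MeasurableSpace L1) {mL1 : MeasurableSpace L1} (P1 : Measure L1)
    [IsProbabilityMeasure P1] (e : L1 → R → E) (S : ℤ → L1 → L1) (j0 : R) : Kernel W E :=
  (kap1 C1 P1 e S).map (fun y => y j0)

instance (j0 : R) : IsMarkovKernel (marg C1 P1 e S j0) := by
  unfold marg; exact Kernel.IsMarkovKernel.map _ (measurable_pi_apply j0)

theorem marg_apply (j0 : R) (v : W) :
    marg C1 P1 e S j0 v = (kap1 C1 P1 e S v).map (fun y => y j0) := by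
  unfold marg
  exact Kernel.map_apply _ (measurable_pi_apply j0) v

/-- environment of the second level -/
noncomputable abbrev env2' (C2 : MeasurableSpace L2) {mL2 : MeasurableSpace L2} (P2 : Measure L2)
    [IsProbabilityMeasure P2] (e : L1 → R → E) (q q' : L2 → L1) : L2 → W :=
  env C2 P2 (z2 e q q') (fun _ x => x) (fun _ _ => 0)

noncomputable abbrev kap2' (C2 : MeasurableSpace L2) {mL2 : MeasurableSpace L2} (P2 : Measure L2)
    [IsProbabilityMeasure P2] (e : L1 → R → E) (q q' : L2 → L1) : Kernel W (R → E × E) :=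
  kap C2 P2 (z2 e q q') (fun _ x => x) (fun _ _ => 0)

/-- the two-copy kernel at the site `j0` -/
noncomputable def marg2 (C2 : MeasurableSpace L2) {mL2 : MeasurableSpace L2} (P2 : Measure L2)
    [IsProbabilityMeasure P2] (e : L1 → R → E) (q q' : L2 → L1) (j0 : R) :
    Kernel (W × W × W) (E × E) :=
  ((kap2' C2 P2 e q q').comap Prod.fst measurable_fst).map (fun y => y j0)

instance (j0 : R) : IsMarkovKernel (marg2 C2 P2 e q q' j0) := by
  unfold marg2; exact Kernel.IsMarkovKernel.map _ (measurable_pi_apply j0)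

theorem marg2_apply (j0 : R) (v : W × W × W) :
    marg2 C2 P2 e q q' j0 v = (kap2' C2 P2 e q q' v.1).map (fun y => y j0) := by
  unfold marg2
  rw [Kernel.map_apply _ (measurable_pi_apply j0)]
  rfl

/-- law of the first environment -/
noncomputable abbrev nu1 (C1 : MeasurableSpace L1) {mL1 : MeasurableSpace L1} (P1 : Measure L1)
    [IsProbabilityMeasure P1] (e : L1 → R → E) (S : ℤ → L1 → L1) : Measure W :=
  P1.map (env1 C1 P1 e S)

/-- law of the second environment -/
noncomputable abbrev nu2 (C1 : MeasurableSpace L1) (C2 : MeasurableSpace L2)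
    {mL1 : MeasurableSpace L1} {mL2 : MeasurableSpace L2} (P1 : Measure L1) (P2 : Measure L2)
    [IsProbabilityMeasure P1] [IsProbabilityMeasure P2] (e : L1 → R → E) (S : ℤ → L1 → L1)
    (q q' : L2 → L1) : Measure (W × W × W) :=
  P2.map (w2 (env2' C2 P2 e q q') (env1 C1 P1 e S) q q')

theorem isEnv1 (H : OneCopy C1 P1 S e T π μX TX j0) :
    IsEnv C1 P1 e (env1 C1 P1 e S) (kap1 C1 P1 e S) :=
  IsEnv.of_arr H.hC H.me (isEnv_env H.hC H.me H.zero H.SC fun _ => measurable_const)

theorem measurable_z2 (me : Measurable e) (mq : Measurable q) (mq' : Measurable q') :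
    Measurable (z2 e q q') := by
  refine measurable_pi_lambda _ fun j => ?_
  exact ((measurable_pi_apply j).comp (me.comp mq)).prodMk
    ((measurable_pi_apply j).comp (me.comp mq'))

theorem isEnv2 (H : OneCopy C1 P1 S e T π μX TX j0) (H2 : TwoCopies C1 C2 P1 P2 q q' e π j0) :
    IsEnv C2 P2 (z2 e q q') (env2' C2 P2 e q q') (kap2' C2 P2 e q q') :=
  IsEnv.of_arr H2.hC2 (measurable_z2 H.me H2.mq.measurable H2.mq'.measurable)
    (isEnv_env H2.hC2 (measurable_z2 H.me H2.mq.measurable H2.mq'.measurable) (fun _ => rfl)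
      (fun _ => measurable_id) fun _ => measurable_const)

theorem ind1 (H : OneCopy C1 P1 S e T π μX TX j0) :
    ∀ᵐ v ∂(nu1 C1 P1 e S), Ind1 (kap1 C1 P1 e S v) := by
  have hE := isEnv_env (P := P1) H.hC H.me H.zero H.SC
    (b := fun _ _ => 0) fun _ => measurable_const
  refine ae_all_iff.2 fun i0 => ?_
  refine hE.ae_iIndepFun H.hC H.me (π := fun (i : {i // i ≠ i0}) (z : R → E) => z i)
      (fun i => measurable_pi_apply _) ?_
  exact Arr.iCI_subtype (fun i => i ≠ i0) (by simp) (H.ind i0)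

theorem ind2 (H : OneCopy C1 P1 S e T π μX TX j0) (H2 : TwoCopies C1 C2 P1 P2 q q' e π j0) :
    ∀ᵐ v ∂(nu2 C1 C2 P1 P2 e S q q'), Ind1 (kap2' C2 P2 e q q' v.1) := by
  have mz := measurable_z2 H.me H2.mq.measurable H2.mq'.measurable
  have hE := isEnv_env (P := P2) H2.hC2 mz (S := fun _ x => x) (fun _ => rfl)
    (fun _ => measurable_id) (b := fun _ _ => 0) fun _ => measurable_const
  have h1 : ∀ᵐ v ∂(P2.map (env2' C2 P2 e q q')), Ind1 (kap2' C2 P2 e q q' v) := by
    refine ae_all_iff.2 fun i0 => ?_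
    refine hE.ae_iIndepFun H2.hC2 mz (π := fun (i : {i // i ≠ i0}) (z : R → E × E) => z i)
        (fun i => measurable_pi_apply _) ?_
    exact Arr.iCI_subtype (fun i => i ≠ i0) (by simp) (H2.ind2 i0)
  have mw2 : Measurable (w2 (env2' C2 P2 e q q') (env1 C1 P1 e S) q q') :=
    (env2 (isEnv2 H H2) (isEnv1 H) H2.le H2.le').mw'
  have h3 : P2.map (env2' C2 P2 e q q')
      = (nu2 C1 C2 P1 P2 e S q q').map Prod.fst := by
    rw [nu2, Measure.map_map measurable_fst mw2]; rfl
  rw [h3] at h1
  exact ae_of_ae_map measurable_fst.aemeasurable h1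

theorem map_eval (μ : Measure (R → E)) (T : E ≃ᵐ E) (j0 : R) :
    (μ.map fun y j => T (y j)).map (fun y => y j0) = (μ.map fun y => y j0).map T := by
  rw [Measure.map_map (by fun_prop) (by fun_prop), Measure.map_map (by fun_prop) (by fun_prop)]
  rfl

theorem map_eval1 (μ : Measure (R → E × E)) (j0 : R) :
    (μ.map fun y => y j0).map Prod.fst = (μ.map fun y j => (y j).1).map (fun y => y j0) := by
  rw [Measure.map_map (by fun_prop) (by fun_prop), Measure.map_map (by fun_prop) (by fun_prop)]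
  rfl

theorem map_eval2 (μ : Measure (R → E × E)) (j0 : R) :
    (μ.map fun y => y j0).map Prod.snd = (μ.map fun y j => (y j).2).map (fun y => y j0) := by
  rw [Measure.map_map (by fun_prop) (by fun_prop), Measure.map_map (by fun_prop) (by fun_prop)]
  rfl

/-- **N-H**: (H1)-(H8) of the module DESC. -/
theorem hyp (hR : 3 ≤ Fintype.card R) (H : OneCopy C1 P1 S e T π μX TX j0)
    (H2 : TwoCopies C1 C2 P1 P2 q q' e π j0) [IsProbabilityMeasure μX]
    {SX : ℤ → X → X} (hSX : SX 1 = TX)
    (hTot : ∀ᵐ v ∂(nu1 C1 P1 e S), ∀ h : E → ℂ, Measurable h → (∃ B, ∀ x, ‖h x‖ ≤ B) → ∀ ε > 0,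
      ∃ (F : Finset (E → ℂ)) (a : (E → ℂ) → ℂ), (∀ f ∈ F, f ∈ RowCh (kap1 C1 P1 e S v) j0) ∧
        ∫ x, ‖h x - ∑ f ∈ F, a f * f x‖ ^ 2 ∂(marg C1 P1 e S j0 v) < ε) :
    Desc.Hyp μX SX (nu1 C1 P1 e S) (marg C1 P1 e S j0) (nu2 C1 C2 P1 P2 e S q q')
      (marg2 C2 P2 e q q' j0) (fun v => v.2.1) (fun v => v.2.2) π T (shift 1)
      (fun v => RowCh (kap1 C1 P1 e S v) j0) := by
  have E1 := isEnv1 H
  have E2 := isEnv2 H H2
  have hI1 := ind1 H
  have hI2 := ind2 H H2
  have hcg : MeasurableSpace.CountablyGenerated (R → E) := inferInstance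
  have hL := h2 E2 E1 H2.le H2.le' H2.mq H2.S1
  have hL' := h2' E2 E1 H2.le H2.le' H2.mq' H2.S1'
  obtain ⟨j1, hj1⟩ : ∃ j1, j1 ≠ j0 := by
    by_contra hc
    push Not at hc
    have : Fintype.card R ≤ 1 := Fintype.card_le_one_iff.2 fun a b => (hc a).trans (hc b).symm
    omega
  refine ⟨by fun_prop, by fun_prop, ?_, ?_, ?_, ?_, ?_, ?_, ?_, H.mπ, ?_, ?_⟩
  · exact h1 E1.mw H.hC E2.mw' H2.mq H2.mq' H2.indCC
  · filter_upwards [hL, hL'] with v hv hv'
    constructor
    · rw [marg2_apply, marg_apply, map_eval1, hv]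
    · rw [marg2_apply, marg_apply, map_eval2, hv']
  · have := h3 E2 E1 H2.le H2.le' π H.mπ j0 H2.XX
    filter_upwards [this] with v hv
    rw [marg2_apply]
    have hs : MeasurableSet {z : E × E | π z.1 = π z.2} :=
      measurableSet_eq_fun (H.mπ.comp measurable_fst) (H.mπ.comp measurable_snd)
    have hm : Measurable fun y : R → E × E => y j0 := measurable_pi_apply j0
    exact (ae_map_iff hm.aemeasurable hs).2 hv
  · filter_upwards [hI1, hTot] with v hv ht
    have hpr : IsProbabilityMeasure (marg C1 P1 e S j0 v) := inferInstance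
    refine ⟨fun χ h => h.1, fun χ h => h.2.1, fun c hc => RowCh.const hj1 hc,
      fun χ h χ' h' => RowCh.mul h h', fun χ h => RowCh.conj h, fun χ h => ?_, fun f hf h0 => ?_⟩
    · have := RowCh.cz_map hR hv h
      rw [marg_apply]
      exact this
    · exact total_of_dense (C := RowCh (kap1 C1 P1 e S v) j0) (fun χ h => ⟨h.1, h.2.1⟩) ht hf h0
  · filter_upwards [hI2, hL, hL'] with v hv h1 h2 χ hχ χ' hχ'
    rw [← h1] at hχ
    rw [← h2] at hχ'
    rw [marg2_apply]
    exact RowCh.cz2 hR hv hχ hχ'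
  · -- the shift preserves `ν`
    refine ⟨measurable_shift 1, ?_⟩
    rw [nu1, Measure.map_map (measurable_shift 1) E1.mw']
    have : shift 1 ∘ env1 C1 P1 e S = env1 C1 P1 e S ∘ S 1 := by
      funext x
      exact (env_shift H.add e _ 1 x).symm
    rw [this, ← Measure.map_map E1.mw' (H.mp 1).measurable, (H.mp 1).map_eq]
  · have hk := kap_shift (P := P1) H.hC H.me H.mp H.add H.zero H.SC
      (b := fun _ _ => 0) (fun _ => measurable_const) (n := 1) (T := fun y i => T (y i))
      (by fun_prop) H.eT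
    filter_upwards [hk] with v hv
    constructor
    · rw [marg_apply, marg_apply, ← map_eval, hv]
    · intro χ
      show χ ∈ RowCh (kap1 C1 P1 e S (shift 1 v)) j0 ↔ _
      rw [show kap1 C1 P1 e S (shift 1 v) = (kap1 C1 P1 e S v).map fun y j => T (y j) from hv]
      exact RowCh.T_iff T χ
  · have := h8 E1 π H.mπ j0 H.lawX H.indX
    filter_upwards [this] with v hv
    rw [marg_apply, Measure.map_map H.mπ (by fun_prop)]
    exact hv
  · have hs : MeasurableSet {y : R → E | π (T (y j0)) = TX (π (y j0))} := by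
      refine measurableSet_eq_fun (H.mπ.comp (by fun_prop)) (H.mTX.comp (H.mπ.comp (by fun_prop)))
    have := E1.ae_of_ae hs H.πT
    filter_upwards [this] with v hv
    rw [marg_apply, hSX]
    have hs2 : MeasurableSet {x : E | π (T x) = TX (π x)} :=
      measurableSet_eq_fun (H.mπ.comp T.measurable) (H.mTX.comp H.mπ)
    have hm : Measurable fun y : R → E => y j0 := measurable_pi_apply j0
    exact (ae_map_iff hm.aemeasurable hs2).2 hv

end

end Crest.Agent.R069.Arr3
end

-- ▼ part R069/CILoeb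
section

/-!
Row 69: transfer of `CI`, `AELe`, `Indep` to Loeb spaces, and of conditional expectations along
measure preserving maps.
-/

open MeasureTheory Filter Set ProbabilityTheory
open scoped ENNReal Topology

set_option linter.unusedSectionVars false
set_option linter.unusedVariables false

namespace Crest.Agent.R069

variable {α β : Type*} {m m₁ m₂ m₃ : MeasurableSpace α} {mα : MeasurableSpace α} {μ : Measure α}
  [IsProbabilityMeasure μ]




/-- **S1-TRANSFER.**  If `E[f ∘ ρ | D] = E[f | C] ∘ ρ` for all bounded measurable `f` on `β`,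
then the same holds on the Loeb spaces. -/
theorem condExp_loeb_comp {α β : Type*} {mD : MeasurableSpace α} {mα : MeasurableSpace α}
    {mC : MeasurableSpace β} {mβ : MeasurableSpace β} {μ : Measure α} {ν : Measure β}
    [IsProbabilityMeasure μ] [IsProbabilityMeasure ν] (hD : mD ≤ mα) (hC : mC ≤ mβ) {ρ : α → β}
    (hρ : MeasurePreserving ρ μ ν)
    (h : ∀ f : β → ℝ, BdM mβ f → μ[f ∘ ρ | mD] =ᵐ[μ] (ν[f | mC]) ∘ ρ)
    {F : Lb β → ℝ} (hF : BdM (LL mβ) F) :
    (lb μ)[F ∘ lbmap (fun _ => ρ) | LL mD] =ᵐ[lb μ] ((lb ν)[F | LL mC]) ∘ lbmap (fun _ => ρ) := by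
  obtain ⟨C, hb⟩ := hF.bdd
  have hρL : MeasurePreserving (lbmap (fun _ : ℕ => ρ)) (lb μ) (lb ν) :=
    measurePreserving_lbmap fun _ => hρ
  have h' : ∀ f : α → ℝ, Measurable[mβ.comap ρ] f → (∃ C, ∀ x, |f x| ≤ C) →
      μ[f | mD] =ᵐ[μ] μ[f | mC.comap ρ] := by
    intro f hf hfb
    obtain ⟨g, hg, rfl⟩ := BdM.factors (⟨hf, hfb⟩ : BdM (mβ.comap ρ) f)
    exact (h g hg).trans (condExp_comp_mp hρ hC (hg.integrable le_rfl)).symm
  have hFm : Measurable[LL (mβ.comap ρ)] (F ∘ lbmap (fun _ : ℕ => ρ)) := by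
    rw [← comap_lbmap_LL]
    exact hF.comp.meas
  have e1 := condExp_LL_eq (μ := μ) (m₁ := mβ.comap ρ) (m₂ := mD) (m₃ := mC.comap ρ)
    hρ.measurable.comap_le hD (comap_le_of_mp hρ hC) h' hFm (C := C) (fun x => hb _)
  rw [← comap_lbmap_LL] at e1
  exact e1.trans (condExp_comp_mp hρL (LL_mono hC) (hF.integrable le_rfl))


end Crest.Agent.R069
end

-- ▼ part R069/HData
section

/-!
# Row 69 (S0092), node N_DATA (helper93)

`n_data : N_TWO → N_IND → N_TOT → N_DATA`: from a closed `S1`-sated pair to the end-game data.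
-/

set_option autoImplicit false
set_option linter.unusedSectionVars false

open MeasureTheory Filter Set ProbabilityTheory
open scoped ENNReal Topology

namespace Crest.Agent.R069.HData

/-- the identity extension -/
def reflExt {X : Sys} (P : Pair X) : Ext P P where
  f := id
  f_mp := MeasurePreserving.id _
  f_S _ := EventuallyEq.rfl
  f_π := EventuallyEq.rfl
  f_C := by rw [MeasurableSpace.comap_id]

/-- the automorphism `S n` -/
def eqv (M : Sys) (n : ℤ) : M.Ω ≃ᵐ M.Ω where
  toFun := M.S n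
  invFun := M.S (-n)
  left_inv x := by rw [← M.S_add, neg_add_cancel, M.S_zero]
  right_inv x := by rw [← M.S_add, add_neg_cancel, M.S_zero]
  measurable_toFun := (M.S_mp n).measurable
  measurable_invFun := (M.S_mp (-n)).measurable

theorem S_comm (M : Sys) (a b : ℤ) (x : M.Ω) : M.S a (M.S b x) = M.S b (M.S a x) := by
  rw [← M.S_add, add_comm, M.S_add]

/-- the action on the Loeb space -/
def LS (M : Sys) (n : ℤ) : Lb M.Ω → Lb M.Ω := lbmap fun _ => M.S n

/-! ### functions at a site -/

section site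

variable {ι : Type}

theorem measurable_sitev (M : Sys) [StandardBorelSpace M.Ω] [Nonempty M.Ω] (s : ι → ℕ → ℤ) :
    Measurable (sitev M s) :=
  measurable_pi_lambda _ fun i => measurable_sv fun k => (M.S_mp (s i k)).measurable

theorem mp_sitev (M : Sys) [StandardBorelSpace M.Ω] [Nonempty M.Ω] (s : ι → ℕ → ℤ) (i : ι) :
    MeasurePreserving (fun x => sitev M s x i) (lb M.μ) M.μ :=
  measurePreserving_sv fun k => M.S_mp (s i k)

theorem sitev_ae (M : Sys) [StandardBorelSpace M.Ω] [Nonempty M.Ω] (s : ι → ℕ → ℤ) (i : ι)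
    {f : M.Ω → ℝ} (hf : Measurable f) :
    (fun x => f (sitev M s x i)) =ᵐ[lb M.μ] sitef M (s i) f :=
  comp_sv_ae_eq_st (fun k => M.S_mp (s i k)) hf

/-- the shift rule -/
theorem sitev_S (M : Sys) [StandardBorelSpace M.Ω] [Nonempty M.Ω] [Fintype ι] (s : ι → ℕ → ℤ)
    (n : ℤ) : ∀ᵐ x ∂(lb M.μ), sitev M s (LS M n x) = fun i => M.S n (sitev M s x i) := by
  have h : ∀ᵐ x ∂(lb M.μ), ∀ i, sv (fun k => M.S n ∘ M.S (s i k)) x
      = M.S n (sv (fun k => M.S (s i k)) x) := by
    rw [ae_all_iff]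
    exact fun i => sv_comp_ae (fun k => M.S_mp (s i k)) (M.S_mp n).measurable
  filter_upwards [h] with x hx
  funext i
  show sv (fun k => M.S (s i k)) (lbmap (fun _ => M.S n) x) = _
  rw [sv_lbmap]
  have e : (fun k => M.S (s i k) ∘ M.S n) = fun k => M.S n ∘ M.S (s i k) := by
    funext k y
    exact S_comm M _ _ y
  rw [e]
  exact hx i

/-- the sites of a factor of an extension -/
theorem sitev_ext {X : Sys} {P Q : Pair X} (e : Ext P Q) [StandardBorelSpace P.Ω] [Nonempty P.Ω]
    [StandardBorelSpace Q.Ω] [Nonempty Q.Ω] (s : ι → ℕ → ℤ) (i : ι) :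
    ∀ᵐ x ∂(lb Q.μ), sitev P.toSys s (Lb.mp e.f x) i = e.f (sitev Q.toSys s x i) := by
  have h1 : sv (fun k => P.S (s i k) ∘ e.f) =ᵐ[lb Q.μ] sv (fun k => e.f ∘ Q.S (s i k)) := by
    refine sv_congr_ae fun k => ?_
    exact (e.f_S (s i k)).symm
  have h2 : ∀ᵐ x ∂(lb Q.μ), sv (fun k => e.f ∘ Q.S (s i k)) x
      = e.f (sv (fun k => Q.S (s i k)) x) :=
    sv_comp_ae (fun k => Q.S_mp (s i k)) e.f_mp.measurable
  filter_upwards [h1, h2] with x hx1 hx2
  show sv (fun k => P.S (s i k)) (lbmap (fun _ => e.f) x) = _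
  rw [sv_lbmap, hx1, hx2]
  rfl

end site

/-! ### conditional independence -/

theorem iCI_of_site {X : Sys} {ι : Type} {s : ι → ℕ → ℤ} {J : Finset ι} (P : Pair X)
    (h : IndAt s J P P (reflExt P)) {Z : Type*} [mZ : MeasurableSpace Z] (ξ : ι → Lb P.Ω → Z)
    (φ : P.Ω → Z) (hφ : Measurable φ)
    (hξ : ∀ i, ∀ G : Z → ℝ, BdM mZ G →
      (fun x => G (ξ i x)) =ᵐ[lb P.μ] sitef P.toSys (s i) (fun y => G (φ y))) :
    iCI (lb P.μ) (fun i => mZ.comap (ξ i)) J (LL P.C) := by
  classical
  intro F hF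
  have hch : ∀ i, ∃ G : Z → ℝ, BdM mZ G ∧ (i ∈ J → F i = G ∘ ξ i) := by
    intro i
    by_cases hi : i ∈ J
    · obtain ⟨G, hG, he⟩ := (hF i hi).factors
      exact ⟨G, hG, fun _ => he⟩
    · exact ⟨fun _ => 0, BdM.const 0, fun h => absurd h hi⟩
  choose G hG hFG using hch
  have h1 := h (fun i y => G i (φ y)) fun i => ⟨(hG i).meas.comp hφ, by
    obtain ⟨K, hK⟩ := (hG i).bdd
    exact ⟨K, fun x => hK _⟩⟩
  have e1 : (fun x => ∏ i ∈ J, F i x) =ᵐ[lb P.μ]
      fun x => ∏ i ∈ J, sitef P.toSys (s i) ((fun y => G i (φ y)) ∘ (reflExt P).f) x := by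
    have h2 : ∀ᵐ x ∂(lb P.μ), ∀ i ∈ J, F i x = sitef P.toSys (s i) (fun y => G i (φ y)) x := by
      rw [Finset.eventually_all]
      intro i hi
      rw [hFG i hi]
      exact hξ i (G i) (hG i)
    filter_upwards [h2] with x hx
    exact Finset.prod_congr rfl fun i hi => hx i hi
  have e2 : (fun x => ∏ i ∈ J, ((lb P.μ)[sitef P.toSys (s i) (fun y => G i (φ y)) | LL P.C])
      (Lb.mp (reflExt P).f x)) =ᵐ[lb P.μ] fun x => ∏ i ∈ J, ((lb P.μ)[F i | LL P.C]) x := by
    have h2 : ∀ᵐ x ∂(lb P.μ), ∀ i ∈ J,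
        ((lb P.μ)[F i | LL P.C]) x
          = ((lb P.μ)[sitef P.toSys (s i) (fun y => G i (φ y)) | LL P.C]) x := by
      rw [Finset.eventually_all]
      intro i hi
      refine condExp_congr_ae ?_
      rw [hFG i hi]
      exact hξ i (G i) (hG i)
    filter_upwards [h2] with x hx
    refine Finset.prod_congr rfl fun i hi => ?_
    rw [hx i hi]
    rfl
  exact (condExp_congr_ae e1).trans (h1.trans e2)

/-! ### the first level -/

theorem indX {Y : Sys} (F : Pair Y) [StandardBorelSpace F.Ω]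
    [Nonempty F.Ω] {ι : Type} (s : ι → ℕ → ℤ) (j0 : ι) :
    Indep (Y.ms.comap (fun x => F.π (sitev F.toSys s x j0))) (LL F.C) (lb F.μ) := by
  have h0 : Indep (LL (Y.ms.comap F.π)) (LL F.C) (lb F.μ) :=
    indep_LL F.π_mp.measurable.comap_le F.C_le F.indep
  have hm : Measurable fun x => F.π (sitev F.toSys s x j0) :=
    F.π_mp.measurable.comp (mp_sitev F.toSys s j0).measurable
  have hae : AELe (lb F.μ) (Y.ms.comap (fun x => F.π (sitev F.toSys s x j0)))
      (LL (Y.ms.comap F.π)) := by
    rintro _ ⟨A, hA, rfl⟩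
    refine ⟨intl (fun k => F.π ⁻¹' (Y.S (s j0 k) ⁻¹' A)),
      measurableSet_intl fun k => ⟨_, (Y.S_mp (s j0 k)).measurable hA, rfl⟩, ?_⟩
    have h1 : sv (fun k => F.S (s j0 k)) ⁻¹' (F.π ⁻¹' A) =ᵐ[lb F.μ]
        intl (fun k => F.S (s j0 k) ⁻¹' (F.π ⁻¹' A)) :=
      sv_preimage_ae (fun k => F.S_mp (s j0 k)) (F.π_mp.measurable hA)
    have h2 : intl (fun k => F.S (s j0 k) ⁻¹' (F.π ⁻¹' A)) =ᵐ[lb F.μ]
        intl (fun k => F.π ⁻¹' (Y.S (s j0 k) ⁻¹' A)) := by
      refine intl_ae_eq fun k => ?_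
      filter_upwards [F.π_S (s j0 k)] with x hx
      exact propext (by
        show F.π (F.S (s j0 k) x) ∈ A ↔ Y.S (s j0 k) (F.π x) ∈ A
        rw [hx])
    exact h1.trans h2
  exact Indep.mono_ae (LL_mono F.π_mp.measurable.comap_le) hm.comap_le (LL_mono F.C_le)
    (LL_mono F.C_le) hae AELe.refl h0

theorem πT {Y : Sys} (F : Pair Y) [StandardBorelSpace F.Ω]
    [Nonempty F.Ω] {ι : Type} (s : ι → ℕ → ℤ) (j0 : ι) :
    ∀ᵐ x ∂(lb F.μ), F.π (eqv F.toSys 1 (sitev F.toSys s x j0))
      = Y.S 1 (F.π (sitev F.toSys s x j0)) :=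
  (mp_sitev F.toSys s j0).quasiMeasurePreserving.ae (F.π_S 1)

theorem oneCopy {Y : Sys} [StandardBorelSpace Y.Ω] (F : Pair Y) [StandardBorelSpace F.Ω]
    [Nonempty F.Ω] {ι : Type} [Fintype ι] [DecidableEq ι] (s : ι → ℕ → ℤ) (j0 : ι)
    (hI : ∀ i0, IndAt s (Finset.univ.erase i0) F F (reflExt F)) :
    Arr3.OneCopy (LL F.C) (lb F.μ) (LS F.toSys) (sitev F.toSys s) (eqv F.toSys 1) F.π Y.μ
      (Y.S 1) j0 where
  hC := LL_mono F.C_le
  me := measurable_sitev F.toSys s
  mp n := measurePreserving_lbmap fun _ => F.S_mp n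
  add a b x := funext fun k => F.S_add a b (x k)
  zero x := funext fun k => F.S_zero (x k)
  SC n := measurable_lbmap' fun _ => F.C_S n
  eT := sitev_S F.toSys s 1
  mπ := F.π_mp.measurable
  mTX := (Y.S_mp 1).measurable
  lawX := (F.π_mp.comp (mp_sitev F.toSys s j0)).map_eq
  indX := indX F s j0
  πT := πT F s j0
  ind i0 := iCI_of_site F (hI i0) (fun i x => sitev F.toSys s x i) id measurable_id
    fun i _ hG => sitev_ae F.toSys s i hG.meas

/-! ### the second level -/

theorem twoCopies {Y : Sys} [StandardBorelSpace Y.Ω] (F Q : Pair Y) (e e' : Ext F Q)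
    [StandardBorelSpace F.Ω] [Nonempty F.Ω] [StandardBorelSpace Q.Ω] [Nonempty Q.Ω]
    {ι : Type} [Fintype ι] [DecidableEq ι] (s : ι → ℕ → ℤ) (j0 : ι) (hSF : S1 F)
    (hi : Indep (F.C.comap e.f) (F.C.comap e'.f) Q.μ)
    (hI : ∀ i0, IndAt s (Finset.univ.erase i0) Q Q (reflExt Q)) :
    Arr3.TwoCopies (LL F.C) (LL Q.C) (lb F.μ) (lb Q.μ) (Lb.mp e.f) (Lb.mp e'.f)
      (sitev F.toSys s) F.π j0 where
  hC2 := LL_mono Q.C_le
  mq := measurePreserving_lbmap fun _ => e.f_mp
  mq' := measurePreserving_lbmap fun _ => e'.f_mp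
  le := by
    have := comap_lbmap_LL (mβ := F.C) e.f
    exact this.le.trans (LL_mono e.f_C)
  le' := by
    have := comap_lbmap_LL (mβ := F.C) e'.f
    exact this.le.trans (LL_mono e'.f_C)
  indCC := by
    have h1 := comap_lbmap_LL (mβ := F.C) e.f
    have h2 := comap_lbmap_LL (mβ := F.C) e'.f
    show Indep ((LL F.C).comap (lbmap fun _ => e.f)) ((LL F.C).comap (lbmap fun _ => e'.f))
      (lb Q.μ)
    rw [h1, h2]
    exact indep_LL (e.f_C.trans Q.C_le) (e'.f_C.trans Q.C_le) hi
  S1 G hG hb := condExp_loeb_comp Q.C_le F.C_le e.f_mp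
    (fun f hf => hSF Q e f ⟨hf.meas, hf.bdd⟩) ⟨hG, hb⟩
  S1' G hG hb := condExp_loeb_comp Q.C_le F.C_le e'.f_mp
    (fun f hf => hSF Q e' f ⟨hf.meas, hf.bdd⟩) ⟨hG, hb⟩
  XX := by
    filter_upwards [sitev_ext e s j0, sitev_ext e' s j0,
      (mp_sitev Q.toSys s j0).quasiMeasurePreserving.ae e.f_π,
      (mp_sitev Q.toSys s j0).quasiMeasurePreserving.ae e'.f_π] with x h1 h2 h3 h4
    rw [h1, h2]
    have h3' : Q.π (sitev Q.toSys s x j0) = F.π (e.f (sitev Q.toSys s x j0)) := h3
    have h4' : Q.π (sitev Q.toSys s x j0) = F.π (e'.f (sitev Q.toSys s x j0)) := h4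
    rw [← h3', ← h4']
  ind2 i0 := by
    refine iCI_of_site Q (hI i0)
      (fun i x => (sitev F.toSys s (Lb.mp e.f x) i, sitev F.toSys s (Lb.mp e'.f x) i))
      (fun y => (e.f y, e'.f y)) (e.f_mp.measurable.prodMk e'.f_mp.measurable) fun i G hG => ?_
    have hm : Measurable fun y => G (e.f y, e'.f y) :=
      hG.meas.comp (e.f_mp.measurable.prodMk e'.f_mp.measurable)
    filter_upwards [sitev_ext e s i, sitev_ext e' s i, sitev_ae Q.toSys s i hm] with x h1 h2 h3
    rw [h1, h2]
    exact h3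

/-! ### passing to another environment variable -/

theorem totAt_change {L : Type} {ι E : Type} [Fintype ι] [DecidableEq ι]
    [mE : MeasurableSpace E] [StandardBorelSpace E] [Nonempty E] {mC : MeasurableSpace L}
    [mL : MeasurableSpace L]
    {P : Measure L} [IsProbabilityMeasure P] {z : L → ι → E} {w w' : L → Arr.W}
    {κ κ' : Kernel Arr.W (ι → E)} (hC : mC ≤ mL) (hz : Measurable z)
    (h : Arr.IsEnv mC P z w κ) (h' : Arr.IsEnv mC P z w' κ') (p : Measure (ι → E) → Prop)
    (hp : ∀ᵐ v ∂(P.map w), p (κ v)) : ∀ᵐ v ∂(P.map w'), p (κ' v) := by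
  have hm1 := h.markov
  have hm2 := h'.markov
  have a1 := Arr3.IsEnv.of_arr hC hz h
  have a2 := Arr3.IsEnv.of_arr hC hz h'
  have mw : Measurable[mC] fun x => (w x, w' x) := h.meas.prodMk h'.meas
  have mwL : Measurable fun x => (w x, w' x) := mw.mono hC le_rfl
  have b1 := a1.comap (fun x => (w x, w' x)) mw Prod.fst measurable_fst fun _ => rfl
  have b2 := a2.comap (fun x => (w x, w' x)) mw Prod.snd measurable_snd fun _ => rfl
  have hu := b1.unique b2
  have h1 : ∀ᵐ v ∂(P.map fun x => (w x, w' x)), p (κ v.1) := by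
    have e : P.map w = (P.map fun x => (w x, w' x)).map Prod.fst := by
      rw [Measure.map_map measurable_fst mwL]; rfl
    rw [e] at hp
    exact ae_of_ae_map measurable_fst.aemeasurable hp
  have h2 : ∀ᵐ v ∂(P.map fun x => (w x, w' x)), p (κ' v.2) := by
    filter_upwards [h1, hu] with v hv1 hv2
    have hv3 : κ v.1 = κ' v.2 := hv2
    rw [← hv3]
    exact hv1
  have : IsProbabilityMeasure (P.map fun x => (w x, w' x)) :=
    Measure.isProbabilityMeasure_map mwL.aemeasurable
  have h3 := Arr.ae_map_of_ae (P.map fun x => (w x, w' x)) (q := Prod.snd) measurable_snd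
    (Q := fun v => p (κ' v)) h2
  have e : P.map w' = (P.map fun x => (w x, w' x)).map Prod.snd := by
    rw [Measure.map_map measurable_snd mwL]; rfl
  rw [e]
  exact h3

theorem n_data (hTWO : N_TWO) (hIND : N_IND) (hTOT : N_TOT) : N_DATA := by
  intro Y hY F hF ι _ s h3 hX hS hcl
  classical
  obtain ⟨Q, e, e', hQ, hSQ, hi⟩ := hTWO Y hY F hF
  have hneF : Nonempty F.Ω := nonempty_of_isProbabilityMeasure F.μ
  have hneQ : Nonempty Q.Ω := nonempty_of_isProbabilityMeasure Q.μ
  have hJ : ∀ i0 : ι, (Finset.univ.erase i0 : Finset ι) ≠ Finset.univ := fun i0 h => by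
    have := Finset.mem_univ i0
    rw [← h] at this
    exact Finset.notMem_erase i0 _ this
  have hIF : ∀ i0, IndAt s (Finset.univ.erase i0) F F (reflExt F) := fun i0 =>
    hIND Y hY F hF hS ι s _ (hX _ (hJ i0)) F (reflExt F)
  have hIQ : ∀ i0, IndAt s (Finset.univ.erase i0) Q Q (reflExt Q) := fun i0 =>
    hIND Y hY Q hQ hSQ ι s _ (hX _ (hJ i0)) Q (reflExt Q)
  obtain ⟨j0⟩ : Nonempty ι := Fintype.card_pos_iff.1 (by omega)
  have H := oneCopy F s j0 hIF
  have H2 := twoCopies F Q e e' s j0 hS hi hIQ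
  obtain ⟨w, κ, hE, hT⟩ := hTOT Y hY F ι s h3 hX hS hcl
  have hE' := Arr.isEnv_env (P := lb F.μ) H.hC H.me H.zero H.SC
    (b := fun _ _ => 0) fun _ => measurable_const
  have hT' := totAt_change H.hC H.me hE hE' (fun ρ => TotAt ρ j0) (hT j0)
  have hyp := Arr3.hyp h3 H H2 (SX := Y.S) rfl (by
    filter_upwards [hT'] with v hv h hm hb ε hε
    obtain ⟨G, a, hG, hlt⟩ := hv h hm hb ε hε
    refine ⟨G, a, fun f hf => hG f hf, ?_⟩
    have hj : Measurable fun y : ι → F.Ω => y j0 := measurable_pi_apply j0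
    rw [Arr3.marg_apply, integral_map hj.aemeasurable]
    · exact hlt
    · refine Measurable.aestronglyMeasurable ?_
      have : Measurable fun x => ∑ f ∈ G, a f * f x :=
        Finset.measurable_sum G fun f hf => (hG f hf).1.const_mul _
      exact ((hm.sub this).norm).pow_const 2)
  have hact : End.Act Y.μ Y.S := ⟨Y.S_mp, Y.S_add, Y.S_zero⟩
  have hpr1 : IsProbabilityMeasure (Arr3.nu1 (LL F.C) (lb F.μ) (sitev F.toSys s)
    (LS F.toSys)) := Measure.isProbabilityMeasure_map
      (Arr3.isEnv1 H).mw'.aemeasurable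
  have hpr2 : IsProbabilityMeasure (Arr3.nu2 (LL F.C) (LL Q.C) (lb F.μ) (lb Q.μ)
    (sitev F.toSys s) (LS F.toSys) (Lb.mp e.f) (Lb.mp e'.f)) := by
    refine Measure.isProbabilityMeasure_map ?_
    exact (Arr3.env2 (Arr3.isEnv2 H H2) (Arr3.isEnv1 H) H2.le H2.le').mw'.aemeasurable
  have hW : StandardBorelSpace Arr.W := inferInstance
  have hWW : StandardBorelSpace (Arr.W × Arr.W) := StandardBorelSpace.prod
  have hW3 : StandardBorelSpace (Arr.W × Arr.W × Arr.W) := StandardBorelSpace.prod
  obtain ⟨v, N, hN⟩ := Desc.exists_data hact hyp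
  exact ⟨F.Ω, F.ms, _, N, inferInstance, inferInstance, hN⟩

end Crest.Agent.R069.HData
end

-- ▼ part R069/Two
section

/-!
# Row 69, node TWO, part 1: extensions of pairs, satedness (S1) for functions, visible sets
-/

set_option autoImplicit false

open MeasureTheory Filter Set ProbabilityTheory
open scoped ENNReal Topology

namespace Crest.Agent.R069

open SatEn (ind bm_ind condExp_eq_of_enS_map ind_preimage)

variable {X : Sys}

namespace Ext

/-- identity extension -/
def refl (P : Pair X) : Ext P P where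
  f := id
  f_mp := MeasurePreserving.id _
  f_S _ := EventuallyEq.rfl
  f_π := EventuallyEq.rfl
  f_C := by rw [MeasurableSpace.comap_id]

/-- composition of extensions -/
def trans {P Q R : Pair X} (e : Ext P Q) (e' : Ext Q R) : Ext P R where
  f := e.f ∘ e'.f
  f_mp := e.f_mp.comp e'.f_mp
  f_S n := by
    have h1 := e'.f_S n
    have h2 : (fun x => e.f (Q.S n (e'.f x))) =ᵐ[R.μ] fun x => P.S n (e.f (e'.f x)) :=
      e'.f_mp.quasiMeasurePreserving.ae_eq_comp (e.f_S n)
    filter_upwards [h1, h2] with x hx hy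
    show e.f (e'.f (R.S n x)) = _
    rw [hx, hy]; rfl
  f_π := by
    have h2 : Q.π ∘ e'.f =ᵐ[R.μ] (P.π ∘ e.f) ∘ e'.f :=
      e'.f_mp.quasiMeasurePreserving.ae_eq_comp e.f_π
    exact e'.f_π.trans h2
  f_C := by
    rw [← MeasurableSpace.comap_comp]
    exact (MeasurableSpace.comap_mono e.f_C).trans e'.f_C

@[simp] theorem trans_f {P Q R : Pair X} (e : Ext P Q) (e' : Ext Q R) :
    (e.trans e').f = e.f ∘ e'.f := rfl

end Ext

/-- (S1) for sets, along one extension, gives (S1) for bounded functions. -/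
theorem S1_of_en0 {P Q : Pair X} (e : Ext P Q)
    (h : ∀ A : Set P.Ω, MeasurableSet A → en0 Q (e.f ⁻¹' A) = en0 P A)
    {F : P.Ω → ℝ} (hF : BdM P.ms F) :
    Q.μ[F ∘ e.f | Q.C] =ᵐ[Q.μ] (P.μ[F | P.C]) ∘ e.f := by
  have h1 : ∀ A : Set P.Ω, MeasurableSet A →
      Q.μ[ind (e.f ⁻¹' A) | Q.C] =ᵐ[Q.μ] (P.μ[ind A | P.C]) ∘ e.f := fun A hA =>
    condExp_eq_of_enS_map e.f_mp P.C_le Q.C_le (AELe.of_le e.f_C) hA (le_of_eq (h A hA))
  have hc : P.C.comap e.f ≤ Q.ms := comap_le_of_mp e.f_mp P.C_le
  have hci : CI Q.μ (P.ms.comap e.f) Q.C (P.C.comap e.f) := by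
    refine ci_of_piSystem (comap_le_of_mp e.f_mp le_rfl) Q.C_le hc
      (S := {B | MeasurableSet[P.ms.comap e.f] B})
      (@MeasurableSpace.generateFrom_measurableSet _ (P.ms.comap e.f)).symm
      (@MeasurableSpace.isPiSystem_measurableSet _ (P.ms.comap e.f)) ?_
    rintro _ ⟨A, hA, rfl⟩
    rw [sup_eq_left.2 e.f_C]
    refine (h1 A hA).trans ?_
    have h2 := condExp_comp_mp e.f_mp P.C_le ((bm_ind hA).integrable (μ := P.μ) le_rfl)
    have h3 : (e.f ⁻¹' A).indicator (fun _ => (1 : ℝ)) = ind A ∘ e.f := ind_preimage e.f A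
    rw [h3]
    exact h2.symm
  have h4 := hci _ hF.comp
  rw [sup_eq_left.2 e.f_C] at h4
  exact h4.trans (condExp_comp_mp e.f_mp P.C_le (hF.integrable le_rfl))


theorem Sated.S1 {ι : Type} {s : ι → ℕ → ℤ} {K : Pair X → Prop} {P : Pair X}
    (h : Sated s K P) {Q : Pair X} (hQ : K Q) (e : Ext P Q) {F : P.Ω → ℝ} (hF : BdM P.ms F) :
    Q.μ[F ∘ e.f | Q.C] =ᵐ[Q.μ] (P.μ[F | P.C]) ∘ e.f :=
  S1_of_en0 e (h.sated0 Q hQ e) hF

end Crest.Agent.R069
end

-- ▼ part R069/TwoN
section

/-!
# Row 69: node `N_TWO`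
-/

set_option autoImplicit false

open MeasureTheory Filter Set ProbabilityTheory
open scoped ENNReal Topology

namespace Crest.Agent.R069.TwoN

open Crest.Agent.R069

/-- **N_TWO**: two copies of a pair over `Y` below a sated pair. -/
theorem n_two (hSAT : N_SAT) : N_TWO := by
  intro Y hY F hF
  have hne : Nonempty F.Ω := nonempty_of_isProbabilityMeasure F.μ
  obtain ⟨Q, e, hQ, h1, _⟩ := hSAT Y hY (twoPair F F)
    (inferInstanceAs (StandardBorelSpace (F.Ω × F.Ω))) Unit (fun _ _ => 0)
  refine ⟨Q, (twoExt1 F F).trans e, (twoExt2 F F).trans e, hQ, h1, ?_⟩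
  have h2 : F.C.comap ((twoExt1 F F).trans e).f = (F.C.comap Prod.fst).comap e.f :=
    (MeasurableSpace.comap_comp (f := (Prod.fst : F.Ω × F.Ω → F.Ω)) (g := e.f)).symm
  have h3 : F.C.comap ((twoExt2 F F).trans e).f = (F.C.comap Prod.snd).comap e.f :=
    (MeasurableSpace.comap_comp (f := (Prod.snd : F.Ω × F.Ω → F.Ω)) (g := e.f)).symm
  rw [h2, h3]
  refine (indep_comap_iff e.f_mp ?_ ?_).2 (two_indep_C F F)
  · exact (MeasurableSpace.comap_mono F.C_le).trans (measurable_fst).comap_le
  · exact (MeasurableSpace.comap_mono F.C_le).trans (measurable_snd).comap_le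

end Crest.Agent.R069.TwoN
end

-- ▼ part R069/LevArr
section

/-!
# The level system as input of the array theorem (row 69)

On any probability space `(L, P)` with an environment algebra `mCC`, a tuple of points
`e : L → R → E` and an environment variable `w` with kernel `κ` (`IsEnv`), the law `ρ` of `(e, w)`
has the properties needed by the two-level array.
-/

set_option autoImplicit false
set_option linter.unusedSectionVars false

open MeasureTheory Filter Set ProbabilityTheory
open scoped ENNReal Topology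

namespace Crest.Agent.R069.LevArr

open Crest.Agent.R069.Arr

section gen

variable {L : Type*} {mCC : MeasurableSpace L} {mL : MeasurableSpace L} {P : Measure L}
  [IsProbabilityMeasure P] {R : Type*} [Fintype R] [DecidableEq R]
  {E : Type*} {mC : MeasurableSpace E} [mE : MeasurableSpace E] [StandardBorelSpace E]
  [Nonempty E]
  {V : Type*} [mV : MeasurableSpace V] {e : L → R → E} {w : L → V} {κ : Kernel V (R → E)}

/-- the level law -/
noncomputable def rho (P : Measure L) (e : L → R → E) (w : L → V) : Measure ((R → E) × V) :=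
  P.map (fun x => (e x, w x))

theorem measurable_ew (h : IsEnv mCC P e w κ) (hC : mCC ≤ mL) (he : Measurable e) :
    Measurable (fun x => (e x, w x)) := he.prodMk (h.measL hC)

theorem rho_mp (h : IsEnv mCC P e w κ) (hC : mCC ≤ mL) (he : Measurable e) :
    MeasurePreserving (fun x => (e x, w x)) P (rho P e w) :=
  ⟨measurable_ew h hC he, rfl⟩

theorem rho_prob (h : IsEnv mCC P e w κ) (hC : mCC ≤ mL) (he : Measurable e) :
    IsProbabilityMeasure (rho P e w) :=
  Measure.isProbabilityMeasure_map (measurable_ew h hC he).aemeasurable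

theorem rho_snd (h : IsEnv mCC P e w κ) (hC : mCC ≤ mL) (he : Measurable e) :
    (rho P e w).map Prod.snd = P.map w := by
  rw [rho, Measure.map_map measurable_snd (measurable_ew h hC he)]
  rfl


/-- the conditional law of the tuple given the environment coordinate is `κ`. -/
theorem ce (h : IsEnv mCC P e w κ) (hC : mCC ≤ mL) (he : Measurable e) {F : (R → E) → ℝ}
    (hF : Measurable F) {K : ℝ} (hb : ∀ z, |F z| ≤ K) :
    (rho P e w)[fun q => F q.1 | mV.comap Prod.snd] =ᵐ[rho P e w]
      fun q => ∫ z, F z ∂(κ q.2) := by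
  have hmk := h.markov
  have hpr := rho_prob h hC he
  have hmp := rho_mp h hC he
  have hint : Integrable (fun q : (R → E) × V => F q.1) (rho P e w) :=
    Integrable.of_bound (hF.comp measurable_fst).aestronglyMeasurable K
      (ae_of_all _ fun q => by rw [Real.norm_eq_abs]; exact hb _)
  have hk : StronglyMeasurable fun v => ∫ z, F z ∂(κ v) :=
    hF.stronglyMeasurable.integral_kernel
  have hkb : ∀ v, |∫ z, F z ∂(κ v)| ≤ K := by
    intro v
    have h1 := norm_integral_le_of_norm_le_const (μ := κ v) (f := F) (C := K)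
      (ae_of_all _ fun z => by rw [Real.norm_eq_abs]; exact hb z)
    simpa using h1
  have hint2 : Integrable (fun q : (R → E) × V => ∫ z, F z ∂(κ q.2)) (rho P e w) :=
    Integrable.of_bound (hk.measurable.comp measurable_snd).aestronglyMeasurable K
      (ae_of_all _ fun q => by rw [Real.norm_eq_abs]; exact hkb _)
  have hint3 : Integrable (fun x => F (e x)) P := hmp.integrable_comp_of_integrable hint
  symm
  refine ae_eq_condExp_of_forall_setIntegral_eq measurable_snd.comap_le hint
    (fun _ _ _ => hint2.integrableOn) ?_ ?_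
  · rintro _ ⟨B, hB, rfl⟩ _
    have hB' : MeasurableSet (Prod.snd ⁻¹' B : Set ((R → E) × V)) := measurable_snd hB
    have h1 : ∫ q in Prod.snd ⁻¹' B, (fun q : (R → E) × V => ∫ z, F z ∂(κ q.2)) q ∂(rho P e w) =
        ∫ x in w ⁻¹' B, ∫ z, F z ∂(κ (w x)) ∂P := by
      rw [rho, setIntegral_map hB' (hint2.aestronglyMeasurable)
        (measurable_ew h hC he).aemeasurable]
      rfl
    have h2 : ∫ q in Prod.snd ⁻¹' B, (fun q : (R → E) × V => F q.1) q ∂(rho P e w) =
        ∫ x in w ⁻¹' B, F (e x) ∂P := by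
      rw [rho, setIntegral_map hB' (hint.aestronglyMeasurable)
        (measurable_ew h hC he).aemeasurable]
      rfl
    rw [h1, h2]
    have h3 := h.condExp hC he hF.stronglyMeasurable hint3
    rw [← setIntegral_condExp hC hint3 (h.meas hB)]
    exact setIntegral_congr_ae (h.measL hC hB) (h3.mono fun x hx _ => hx.symm)
  · exact (hk.comp_measurable (comap_measurable Prod.snd)).aestronglyMeasurable

/-- independence of all coordinates but one, in kernel form. -/
theorem kind (h : IsEnv mCC P e w κ) (hC : mCC ≤ mL) (he : Measurable e)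
    {μ : Measure E} (hCE : mC ≤ mE) (J : Finset R)
    {F : R → E → ℝ} (hF : ∀ j, Measurable (F j)) {K : R → ℝ} (hb : ∀ j z, |F j z| ≤ K j)
    (hind : P[fun x => ∏ j ∈ J, F j (e x j) | mCC] =ᵐ[P]
      fun x => ∏ j ∈ J, (μ[F j | mC]) (e x j)) :
    ∀ᵐ q ∂(rho P e w), ∫ z, ∏ j ∈ J, F j (z j) ∂(κ q.2) = ∏ j ∈ J, (μ[F j | mC]) (q.1 j) := by
  have hmk := h.markov
  have hG : Measurable fun z : R → E => ∏ j ∈ J, F j (z j) :=
    Finset.measurable_prod _ fun j _ => (hF j).comp (measurable_pi_apply j)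
  have hm : MeasurableSet {q : (R → E) × V |
      ∫ z, ∏ j ∈ J, F j (z j) ∂(κ q.2) = ∏ j ∈ J, (μ[F j | mC]) (q.1 j)} := by
    refine measurableSet_eq_fun ?_ ?_
    · exact (hG.stronglyMeasurable.integral_kernel).measurable.comp measurable_snd
    · refine Finset.measurable_prod _ fun j _ => ?_
      have h1 : Measurable (μ[F j | mC]) :=
        (stronglyMeasurable_condExp.mono hCE).measurable
      exact h1.comp ((measurable_pi_apply j).comp measurable_fst)
  rw [rho, ae_map_iff (measurable_ew h hC he).aemeasurable hm]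
  have hint : Integrable (fun x => (fun z : R → E => ∏ j ∈ J, F j (z j)) (e x)) P := by
    refine Integrable.of_bound (C := ∏ j ∈ J, K j) (hG.comp he).aestronglyMeasurable
      (ae_of_all _ fun x => ?_)
    rw [Real.norm_eq_abs, Finset.abs_prod]
    exact Finset.prod_le_prod (fun j _ => abs_nonneg _) fun j _ => hb j _
  have h1 := h.condExp hC he hG.stronglyMeasurable hint
  filter_upwards [h1, hind] with x hx1 hx2
  rw [← hx2, hx1]

/-- determinism of a coordinate, in joint form. -/
theorem kdet (h : IsEnv mCC P e w κ) (hC : mCC ≤ mL) (he : Measurable e) (j0 : R)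
    (hdet : AELe P (mE.comap (fun x => e x j0))
      ((⨆ j : {j // j ≠ j0}, mE.comap (fun x => e x j)) ⊔ mCC)) :
    ∃ ψ : V × ({j // j ≠ j0} → E) → E, Measurable ψ ∧
      ∀ᵐ q ∂(rho P e w), q.1 j0 = ψ (q.2, fun j => q.1 j) := by
  rw [← comap_pi_eq_iSup (fun (j : {j // j ≠ j0}) x => e x j)] at hdet
  obtain ⟨Φ, hΦ, h1, -⟩ := h.exists_determined hC he (π := fun z => z j0)
    (measurable_pi_apply j0) (ρ := fun z (j : {j // j ≠ j0}) => z j)
    (measurable_pi_lambda _ fun j => measurable_pi_apply _) hdet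
  refine ⟨Φ, hΦ, ?_⟩
  have hm : MeasurableSet {q : (R → E) × V | q.1 j0 = Φ (q.2, fun j => q.1 j)} := by
    refine measurableSet_eq_fun ?_ ?_
    · exact (measurable_pi_apply j0).comp measurable_fst
    · refine hΦ.comp (measurable_snd.prodMk ?_)
      exact measurable_pi_lambda _ fun j => (measurable_pi_apply _).comp measurable_fst
  rw [rho, ae_map_iff (measurable_ew h hC he).aemeasurable hm]
  exact h1

/-- invariance of the level law. -/
theorem rho_inv (h : IsEnv mCC P e w κ) (hC : mCC ≤ mL) (he : Measurable e)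
    {Sn : L → L} (hS : MeasurePreserving Sn P P) {T : E → E} (hT : Measurable T)
    {SV : V → V} (hSV : Measurable SV) (heT : ∀ j, (fun x => e (Sn x) j) =ᵐ[P] fun x => T (e x j))
    (hw : (fun x => w (Sn x)) =ᵐ[P] fun x => SV (w x)) :
    MeasurePreserving (fun q : (R → E) × V => ((fun j => T (q.1 j)), SV q.2))
      (rho P e w) (rho P e w) := by
  have hm : Measurable (fun q : (R → E) × V => ((fun j => T (q.1 j)), SV q.2)) := by
    refine Measurable.prodMk ?_ (hSV.comp measurable_snd)
    exact measurable_pi_lambda _ fun j => hT.comp ((measurable_pi_apply j).comp measurable_fst)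
  have hew := measurable_ew h hC he
  refine ⟨hm, ?_⟩
  conv_lhs => rw [rho]
  rw [Measure.map_map hm hew]
  have h1 : ((fun q : (R → E) × V => ((fun j => T (q.1 j)), SV q.2)) ∘ fun x => (e x, w x)) =ᵐ[P]
      (fun x => (e x, w x)) ∘ Sn := by
    filter_upwards [ae_all_iff.2 heT, hw] with x hx hx2
    simp only [Function.comp]
    rw [hx2]
    congr 1
    funext j
    exact (hx j).symm
  rw [Measure.map_congr h1, ← Measure.map_map hew hS.measurable, hS.map_eq, rho]

end gen

end Crest.Agent.R069.LevArr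
end

-- ▼ part R069/TotSite
section

/-!
# Point sites on the Loeb space (row 69, module TOT)
-/

set_option autoImplicit false

open MeasureTheory Filter Set ProbabilityTheory
open scoped ENNReal Topology

namespace Crest.Agent.R069.Tot

section aux

variable {α : Type*}

/-- `st` of two internal functions which agree a.e. (for every index) agree a.e. -/
theorem st_congr_ae [mα : MeasurableSpace α] {μ : Measure α} [IsProbabilityMeasure μ]
    {f g : ℕ → α → ℝ} (h : ∀ k, f k =ᵐ[μ] g k) : st f =ᵐ[lb μ] st g := by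
  have h1 := ae_lb_of_forall_ae (μ := μ) (p := fun k x => f k x = g k x) h
  filter_upwards [h1] with x hx
  unfold st ulim
  congr 1
  exact Filter.map_congr hx


end aux

section site

variable {M : Type*} [MeasurableSpace M] [StandardBorelSpace M] [Nonempty M]

/-- the point site: the position at the time `s`. -/
noncomputable def site (S : ℤ → M → M) (s : ℕ → ℤ) (x : Lb M) : M :=
  pt (lbmap (fun k => S (s k)) x)


variable {μ : Measure M} [IsProbabilityMeasure μ]

theorem site_mp {S : ℤ → M → M} (hS : ∀ n, MeasurePreserving (S n) μ μ) (s : ℕ → ℤ) :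
    MeasurePreserving (site S s) (lb μ) μ :=
  (measurePreserving_pt μ).comp (measurePreserving_lbmap (fun k => hS (s k)))

/-- functions at a site are standard parts. -/
theorem site_st {S : ℤ → M → M} (hS : ∀ n, MeasurePreserving (S n) μ μ) (s : ℕ → ℤ)
    {F : M → ℝ} (hF : Measurable F) :
    (fun x => F (site S s x)) =ᵐ[lb μ] st (fun k y => F (S (s k) y)) := by
  have h1 := (measurePreserving_lbmap (fun k => hS (s k))).quasiMeasurePreserving.ae
    (ae_tendsto_pt (μ := μ) hF)
  filter_upwards [h1] with x hx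
  exact (st_eq hx).symm

/-- naturality of sites under exactly equivariant maps. -/
theorem site_lbmap {N : Type*} [MeasurableSpace N] [StandardBorelSpace N] [Nonempty N]
    {S : ℤ → M → M} (hS : ∀ n, MeasurePreserving (S n) μ μ) {S' : ℤ → N → N}
    {g : M → N} (hg : Measurable g) (hgS : ∀ n x, g (S n x) = S' n (g x)) (s : ℕ → ℤ) :
    ∀ᵐ x ∂(lb μ), site S' s (lbmap (fun _ => g) x) = g (site S s x) := by
  have h1 := (measurePreserving_lbmap (fun k => hS (s k))).quasiMeasurePreserving.ae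
    (pt_lbmap_ae (μ := μ) hg)
  filter_upwards [h1] with x hx
  have e : lbmap (fun k => S' (s k)) (lbmap (fun _ => g) x)
      = lbmap (fun _ => g) (lbmap (fun k => S (s k)) x) := by
    funext k
    exact (hgS (s k) (x k)).symm
  unfold site
  rw [e]
  exact hx

end site

end Crest.Agent.R069.Tot
end

-- ▼ part R069/TotArr
section

/-!
# The two-level array on the Loeb space of the level system (row 69, module TOT)

`J = (R → E) × V` is the level system, `env = LL (snd⁻¹ V)` on `Lb J`.
-/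

set_option autoImplicit false

open MeasureTheory Filter Set ProbabilityTheory
open scoped ENNReal Topology

namespace Crest.Agent.R069.Tot

section aux

variable {α : Type*}

theorem BM_prod {ι : Type*} {m : MeasurableSpace α} (t : Finset ι) {f : ι → ℕ → α → ℝ}
    (h : ∀ i ∈ t, ∃ C, BM m (f i) C) : ∃ C, BM m (fun k x => ∏ i ∈ t, f i k x) C := by
  classical
  induction t using Finset.induction_on with
  | empty => exact ⟨1, ⟨fun k => by simp only [Finset.prod_empty]; exact measurable_const,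
      fun k x => by simp⟩⟩
  | insert a t ha ih =>
    obtain ⟨C1, h1⟩ := h a (Finset.mem_insert_self _ _)
    obtain ⟨C2, h2⟩ := ih (fun i hi => h i (Finset.mem_insert_of_mem hi))
    refine ⟨C1 * C2, fun k => ?_, fun k x => ?_⟩
    · simp only [Finset.prod_insert ha]
      exact (h1.meas k).mul (h2.meas k)
    · simp only [Finset.prod_insert ha]
      rw [abs_mul]
      exact mul_le_mul (h1.bdd k x) (h2.bdd k x) (abs_nonneg _)
        ((abs_nonneg _).trans (h1.bdd k x))

theorem AELe_comap_of_ae_eq {β : Type*} [MeasurableSpace α] {μ : Measure α}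
    {mβ : MeasurableSpace β} {f g : α → β} (h : f =ᵐ[μ] g) :
    AELe μ (mβ.comap f) (mβ.comap g) := by
  rintro _ ⟨B, hB, rfl⟩
  refine ⟨g ⁻¹' B, ⟨B, hB, rfl⟩, ?_⟩
  filter_upwards [h] with x hx
  apply propext
  show f x ∈ B ↔ g x ∈ B
  rw [hx]

theorem AELe_LL {m₁ m₂ : MeasurableSpace α} [mα : MeasurableSpace α] {μ : Measure α}
    [IsProbabilityMeasure μ] (h : AELe μ m₁ m₂) : AELe (lb μ) (LL m₁) (LL m₂) := by
  refine AELe.generateFrom ?_
  rintro _ ⟨A, hA, rfl⟩
  choose B hB hAB using fun k => h (A k) (hA k)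
  exact ⟨intl B, measurableSet_intl hB, intl_ae_eq hAB⟩

end aux

/-- The input of the array construction. -/
structure ArrIn (R E V : Type) (mC : MeasurableSpace E) [Fintype R] [DecidableEq R] [mE : MeasurableSpace E]
    [StandardBorelSpace E] [Nonempty E] [mV : MeasurableSpace V] [StandardBorelSpace V]
    [Nonempty V] where
  μ : Measure E
  [prμ : IsProbabilityMeasure μ]
  S : ℤ → E → E
  S_mp : ∀ n, MeasurePreserving (S n) μ μ
  hC : mC ≤ mE
  SV : ℤ → V → V
  SV_meas : ∀ n, Measurable (SV n)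
  /-- the level system -/
  ρ : Measure ((R → E) × V)
  [prρ : IsProbabilityMeasure ρ]
  ρ_S : ∀ n, MeasurePreserving
    (fun q : (R → E) × V => ((fun i => S n (q.1 i), SV n q.2) : (R → E) × V)) ρ ρ
  co_mp : ∀ i, MeasurePreserving (fun q : (R → E) × V => q.1 i) ρ μ
  /-- the environment kernel -/
  κ : Kernel V (R → E)
  [κ_mk : IsMarkovKernel κ]
  κ_ce : ∀ F : (R → E) → ℝ, BdM inferInstance F →
    ρ[fun q => F q.1 | mV.comap Prod.snd] =ᵐ[ρ] fun q => ∫ z, F z ∂(κ q.2)
  κ_S : ∀ n, ∀ᵐ v ∂(ρ.map Prod.snd), κ (SV n v) = (κ v).map (fun z i => S n (z i))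
  κ_ind : ∀ (j0 : R) (F : R → E → ℝ), (∀ j, BdM mE (F j)) →
    ∀ᵐ q ∂ρ, ∫ z, ∏ j ∈ Finset.univ.erase j0, F j (z j) ∂(κ q.2)
      = ∏ j ∈ Finset.univ.erase j0, (μ[F j | mC]) (q.1 j)
  κ_det : ∀ j0 : R, ∃ ψ : V × ({j // j ≠ j0} → E) → E, Measurable ψ ∧
    ∀ᵐ q ∂ρ, q.1 j0 = ψ (q.2, fun j => q.1 j)
  s : R → ℕ → ℤ
  /-- conditional independence of all sites but one, given the environment -/
  ind : ∀ (i0 : R) (F : R → E → ℝ), (∀ j, BdM mE (F j)) →
    (lb μ)[fun x => ∏ i ∈ Finset.univ.erase i0, F i (site S (s i) x) | LL mC] =ᵐ[lb μ]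
      fun x => ∏ i ∈ Finset.univ.erase i0, (μ[F i | mC]) (site S (s i) x)
  /-- every site is a function of the others and the environment -/
  det : ∀ i0 : R, AELe (lb μ) (mE.comap (site S (s i0)))
    ((⨆ i, ⨆ _ : i ≠ i0, mE.comap (site S (s i))) ⊔ LL mC)

namespace ArrIn

variable {R E V : Type} {mC : MeasurableSpace E} [Fintype R] [DecidableEq R]
    [mE : MeasurableSpace E] [StandardBorelSpace E] [Nonempty E] [mV : MeasurableSpace V]
    [StandardBorelSpace V] [Nonempty V] (D : ArrIn R E V mC)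

attribute [instance] ArrIn.prμ ArrIn.prρ ArrIn.κ_mk

/-- the action on the level system -/
def SJ (n : ℤ) (q : (R → E) × V) : (R → E) × V := (fun i => D.S n (q.1 i), D.SV n q.2)

theorem SJ_mp (n : ℤ) : MeasurePreserving (D.SJ n) D.ρ D.ρ := D.ρ_S n

/-- the sites of the level system -/
noncomputable def row (i : R) (x : Lb ((R → E) × V)) : (R → E) × V := site D.SJ (D.s i) x

/-- the entries of the array -/
noncomputable def e (i j : R) (x : Lb ((R → E) × V)) : E := (D.row i x).1 j

/-- the environments of the rows -/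
noncomputable def w (i : R) (x : Lb ((R → E) × V)) : V := (D.row i x).2

/-- the environment of the array -/
@[implicit_reducible]
def env (_ : ArrIn R E V mC) : MeasurableSpace (Lb ((R → E) × V)) :=
  LL (mV.comap (Prod.snd : (R → E) × V → V))

omit [Fintype R] [DecidableEq R] [StandardBorelSpace E] [Nonempty E] [StandardBorelSpace V]
  [Nonempty V] in
theorem snd_le : mV.comap (Prod.snd : (R → E) × V → V) ≤ Prod.instMeasurableSpace :=
  measurable_snd.comap_le

theorem env_le : D.env ≤ instMSLb := LL_mono snd_le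

theorem row_mp (i : R) : MeasurePreserving (D.row i) (lb D.ρ) D.ρ := site_mp D.SJ_mp (D.s i)

theorem measurable_e (i j : R) : Measurable (D.e i j) :=
  (measurable_pi_apply j).comp (measurable_fst.comp (D.row_mp i).measurable)

theorem measurable_w (i : R) : Measurable (D.w i) := measurable_snd.comp (D.row_mp i).measurable

/-- the map to the ultrapower of the column `j` -/
def col (_ : ArrIn R E V mC) (j : R) : Lb ((R → E) × V) → Lb E :=
  lbmap (fun _ => fun q : (R → E) × V => q.1 j)

theorem col_mp (j : R) : MeasurePreserving (D.col j) (lb D.ρ) (lb D.μ) :=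
  measurePreserving_lbmap (fun _ => D.co_mp j)

theorem site_col (i j : R) : ∀ᵐ x ∂(lb D.ρ), site D.S (D.s i) (D.col j x) = D.e i j x :=
  site_lbmap D.SJ_mp (D.co_mp j).measurable (fun _ _ => rfl) (D.s i)

set_option maxHeartbeats 1000000 in
/-- **Block independence.** -/
theorem block_ind (i0 j0 : R) (F : R → R → E → ℝ) (hF : ∀ i j, BdM mE (F i j)) :
    (lb D.ρ)[fun x => ∏ j ∈ Finset.univ.erase j0, ∏ i ∈ Finset.univ.erase i0, F i j (D.e i j x)
      | D.env] =ᵐ[lb D.ρ]
      fun x => ∏ j ∈ Finset.univ.erase j0, ∏ i ∈ Finset.univ.erase i0,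
        (D.μ[F i j | mC]) (D.e i j x) := by
  classical
  -- the internal functions
  set G : R → ℕ → E → ℝ := fun j k z => ∏ i ∈ Finset.univ.erase i0, F i j (D.S (D.s i k) z)
    with hG
  have hGi : ∀ i j, ∃ C, BM mE (fun (k : ℕ) z => F i j (D.S (D.s i k) z)) C := by
    intro i j
    obtain ⟨C, hC⟩ := (hF i j).bdd
    exact ⟨C, ⟨fun k => (hF i j).meas.comp (D.S_mp _).measurable, fun k x => hC _⟩⟩
  have hGb : ∀ j, ∃ C, BM mE (G j) C := fun j => BM_prod _ (fun i _ => hGi i j)
  have hGb' : ∀ j, ∃ C, 0 ≤ C ∧ BM mE (G j) C := by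
    intro j
    obtain ⟨C, hC⟩ := hGb j
    exact ⟨C, (abs_nonneg _).trans (hC.bdd 0 (Classical.arbitrary E)), hC⟩
  choose C hC0 hC using hGb'
  set f : ℕ → (R → E) × V → ℝ := fun k q => ∏ j ∈ Finset.univ.erase j0, G j k (q.1 j) with hf
  have hfb : ∃ C, BM inferInstance f C := by
    refine BM_prod _ (fun j _ => ⟨C j, ⟨fun k => ?_, fun k q => (hC j).bdd k _⟩⟩)
    exact ((hC j).meas k).comp (D.co_mp j).measurable
  obtain ⟨Cf, hCf⟩ := hfb
  -- the standard part of `f`
  have e1 : (fun x => ∏ j ∈ Finset.univ.erase j0, ∏ i ∈ Finset.univ.erase i0, F i j (D.e i j x))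
      =ᵐ[lb D.ρ] st f := by
    have h1 : ∀ᵐ x ∂(lb D.ρ), ∀ i j, F i j (D.e i j x)
        = st (fun k (q : (R → E) × V) => F i j (D.S (D.s i k) (q.1 j))) x := by
      rw [ae_all_iff]; intro i
      rw [ae_all_iff]; intro j
      exact site_st D.SJ_mp (D.s i) (F := fun q : (R → E) × V => F i j (q.1 j))
        ((hF i j).meas.comp (D.co_mp j).measurable)
    filter_upwards [h1] with x hx
    have h2 : st f x = ∏ j ∈ Finset.univ.erase j0, ∏ i ∈ Finset.univ.erase i0,
        st (fun k (q : (R → E) × V) => F i j (D.S (D.s i k) (q.1 j))) x := by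
      apply st_eq
      refine tendsto_finsetProd _ (fun j _ => tendsto_finsetProd _ (fun i _ => ?_))
      obtain ⟨C', hC'⟩ := (hF i j).bdd
      exact stOK_of_bdd (C := C')
        (f := fun k (q : (R → E) × V) => F i j (D.S (D.s i k) (q.1 j)))
        (fun k q => by simpa using hC' _) x
    rw [h2]
    refine Finset.prod_congr rfl (fun j _ => Finset.prod_congr rfl (fun i _ => hx i j))
  -- the conditional expectation
  set g : ℕ → (R → E) × V → ℝ := fun k q =>
    ∫ z, ∏ j ∈ Finset.univ.erase j0, G j k (z j) ∂(D.κ q.2) with hg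
  have hGz : ∀ k, BdM inferInstance
      (fun z : R → E => ∏ j ∈ Finset.univ.erase j0, G j k (z j)) := by
    intro k
    refine BdM.prod (fun j _ => ⟨((hC j).meas k).comp (measurable_pi_apply j), C j, fun z => ?_⟩)
    exact (hC j).bdd k _
  have hGzC : ∃ C', ∀ k (z : R → E), |∏ j ∈ Finset.univ.erase j0, G j k (z j)| ≤ C' := by
    obtain ⟨C', hC'⟩ := BM_prod (m := (inferInstance : MeasurableSpace (R → E)))
      (Finset.univ.erase j0) (f := fun j k (z : R → E) => G j k (z j))
      (fun j _ => ⟨C j, ⟨fun k => ((hC j).meas k).comp (measurable_pi_apply j),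
        fun k z => (hC j).bdd k _⟩⟩)
    exact ⟨C', fun k z => hC'.bdd k z⟩
  obtain ⟨C', hC'⟩ := hGzC
  have hgb : BM (mV.comap (Prod.snd : (R → E) × V → V)) g C' := by
    refine ⟨fun k => ?_, fun k q => ?_⟩
    · have h1 : Measurable (fun v : V => ∫ z, ∏ j ∈ Finset.univ.erase j0, G j k (z j) ∂(D.κ v)) :=
        ((hGz k).meas.stronglyMeasurable.integral_kernel).measurable
      exact h1.comp (comap_measurable _)
    · have h1 := norm_integral_le_of_norm_le_const (μ := D.κ q.2)
        (f := fun z => ∏ j ∈ Finset.univ.erase j0, G j k (z j)) (C := C')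
        (Eventually.of_forall (fun z => by rw [Real.norm_eq_abs]; exact hC' k z))
      rw [probReal_univ, mul_one, Real.norm_eq_abs] at h1
      exact h1
  have e2 : (lb D.ρ)[st f | D.env] =ᵐ[lb D.ρ] st g :=
    condExp_st snd_le hCf hgb (fun k => (D.κ_ce _ (hGz k)).symm)
  -- the factors
  set h : R → ℕ → E → ℝ := fun j => ce mC D.μ (C j) (G j) with hh
  have hhb : ∀ j, BM mC (h j) (C j) := fun j => ce_BM (hC0 j)
  have e3 : st g =ᵐ[lb D.ρ] st (fun k (q : (R → E) × V) =>
      ∏ j ∈ Finset.univ.erase j0, h j k (q.1 j)) := by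
    refine st_congr_ae (fun k => ?_)
    have h1 := D.κ_ind j0 (fun j => G j k) (fun j => ⟨(hC j).meas k, C j, (hC j).bdd k⟩)
    have h2 : ∀ᵐ q ∂D.ρ, ∀ j, h j k (q.1 j) = (D.μ[G j k | mC]) (q.1 j) := by
      rw [ae_all_iff]; intro j
      exact (D.co_mp j).quasiMeasurePreserving.ae (ce_ae_eq (hC0 j) (hC j) k)
    filter_upwards [h1, h2] with q hq1 hq2
    rw [hg]
    simp only
    rw [hq1]
    exact Finset.prod_congr rfl (fun j _ => (hq2 j).symm)
  have e4 : st (fun k (q : (R → E) × V) => ∏ j ∈ Finset.univ.erase j0, h j k (q.1 j))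
      = fun x => ∏ j ∈ Finset.univ.erase j0, st (h j) (D.col j x) := by
    funext x
    apply st_eq
    refine tendsto_finsetProd _ (fun j _ => ?_)
    exact (hhb j).ok (D.col j x)
  have e5 : ∀ j, (fun y => st (h j) y) =ᵐ[lb D.μ]
      fun y => ∏ i ∈ Finset.univ.erase i0, (D.μ[F i j | mC]) (site D.S (D.s i) y) := by
    intro j
    have a1 := condExp_st_ce (μ := D.μ) D.hC (hC0 j) (hC j)
    have a2 : st (G j) =ᵐ[lb D.μ]
        fun y => ∏ i ∈ Finset.univ.erase i0, F i j (site D.S (D.s i) y) := by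
      have b1 : ∀ᵐ y ∂(lb D.μ), ∀ i, F i j (site D.S (D.s i) y)
          = st (fun k z => F i j (D.S (D.s i k) z)) y := by
        rw [ae_all_iff]; intro i
        exact site_st D.S_mp (D.s i) (hF i j).meas
      filter_upwards [b1] with y hy
      apply st_eq
      refine tendsto_finsetProd _ (fun i _ => ?_)
      rw [hy i]
      obtain ⟨C', hC'⟩ := hGi i j
      exact hC'.ok y
    have a3 := D.ind i0 (fun i => F i j) (fun i => hF i j)
    exact a1.symm.trans ((condExp_congr_ae a2).trans a3)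
  have e6 : ∀ᵐ x ∂(lb D.ρ), ∀ j, st (h j) (D.col j x)
      = ∏ i ∈ Finset.univ.erase i0, (D.μ[F i j | mC]) (D.e i j x) := by
    rw [ae_all_iff]; intro j
    have a1 := (D.col_mp j).quasiMeasurePreserving.ae (e5 j)
    have a2 : ∀ᵐ x ∂(lb D.ρ), ∀ i, site D.S (D.s i) (D.col j x) = D.e i j x := by
      rw [ae_all_iff]; intro i; exact D.site_col i j
    filter_upwards [a1, a2] with x hx1 hx2
    rw [hx1]
    exact Finset.prod_congr rfl (fun i _ => by rw [hx2 i])
  refine (condExp_congr_ae e1).trans (e2.trans (e3.trans ?_))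
  rw [e4]
  filter_upwards [e6] with x hx
  exact Finset.prod_congr rfl (fun j _ => hx j)

theorem ae_le_mV (j : R) : AELe D.ρ (mC.comap (fun q : (R → E) × V => q.1 j))
    (mV.comap (Prod.snd : (R → E) × V → V)) := by
  classical
  by_cases hR : ∃ j0 : R, j0 ≠ j
  · obtain ⟨j0, hj0⟩ := hR
    rintro _ ⟨B, hB, rfl⟩
    have hBE : MeasurableSet[mE] B := D.hC _ hB
    set F : R → E → ℝ := fun i => if i = j then B.indicator (fun _ => (1 : ℝ)) else fun _ => 1
      with hF
    have hFb : ∀ i, BdM mE (F i) := by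
      intro i
      by_cases hi : i = j
      · simp only [hF, hi, if_true]; exact BdM.indicator hBE
      · simp only [hF, hi, if_false]; exact BdM.one
    have h1 := D.κ_ind j0 F hFb
    refine ⟨{q : (R → E) × V | (D.κ q.2).real (((fun z : R → E => z j)) ⁻¹' B) = 1}, ?_, ?_⟩
    · refine ⟨{v : V | (D.κ v).real (((fun z : R → E => z j)) ⁻¹' B) = 1}, ?_, rfl⟩
      have h2 : Measurable (fun v : V => (D.κ v).real (((fun z : R → E => z j)) ⁻¹' B)) :=
        (Kernel.measurable_coe _ (measurable_pi_apply j hBE)).ennreal_toReal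
      exact h2 (measurableSet_singleton 1)
    · have h3 : D.μ[B.indicator (fun _ => (1 : ℝ)) | mC] = B.indicator (fun _ => (1 : ℝ)) :=
        condExp_of_bm D.hC (BdM.indicator hB)
      have hjm : j ∈ Finset.univ.erase j0 := Finset.mem_erase.2 ⟨fun h => hj0 h.symm, Finset.mem_univ _⟩
      filter_upwards [h1] with q hq
      have e1 : ∀ z : R → E, ∏ i ∈ Finset.univ.erase j0, F i (z i)
          = ((fun z : R → E => z j) ⁻¹' B).indicator (fun _ => (1 : ℝ)) z := by
        intro z
        rw [Finset.prod_eq_single_of_mem j hjm]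
        · simp only [hF, if_true]; rfl
        · intro i _ hi
          simp only [hF, hi, if_false]
      have e2 : ∏ i ∈ Finset.univ.erase j0, (D.μ[F i | mC]) (q.1 i)
          = B.indicator (fun _ => (1 : ℝ)) (q.1 j) := by
        rw [Finset.prod_eq_single_of_mem j hjm]
        · simp only [hF, if_true]; rw [h3]
        · intro i _ hi
          simp only [hF, hi, if_false]
          rw [condExp_const D.hC]
      simp only [e1, e2] at hq
      rw [integral_indicator (measurable_pi_apply j hBE)] at hq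
      simp only [integral_const, MeasurableSet.univ, measureReal_restrict_apply, univ_inter,
        smul_eq_mul, mul_one] at hq
      apply propext
      show q.1 j ∈ B ↔ (D.κ q.2).real ((fun z : R → E => z j) ⁻¹' B) = 1
      rw [hq]
      by_cases hqB : q.1 j ∈ B <;> simp [hqB]
  · -- `R = {j}`: then `univ.erase j = ∅` gives no information; use `κ_det`
    push Not at hR
    obtain ⟨ψ, hψ, h⟩ := D.κ_det j
    rintro _ ⟨B, hB, rfl⟩
    have hBE : MeasurableSet[mE] B := D.hC _ hB
    have hE : IsEmpty {i : R // i ≠ j} := ⟨fun i => i.2 (hR i.1)⟩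
    let z0 : {i : R // i ≠ j} → E := fun i => hE.elim i
    refine ⟨{q : (R → E) × V | ψ (q.2, z0) ∈ B}, ⟨{v | ψ (v, z0) ∈ B}, ?_, rfl⟩, ?_⟩
    · exact (hψ.comp (measurable_id.prodMk measurable_const)) hBE
    · filter_upwards [h] with q hq
      apply propext
      show q.1 j ∈ B ↔ ψ (q.2, z0) ∈ B
      have : (fun i : {i : R // i ≠ j} => q.1 i) = z0 := Subsingleton.elim _ _
      rw [hq, this]

/-- **Columns are determined.** -/
theorem col_det (i0 j : R) : AELe (lb D.ρ) (mE.comap (D.e i0 j))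
    ((⨆ i : {i // i ≠ i0}, mE.comap (D.e i j)) ⊔ D.env) := by
  have h1 := (D.det i0).comap (D.col_mp j)
  have h0 : ∀ i, (site D.S (D.s i)) ∘ D.col j =ᵐ[lb D.ρ] D.e i j := fun i => D.site_col i j
  rw [MeasurableSpace.comap_comp, MeasurableSpace.comap_sup] at h1
  refine (AELe_comap_of_ae_eq (h0 i0).symm).trans (h1.trans ?_)
  refine AELe.sup ?_ ?_
  · rw [MeasurableSpace.comap_iSup]
    refine AELe.iSup (fun i => ?_)
    rw [MeasurableSpace.comap_iSup]
    refine AELe.iSup (fun hi => ?_)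
    rw [MeasurableSpace.comap_comp]
    refine (AELe_comap_of_ae_eq (h0 i)).trans (AELe.of_le ?_)
    exact le_trans (le_iSup (fun i : {i // i ≠ i0} => mE.comap (D.e i j)) ⟨i, hi⟩) le_sup_left
  · refine AELe.trans ?_ (AELe.of_le le_sup_right)
    have : (LL mC).comap (D.col j) = LL (mC.comap (fun q : (R → E) × V => q.1 j)) :=
      comap_lbmap_LL _
    rw [this]
    exact AELe_LL (D.ae_le_mV j)

/-- the environments of the rows are measurable with respect to the environment. -/
theorem w_env (i : R) : AELe (lb D.ρ) (mV.comap (D.w i)) D.env := by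
  rintro _ ⟨B, hB, rfl⟩
  have h1 : MeasurableSet ((Prod.snd : (R → E) × V → V) ⁻¹' B) := measurable_snd hB
  have h2 := pt_preimage_ae (μ := D.ρ) h1
  have hmp := measurePreserving_lbmap (μ := D.ρ) (ν := D.ρ) (fun k => D.SJ_mp (D.s i k))
  have h3 := hmp.quasiMeasurePreserving.preimage_ae_eq h2
  refine ⟨intl (fun k => (Prod.snd : (R → E) × V → V) ⁻¹' ((D.SV (D.s i k)) ⁻¹' B)), ?_, ?_⟩
  · exact measurableSet_intl (fun k => ⟨_, D.SV_meas _ hB, rfl⟩)
  · exact h3

/-- **Rows are determined.** -/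
theorem row_det (i j0 : R) : AELe (lb D.ρ) (mE.comap (D.e i j0))
    ((⨆ j : {j // j ≠ j0}, mE.comap (D.e i j)) ⊔ D.env) := by
  obtain ⟨ψ, hψ, h⟩ := D.κ_det j0
  have h1 : ∀ᵐ x ∂(lb D.ρ), D.e i j0 x = ψ (D.w i x, fun j : {j // j ≠ j0} => D.e i j x) :=
    (D.row_mp i).quasiMeasurePreserving.ae h
  refine (AELe_comap_of_ae_eq h1).trans ?_
  have h2 : mE.comap (fun x => ψ (D.w i x, fun j : {j // j ≠ j0} => D.e i j x)) ≤
      mV.comap (D.w i) ⊔ (⨆ j : {j // j ≠ j0}, mE.comap (D.e i j)) := by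
    rw [← measurable_iff_comap_le]
    refine hψ.comp ?_
    refine Measurable.prodMk ?_ ?_
    · rw [measurable_iff_comap_le]; exact le_sup_left
    · refine @measurable_pi_lambda _ _ _ (_) _ _ (fun j => ?_)
      rw [measurable_iff_comap_le]
      exact le_trans (le_iSup (fun j : {j // j ≠ j0} => mE.comap (D.e i j)) j) le_sup_right
  refine (AELe.of_le h2).trans (AELe.sup ?_ (AELe.of_le le_sup_left))
  exact (D.w_env i).trans (AELe.of_le le_sup_right)

set_option maxHeartbeats 1000000 in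
/-- **The law of a row given the environment.** -/
theorem row_law (i : R) (F : (R → E) → ℝ) (hF : BdM inferInstance F) :
    (lb D.ρ)[fun x => F (fun j => D.e i j x) | D.env] =ᵐ[lb D.ρ]
      fun x => ∫ z, F z ∂(D.κ (D.w i x)) := by
  obtain ⟨C, hC⟩ := hF.bdd
  set T : ℕ → (R → E) → (R → E) := fun k z j => D.S (D.s i k) (z j) with hT
  have hTm : ∀ k, Measurable (T k) := fun k => measurable_pi_lambda _ fun j =>
    (D.S_mp _).measurable.comp (measurable_pi_apply j)
  set f : ℕ → (R → E) × V → ℝ := fun k q => F (T k q.1) with hf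
  have hfb : BM inferInstance f C :=
    ⟨fun k => hF.meas.comp ((hTm k).comp measurable_fst), fun k q => hC _⟩
  have e1 : (fun x => F (fun j => D.e i j x)) =ᵐ[lb D.ρ] st f :=
    site_st D.SJ_mp (D.s i) (F := fun q : (R → E) × V => F q.1) (hF.meas.comp measurable_fst)
  have hI : Measurable (fun v : V => ∫ z, F z ∂(D.κ v)) :=
    (hF.meas.stronglyMeasurable.integral_kernel).measurable
  set g : ℕ → (R → E) × V → ℝ := fun k q => ∫ z, F z ∂(D.κ (D.SV (D.s i k) q.2)) with hg
  have hgb : BM (mV.comap (Prod.snd : (R → E) × V → V)) g C := by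
    refine ⟨fun k => ?_, fun k q => ?_⟩
    · exact (hI.comp (D.SV_meas _)).comp (comap_measurable _)
    · have h1 := norm_integral_le_of_norm_le_const (μ := D.κ (D.SV (D.s i k) q.2))
        (f := F) (C := C) (Eventually.of_forall (fun z => by rw [Real.norm_eq_abs]; exact hC z))
      rw [probReal_univ, mul_one, Real.norm_eq_abs] at h1
      exact h1
  have e2 : (lb D.ρ)[st f | D.env] =ᵐ[lb D.ρ] st g := by
    refine condExp_st snd_le hfb hgb (fun k => ?_)
    have h1 := D.κ_ce (fun z => F (T k z)) ⟨hF.meas.comp (hTm k), C, fun z => hC _⟩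
    refine EventuallyEq.trans ?_ h1.symm
    have h2 := D.κ_S (D.s i k)
    have h3 : ∀ᵐ q ∂D.ρ, D.κ (D.SV (D.s i k) q.2) = (D.κ q.2).map (T k) :=
      ae_of_ae_map measurable_snd.aemeasurable h2
    filter_upwards [h3] with q hq
    rw [hg]
    simp only
    rw [hq, integral_map (hTm k).aemeasurable hF.meas.stronglyMeasurable.aestronglyMeasurable]
  have e3 : (fun x => ∫ z, F z ∂(D.κ (D.w i x))) =ᵐ[lb D.ρ] st g :=
    site_st D.SJ_mp (D.s i) (F := fun q : (R → E) × V => ∫ z, F z ∂(D.κ q.2))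
      (hI.comp measurable_snd)
  exact (condExp_congr_ae e1).trans (e2.trans e3.symm)

end ArrIn

end Crest.Agent.R069.Tot
end

-- ▼ part R069/TotFin
section

/-!
# Totality at a.e. environment point (row 69, module TOT)
-/

set_option autoImplicit false

open MeasureTheory Filter Set ProbabilityTheory
open scoped ENNReal Topology

namespace Crest.Agent.R069.Tot

/-- The static array: every block avoiding one row and one column is independent, every entry is
a function of the other entries of its row, and of its column. -/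
structure Static {R E : Type*} [Fintype R] [MeasurableSpace E] (ρ : Measure (R → R → E)) :
    Prop where
  prob : IsProbabilityMeasure ρ
  indep : ∀ i0 j0 : R, iIndepFun
    (fun (p : {p : R × R // p.1 ≠ i0 ∧ p.2 ≠ j0}) (x : R → R → E) => x p.1.1 p.1.2) ρ
  rowcl : ∀ i j0 : R, ∃ g : ({j // j ≠ j0} → E) → E, Measurable g ∧
    ∀ᵐ x ∂ρ, x i j0 = g (fun j => x i j)
  colcl : ∀ i0 j : R, ∃ g : ({i // i ≠ i0} → E) → E, Measurable g ∧
    ∀ᵐ x ∂ρ, x i0 j = g (fun i => x i j)

section aux

theorem exists_meas_version {L V : Type*} {m : MeasurableSpace L} [mL : MeasurableSpace L]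
    {P : Measure L} [IsProbabilityMeasure P] [mV : MeasurableSpace V] [StandardBorelSpace V]
    [Nonempty V] (hm : m ≤ mL) {w : L → V} (hw : Measurable w) (h : AELe P (mV.comap w) m) :
    ∃ (F : L → ℝ) (j' : ℝ → V), BdM m F ∧ Measurable j' ∧ ∀ᵐ x ∂P, w x = j' (F x) := by
  set j : V → ℝ := fun y => ((unitInterval.sigmoid (embeddingReal V y) : unitInterval) : ℝ) with hj
  have hje : MeasurableEmbedding j :=
    (MeasurableEmbedding.subtype_coe measurableSet_Icc).comp
      (measurableEmbedding_sigmoid_comp_embeddingReal V)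
  have hjb : ∀ y, |j y| ≤ 1 := by
    intro y
    have := (unitInterval.sigmoid (embeddingReal V y)).2
    rw [abs_le]; constructor <;> [linarith [this.1]; exact this.2]
  obtain ⟨j', hj'm, hj'⟩ := hje.exists_measurable_extend (measurable_id (α := V))
    (fun _ => inferInstance)
  have hj'j : ∀ y, j' (j y) = y := fun y => congrFun hj' y
  have h1 : BdM (mV.comap w) (fun x => j (w x)) :=
    ⟨hje.measurable.comp (comap_measurable _), 1, fun x => hjb _⟩
  obtain ⟨F, hF, hFe⟩ := h.exists_bm hw.comap_le hm h1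
  refine ⟨F, j', hF, hj'm, ?_⟩
  filter_upwards [hFe] with x hx
  rw [← hx, hj'j]

theorem prod_block {R : Type*} [Fintype R] [DecidableEq R] (i0 j0 : R) (F : R → R → ℝ) :
    ∏ j ∈ Finset.univ.erase j0, ∏ i ∈ Finset.univ.erase i0, F i j
      = ∏ p : {p : R × R // p.1 ≠ i0 ∧ p.2 ≠ j0}, F p.1.1 p.1.2 := by
  rw [Finset.prod_comm, ← Finset.prod_product']
  refine Finset.prod_subtype _ (fun p => ?_) (fun p : R × R => F p.1 p.2)
  simp [Finset.mem_product]

end aux

namespace ArrIn

variable {R E V : Type} {mC : MeasurableSpace E} [Fintype R] [DecidableEq R]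
    [mE : MeasurableSpace E] [StandardBorelSpace E] [Nonempty E] [mV : MeasurableSpace V]
    [StandardBorelSpace V] [Nonempty V] (D : ArrIn R E V mC)

/-- conditional law of one entry. -/
theorem entry_ce {i0 j0 i j : R} (hi : i ≠ i0) (hj : j ≠ j0) {F : E → ℝ} (hF : BdM mE F) :
    (lb D.ρ)[fun x => F (D.e i j x) | D.env] =ᵐ[lb D.ρ] fun x => (D.μ[F | mC]) (D.e i j x) := by
  classical
  set G : R → R → E → ℝ := fun i' j' => if i' = i ∧ j' = j then F else fun _ => 1 with hG
  have hGb : ∀ i' j', BdM mE (G i' j') := by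
    intro i' j'
    by_cases h : i' = i ∧ j' = j
    · simp only [hG, h, and_self, if_true]; exact hF
    · simp only [hG, h, if_false]; exact BdM.one
  have h1 := D.block_ind i0 j0 G hGb
  have hp : ∀ (H : R → R → ℝ), (∀ i' j', ¬ (i' = i ∧ j' = j) → H i' j' = 1) →
      ∏ j' ∈ Finset.univ.erase j0, ∏ i' ∈ Finset.univ.erase i0, H i' j' = H i j := by
    intro H hH
    rw [Finset.prod_eq_single_of_mem j (Finset.mem_erase.2 ⟨hj, Finset.mem_univ _⟩),
      Finset.prod_eq_single_of_mem i (Finset.mem_erase.2 ⟨hi, Finset.mem_univ _⟩)]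
    · intro i' _ hi'
      exact hH _ _ (fun h => hi' h.1)
    · intro j' _ hj'
      exact Finset.prod_eq_one (fun i' _ => hH _ _ (fun h => hj' h.2))
  have e1 : (fun x => ∏ j' ∈ Finset.univ.erase j0, ∏ i' ∈ Finset.univ.erase i0,
      G i' j' (D.e i' j' x)) = fun x => F (D.e i j x) := by
    funext x
    rw [hp (fun i' j' => G i' j' (D.e i' j' x))]
    · simp only [hG, and_self, if_true]
    · intro i' j' h
      simp only [hG, h, if_false]
  have e2 : (fun x => ∏ j' ∈ Finset.univ.erase j0, ∏ i' ∈ Finset.univ.erase i0,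
      (D.μ[G i' j' | mC]) (D.e i' j' x)) = fun x => (D.μ[F | mC]) (D.e i j x) := by
    funext x
    rw [hp (fun i' j' => (D.μ[G i' j' | mC]) (D.e i' j' x))]
    · simp only [hG, and_self, if_true]
    · intro i' j' h
      simp only [hG, h, if_false]
      rw [condExp_const D.hC]
  rw [e1, e2] at h1
  exact h1

/-- the whole array -/
noncomputable def arr (x : Lb ((R → E) × V)) : R → R → E := fun i j => D.e i j x

theorem measurable_arr : Measurable D.arr :=
  measurable_pi_lambda _ fun i => measurable_pi_lambda _ fun j => D.measurable_e i j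

theorem block_prod (i0 j0 : R) (A : ∀ _ : {p : R × R // p.1 ≠ i0 ∧ p.2 ≠ j0}, Set E)
    (hA : ∀ p, MeasurableSet (A p)) :
    (lb D.ρ)[fun x => ∏ p, (A p).indicator (fun _ => (1 : ℝ)) (D.arr x p.1.1 p.1.2) | D.env]
      =ᵐ[lb D.ρ] fun x => ∏ p, ((lb D.ρ)[fun x => (A p).indicator (fun _ => (1 : ℝ))
        (D.arr x p.1.1 p.1.2) | D.env]) x := by
  classical
  set F : R → R → E → ℝ := fun i j => if h : i ≠ i0 ∧ j ≠ j0 then
    (A ⟨(i, j), h⟩).indicator (fun _ => (1 : ℝ)) else fun _ => 1 with hF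
  have hFb : ∀ i j, BdM mE (F i j) := by
    intro i j
    by_cases h : i ≠ i0 ∧ j ≠ j0
    · simp only [hF, h, dif_pos, ne_eq, not_false_eq_true, and_self]
      exact BdM.indicator (hA _)
    · simp only [hF, h, dif_neg, not_false_eq_true]
      exact BdM.one
  have hFp : ∀ p : {p : R × R // p.1 ≠ i0 ∧ p.2 ≠ j0}, F p.1.1 p.1.2
      = (A p).indicator (fun _ => (1 : ℝ)) := by
    intro p
    simp only [hF]
    rw [dif_pos p.2]
  have h1 := D.block_ind i0 j0 F hFb
  simp only [prod_block] at h1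
  simp only [hFp] at h1
  refine h1.trans ?_
  have h2 : ∀ᵐ x ∂(lb D.ρ), ∀ p : {p : R × R // p.1 ≠ i0 ∧ p.2 ≠ j0},
      ((lb D.ρ)[fun x => (A p).indicator (fun _ => (1 : ℝ)) (D.arr x p.1.1 p.1.2) | D.env]) x
        = (D.μ[(A p).indicator (fun _ => (1 : ℝ)) | mC]) (D.e p.1.1 p.1.2 x) := by
    rw [ae_all_iff]; intro p
    exact D.entry_ce p.2.1 p.2.2 (BdM.indicator (hA p))
  filter_upwards [h2] with x hx
  exact Finset.prod_congr rfl (fun p _ => (hx p).symm)

set_option maxHeartbeats 1000000 in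
/-- **Totality**: every property of the law of a row which follows from the static array holds
at a.e. environment point. -/
theorem tot (i0 : R) {Q : Measure (R → E) → Prop}
    (hQ : ∀ ρ' : Measure (R → R → E), Static ρ' → Q (ρ'.map (fun z => z i0))) :
    ∀ᵐ v ∂(D.ρ.map Prod.snd), Q (D.κ v) := by
  classical
  have hEnv := D.env_le
  have harr := D.measurable_arr
  -- versions of the environments of the rows
  choose F j' hF hj' hFw using fun i => exists_meas_version (P := lb D.ρ) hEnv
    (D.measurable_w i) (D.w_env i)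
  -- the countable family of environment functions
  let c : R ≃ Fin (Fintype.card R) := Fintype.equivFin R
  let b : ℕ → Lb ((R → E) × V) → ℝ := fun n x =>
    if h : n < Fintype.card R then F (c.symm ⟨n, h⟩) x else 0
  have hb : ∀ n, Measurable[D.env] (b n) := by
    intro n
    by_cases h : n < Fintype.card R
    · simp only [b, h, dif_pos]; exact (hF _).meas
    · simp only [b, h, dif_neg, not_false_eq_true]; exact measurable_const
  have hbi : ∀ i x, b (c i) x = F i x := by
    intro i x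
    simp only [b, (c i).2, dif_pos]
    congr 1
    simp
  let S0 : ℤ → Lb ((R → E) × V) → Lb ((R → E) × V) := fun _ x => x
  have hS0 : ∀ x, S0 0 x = x := fun _ => rfl
  have hSC : ∀ n, Measurable[D.env, D.env] (S0 n) := fun n => measurable_id
  have hI := Arr.isEnv_env (P := lb D.ρ) hEnv harr hS0 hSC hb
  set wE := Arr.env D.env (lb D.ρ) D.arr S0 b with hwE
  set κE := Arr.kap D.env (lb D.ρ) D.arr S0 b with hκE
  have hwEm : Measurable wE := hI.measL hEnv
  have hmk : IsMarkovKernel κE := hI.markov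
  let q' : R → Arr.W → V := fun i v => j' i (v 0 (2 * (c i : ℕ)))
  have hq' : ∀ i, Measurable (q' i) := fun i =>
    (hj' i).comp ((measurable_pi_apply (2 * (c i : ℕ))).comp (measurable_pi_apply 0))
  have hqw : ∀ i, ∀ᵐ x ∂(lb D.ρ), D.w i x = q' i (wE x) := by
    intro i
    filter_upwards [hFw i] with x hx
    simp only [q', hwE]
    rw [Arr.env_b, hbi, hx]
  -- static array
  have h1 : ∀ᵐ v ∂((lb D.ρ).map wE), ∀ a b' : R, iIndepFun
      (fun (p : {p : R × R // p.1 ≠ a ∧ p.2 ≠ b'}) (x : R → R → E) => x p.1.1 p.1.2) (κE v) := by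
    rw [ae_all_iff]; intro a
    rw [ae_all_iff]; intro b'
    exact hI.ae_iIndepFun' hEnv harr
      (π := fun (p : {p : R × R // p.1 ≠ a ∧ p.2 ≠ b'}) (x : R → R → E) => x p.1.1 p.1.2)
      (fun p => (measurable_pi_apply p.1.2).comp (measurable_pi_apply p.1.1))
      (fun A hA => D.block_prod a b' A hA)
  have h2 : ∀ᵐ v ∂((lb D.ρ).map wE), ∀ i j0 : R, ∃ g : ({j // j ≠ j0} → E) → E, Measurable g ∧
      ∀ᵐ x ∂(κE v), x i j0 = g (fun j => x i j) := by
    rw [ae_all_iff]; intro i
    rw [ae_all_iff]; intro j0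
    refine hI.ae_determined hEnv harr (π := fun x : R → R → E => x i j0)
      ((measurable_pi_apply j0).comp (measurable_pi_apply i))
      (ρ := fun (x : R → R → E) (j : {j // j ≠ j0}) => x i j)
      (measurable_pi_lambda _ fun j => (measurable_pi_apply j.1).comp (measurable_pi_apply i)) ?_
    have := D.row_det i j0
    rw [← Arr.comap_pi_eq_iSup (fun (j : {j // j ≠ j0}) x => D.e i j x)] at this
    exact this
  have h3 : ∀ᵐ v ∂((lb D.ρ).map wE), ∀ a j : R, ∃ g : ({i // i ≠ a} → E) → E, Measurable g ∧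
      ∀ᵐ x ∂(κE v), x a j = g (fun i => x i j) := by
    rw [ae_all_iff]; intro a
    rw [ae_all_iff]; intro j
    refine hI.ae_determined hEnv harr (π := fun x : R → R → E => x a j)
      ((measurable_pi_apply j).comp (measurable_pi_apply a))
      (ρ := fun (x : R → R → E) (i : {i // i ≠ a}) => x i j)
      (measurable_pi_lambda _ fun i => (measurable_pi_apply j).comp (measurable_pi_apply i.1)) ?_
    have := D.col_det a j
    rw [← Arr.comap_pi_eq_iSup (fun (i : {i // i ≠ a}) x => D.e i j x)] at this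
    exact this
  -- law of the row
  have h4 : ∀ᵐ v ∂((lb D.ρ).map wE), (κE v).map (fun z => z i0) = D.κ (q' i0 v) := by
    refine hI.ae_map_eq hEnv harr (g := fun z : R → R → E => z i0) (measurable_pi_apply i0)
      (η := D.κ) (q := D.w i0) (hq' i0) (hqw i0) (fun A hA => ?_)
    have := D.row_law i0 (A.indicator (fun _ => (1 : ℝ))) (BdM.indicator hA)
    refine EventuallyEq.trans ?_ (this.trans ?_)
    · exact EventuallyEq.of_eq rfl
    · refine Eventually.of_forall (fun x => ?_)
      simp only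
      rw [integral_indicator hA]
      simp [Measure.real]
  have h5 : ∀ᵐ v ∂((lb D.ρ).map wE), Q (D.κ (q' i0 v)) := by
    filter_upwards [h1, h2, h3, h4] with v a1 a2 a3 a4
    rw [← a4]
    exact hQ _ ⟨inferInstance, a1, a2, a3⟩
  have hpr : IsProbabilityMeasure ((lb D.ρ).map wE) :=
    Measure.isProbabilityMeasure_map hwEm.aemeasurable
  have h6 := Arr.ae_map_of_ae ((lb D.ρ).map wE) (hq' i0) (Q := fun v => Q (D.κ v)) h5
  have h7 : ((lb D.ρ).map wE).map (q' i0) = D.ρ.map Prod.snd := by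
    rw [Measure.map_map (hq' i0) hwEm]
    have e1 : (q' i0) ∘ wE =ᵐ[lb D.ρ] D.w i0 := (hqw i0).mono (fun x hx => hx.symm)
    rw [Measure.map_congr e1]
    have e2 : D.w i0 = Prod.snd ∘ D.row i0 := rfl
    rw [e2, ← Measure.map_map measurable_snd (D.row_mp i0).measurable, (D.row_mp i0).map_eq]
  rwa [h7] at h6

end ArrIn

end Crest.Agent.R069.Tot
end

-- ▼ part R069/TotInst

/-!
# The level system of a closed pair (row 69, node TOT, instance part)
-/

set_option autoImplicit false
set_option linter.unusedSectionVars false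

open MeasureTheory Filter Set ProbabilityTheory
open scoped ENNReal Topology

namespace Crest.Agent.R069.TotInst

open Crest.Agent.R069.Arr

section nul

variable {α : Type*} {m : MeasurableSpace α} [mα : MeasurableSpace α] {μ : Measure α}

theorem aele_nul : AELe μ (nul μ) m := by
  intro A hA
  rcases hA.2 with h | h
  · exact ⟨∅, @MeasurableSet.empty _ m, ae_eq_empty.2 h⟩
  · exact ⟨univ, @MeasurableSet.univ _ m, ae_eq_univ.2 h⟩

end nul

section site

variable {Y : Sys} (F : Pair Y) [StandardBorelSpace F.Ω] [Nonempty F.Ω] {ι : Type}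
  (s : ι → ℕ → ℤ)

theorem hg (j : ι) : ∀ k, MeasurePreserving (F.S (s j k)) F.μ F.μ := fun k => F.S_mp (s j k)

theorem measurable_sitev_apply (j : ι) : Measurable (fun x => sitev F.toSys s x j) :=
  measurable_sv fun k => (hg F s j k).measurable

theorem measurable_sitev : Measurable (sitev F.toSys s) :=
  measurable_pi_lambda _ fun j => measurable_sitev_apply F s j

theorem sitev_mp (j : ι) :
    MeasurePreserving (fun x => sitev F.toSys s x j) (lb F.μ) F.μ :=
  measurePreserving_sv (hg F s j)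

theorem sitev_S (j : ι) (n : ℤ) :
    (fun x => sitev F.toSys s (lbmap (fun _ => F.S n) x) j) =ᵐ[lb F.μ]
      fun x => F.S n (sitev F.toSys s x j) := by
  have h1 := sv_comp_ae (μ := F.μ) (ν := F.μ) (hg F s j) (F.S_mp n).measurable
  filter_upwards [h1] with x hx
  simp only [sitev]
  rw [← hx, sv_apply, sv_apply]
  congr 1
  funext k
  simp only [lbmap_apply, Function.comp]
  rw [← F.S_add, ← F.S_add, add_comm]

theorem sitef_ae (j : ι) {f : F.Ω → ℝ} (hf : Measurable f) :
    (fun x => f (sitev F.toSys s x j)) =ᵐ[lb F.μ] sitef F.toSys (s j) f :=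
  comp_sv_ae_eq_st (hg F s j) hf

/-- conditional expectation at a site -/
theorem condExp_site (j : ι) {f : F.Ω → ℝ} (hf : Bd F.ms f) :
    (lb F.μ)[sitef F.toSys (s j) f | LL F.C] =ᵐ[lb F.μ]
      fun x => (F.μ[f | F.C]) (sitev F.toSys s x j) := by
  obtain ⟨hfm, K, hK⟩ := hf
  have hBd : BdM F.ms f := ⟨hfm, K, hK⟩
  obtain ⟨g0, hg0, hg0e⟩ := hBd.condExp_bm (μ := F.μ) F.C_le
  obtain ⟨hg0m, K', hK'⟩ := hg0
  have hint : Integrable f F.μ := hBd.integrable le_rfl
  have h1 : (lb F.μ)[st (fun k x => f (F.S (s j k) x)) | LL F.C] =ᵐ[lb F.μ]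
      st (fun k x => g0 (F.S (s j k) x)) := by
    refine condExp_st (μ := F.μ) (C := K) (C' := K') F.C_le ⟨fun k => ?_, fun k x => hK _⟩
      ⟨fun k => ?_, fun k x => hK' _⟩ (fun k => ?_)
    · exact hfm.comp (F.S_mp (s j k)).measurable
    · exact hg0m.comp (F.C_S (s j k))
    · have h2 := condExp_comp_inv (P := F.μ) F.C_le (F.S_mp (s j k)) (ψ := F.S (-(s j k)))
        (fun x => by rw [← F.S_add]; simp [F.S_zero]) (F.C_S (s j k)) (F.C_S (-(s j k))) hint
      have h3 := (F.S_mp (s j k)).quasiMeasurePreserving.ae_eq_comp hg0e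
      exact (h2.trans h3).symm
  have h4 : (fun x => g0 (sitev F.toSys s x j)) =ᵐ[lb F.μ]
      st (fun k x => g0 (F.S (s j k) x)) :=
    comp_sv_ae_eq_st (hg F s j) (hg0m.mono F.C_le le_rfl)
  have h5 : (fun x => (F.μ[f | F.C]) (sitev F.toSys s x j)) =ᵐ[lb F.μ]
      fun x => g0 (sitev F.toSys s x j) :=
    (sitev_mp F s j).quasiMeasurePreserving.ae_eq_comp hg0e
  exact h1.trans (h4.symm.trans h5.symm)

end site

section id

variable {Y : Sys}

/-- the identity extension -/
def idExt (F : Pair Y) : Ext F F where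
  f := id
  f_mp := MeasurePreserving.id _
  f_S _ := Eventually.of_forall fun _ => rfl
  f_π := Eventually.of_forall fun _ => rfl
  f_C := by rw [MeasurableSpace.comap_id]

end id

section ind

variable {Y : Sys} (F : Pair Y) [StandardBorelSpace F.Ω] [Nonempty F.Ω] {ι : Type} [Fintype ι]
  [DecidableEq ι] (s : ι → ℕ → ℤ)

/-- (iii) at the points, from `N_IND`. -/
theorem ind_sites (hN : N_IND) (hY : StandardBorelSpace Y.Ω) (hS1 : S1 F) (J : Finset ι)
    (hX : XInd Y s J) {f : ι → F.Ω → ℝ} (hf : ∀ j, Bd F.ms (f j)) :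
    (lb F.μ)[fun x => ∏ j ∈ J, f j (sitev F.toSys s x j) | LL F.C] =ᵐ[lb F.μ]
      fun x => ∏ j ∈ J, (F.μ[f j | F.C]) (sitev F.toSys s x j) := by
  have h1 := hN Y hY F inferInstance hS1 ι s J hX F (idExt F) f hf
  have h2 : ∀ᵐ x ∂(lb F.μ), ∀ j, f j (sitev F.toSys s x j) = sitef F.toSys (s j) (f j) x := by
    rw [ae_all_iff]
    exact fun j => sitef_ae F s j (hf j).1
  have h3 : (fun x => ∏ j ∈ J, f j (sitev F.toSys s x j)) =ᵐ[lb F.μ]
      fun x => ∏ i ∈ J, sitef F.toSys (s i) (f i ∘ (idExt F).f) x := by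
    filter_upwards [h2] with x hx
    exact Finset.prod_congr rfl fun j _ => hx j
  have h4 : ∀ᵐ x ∂(lb F.μ), ∀ j, ((lb F.μ)[sitef F.toSys (s j) (f j) | LL F.C]) x =
      (F.μ[f j | F.C]) (sitev F.toSys s x j) := by
    rw [ae_all_iff]
    exact fun j => condExp_site F s j (hf j)
  refine (condExp_congr_ae h3).trans (h1.trans ?_)
  filter_upwards [h4] with x hx
  refine Finset.prod_congr rfl fun j _ => ?_
  exact hx j

/-- the closedness at the points. -/
theorem det_sites (hcl : Closed s F) (j0 : ι) :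
    AELe (lb F.μ) (F.ms.comap (fun x => sitev F.toSys s x j0))
      ((⨆ j : {j // j ≠ j0}, F.ms.comap (fun x => sitev F.toSys s x j)) ⊔ LL F.C) := by
  have h1 : AELe (lb F.μ) (F.ms.comap (fun x => sitev F.toSys s x j0)) (siteA F.toSys (s j0)) :=
    aele_comap_siteG (hg F s j0) le_rfl
  have h2 : AELe (lb F.μ) (siteA F.toSys (s j0)) (rest s j0 F) := AELe.of_le (hcl j0)
  refine h1.trans (h2.trans ?_)
  refine AELe.sup (AELe.sup ?_ (AELe.of_le le_sup_right)) ?_
  · refine AELe.iSup fun j => AELe.iSup fun hj => ?_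
    have h3 : AELe (lb F.μ) (siteA F.toSys (s j)) (F.ms.comap (fun x => sitev F.toSys s x j)) :=
      aele_siteG_comap (hg F s j) le_rfl
    refine h3.trans (AELe.of_le (le_trans ?_ le_sup_left))
    exact le_iSup (fun j : {j // j ≠ j0} => F.ms.comap (fun x => sitev F.toSys s x j)) ⟨j, hj⟩
  · exact aele_nul

end ind

section env

variable {Y : Sys} (F : Pair Y) [StandardBorelSpace F.Ω] [Nonempty F.Ω] {ι : Type} [Fintype ι]
  [DecidableEq ι] (s : ι → ℕ → ℤ)

/-- the environment variable of the level -/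
noncomputable def wv : Lb F.Ω → Arr.W :=
  env (LL F.C) (lb F.μ) (sitev F.toSys s) (fun n => lbmap (fun _ => F.S n)) (fun _ _ => 0)

/-- the environment kernel of the level -/
noncomputable def kv : Kernel Arr.W (ι → F.Ω) :=
  kap (LL F.C) (lb F.μ) (sitev F.toSys s) (fun n => lbmap (fun _ => F.S n)) (fun _ _ => 0)

instance : IsMarkovKernel (kv F s) := by unfold kv; infer_instance

theorem LL_C_le : LL F.C ≤ LL F.ms := LL_mono F.C_le

theorem isEnv : IsEnv (LL F.C) (lb F.μ) (sitev F.toSys s) (wv F s) (kv F s) := by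
  refine isEnv_env (LL_C_le F) (measurable_sitev F s) ?_ ?_ ?_
  · intro x; funext k; exact F.S_zero _
  · exact fun n => measurable_lbmap' fun _ => F.C_S n
  · exact fun _ => @measurable_const _ _ _ (LL F.C) _

theorem wv_S (n : ℤ) (x : Lb F.Ω) :
    wv F s (lbmap (fun _ => F.S n) x) = shift n (wv F s x) :=
  env_shift (fun a b x => by funext k; exact F.S_add a b (x k)) _ _ n x

theorem kv_shift (n : ℤ) : ∀ᵐ v ∂((lb F.μ).map (wv F s)),
    kv F s (shift n v) = (kv F s v).map (fun z j => F.S n (z j)) := by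
  refine kap_shift (LL_C_le F) (measurable_sitev F s) (fun n => ?_) ?_ ?_ ?_ ?_ ?_ ?_
  · exact measurePreserving_lbmap fun _ => F.S_mp n
  · intro a b x; funext k; exact F.S_add a b (x k)
  · intro x; funext k; exact F.S_zero _
  · exact fun n => measurable_lbmap' fun _ => F.C_S n
  · exact fun _ => @measurable_const _ _ _ (LL F.C) _
  · exact measurable_pi_lambda _ fun j => (F.S_mp n).measurable.comp (measurable_pi_apply j)
  · have h : ∀ᵐ x ∂(lb F.μ), ∀ j, sitev F.toSys s (lbmap (fun _ => F.S n) x) j =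
        F.S n (sitev F.toSys s x j) := by
      rw [ae_all_iff]
      exact fun j => sitev_S F s j n
    filter_upwards [h] with x hx
    funext j
    exact hx j

/-- **the array input of a closed `S1` pair.** -/
noncomputable def arrIn (hN : N_IND) (hY : StandardBorelSpace Y.Ω) (hS1 : S1 F)
    (hX : XIndP Y s) (hcl : Closed s F) : Tot.ArrIn ι F.Ω Arr.W F.C where
  μ := F.μ
  S := F.S
  S_mp := F.S_mp
  hC := F.C_le
  SV := shift
  SV_meas := measurable_shift
  ρ := LevArr.rho (lb F.μ) (sitev F.toSys s) (wv F s)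
  prρ := LevArr.rho_prob (isEnv F s) (LL_C_le F) (measurable_sitev F s)
  ρ_S n := LevArr.rho_inv (isEnv F s) (LL_C_le F) (measurable_sitev F s)
    (measurePreserving_lbmap fun _ => F.S_mp n) (F.S_mp n).measurable (measurable_shift n)
    (fun j => sitev_S F s j n) (ae_of_all _ fun x => wv_S F s n x)
  co_mp i := by
    have hm : Measurable (fun q : (ι → F.Ω) × Arr.W => q.1 i) :=
      (measurable_pi_apply i).comp measurable_fst
    refine ⟨hm, ?_⟩
    rw [LevArr.rho, Measure.map_map hm
      (LevArr.measurable_ew (isEnv F s) (LL_C_le F) (measurable_sitev F s))]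
    exact (sitev_mp F s i).map_eq
  κ := kv F s
  κ_ce G hG := by
    obtain ⟨K, hK⟩ := hG.bdd
    exact LevArr.ce (isEnv F s) (LL_C_le F) (measurable_sitev F s) hG.meas hK
  κ_S n := by
    rw [LevArr.rho_snd (isEnv F s) (LL_C_le F) (measurable_sitev F s)]
    exact kv_shift F s n
  κ_ind j0 G hG := by
    choose K hK using fun j => (hG j).bdd
    refine LevArr.kind (isEnv F s) (LL_C_le F) (measurable_sitev F s) F.C_le _
      (fun j => (hG j).meas) hK ?_
    exact ind_sites F s hN hY hS1 _ (hX _ (by simp)) (fun j => ⟨(hG j).meas, (hG j).bdd⟩)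
  κ_det j0 := LevArr.kdet (isEnv F s) (LL_C_le F) (measurable_sitev F s) j0
    (det_sites F s hcl j0)
  s := s
  ind i0 G hG := ind_sites F s hN hY hS1 _ (hX _ (by simp))
    (fun j => ⟨(hG j).meas, (hG j).bdd⟩)
  det i0 := by
    have h := det_sites F s hcl i0
    rw [iSup_subtype] at h
    exact h

end env

theorem static_iff {R E : Type*} [Fintype R] [MeasurableSpace E] {ρ : Measure (R → R → E)}
    (h : Tot.Static ρ) : StaticArray ρ := ⟨h.prob, h.indep, h.rowcl, h.colcl⟩

/-- **Node TOT.** -/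
theorem n_tot (hN : N_IND) (hSt : N_STATIC) : N_TOT := by
  intro Y hY F _ _ ι _ _ s hc hX hS1 hcl
  refine ⟨wv F s, kv F s, isEnv F s, fun j0 => ?_⟩
  have h := (arrIn F s hN hY hS1 hX hcl).tot j0 (Q := fun ν => TotAt ν j0)
    (fun ρ' hρ' => hSt ι F.Ω hc ρ' (static_iff hρ') j0 j0)
  have h2 : (arrIn F s hN hY hS1 hX hcl).ρ.map Prod.snd = (lb F.μ).map (wv F s) :=
    LevArr.rho_snd (isEnv F s) (LL_C_le F) (measurable_sitev F s)
  rw [h2] at h
  exact h

end Crest.Agent.R069.TotInst
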